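import Mathlib
import Vale.Agent.P367.Gap.Values

set_option linter.all false

section

/-! P367: the `n = infinity` one-site model (interface of helper96, notes 7912 and 7943). -/

namespace Vale.Agent.P367.NI

open Complex

/-- A Weyl system over the one-particle space `K`, together with an isometric embedding of the
one-site space `C^2 (x) F` into `K` and a unit vector `e0` orthogonal to it (label direction). -/
structure Weyl (F K : Type) [NormedAddCommGroup F] [InnerProductSpace ℂ F]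
    [NormedAddCommGroup K] [InnerProductSpace ℂ K] where
  /-- Weyl operator `exp(i phi(a))` -/
  W : K → F ≃ₗᵢ[ℂ] F
  /-- vacuum -/
  Om : F
  W_mul : ∀ (a b : K) (x : F), W a (W b x)
    = Complex.exp (-(Complex.I * ((inner ℂ a b).im : ℂ))) • W (a + b) x
  vac : ∀ a : K, inner ℂ Om (W a Om) = Complex.exp (-((‖a‖ ^ 2 / 2 : ℝ) : ℂ))
  /-- embedding of the one-site space into the one-particle space -/
  iota : WithLp 2 (F × F) →ₗᵢ[ℂ] K
  /-- label direction -/
  e0 : K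
  norm_e0 : ‖e0‖ = 1
  e0_perp : ∀ x, inner ℂ e0 (iota x) = 0

section spaces

variable {F : Type} [NormedAddCommGroup F] [InnerProductSpace ℂ F]

/-- one-site space -/
abbrev HH (F : Type) [NormedAddCommGroup F] [InnerProductSpace ℂ F] : Type := WithLp 2 (F × F)

lemma normsq_HH (x : HH F) : ‖x‖ ^ 2 = ‖x.fst‖ ^ 2 + ‖x.snd‖ ^ 2 :=
  WithLp.prod_norm_sq_eq_of_L2 x

lemma inner_HH (x y : HH F) : inner ℂ x y = inner ℂ x.fst y.fst + inner ℂ x.snd y.snd :=
  WithLp.prod_inner_apply x y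

/-- block diagonal isometry -/
noncomputable def dg (A B : F ≃ₗᵢ[ℂ] F) : HH F ≃ₗᵢ[ℂ] HH F where
  toFun x := WithLp.toLp 2 (A x.fst, B x.snd)
  invFun x := WithLp.toLp 2 (A.symm x.fst, B.symm x.snd)
  map_add' x y := by
    apply (WithLp.equiv 2 (F × F)).injective
    simp
  map_smul' c x := by
    apply (WithLp.equiv 2 (F × F)).injective
    simp
  left_inv x := by
    apply (WithLp.equiv 2 (F × F)).injective
    refine Prod.ext ?_ ?_
    · exact A.symm_apply_apply _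
    · exact B.symm_apply_apply _
  right_inv x := by
    apply (WithLp.equiv 2 (F × F)).injective
    refine Prod.ext ?_ ?_
    · exact A.apply_symm_apply _
    · exact B.apply_symm_apply _
  norm_map' x := by
    refine (sq_eq_sq₀ (norm_nonneg _) (norm_nonneg _)).1 ?_
    rw [normsq_HH, normsq_HH]
    simp

@[simp] lemma dg_fst (A B : F ≃ₗᵢ[ℂ] F) (x : HH F) : (dg A B x).fst = A x.fst := rfl
@[simp] lemma dg_snd (A B : F ≃ₗᵢ[ℂ] F) (x : HH F) : (dg A B x).snd = B x.snd := rfl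

/-- Pauli `Z` -/
noncomputable def zop (F : Type) [NormedAddCommGroup F] [InnerProductSpace ℂ F] :
    HH F ≃ₗᵢ[ℂ] HH F := dg (LinearIsometryEquiv.refl ℂ F) (LinearIsometryEquiv.neg ℂ)

@[simp] lemma zop_fst (x : HH F) : (zop F x).fst = x.fst := rfl
@[simp] lemma zop_snd (x : HH F) : (zop F x).snd = -x.snd := rfl

/-- `exp(-i b X)` -/
noncomputable def xr (b : ℝ) : HH F ≃ₗᵢ[ℂ] HH F where
  toFun x := WithLp.toLp 2 ((Real.cos b : ℂ) • x.fst - (Complex.I * (Real.sin b : ℂ)) • x.snd,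
    -((Complex.I * (Real.sin b : ℂ)) • x.fst) + (Real.cos b : ℂ) • x.snd)
  invFun x := WithLp.toLp 2 ((Real.cos b : ℂ) • x.fst + (Complex.I * (Real.sin b : ℂ)) • x.snd,
    (Complex.I * (Real.sin b : ℂ)) • x.fst + (Real.cos b : ℂ) • x.snd)
  map_add' x y := by
    apply (WithLp.equiv 2 (F × F)).injective
    ext <;> simp [smul_add] <;> abel
  map_smul' c x := by
    apply (WithLp.equiv 2 (F × F)).injective
    ext <;> simp [smul_sub, smul_add, smul_smul, mul_comm]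
  left_inv x := by
    have h : (Real.cos b : ℂ) * Real.cos b + (Real.sin b : ℂ) * Real.sin b = 1 := by
      have := Real.cos_sq_add_sin_sq b
      rw [← Complex.ofReal_mul, ← Complex.ofReal_mul, ← Complex.ofReal_add,
        ← pow_two, ← pow_two, this, Complex.ofReal_one]
    have hI := Complex.I_mul_I
    apply (WithLp.equiv 2 (F × F)).injective
    refine Prod.ext ?_ ?_
    · change (Real.cos b : ℂ) • ((Real.cos b : ℂ) • x.fst - (Complex.I * (Real.sin b : ℂ)) • x.snd)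
        + (Complex.I * (Real.sin b : ℂ)) • (-((Complex.I * (Real.sin b : ℂ)) • x.fst)
          + (Real.cos b : ℂ) • x.snd) = x.fst
      have e : (Real.cos b : ℂ) * Real.cos b - (Complex.I * (Real.sin b : ℂ))
          * (Complex.I * (Real.sin b : ℂ)) = 1 := by linear_combination h - (Real.sin b : ℂ)^2 * hI
      calc _ = ((Real.cos b : ℂ) * Real.cos b - (Complex.I * (Real.sin b : ℂ))
          * (Complex.I * (Real.sin b : ℂ))) • x.fst := by module
        _ = _ := by rw [e, one_smul]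
    · change (Complex.I * (Real.sin b : ℂ)) • ((Real.cos b : ℂ) • x.fst
        - (Complex.I * (Real.sin b : ℂ)) • x.snd)
        + (Real.cos b : ℂ) • (-((Complex.I * (Real.sin b : ℂ)) • x.fst)
          + (Real.cos b : ℂ) • x.snd) = x.snd
      have e : (Real.cos b : ℂ) * Real.cos b - (Complex.I * (Real.sin b : ℂ))
          * (Complex.I * (Real.sin b : ℂ)) = 1 := by linear_combination h - (Real.sin b : ℂ)^2 * hI
      calc _ = ((Real.cos b : ℂ) * Real.cos b - (Complex.I * (Real.sin b : ℂ))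
          * (Complex.I * (Real.sin b : ℂ))) • x.snd := by module
        _ = _ := by rw [e, one_smul]
  right_inv x := by
    have h : (Real.cos b : ℂ) * Real.cos b + (Real.sin b : ℂ) * Real.sin b = 1 := by
      have := Real.cos_sq_add_sin_sq b
      rw [← Complex.ofReal_mul, ← Complex.ofReal_mul, ← Complex.ofReal_add,
        ← pow_two, ← pow_two, this, Complex.ofReal_one]
    have hI := Complex.I_mul_I
    apply (WithLp.equiv 2 (F × F)).injective
    refine Prod.ext ?_ ?_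
    · change (Real.cos b : ℂ) • ((Real.cos b : ℂ) • x.fst + (Complex.I * (Real.sin b : ℂ)) • x.snd)
        - (Complex.I * (Real.sin b : ℂ)) • ((Complex.I * (Real.sin b : ℂ)) • x.fst
          + (Real.cos b : ℂ) • x.snd) = x.fst
      have e : (Real.cos b : ℂ) * Real.cos b - (Complex.I * (Real.sin b : ℂ))
          * (Complex.I * (Real.sin b : ℂ)) = 1 := by linear_combination h - (Real.sin b : ℂ)^2 * hI
      calc _ = ((Real.cos b : ℂ) * Real.cos b - (Complex.I * (Real.sin b : ℂ))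
          * (Complex.I * (Real.sin b : ℂ))) • x.fst := by module
        _ = _ := by rw [e, one_smul]
    · change -((Complex.I * (Real.sin b : ℂ)) • ((Real.cos b : ℂ) • x.fst
        + (Complex.I * (Real.sin b : ℂ)) • x.snd))
        + (Real.cos b : ℂ) • ((Complex.I * (Real.sin b : ℂ)) • x.fst
          + (Real.cos b : ℂ) • x.snd) = x.snd
      have e : (Real.cos b : ℂ) * Real.cos b - (Complex.I * (Real.sin b : ℂ))
          * (Complex.I * (Real.sin b : ℂ)) = 1 := by linear_combination h - (Real.sin b : ℂ)^2 * hI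
      calc _ = ((Real.cos b : ℂ) * Real.cos b - (Complex.I * (Real.sin b : ℂ))
          * (Complex.I * (Real.sin b : ℂ))) • x.snd := by module
        _ = _ := by rw [e, one_smul]
  norm_map' x := by
    refine (sq_eq_sq₀ (norm_nonneg _) (norm_nonneg _)).1 ?_
    rw [normsq_HH, normsq_HH]
    change ‖(Real.cos b : ℂ) • x.fst - (Complex.I * (Real.sin b : ℂ)) • x.snd‖ ^ 2
      + ‖-((Complex.I * (Real.sin b : ℂ)) • x.fst) + (Real.cos b : ℂ) • x.snd‖ ^ 2 = _
    have h := Real.cos_sq_add_sin_sq b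
    have e1 := @norm_sub_sq ℂ F _ _ _ ((Real.cos b : ℂ) • x.fst)
      ((Complex.I * (Real.sin b : ℂ)) • x.snd)
    have e2 := @norm_sub_sq ℂ F _ _ _ ((Real.cos b : ℂ) • x.snd)
      ((Complex.I * (Real.sin b : ℂ)) • x.fst)
    rw [neg_add_eq_sub, e1, e2]
    have n1 : ‖(Real.cos b : ℂ)‖ ^ 2 = Real.cos b ^ 2 := by
      rw [Complex.norm_real, Real.norm_eq_abs, sq_abs]
    have n2 : ‖Complex.I * (Real.sin b : ℂ)‖ ^ 2 = Real.sin b ^ 2 := by
      rw [norm_mul, Complex.norm_I, one_mul, Complex.norm_real, Real.norm_eq_abs, sq_abs]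
    simp only [norm_smul, mul_pow, n1, n2, inner_smul_left, inner_smul_right]
    have e3 : RCLike.re (Complex.I * (Real.sin b : ℂ) * ((starRingEnd ℂ) (Real.cos b : ℂ)
        * inner ℂ x.fst x.snd)) + RCLike.re (Complex.I * (Real.sin b : ℂ) *
        ((starRingEnd ℂ) (Real.cos b : ℂ) * inner ℂ x.snd x.fst)) = 0 := by
      have hu : inner ℂ x.snd x.fst = (starRingEnd ℂ) (inner ℂ x.fst x.snd) :=
        (inner_conj_symm _ _).symm
      rw [hu]
      generalize (inner ℂ x.fst x.snd : ℂ) = u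
      simp only [Complex.conj_ofReal, RCLike.re_to_complex, Complex.mul_re, Complex.mul_im,
        Complex.I_re, Complex.I_im, Complex.ofReal_re, Complex.ofReal_im, Complex.conj_re,
        Complex.conj_im]
      ring
    have e4 : (Real.cos b ^ 2 + Real.sin b ^ 2) * (‖x.fst‖ ^ 2 + ‖x.snd‖ ^ 2)
        = ‖x.fst‖ ^ 2 + ‖x.snd‖ ^ 2 := by rw [h, one_mul]
    linarith [e3, e4]

end spaces

variable {F K : Type} [NormedAddCommGroup F] [InnerProductSpace ℂ F]
  [NormedAddCommGroup K] [InnerProductSpace ℂ K]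

/-- states: unitaries of the one-site space -/
abbrev St (F : Type) [NormedAddCommGroup F] [InnerProductSpace ℂ F] : Type := HH F ≃ₗᵢ[ℂ] HH F

/-- gates of labelled words -/
inductive Gate : Type
  | B (b : ℝ) : Gate
  | C (g : ℝ) : Gate
  | G (k : ℝ) : Gate

namespace Weyl

variable (S : Weyl F K)

/-- `exp(-i Z phi(v))` -/
noncomputable def zr (v : K) : St F := dg (S.W (-v)) (S.W v)

/-- one-site vacuum `|+> (x) Om` -/
noncomputable def OmH : HH F :=
  WithLp.toLp 2 ((((Real.sqrt 2)⁻¹ : ℝ) : ℂ) • S.Om, (((Real.sqrt 2)⁻¹ : ℝ) : ℂ) • S.Om)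

/-- the field vector `V^* Z V Om` -/
noncomputable def xv (V : St F) : HH F := V.symm (zop F (V S.OmH))

/-- action of a gate -/
noncomputable def step : Gate → St F → St F
  | Gate.B b, V => V.trans (xr b)
  | Gate.C g, V => V.trans (S.zr ((g : ℂ) • S.iota (S.xv V)))
  | Gate.G k, V => V.trans (S.zr ((k : ℂ) • S.e0))

/-- evaluation of a word; the head of the list is the last gate -/
noncomputable def ev : List Gate → St F
  | [] => LinearIsometryEquiv.refl ℂ (HH F)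
  | g :: w => S.step g (ev w)

/-- `- sum_j g_j Im <x_j, y>^2` over the `C` gates -/
noncomputable def eaux (y : HH F) : List Gate → ℝ
  | [] => 0
  | Gate.C g :: w => -(g * ((inner ℂ (S.xv (S.ev w)) y) ^ 2 : ℂ).im) + eaux y w
  | Gate.B _ :: w => eaux y w
  | Gate.G _ :: w => eaux y w

/-- energy of a word -/
noncomputable def energy (w : List Gate) : ℝ := S.eaux (S.xv (S.ev w)) w

/-- `sum_i k_i Im <x_i, y>` over the `G` gates -/
noncomputable def laux (y : HH F) : List Gate → ℝ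
  | [] => 0
  | Gate.G k :: w => k * (inner ℂ (S.xv (S.ev w)) y : ℂ).im + laux y w
  | Gate.B _ :: w => laux y w
  | Gate.C _ :: w => laux y w

/-- alignment of a word, `-(1/2) E[eta Z]` -/
noncomputable def al (w : List Gate) : ℝ := S.laux (S.xv (S.ev w)) w

end Weyl

/-- the plain word of `p` layers with angles `gamma k`, `beta k` -/
def plain (γ β : ℕ → ℝ) : ℕ → List Gate
  | 0 => []
  | p + 1 => Gate.B (β p) :: Gate.C (γ p) :: plain γ β p

end Vale.Agent.P367.NI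
end

section

/-! P367, Theorem A: abstract spin-Weyl system, gates, states, niceness. -/

namespace Vale.Agent.P367.A

open Complex Filter Topology Asymptotics

open Vale.Agent.P367.NI (Gate)

/-- one spin 1/2 together with a Weyl system; `H` one-site space, `K` one-particle space. -/
structure Sys (H K : Type*) [NormedAddCommGroup H] [InnerProductSpace ℂ H]
    [NormedAddCommGroup K] [InnerProductSpace ℂ K] where
  X : H ≃ₗᵢ[ℂ] H
  Z : H ≃ₗᵢ[ℂ] H
  W : K → H ≃ₗᵢ[ℂ] H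
  Om : H
  iota : H →ₗᵢ[ℂ] K
  e0 : K
  XX : ∀ x, X (X x) = x
  ZZ : ∀ x, Z (Z x) = x
  XZ : ∀ x, X (Z x) = -Z (X x)
  WW : ∀ (a b : K) (x : H), W a (W b x)
    = Complex.exp (-(Complex.I * ((inner ℂ a b).im : ℂ))) • W (a + b) x
  WX : ∀ (a : K) (x : H), W a (X x) = X (W a x)
  WZ : ∀ (a : K) (x : H), W a (Z x) = Z (W a x)
  XOm : X Om = Om
  nOm : ‖Om‖ = 1
  vac : ∀ a : K, inner ℂ Om (W a Om) = Complex.exp (-((‖a‖ ^ 2 / 2 : ℝ) : ℂ))
  ne0 : ‖e0‖ = 1
  e0perp : ∀ x, inner ℂ e0 (iota x) = 0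

/-- unitary from a linear map and its adjoint inverse -/
noncomputable def mkU {H : Type*} [NormedAddCommGroup H] [InnerProductSpace ℂ H]
    (A B : H →ₗ[ℂ] H) (h1 : ∀ x, B (A x) = x) (h2 : ∀ x, A (B x) = x)
    (h3 : ∀ x y, inner ℂ (A x) y = inner ℂ x (B y)) : H ≃ₗᵢ[ℂ] H where
  toFun := A
  invFun := B
  map_add' := A.map_add
  map_smul' := A.map_smul
  left_inv := h1
  right_inv := h2
  norm_map' x := by
    have h : inner ℂ (A x) (A x) = inner ℂ x x := by rw [h3, h1]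
    rw [inner_self_eq_norm_sq_to_K, inner_self_eq_norm_sq_to_K] at h
    have h' : ‖A x‖ ^ 2 = ‖x‖ ^ 2 := by exact_mod_cast h
    exact (sq_eq_sq₀ (norm_nonneg _) (norm_nonneg _)).1 h'

namespace Sys

variable {H K : Type*} [NormedAddCommGroup H] [InnerProductSpace ℂ H]
  [NormedAddCommGroup K] [InnerProductSpace ℂ K] (S : Sys H K)

lemma inv_apply_eq {U : H ≃ₗᵢ[ℂ] H} {x y : H} (h : U x = y) : U⁻¹ y = x := by
  rw [← h]; exact U.symm_apply_apply x

lemma W_zero_apply (x : H) : S.W 0 x = x := by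
  have h := S.WW 0 0 x
  simp only [inner_zero_left, zero_im, ofReal_zero, mul_zero, neg_zero, Complex.exp_zero,
    one_smul, add_zero] at h
  exact (S.W 0).injective h

lemma W_neg_W (a : K) (x : H) : S.W (-a) (S.W a x) = x := by
  rw [S.WW]
  have : (inner ℂ (-a) a : ℂ).im = 0 := by
    rw [inner_neg_left, inner_self_eq_norm_sq_to_K]
    simp [← ofReal_pow]
  rw [this]
  simp [S.W_zero_apply]

lemma W_W_neg (a : K) (x : H) : S.W a (S.W (-a) x) = x := by
  have := S.W_neg_W (-a) x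
  rwa [neg_neg] at this

lemma W_inv (a : K) : (S.W a)⁻¹ = S.W (-a) := by
  ext x
  apply inv_apply_eq
  exact S.W_W_neg a x

lemma inner_W (a : K) (x y : H) : inner ℂ (S.W a x) y = inner ℂ x (S.W (-a) y) := by
  have h := (S.W a).inner_map_map x (S.W (-a) y)
  rwa [S.W_W_neg] at h

lemma inner_X (x y : H) : inner ℂ (S.X x) y = inner ℂ x (S.X y) := by
  have h := S.X.inner_map_map x (S.X y)
  rwa [S.XX] at h

lemma inner_Z (x y : H) : inner ℂ (S.Z x) y = inner ℂ x (S.Z y) := by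
  have h := S.Z.inner_map_map x (S.Z y)
  rwa [S.ZZ] at h

lemma ZX (x : H) : S.Z (S.X x) = -S.X (S.Z x) := by
  rw [S.XZ, neg_neg]

/-- linear map underlying `exp(-i b X)` -/
noncomputable def xrL (b : ℝ) : H →ₗ[ℂ] H :=
  (Real.cos b : ℂ) • LinearMap.id - (Complex.I * (Real.sin b : ℂ)) • S.X.toLinearEquiv.toLinearMap

lemma xrL_apply (b : ℝ) (x : H) :
    S.xrL b x = (Real.cos b : ℂ) • x - (Complex.I * (Real.sin b : ℂ)) • S.X x := rfl

lemma xrL_xrL_neg (b : ℝ) (x : H) : S.xrL b (S.xrL (-b) x) = x := by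
  simp only [xrL_apply, map_sub, map_smul, S.XX, Real.cos_neg, Real.sin_neg, ofReal_neg]
  have h : (Real.cos b : ℂ) * Real.cos b + (Real.sin b : ℂ) * Real.sin b = 1 := by
    have := Real.cos_sq_add_sin_sq b
    rw [← Complex.ofReal_mul, ← Complex.ofReal_mul, ← Complex.ofReal_add,
      ← pow_two, ← pow_two, this, Complex.ofReal_one]
  have hI := Complex.I_mul_I
  have e : (Real.cos b : ℂ) * Real.cos b - (Complex.I * (Real.sin b : ℂ))
      * (Complex.I * (Real.sin b : ℂ)) = 1 := by linear_combination h - (Real.sin b : ℂ)^2 * hI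
  calc _ = ((Real.cos b : ℂ) * Real.cos b - (Complex.I * (Real.sin b : ℂ))
          * (Complex.I * (Real.sin b : ℂ))) • x := by module
    _ = _ := by rw [e, one_smul]

/-- `exp(-i b X)` -/
noncomputable def xr (b : ℝ) : H ≃ₗᵢ[ℂ] H :=
  mkU (S.xrL b) (S.xrL (-b))
    (fun x => by have := S.xrL_xrL_neg (-b) x; rwa [neg_neg] at this)
    (fun x => S.xrL_xrL_neg b x)
    (fun x y => by
      simp only [xrL_apply, inner_sub_left, inner_sub_right, inner_smul_left, inner_smul_right,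
        S.inner_X, map_mul, Complex.conj_ofReal, Complex.conj_I, Real.cos_neg, Real.sin_neg,
        ofReal_neg]
      ring)

lemma xr_apply (b : ℝ) (x : H) :
    S.xr b x = (Real.cos b : ℂ) • x - (Complex.I * (Real.sin b : ℂ)) • S.X x := rfl

/-- linear map underlying `exp(-i Z phi(v))` -/
noncomputable def zrL (v : K) : H →ₗ[ℂ] H :=
  (1 / 2 : ℂ) • ((S.W (-v)).toLinearEquiv.toLinearMap + (S.W v).toLinearEquiv.toLinearMap)
  + (1 / 2 : ℂ) • ((S.W (-v)).toLinearEquiv.toLinearMap - (S.W v).toLinearEquiv.toLinearMap)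
      ∘ₗ S.Z.toLinearEquiv.toLinearMap

lemma zrL_apply (v : K) (x : H) :
    S.zrL v x = (1 / 2 : ℂ) • (S.W (-v) x + S.W v x)
      + (1 / 2 : ℂ) • (S.W (-v) (S.Z x) - S.W v (S.Z x)) := rfl

lemma zrL_zrL_neg (v : K) (x : H) : S.zrL v (S.zrL (-v) x) = x := by
  simp only [zrL_apply, map_add, map_sub, map_smul, neg_neg, S.WZ, S.ZZ, S.W_neg_W, S.W_W_neg]
  module

/-- `exp(-i Z phi(v))` -/
noncomputable def zr (v : K) : H ≃ₗᵢ[ℂ] H :=
  mkU (S.zrL v) (S.zrL (-v))
    (fun x => by have := S.zrL_zrL_neg (-v) x; rwa [neg_neg] at this)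
    (fun x => S.zrL_zrL_neg v x)
    (fun x y => by
      simp only [zrL_apply, inner_sub_left, inner_sub_right, inner_smul_left, inner_smul_right,
        S.inner_Z, S.inner_W, inner_add_left, inner_add_right, neg_neg, ← S.WZ, map_div₀, map_one,
        Complex.conj_ofNat])

lemma zr_apply (v : K) (x : H) :
    S.zr v x = (1 / 2 : ℂ) • (S.W (-v) x + S.W v x)
      + (1 / 2 : ℂ) • (S.W (-v) (S.Z x) - S.W v (S.Z x)) := rfl

/-- the field vector `V^* Z V Om` -/
noncomputable def xv (V : H ≃ₗᵢ[ℂ] H) : H := V⁻¹ (S.Z (V S.Om))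

/-- `Z^t = exp(-i t X) Z exp(i t X) = cos 2t Z - sin 2t Y` -/
noncomputable def Zt (t : ℝ) : H ≃ₗᵢ[ℂ] H := S.xr t * S.Z * S.xr (-t)

/-- `V^* Z^t V Om` -/
noncomputable def xt (t : ℝ) (V : H ≃ₗᵢ[ℂ] H) : H := V⁻¹ (S.Zt t (V S.Om))

/-- pulse `exp(-i Z^t phi(v))` -/
noncomputable def pul (t : ℝ) (v : K) : H ≃ₗᵢ[ℂ] H := S.xr t * S.zr v * S.xr (-t)

/-- action of a gate -/
noncomputable def step : Gate → (H ≃ₗᵢ[ℂ] H) → (H ≃ₗᵢ[ℂ] H)
  | Gate.B b, V => S.xr b * V
  | Gate.C g, V => S.zr ((g : ℂ) • S.iota (S.xv V)) * V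
  | Gate.G k, V => S.zr ((k : ℂ) • S.e0) * V

/-- evaluation of a word; the head of the list is the last gate -/
noncomputable def ev : List Gate → (H ≃ₗᵢ[ℂ] H)
  | [] => 1
  | g :: w => S.step g (ev w)

/-- `- sum_j g_j Im <x_j, y>^2` over the `C` gates -/
noncomputable def eaux (y : H) : List Gate → ℝ
  | [] => 0
  | Gate.C g :: w => -(g * ((inner ℂ (S.xv (S.ev w)) y) ^ 2 : ℂ).im) + eaux y w
  | Gate.B _ :: w => eaux y w
  | Gate.G _ :: w => eaux y w

/-- energy of a word -/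
noncomputable def energy (w : List Gate) : ℝ := S.eaux (S.xv (S.ev w)) w

/-- `sum_i k_i Im <x_i, y>` over the `G` gates -/
noncomputable def laux (y : H) : List Gate → ℝ
  | [] => 0
  | Gate.G k :: w => k * (inner ℂ (S.xv (S.ev w)) y : ℂ).im + laux y w
  | Gate.B _ :: w => laux y w
  | Gate.C _ :: w => laux y w

/-- alignment of a word -/
noncomputable def al (w : List Gate) : ℝ := S.laux (S.xv (S.ev w)) w

end Sys

/-- words without label gates -/
def Plain (w : List Gate) : Prop := ∀ g ∈ w, ∀ k, g ≠ Gate.G k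

end Vale.Agent.P367.A
end

section

/-! P367, Theorem A: exact statements of all blocks (Prop-definitions, no `sorry`).
Every block file proves `theorem xxx : S.XxxStmt` (taking the blocks it uses as hypotheses,
or importing their files when they are on main). -/

namespace Vale.Agent.P367.A

open Complex Filter Topology

open Vale.Agent.P367.NI (Gate)

namespace Sys

variable {H K : Type*} [NormedAddCommGroup H] [InnerProductSpace ℂ H]
  [NormedAddCommGroup K] [InnerProductSpace ℂ K] (S : Sys H K)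

/-! ## Niceness, frames -/

/-- nice vectors: two Weyl differences are bounded -/
structure Nice (c : ℝ) (x : H) : Prop where
  m0 : ‖x‖ ≤ c
  m1 : ∀ a : K, ‖S.W a x - x‖ ≤ c * ‖a‖
  m2 : ∀ a b : K, ‖S.W a (S.W b x - x) - (S.W b x - x)‖ ≤ c * (‖a‖ * ‖b‖)

/-- `z = W b x + W (-b) y` with `x`, `y` nice -/
def Frm (b : K) (c : ℝ) (z : H) : Prop :=
  ∃ x y, S.Nice c x ∧ S.Nice c y ∧ z = S.W b x + S.W (-b) y

/-- size of a pulse vector relative to the frame `b` -/
noncomputable def mu (b v : K) : ℝ := ‖v‖ + |(inner ℂ v b : ℂ).im|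

/-! ## Block N (niceness calculus) -/

structure NStmt : Prop where
  om : S.Nice 3 S.Om
  /-- operators commuting with all `W a` -/
  comm : ∀ (U : H ≃ₗᵢ[ℂ] H), (∀ a x, S.W a (U x) = U (S.W a x)) →
    ∀ c x, S.Nice c x → S.Nice c (U x)
  smul : ∀ c x (k : ℂ), S.Nice c x → S.Nice (‖k‖ * c) (k • x)
  add : ∀ c d x y, S.Nice c x → S.Nice d y → S.Nice (c + d) (x + y)
  weyl : ∀ c x b, S.Nice c x → S.Nice ((1 + 2 * ‖b‖) ^ 2 * c) (S.W b x)
  zr : ∀ c x v, S.Nice c x → S.Nice (2 * (1 + 2 * ‖v‖) ^ 2 * c) (S.zr v x)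
  pul : ∀ c x t v, S.Nice c x → S.Nice (2 * (1 + 2 * ‖v‖) ^ 2 * c) (S.pul t v x)
  /-- one pulse on a nice vector -/
  p1 : ∀ c x t v, S.Nice c x → ‖S.pul t v x - x‖ ≤ 2 * c * ‖v‖
  /-- two pulses on a nice vector -/
  p2 : ∀ c x t v t' v', S.Nice c x →
    ‖S.pul t' v' (S.pul t v x - x) - (S.pul t v x - x)‖ ≤ 4 * c * (‖v'‖ * ‖v‖)

/-! ## Block O (large phases) -/

structure OStmt : Prop where
  inn : ∀ c d x y b b', S.Nice c x → S.Nice d y → b ≠ b' →
    ‖(inner ℂ (S.W b x) (S.W b' y) : ℂ)‖ ≤ 2 * c * d / ‖b - b'‖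
  /-- only the norm and the first difference are used -/
  inn1 : ∀ c c1 d d1 x y b b', (∀ a : K, ‖S.W a x - x‖ ≤ c1 * ‖a‖) → ‖x‖ ≤ c →
    (∀ a : K, ‖S.W a y - y‖ ≤ d1 * ‖a‖) → ‖y‖ ≤ d → b ≠ b' →
    ‖(inner ℂ (S.W b x) (S.W b' y) : ℂ)‖ ≤ (c * d1 + c1 * d) / ‖b - b'‖
  frm : ∀ c d z z' b b' R, 0 < R → S.Frm b c z → S.Frm b' d z' → R ≤ ‖b - b'‖ → R ≤ ‖b + b'‖ →
    ‖(inner ℂ z z' : ℂ)‖ ≤ 8 * c * d / R

/-! ## Block P (pulses on frames, four-pulse words) -/

/-- pulses on a frame -/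
structure PStmt : Prop where
  p0 : ∀ c z b t v, S.Frm b c z → ‖v‖ ≤ 1 → S.Frm b (18 * c) (S.pul t v z)
  p1 : ∀ c z b t v, S.Frm b c z → ‖S.pul t v z - z‖ ≤ 4 * c * mu b v
  p2 : ∃ C, 0 ≤ C ∧ ∀ c z b t v t' v', S.Frm b c z → ‖v‖ ≤ 1 →
    ‖S.pul t' v' (S.pul t v z - z) - (S.pul t v z - z)‖ ≤ C * c * (mu b v' * mu b v)
  /-- difference operator `W (-v') - W v'` -/
  d0 : ∀ c z b v, S.Frm b c z → ‖v‖ ≤ 1 → S.Frm b (18 * c) (S.W (-v) z - S.W v z)
  d1 : ∀ c z b v, S.Frm b c z → ‖S.W (-v) z - S.W v z‖ ≤ 8 * c * mu b v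
  d2 : ∃ C, 0 ≤ C ∧ ∀ c z b t v v', S.Frm b c z → ‖v‖ ≤ 1 →
    ‖S.W (-v') (S.pul t v z - z) - S.W v' (S.pul t v z - z)‖ ≤ C * c * (mu b v' * mu b v)

/-- small phases: the group commutator word is trivial to second order -/
def C1Stmt : Prop := ∀ M : ℝ, 0 ≤ M → ∃ C ε₀ : ℝ, 0 ≤ C ∧ 0 < ε₀ ∧ ∀ ε, 0 < ε → ε ≤ ε₀ →
  ∀ (b : K) (c : ℝ) (z : H) (t1 t2 : ℝ) (v1 v2 v3 v4 : K), S.Frm b c z →
    mu b v1 ≤ M * ε → mu b v2 ≤ M * ε → mu b v3 ≤ M * ε → mu b v4 ≤ M * ε →
    mu b (v3 - v1) ≤ M * ε ^ 2 → mu b (v4 - v2) ≤ M * ε ^ 2 →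
    ‖S.pul t1 (-v4) (S.pul t2 (-v3) (S.pul t1 v2 (S.pul t2 v1 z))) - z‖ ≤ C * c * ε ^ 2

/-- phases `± π/2`: the word is the rotation `xr (4 (t1 - t2))` to first order -/
def C2Stmt : Prop := ∀ M : ℝ, 0 ≤ M → ∃ C ε₀ : ℝ, 0 ≤ C ∧ 0 < ε₀ ∧ ∀ ε, 0 < ε → ε ≤ ε₀ →
  ∀ (b : K) (c : ℝ) (z : H) (t1 t2 : ℝ) (v1 v2 v3 v4 : K), S.Frm b c z →
    ‖v1‖ ≤ M * ε → ‖v2‖ ≤ M * ε → ‖v3‖ ≤ M * ε → ‖v4‖ ≤ M * ε →
    |2 * (inner ℂ v1 b : ℂ).im - Real.pi / 2| ≤ M * ε →
    |2 * (inner ℂ v2 b : ℂ).im - Real.pi / 2| ≤ M * ε →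
    |2 * (inner ℂ v3 b : ℂ).im - Real.pi / 2| ≤ M * ε →
    |2 * (inner ℂ v4 b : ℂ).im - Real.pi / 2| ≤ M * ε →
    ‖S.pul t1 (-v4) (S.pul t2 (-v3) (S.pul t1 v2 (S.pul t2 v1 z))) - S.xr (4 * (t1 - t2)) z‖
      ≤ C * c * ε

/-! ## Block WW: the four-pulse word at a state -/

/-- one pulse gate `B t, C s, B (-t)` (time order from right to left) acting on a state -/
noncomputable def ps (t s : ℝ) (V : H ≃ₗᵢ[ℂ] H) : H ≃ₗᵢ[ℂ] H :=
  S.pul t ((s : ℂ) • S.iota (S.xt t V)) * V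

/-- the four-pulse word acting on a state -/
noncomputable def wv (t1 t2 s1 s2 : ℝ) (V : H ≃ₗᵢ[ℂ] H) : H ≃ₗᵢ[ℂ] H :=
  S.ps t1 (-s1) (S.ps t2 (-s2) (S.ps t1 s1 (S.ps t2 s2 V)))

/-- twice the alignment of the pulse direction with `c` -/
noncomputable def alp (t : ℝ) (V : H ≃ₗᵢ[ℂ] H) (c : K) : ℝ :=
  2 * (inner ℂ (S.iota (S.xt t V)) c : ℂ).im

/-- context of a four-pulse word: `V Om = U_b ψ + ε φ + O(ε²)`, `b = (s'/ε) x(V)`, `ψ` nice,
`φ` in the frame `c/ε`; all alignments bounded below. -/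
structure Ctx (M δ ε s' : ℝ) (V : H ≃ₗᵢ[ℂ] H) (c : K) (t1 t2 : ℝ) : Prop where
  s'_le : |s'| ≤ M
  s'_ge : s' = 0 ∨ δ ≤ |s'|
  c_le : ‖c‖ ≤ M
  split : ∃ ψ φ : H, S.Nice M ψ ∧ S.Frm (((1 / ε : ℝ) : ℂ) • c) M φ ∧
    ‖V S.Om - S.zr (-(((s' / ε : ℝ) : ℂ) • S.iota (S.xv V))) ψ - (ε : ℂ) • φ‖ ≤ M * ε ^ 2
  al0 : δ ≤ |(inner ℂ (S.iota (S.xv V)) c : ℂ).im|
  al1 : δ ≤ |S.alp t1 V c|
  al2 : δ ≤ |S.alp t2 V c|

def WWStmt : Prop := ∀ M δ : ℝ, 0 ≤ M → 0 < δ → ∃ C ε₀ : ℝ, 0 ≤ C ∧ 0 < ε₀ ∧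
  ∀ ε, 0 < ε → ε ≤ ε₀ → ∀ (s' : ℝ) (V : H ≃ₗᵢ[ℂ] H) (c : K) (t1 t2 : ℝ),
    S.Ctx M δ ε s' V c t1 t2 → ∀ s1 s2 : ℝ,
      s1 = ε * (Real.pi / 2 / S.alp t1 V c) → s2 = ε * (Real.pi / 2 / S.alp t2 V c) →
      (∀ c0 z, S.Frm (((s' / ε : ℝ) : ℂ) • S.iota (S.xv V)) c0 z →
        ‖(S.wv t1 t2 s1 s2 V * V⁻¹) z - z‖ ≤ C * c0 * ε ^ 2) ∧
      (∀ c0 z, S.Frm (((1 / ε : ℝ) : ℂ) • c) c0 z →
        ‖(S.wv t1 t2 s1 s2 V * V⁻¹) z - S.xr (4 * (t1 - t2)) z‖ ≤ C * c0 * ε)

/-! ## Invariants of the simulation -/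

/-- state of the simulation at a fixed `ε`: `V` plain state, `T` its regular part (up to the phase
`θ`), tagged branch `ε U_{σ a/ε} η`, label vector `e`. -/
structure St (C ε : ℝ) (V T : H ≃ₗᵢ[ℂ] H) (θ : ℂ) (σ : ℝ) (a : K) (η e : H) : Prop where
  th : ‖θ‖ = 1
  sg : σ = 1 ∨ σ = -1
  a_le : ‖a‖ ≤ C
  eta : S.Nice C η
  T_nice : ∀ c x, S.Nice c x → S.Nice (C * c) (T x) ∧ S.Nice (C * c) (T⁻¹ x)
  i1 : ‖V S.Om - θ • T S.Om - (ε : ℂ) • S.zr (-(((σ / ε : ℝ) : ℂ) • a)) η‖ ≤ C * ε ^ 2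
  i2 : ∀ c x, S.Nice c x → ‖V x - θ • T x‖ ≤ C * c * ε
  i6 : ‖V⁻¹ (S.Z (S.zr (-(((σ / ε : ℝ) : ℂ) • a)) η)) - (σ : ℂ) • e‖ ≤ C * ε

/-- the label vector is a unit vector almost orthogonal to nice vectors -/
structure Lv (C ε : ℝ) (e : H) : Prop where
  n : ‖e‖ = 1
  perp : ∀ c x, S.Nice c x → ‖(inner ℂ e x : ℂ)‖ ≤ C * c * ε

/-! ## Block K (kick) -/

/-- state after `C τ` -/
noncomputable def k1 (τ : ℝ) : H ≃ₗᵢ[ℂ] H := S.zr ((τ : ℂ) • S.iota (S.Z S.Om))

/-- state after `C τ, B ε` -/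
noncomputable def k2 (ε τ : ℝ) : H ≃ₗᵢ[ℂ] H := S.xr ε * S.k1 τ

/-- state after the kick `C τ, B ε, C (-τ)` -/
noncomputable def k3 (ε τ : ℝ) : H ≃ₗᵢ[ℂ] H :=
  S.zr (((-τ : ℝ) : ℂ) • S.iota (S.xv (S.k2 ε τ))) * S.k2 ε τ

def KStmt : Prop := ∀ κ : ℝ, κ ≠ 0 → ∃ C ε₀ : ℝ, 0 ≤ C ∧ 0 < ε₀ ∧ ∀ ε, 0 < ε → ε ≤ ε₀ →
  ∀ τ, τ = -κ / 2 / ε → ∃ θ η e,
    S.St C ε (S.k3 ε τ) (S.zr (-((τ : ℂ) • S.iota (S.xv (S.k2 ε τ) - S.Z S.Om)))) θ 1
      (((-κ / 2 : ℝ) : ℂ) • S.iota (S.xv (S.k2 ε τ) + S.Z S.Om)) η e ∧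
    S.Lv C ε e ∧
    ‖-((τ : ℂ) • (S.xv (S.k2 ε τ) - S.Z S.Om)) - (κ : ℂ) • e‖ ≤ C * ε ∧
    ‖S.xv (S.k2 ε τ) - S.Z S.Om‖ ≤ C * ε

/-! ## Block S (steps) -/

def SCStmt : Prop := ∀ C γ : ℝ, 0 ≤ C → ∃ C' ε₀ : ℝ, C ≤ C' ∧ 0 < ε₀ ∧ ∀ ε, 0 < ε → ε ≤ ε₀ →
  ∀ V T θ σ a η e, S.St C ε V T θ σ a η e → ∃ η',
    S.St C' ε (S.zr ((γ : ℂ) • S.iota (S.xv V)) * V) (S.zr ((γ : ℂ) • S.iota (S.xv V)) * T)
      θ σ a η' e

def SBStmt : Prop := ∀ C b δ : ℝ, 0 ≤ C → |b| ≤ Real.pi → 0 < δ →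
  ∃ C' ε₀ : ℝ, C ≤ C' ∧ 0 < ε₀ ∧ ∀ ε, 0 < ε → ε ≤ ε₀ →
  ∀ V T θ σ a η e, S.St C ε V T θ σ a η e →
    δ ≤ |(inner ℂ (S.iota (S.xv (S.xr b * V))) a : ℂ).im| →
    ∃ t1 t2 s1 s2 : ℝ, |s1| ≤ C' * ε ∧ |s2| ≤ C' * ε ∧
      S.St C' ε (S.wv t1 t2 s1 s2 (S.xr b * V)) (S.xr b * T) θ σ a η e

def SGStmt : Prop := ∀ C κ δ : ℝ, 0 ≤ C → κ ≠ 0 → 0 < δ →
  ∃ C' ε₀ : ℝ, C ≤ C' ∧ 0 < ε₀ ∧ ∀ ε, 0 < ε → ε ≤ ε₀ →
  ∀ V T θ σ a η e, S.St C ε V T θ σ a η e →
    δ ≤ |(inner ℂ (S.iota (S.xv V)) a : ℂ).im| →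
    ∃ t1 t2 s1 s2 τ : ℝ, |s1| ≤ C' * ε ∧ |s2| ≤ C' * ε ∧ τ = -σ * κ / (2 * ε) ∧
      ∀ V1 V2 V3 : H ≃ₗᵢ[ℂ] H, V1 = S.zr (((-τ : ℝ) : ℂ) • S.iota (S.xv V)) * V →
        V2 = S.wv t1 t2 s1 s2 V1 → V3 = S.zr ((τ : ℂ) • S.iota (S.xv V2)) * V2 →
        ‖(τ : ℂ) • (S.xv V2 - S.xv V) - (κ : ℂ) • e‖ ≤ C' * ε ∧
        ‖S.xv V2 - S.xv V‖ ≤ C' * ε ∧
        ∃ θ' η', S.St C' ε V3 (S.zr ((τ : ℂ) • S.iota (S.xv V2 - S.xv V)) * T) θ' (-σ)
          (a - ((κ / 2 : ℝ) : ℂ) • S.iota (S.xv V + S.xv V2)) η' e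

/-! ## Block X: field vector of a simulated state -/

def XStmt : Prop := ∀ C : ℝ, 0 ≤ C → ∃ C' : ℝ, C ≤ C' ∧ ∀ ε, 0 < ε → ε ≤ 1 →
  ∀ V T θ σ a η e, S.St C ε V T θ σ a η e →
    (∀ t, ‖S.xt t V - S.xt t T‖ ≤ C' * ε) ∧ ‖S.xv V - S.xv T‖ ≤ C' * ε ∧
    (S.Lv C ε e → ‖(inner ℂ e (S.xv V) : ℂ)‖ ≤ C' * ε)

/-! ## Block G (Gram continuity) -/

/-- word with prescribed phase vectors `v`, indexed by the length of the tail -/
noncomputable def lw (v : ℕ → K) : List Gate → (H ≃ₗᵢ[ℂ] H)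
  | [] => 1
  | Gate.B b :: u => S.xr b * lw v u
  | Gate.C _ :: u => S.zr (v u.length) * lw v u
  | Gate.G _ :: u => S.zr (v u.length) * lw v u

/-- consistency of field vectors `x` and phase vectors `v` with a word, label direction `e`,
tolerance `d` -/
def Good (d : ℝ) (e : K) (x : ℕ → H) (v : ℕ → K) : List Gate → Prop
  | [] => True
  | Gate.B _ :: u => Good d e x v u ∧ ‖x u.length - S.xv (S.lw v u)‖ ≤ d ∧
      ‖(inner ℂ e (S.iota (x u.length)) : ℂ)‖ ≤ d
  | Gate.C γ :: u => Good d e x v u ∧ ‖x u.length - S.xv (S.lw v u)‖ ≤ d ∧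
      ‖(inner ℂ e (S.iota (x u.length)) : ℂ)‖ ≤ d ∧
      v u.length = (γ : ℂ) • S.iota (x u.length)
  | Gate.G κ :: u => Good d e x v u ∧ ‖x u.length - S.xv (S.lw v u)‖ ≤ d ∧
      ‖(inner ℂ e (S.iota (x u.length)) : ℂ)‖ ≤ d ∧
      ‖v u.length - (κ : ℂ) • e‖ ≤ d

def GStmt : Prop := ∀ (w : List Gate) (x₀ : ℕ → H) (v₀ : ℕ → K), S.Good 0 S.e0 x₀ v₀ w →
  ∀ δ > 0, ∃ d > 0, ∀ (e : K) (x : ℕ → H) (v : ℕ → K), ‖e‖ = 1 → S.Good d e x v w →
    (∀ i < w.length, ∀ j < w.length,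
      ‖(inner ℂ (x i) (x j) : ℂ) - inner ℂ (x₀ i) (x₀ j)‖ < δ) ∧
    (∀ i < w.length,
      ‖(inner ℂ (x i) (S.xv (S.lw v w)) : ℂ) - inner ℂ (x₀ i) (S.xv (S.lw v₀ w))‖ < δ)

/-! ## Block F (assembly) -/

/-- `sum κ_k x_k` over the label gates -/
noncomputable def aSum (x : ℕ → H) : List Gate → H
  | [] => 0
  | Gate.G κ :: u => (κ : ℂ) • x u.length + aSum x u
  | Gate.B _ :: u => aSum x u
  | Gate.C _ :: u => aSum x u

/-- `- sum γ_k Im <x_k, y>²` over the `C` gates -/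
noncomputable def eSum (x : ℕ → H) (y : H) : List Gate → ℝ
  | [] => 0
  | Gate.C γ :: u => -(γ * ((inner ℂ (x u.length) y) ^ 2 : ℂ).im) + eSum x y u
  | Gate.B _ :: u => eSum x y u
  | Gate.G _ :: u => eSum x y u

/-- master induction: simulation of a labelled word `w` -/
def Sim (C ε : ℝ) (w : List Gate) : Prop :=
  ∃ (r : List Gate) (θ : ℂ) (σ : ℝ) (a : K) (η e : H) (x : ℕ → H) (v : ℕ → K),
    Plain r ∧ S.St C ε (S.ev r) (S.lw v w) θ σ a η e ∧ S.Lv C ε e ∧
    S.Good (C * ε) (S.iota e) x v w ∧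
    ‖a + S.iota (aSum x w)‖ ≤ C * ε ∧
    ∀ y, ‖y‖ ≤ 1 → |S.eaux y r - eSum x y w| ≤ C * ε + C * ‖(inner ℂ e y : ℂ)‖

/-- admissible labelled words: `u ++ [G κ]`, `u` starting (in time) with `B b`, all `B` angles
bounded by `π`, alignment nonzero from the first `B` on -/
structure Adm (u : List Gate) (κ : ℝ) : Prop where
  b_le : ∀ b, Gate.B b ∈ u → |b| ≤ Real.pi
  first : ∃ u' b, u = u' ++ [Gate.B b]
  al : ∀ u', u' ≠ [] → u' <:+ u → S.al (u' ++ [Gate.G κ]) ≠ 0

def SimStmt : Prop := ∀ u κ, S.Adm u κ →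
  ∃ C ε₀ : ℝ, 0 ≤ C ∧ 0 < ε₀ ∧ ∀ ε, 0 < ε → ε ≤ ε₀ → S.Sim C ε (u ++ [Gate.G κ])

/-- THEOREM A -/
def AStmt : Prop := ∀ u κ, S.Adm u κ → ∀ δ > 0,
  ∃ r, Plain r ∧ |S.energy r - S.energy (u ++ [Gate.G κ])| < δ

end Sys

end Vale.Agent.P367.A
end

section

/-! P367, Theorem A, block L0: algebra of pulses (helper96). -/

namespace Vale.Agent.P367.A

open Complex

open Vale.Agent.P367.NI (Gate)

/-- imaginary part of the inner product -/
noncomputable def th {K : Type*} [NormedAddCommGroup K] [InnerProductSpace ℂ K] (a b : K) : ℝ :=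
  (inner ℂ a b : ℂ).im

section thlemmas

variable {K : Type*} [NormedAddCommGroup K] [InnerProductSpace ℂ K]

lemma th_swap (a b : K) : th a b = -th b a := by
  unfold th
  rw [← inner_conj_symm a b, Complex.conj_im]

lemma th_self (a : K) : th a a = 0 := by
  have := th_swap a a
  linarith

lemma th_add_left (a b c : K) : th (a + b) c = th a c + th b c := by
  unfold th; rw [inner_add_left, add_im]

lemma th_add_right (a b c : K) : th a (b + c) = th a b + th a c := by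
  unfold th; rw [inner_add_right, add_im]

lemma th_sub_left (a b c : K) : th (a - b) c = th a c - th b c := by
  unfold th; rw [inner_sub_left, sub_im]

lemma th_sub_right (a b c : K) : th a (b - c) = th a b - th a c := by
  unfold th; rw [inner_sub_right, sub_im]

lemma th_neg_left (a b : K) : th (-a) b = -th a b := by
  unfold th; rw [inner_neg_left, neg_im]

lemma th_neg_right (a b : K) : th a (-b) = -th a b := by
  unfold th; rw [inner_neg_right, neg_im]

lemma th_smul_left (r : ℝ) (a b : K) : th ((r : ℂ) • a) b = r * th a b := by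
  unfold th; rw [inner_smul_left, Complex.conj_ofReal, re_ofReal_mul_im]
where
  re_ofReal_mul_im (r : ℝ) (z : ℂ) : ((r : ℂ) * z).im = r * z.im := by simp

lemma th_smul_right (r : ℝ) (a b : K) : th a ((r : ℂ) • b) = r * th a b := by
  unfold th; rw [inner_smul_right]; simp

lemma abs_th_le (a b : K) : |th a b| ≤ ‖a‖ * ‖b‖ :=
  (Complex.abs_im_le_norm _).trans (norm_inner_le_norm a b)

end thlemmas

namespace Sys

variable {H K : Type*} [NormedAddCommGroup H] [InnerProductSpace ℂ H]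
  [NormedAddCommGroup K] [InnerProductSpace ℂ K] (S : Sys H K)

lemma mulA (U V : H ≃ₗᵢ[ℂ] H) (x : H) : (U * V) x = U (V x) := rfl

lemma oneA (x : H) : (1 : H ≃ₗᵢ[ℂ] H) x = x := rfl

lemma invA (U : H ≃ₗᵢ[ℂ] H) (x : H) : U⁻¹ (U x) = x := U.symm_apply_apply x

lemma Ainv (U : H ≃ₗᵢ[ℂ] H) (x : H) : U (U⁻¹ x) = x := U.apply_symm_apply x

lemma inner_invA (U : H ≃ₗᵢ[ℂ] H) (x y : H) : inner ℂ (U⁻¹ x) y = inner ℂ x (U y) := by
  rw [← U.inner_map_map, Ainv]

lemma WW' (a b : K) (x : H) : S.W a (S.W b x)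
    = Complex.exp (-(Complex.I * (th a b : ℂ))) • S.W (a + b) x := S.WW a b x

/-- exchange relation -/
lemma Wx (a b : K) (x : H) : S.W a (S.W b x)
    = Complex.exp (-(2 * Complex.I * (th a b : ℂ))) • S.W b (S.W a x) := by
  rw [S.WW' a b, S.WW' b a, smul_smul, ← Complex.exp_add, add_comm b a, th_swap b a]
  congr 2
  push_cast
  ring

/-! ### `xr` -/

lemma xr_zero (x : H) : S.xr 0 x = x := by
  rw [xr_apply]; simp

lemma xr_xr (b c : ℝ) (x : H) : S.xr b (S.xr c x) = S.xr (b + c) x := by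
  simp only [xr_apply, map_sub, map_smul, S.XX, Real.cos_add, Real.sin_add, ofReal_add, ofReal_sub,
    ofReal_mul]
  have hI : Complex.I * Complex.I = -1 := Complex.I_mul_I
  have e : (Complex.I * (Real.sin b : ℂ)) * (Complex.I * (Real.sin c : ℂ))
      = -((Real.sin b : ℂ) * (Real.sin c : ℂ)) := by
    linear_combination ((Real.sin b : ℂ) * (Real.sin c : ℂ)) * hI
  calc _ = ((Real.cos b : ℂ) * (Real.cos c : ℂ)
        + (Complex.I * (Real.sin b : ℂ)) * (Complex.I * (Real.sin c : ℂ))) • x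
        - (Complex.I * ((Real.sin b : ℂ) * (Real.cos c : ℂ)
          + (Real.cos b : ℂ) * (Real.sin c : ℂ))) • S.X x := by module
    _ = _ := by rw [e, ← sub_eq_add_neg]

lemma xr_mul (b c : ℝ) : S.xr b * S.xr c = S.xr (b + c) := by
  ext x; exact S.xr_xr b c x

lemma xr_neg_xr (b : ℝ) (x : H) : S.xr (-b) (S.xr b x) = x := by
  rw [xr_xr, neg_add_cancel, xr_zero]

lemma xr_xr_neg (b : ℝ) (x : H) : S.xr b (S.xr (-b) x) = x := by
  rw [xr_xr, add_neg_cancel, xr_zero]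

lemma xr_inv (b : ℝ) : (S.xr b)⁻¹ = S.xr (-b) := by
  ext x; exact inv_apply_eq (S.xr_xr_neg b x)

lemma inner_xr (b : ℝ) (x y : H) : inner ℂ (S.xr b x) y = inner ℂ x (S.xr (-b) y) := by
  rw [← (S.xr (-b)).inner_map_map, xr_neg_xr]

lemma W_xrA (a : K) (b : ℝ) (x : H) : S.W a (S.xr b x) = S.xr b (S.W a x) := by
  rw [xr_apply, xr_apply, map_sub, map_smul, map_smul, S.WX]

lemma X_xr (b : ℝ) (x : H) : S.X (S.xr b x) = S.xr b (S.X x) := by
  rw [xr_apply, xr_apply, map_sub, map_smul, map_smul]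

lemma Z_xr (b : ℝ) (x : H) : S.Z (S.xr b x) = S.xr (-b) (S.Z x) := by
  rw [xr_apply, xr_apply, map_sub, map_smul, map_smul, S.ZX, Real.cos_neg, Real.sin_neg, ofReal_neg]
  module

lemma xr_pi_div_two (x : H) : S.xr (Real.pi / 2) x = -(Complex.I • S.X x) := by
  rw [xr_apply, Real.cos_pi_div_two, Real.sin_pi_div_two]
  simp

lemma xr_neg_pi_div_two (x : H) : S.xr (-(Real.pi / 2)) x = Complex.I • S.X x := by
  rw [xr_apply, Real.cos_neg, Real.sin_neg, Real.cos_pi_div_two, Real.sin_pi_div_two]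
  simp

/-! ### `Zt` -/

lemma Zt_apply (t : ℝ) (x : H) : S.Zt t x = S.xr (2 * t) (S.Z x) := by
  change S.xr t (S.Z (S.xr (-t) x)) = _
  rw [Z_xr, xr_xr, neg_neg, two_mul]

lemma Zt_zero (x : H) : S.Zt 0 x = S.Z x := by
  rw [Zt_apply, mul_zero, xr_zero]

/-- `Y = i X Z` -/
lemma Zt_apply' (t : ℝ) (x : H) : S.Zt t x
    = (Real.cos (2 * t) : ℂ) • S.Z x - (Real.sin (2 * t) : ℂ) • (Complex.I • S.X (S.Z x)) := by
  rw [Zt_apply, xr_apply, smul_smul, mul_comm (Real.sin (2 * t) : ℂ) Complex.I]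

lemma Zt_Zt (t s : ℝ) (x : H) : S.Zt t (S.Zt s x) = S.xr (2 * (t - s)) x := by
  rw [Zt_apply, Zt_apply, Z_xr, S.ZZ, xr_xr]
  congr 2
  ring

lemma Zt_sq (t : ℝ) (x : H) : S.Zt t (S.Zt t x) = x := by
  rw [Zt_Zt, sub_self, mul_zero, xr_zero]

lemma inner_Zt (t : ℝ) (x y : H) : inner ℂ (S.Zt t x) y = inner ℂ x (S.Zt t y) := by
  rw [← (S.Zt t).inner_map_map, Zt_sq]

lemma W_ZtA (a : K) (t : ℝ) (x : H) : S.W a (S.Zt t x) = S.Zt t (S.W a x) := by
  rw [Zt_apply, Zt_apply, W_xrA, S.WZ]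

lemma X_Zt (t : ℝ) (x : H) : S.X (S.Zt t x) = -S.Zt t (S.X x) := by
  rw [Zt_apply, Zt_apply, X_xr, S.XZ, map_neg]

/-! ### `rot t f = exp (2 i f Z^t)` -/

noncomputable def rotL (t f : ℝ) : H →ₗ[ℂ] H :=
  (Real.cos (2 * f) : ℂ) • LinearMap.id
    + (Complex.I * (Real.sin (2 * f) : ℂ)) • (S.Zt t).toLinearEquiv.toLinearMap

lemma rotL_apply (t f : ℝ) (x : H) : S.rotL t f x
    = (Real.cos (2 * f) : ℂ) • x + (Complex.I * (Real.sin (2 * f) : ℂ)) • S.Zt t x := rfl

lemma rotL_rotL_neg (t f : ℝ) (x : H) : S.rotL t f (S.rotL t (-f) x) = x := by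
  simp only [rotL_apply, map_add, map_smul, S.Zt_sq, mul_neg, Real.cos_neg, Real.sin_neg,
    ofReal_neg]
  have h : (Real.cos (2 * f) : ℂ) * Real.cos (2 * f)
      + (Real.sin (2 * f) : ℂ) * Real.sin (2 * f) = 1 := by
    have := Real.cos_sq_add_sin_sq (2 * f)
    rw [← Complex.ofReal_mul, ← Complex.ofReal_mul, ← Complex.ofReal_add,
      ← pow_two, ← pow_two, this, Complex.ofReal_one]
  have hI := Complex.I_mul_I
  have e : (Real.cos (2 * f) : ℂ) * Real.cos (2 * f) - (Complex.I * (Real.sin (2 * f) : ℂ))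
      * (Complex.I * (Real.sin (2 * f) : ℂ)) = 1 := by
    linear_combination h - (Real.sin (2 * f) : ℂ)^2 * hI
  calc _ = ((Real.cos (2 * f) : ℂ) * Real.cos (2 * f) - (Complex.I * (Real.sin (2 * f) : ℂ))
          * (Complex.I * (Real.sin (2 * f) : ℂ))) • x := by module
    _ = _ := by rw [e, one_smul]

/-- `exp (2 i f Z^t)` -/
noncomputable def rot (t f : ℝ) : H ≃ₗᵢ[ℂ] H :=
  mkU (S.rotL t f) (S.rotL t (-f))
    (fun x => by have := S.rotL_rotL_neg t (-f) x; rwa [neg_neg] at this)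
    (fun x => S.rotL_rotL_neg t f x)
    (fun x y => by
      simp only [rotL_apply, inner_add_left, inner_add_right, inner_smul_left, inner_smul_right,
        S.inner_Zt, map_mul, Complex.conj_ofReal, Complex.conj_I, mul_neg, Real.cos_neg,
        Real.sin_neg, ofReal_neg]
      ring)

lemma rot_apply (t f : ℝ) (x : H) : S.rot t f x
    = (Real.cos (2 * f) : ℂ) • x + (Complex.I * (Real.sin (2 * f) : ℂ)) • S.Zt t x := rfl

lemma W_rot (a : K) (t f : ℝ) (x : H) : S.W a (S.rot t f x) = S.rot t f (S.W a x) := by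
  rw [rot_apply, rot_apply, map_add, map_smul, map_smul, W_ZtA]

lemma rot_quarter (t : ℝ) (x : H) : S.rot t (Real.pi / 4) x = Complex.I • S.Zt t x := by
  rw [rot_apply, show 2 * (Real.pi / 4) = Real.pi / 2 by ring, Real.cos_pi_div_two,
    Real.sin_pi_div_two]
  simp

lemma rot_neg_quarter (t : ℝ) (x : H) :
    S.rot t (-(Real.pi / 4)) x = -(Complex.I • S.Zt t x) := by
  rw [rot_apply, show 2 * (-(Real.pi / 4)) = -(Real.pi / 2) by ring, Real.cos_neg, Real.sin_neg,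
    Real.cos_pi_div_two, Real.sin_pi_div_two]
  simp

/-- the norm of `rot t f x - rot t g x` -/
lemma norm_rot_sub_rot (t f g : ℝ) (x : H) : ‖S.rot t f x - S.rot t g x‖ ≤ 2 * |f - g| * ‖x‖ := by
  have key : ‖S.rot t f x - S.rot t g x‖ ^ 2
      = ((Real.cos (2 * f) - Real.cos (2 * g)) ^ 2 + (Real.sin (2 * f) - Real.sin (2 * g)) ^ 2)
        * ‖x‖ ^ 2 := by
    have e : S.rot t f x - S.rot t g x = ((Real.cos (2 * f) - Real.cos (2 * g) : ℝ) : ℂ) • x
        + (Complex.I * ((Real.sin (2 * f) - Real.sin (2 * g) : ℝ) : ℂ)) • S.Zt t x := by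
      rw [rot_apply, rot_apply]; push_cast; module
    rw [e, @norm_add_sq ℂ H]
    have hz : RCLike.re (inner ℂ (((Real.cos (2 * f) - Real.cos (2 * g) : ℝ) : ℂ) • x)
        ((Complex.I * ((Real.sin (2 * f) - Real.sin (2 * g) : ℝ) : ℂ)) • S.Zt t x) : ℂ) = 0 := by
      have hr : (inner ℂ x (S.Zt t x) : ℂ).im = 0 := by
        have h1 := S.inner_Zt t x x
        have h2 := inner_conj_symm (𝕜 := ℂ) x (S.Zt t x)
        rw [h1] at h2
        exact Complex.conj_eq_iff_im.1 h2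
      rw [inner_smul_left, inner_smul_right, Complex.conj_ofReal]
      simp only [RCLike.re_to_complex, Complex.mul_re, Complex.mul_im, Complex.I_re, Complex.I_im,
        Complex.ofReal_re, Complex.ofReal_im, hr]
      ring
    rw [hz, norm_smul, norm_smul, norm_mul, Complex.norm_I, Complex.norm_real, Complex.norm_real,
      (S.Zt t).norm_map, Real.norm_eq_abs, Real.norm_eq_abs, mul_pow, mul_pow, one_mul, sq_abs,
      sq_abs]
    ring
  have h2 : (Real.cos (2 * f) - Real.cos (2 * g)) ^ 2 + (Real.sin (2 * f) - Real.sin (2 * g)) ^ 2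
      ≤ (2 * |f - g|) ^ 2 := by
    have e1 : (Real.cos (2 * f) - Real.cos (2 * g)) ^ 2
        + (Real.sin (2 * f) - Real.sin (2 * g)) ^ 2 = 2 - 2 * Real.cos (2 * (f - g)) := by
      rw [show 2 * (f - g) = 2 * f - 2 * g by ring, Real.cos_sub]
      nlinarith [Real.sin_sq_add_cos_sq (2 * f), Real.sin_sq_add_cos_sq (2 * g)]
    rw [e1, mul_pow, sq_abs]
    have := Real.one_sub_sq_div_two_le_cos (x := 2 * (f - g))
    nlinarith
  have h3 : ‖S.rot t f x - S.rot t g x‖ ^ 2 ≤ (2 * |f - g| * ‖x‖) ^ 2 := by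
    rw [key, mul_pow (2 * |f - g|)]
    exact mul_le_mul_of_nonneg_right h2 (by positivity)
  exact (sq_le_sq₀ (norm_nonneg _) (by positivity)).1 h3

lemma rot_zero (t : ℝ) (x : H) : S.rot t 0 x = x := by
  rw [rot_apply]; simp

lemma norm_rot_sub (t f : ℝ) (x : H) : ‖S.rot t f x - x‖ ≤ 2 * |f| * ‖x‖ := by
  have := S.norm_rot_sub_rot t f 0 x
  rwa [rot_zero, sub_zero] at this

/-! ### pulses -/

lemma pul_def (t : ℝ) (v : K) (x : H) : S.pul t v x = S.xr t (S.zr v (S.xr (-t) x)) := rfl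

lemma pul_apply (t : ℝ) (v : K) (x : H) : S.pul t v x = (1 / 2 : ℂ) • (S.W (-v) x + S.W v x)
      + (1 / 2 : ℂ) • (S.W (-v) (S.Zt t x) - S.W v (S.Zt t x)) := by
  rw [pul_def, zr_apply]
  simp only [map_add, map_sub, map_smul, W_xrA, xr_xr_neg]
  simp only [← W_xrA, Z_xr, Zt_apply, xr_xr, neg_neg, two_mul]

/-- spectral projections of `Z^t` -/
noncomputable def Pp (t : ℝ) (x : H) : H := (1 / 2 : ℂ) • (x + S.Zt t x)

noncomputable def Pm (t : ℝ) (x : H) : H := (1 / 2 : ℂ) • (x - S.Zt t x)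

lemma pul_eq_P (t : ℝ) (v : K) (x : H) :
    S.pul t v x = S.W (-v) (S.Pp t x) + S.W v (S.Pm t x) := by
  rw [pul_apply, Pp, Pm]
  simp only [map_add, map_sub, map_smul]
  module

lemma Pp_add_Pm (t : ℝ) (x : H) : S.Pp t x + S.Pm t x = x := by
  rw [Pp, Pm]; module

lemma Zt_Pp (t : ℝ) (x : H) : S.Zt t (S.Pp t x) = S.Pp t x := by
  rw [Pp]; simp only [map_add, map_smul, Zt_sq]; module

lemma Zt_Pm (t : ℝ) (x : H) : S.Zt t (S.Pm t x) = -S.Pm t x := by
  rw [Pm]; simp only [map_sub, map_smul, Zt_sq]; module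

lemma Pp_Pp (t : ℝ) (x : H) : S.Pp t (S.Pp t x) = S.Pp t x := by
  rw [Pp, Zt_Pp]; module

lemma Pm_Pm (t : ℝ) (x : H) : S.Pm t (S.Pm t x) = S.Pm t x := by
  rw [Pm, Zt_Pm]; module

lemma Pp_Pm (t : ℝ) (x : H) : S.Pp t (S.Pm t x) = 0 := by
  rw [Pp, Zt_Pm]; module

lemma Pm_Pp (t : ℝ) (x : H) : S.Pm t (S.Pp t x) = 0 := by
  rw [Pm, Zt_Pp]; module

lemma W_Pp (a : K) (t : ℝ) (x : H) : S.W a (S.Pp t x) = S.Pp t (S.W a x) := by
  rw [Pp, Pp, map_smul, map_add, W_ZtA]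

lemma W_Pm (a : K) (t : ℝ) (x : H) : S.W a (S.Pm t x) = S.Pm t (S.W a x) := by
  rw [Pm, Pm, map_smul, map_sub, W_ZtA]

lemma Pp_smul (t : ℝ) (k : ℂ) (x : H) : S.Pp t (k • x) = k • S.Pp t x := by
  rw [Pp, Pp, map_smul]; module

lemma Pm_smul (t : ℝ) (k : ℂ) (x : H) : S.Pm t (k • x) = k • S.Pm t x := by
  rw [Pm, Pm, map_smul]; module

lemma Pp_add (t : ℝ) (x y : H) : S.Pp t (x + y) = S.Pp t x + S.Pp t y := by
  rw [Pp, Pp, Pp, map_add]; module

lemma Pm_add (t : ℝ) (x y : H) : S.Pm t (x + y) = S.Pm t x + S.Pm t y := by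
  rw [Pm, Pm, Pm, map_add]; module

lemma X_Pp (t : ℝ) (x : H) : S.X (S.Pp t x) = S.Pm t (S.X x) := by
  rw [Pp, Pm, map_smul, map_add, X_Zt]; module

lemma X_Pm (t : ℝ) (x : H) : S.X (S.Pm t x) = S.Pp t (S.X x) := by
  rw [Pp, Pm, map_smul, map_sub, X_Zt]; module

lemma inner_Pp_Pm (t : ℝ) (x y : H) : (inner ℂ (S.Pp t x) (S.Pm t y) : ℂ) = 0 := by
  rw [Pp, Pm, inner_smul_left, inner_smul_right, inner_add_left, inner_sub_right, inner_sub_right,
    S.inner_Zt, S.inner_Zt, Zt_sq]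
  ring

lemma inner_Pm_Pp (t : ℝ) (x y : H) : (inner ℂ (S.Pm t x) (S.Pp t y) : ℂ) = 0 := by
  rw [← inner_conj_symm, inner_Pp_Pm, map_zero]

lemma norm_sq_P (t : ℝ) (x : H) : ‖x‖ ^ 2 = ‖S.Pp t x‖ ^ 2 + ‖S.Pm t x‖ ^ 2 := by
  conv_lhs => rw [← S.Pp_add_Pm t x]
  rw [@norm_add_sq ℂ H, inner_Pp_Pm]
  simp

lemma norm_Pp_le (t : ℝ) (x : H) : ‖S.Pp t x‖ ≤ ‖x‖ := by
  refine (sq_le_sq₀ (norm_nonneg _) (norm_nonneg _)).1 ?_
  rw [S.norm_sq_P t x]; nlinarith [sq_nonneg ‖S.Pm t x‖]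

lemma norm_Pm_le (t : ℝ) (x : H) : ‖S.Pm t x‖ ≤ ‖x‖ := by
  refine (sq_le_sq₀ (norm_nonneg _) (norm_nonneg _)).1 ?_
  rw [S.norm_sq_P t x]; nlinarith [sq_nonneg ‖S.Pp t x‖]

lemma pul_zero (t : ℝ) (x : H) : S.pul t 0 x = x := by
  rw [pul_eq_P, neg_zero, W_zero_apply, W_zero_apply, Pp_add_Pm]

lemma pul_time_zero (v : K) : S.pul 0 v = S.zr v := by
  ext x; rw [pul_def, neg_zero, xr_zero, xr_zero]

lemma pul_pul (t : ℝ) (v w : K) (x : H) : S.pul t v (S.pul t w x)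
    = Complex.exp (-(Complex.I * (th v w : ℂ))) • S.pul t (v + w) x := by
  rw [S.pul_eq_P t v, S.pul_eq_P t w, S.pul_eq_P t (v + w)]
  rw [Pp_add, Pm_add, ← W_Pp, ← W_Pp, ← W_Pm, ← W_Pm, Pp_Pp, Pm_Pm, Pp_Pm, Pm_Pp]
  simp only [map_zero, add_zero, zero_add]
  rw [S.WW', S.WW', smul_add, th_neg_left, th_neg_right, neg_neg, ← neg_add]

lemma pul_neg_pul (t : ℝ) (v : K) (x : H) : S.pul t (-v) (S.pul t v x) = x := by
  rw [pul_pul, neg_add_cancel, pul_zero, th_neg_left, th_self]; simp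

lemma pul_pul_neg (t : ℝ) (v : K) (x : H) : S.pul t v (S.pul t (-v) x) = x := by
  have := S.pul_neg_pul t (-v) x
  rwa [neg_neg] at this

lemma pul_inv (t : ℝ) (v : K) : (S.pul t v)⁻¹ = S.pul t (-v) := by
  ext x; exact inv_apply_eq (S.pul_pul_neg t v x)

lemma inner_pul (t : ℝ) (v : K) (x y : H) :
    inner ℂ (S.pul t v x) y = inner ℂ x (S.pul t (-v) y) := by
  rw [← (S.pul t (-v)).inner_map_map, pul_neg_pul]

lemma zr_zr (v w : K) (x : H) : S.zr v (S.zr w x)
    = Complex.exp (-(Complex.I * (th v w : ℂ))) • S.zr (v + w) x := by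
  rw [← pul_time_zero, ← pul_time_zero, ← pul_time_zero, pul_pul]

lemma zr_zero (x : H) : S.zr 0 x = x := by rw [← pul_time_zero, pul_zero]

lemma zr_neg_zr (v : K) (x : H) : S.zr (-v) (S.zr v x) = x := by
  rw [← pul_time_zero, ← pul_time_zero, pul_neg_pul]

lemma zr_zr_neg (v : K) (x : H) : S.zr v (S.zr (-v) x) = x := by
  rw [← pul_time_zero, ← pul_time_zero, pul_pul_neg]

lemma zr_inv (v : K) : (S.zr v)⁻¹ = S.zr (-v) := by
  rw [← pul_time_zero, ← pul_time_zero, pul_inv]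

lemma inner_zr (v : K) (x y : H) : inner ℂ (S.zr v x) y = inner ℂ x (S.zr (-v) y) := by
  rw [← pul_time_zero, ← pul_time_zero, inner_pul]

/-- `zr` gates commute up to a phase -/
lemma zr_comm (v w : K) (x : H) : S.zr v (S.zr w x)
    = Complex.exp (-(2 * Complex.I * (th v w : ℂ))) • S.zr w (S.zr v x) := by
  rw [zr_zr, zr_zr, smul_smul, ← Complex.exp_add, add_comm w v, th_swap w v]
  congr 2
  push_cast
  ring

lemma X_zr (v : K) (x : H) : S.X (S.zr v x) = S.zr (-v) (S.X x) := by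
  rw [← pul_time_zero, ← pul_time_zero, pul_eq_P, pul_eq_P, map_add, ← S.WX, ← S.WX, X_Pp, X_Pm,
    neg_neg, add_comm]

lemma Zt_pul (t : ℝ) (v : K) (x : H) : S.Zt t (S.pul t v x) = S.pul t v (S.Zt t x) := by
  rw [pul_apply, pul_apply]
  simp only [map_add, map_sub, map_smul, W_ZtA]

lemma Z_zr (v : K) (x : H) : S.Z (S.zr v x) = S.zr v (S.Z x) := by
  rw [← Zt_zero, ← Zt_zero, ← pul_time_zero, Zt_pul]

/-- a pulse in the frame `W b` -/
lemma pul_W (t : ℝ) (v b : K) (x : H) :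
    S.pul t v (S.W b x) = S.W b (S.rot t (th v b) (S.pul t v x)) := by
  rw [S.pul_eq_P t v (S.W b x), ← W_Pp, ← W_Pm, S.Wx (-v) b, S.Wx v b, th_neg_left]
  have h1 : S.rot t (th v b) (S.pul t v x)
      = Complex.exp (2 * Complex.I * (th v b : ℂ)) • S.W (-v) (S.Pp t x)
        + Complex.exp (-(2 * Complex.I * (th v b : ℂ))) • S.W v (S.Pm t x) := by
    rw [rot_apply, pul_eq_P, map_add, ← W_ZtA, ← W_ZtA, Zt_Pp, Zt_Pm, map_neg]
    have e1 : Complex.exp (2 * Complex.I * (th v b : ℂ))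
        = (Real.cos (2 * th v b) : ℂ) + Complex.I * (Real.sin (2 * th v b) : ℂ) := by
      rw [show 2 * Complex.I * (th v b : ℂ) = ((2 * th v b : ℝ) : ℂ) * Complex.I by
        push_cast; ring, Complex.exp_mul_I]
      push_cast; ring
    have e2 : Complex.exp (-(2 * Complex.I * (th v b : ℂ)))
        = (Real.cos (2 * th v b) : ℂ) - Complex.I * (Real.sin (2 * th v b) : ℂ) := by
      rw [show -(2 * Complex.I * (th v b : ℂ)) = ((-(2 * th v b) : ℝ) : ℂ) * Complex.I by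
        push_cast; ring, Complex.exp_mul_I, ← Complex.ofReal_cos, ← Complex.ofReal_sin,
        Real.cos_neg, Real.sin_neg]
      push_cast; ring
    rw [e1, e2]
    module
  rw [h1, map_add, map_smul, map_smul]
  congr 3
  push_cast
  ring

lemma zr_W (v b : K) (x : H) :
    S.zr v (S.W b x) = S.W b (S.rot 0 (th v b) (S.zr v x)) := by
  rw [← pul_time_zero, pul_W]

/-- commutator of `Z^{t2}` with a pulse of axis `t1` -/
lemma Zt_pul_comm (t2 t1 : ℝ) (v : K) (x : H) :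
    S.Zt t2 (S.pul t1 v x) - S.pul t1 v (S.Zt t2 x)
      = (-(2 * Complex.I * (Real.sin (2 * (t2 - t1)) : ℂ)))
        • S.X ((1 / 2 : ℂ) • (S.W (-v) x - S.W v x)) := by
  rw [pul_apply, pul_apply]
  simp only [map_add, map_sub, map_smul, ← W_ZtA, Zt_Zt]
  simp only [xr_apply, map_sub, map_smul]
  rw [show 2 * (t1 - t2) = -(2 * (t2 - t1)) by ring, Real.cos_neg, Real.sin_neg, ofReal_neg]
  simp only [S.WX]
  module

/-! ### field vectors -/

lemma norm_xt (t : ℝ) (V : H ≃ₗᵢ[ℂ] H) : ‖S.xt t V‖ = 1 := by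
  rw [xt, (V⁻¹).norm_map, (S.Zt t).norm_map, V.norm_map, S.nOm]

lemma norm_xv (V : H ≃ₗᵢ[ℂ] H) : ‖S.xv V‖ = 1 := by
  rw [xv, (V⁻¹).norm_map, S.Z.norm_map, V.norm_map, S.nOm]

lemma norm_iota (x : H) : ‖S.iota x‖ = ‖x‖ := S.iota.norm_map x

lemma inner_iota (x y : H) : inner ℂ (S.iota x) (S.iota y) = inner ℂ x y :=
  S.iota.inner_map_map x y

lemma th_iota (x y : H) : th (S.iota x) (S.iota y) = (inner ℂ x y : ℂ).im := by
  rw [th, inner_iota]

lemma xt_zero (V : H ≃ₗᵢ[ℂ] H) : S.xt 0 V = S.xv V := by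
  rw [xt, xv, Zt_zero]

/-- `V^* Y V Om`, `Y = i X Z` -/
noncomputable def yv (V : H ≃ₗᵢ[ℂ] H) : H := V⁻¹ (Complex.I • S.X (S.Z (V S.Om)))

lemma xt_eq (t : ℝ) (V : H ≃ₗᵢ[ℂ] H) :
    S.xt t V = (Real.cos (2 * t) : ℂ) • S.xv V - (Real.sin (2 * t) : ℂ) • S.yv V := by
  rw [xt, Zt_apply', map_sub, map_smul, map_smul, xv, yv]

lemma xt_pul_mul (t : ℝ) (v : K) (V : H ≃ₗᵢ[ℂ] H) : S.xt t (S.pul t v * V) = S.xt t V := by
  rw [xt, xt, mulA, Zt_pul, mul_inv_rev, mulA, pul_inv, pul_neg_pul]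

lemma xv_zr_mul (v : K) (V : H ≃ₗᵢ[ℂ] H) : S.xv (S.zr v * V) = S.xv V := by
  rw [← xt_zero, ← xt_zero, ← pul_time_zero, xt_pul_mul]

lemma xt_xr_mul (t b : ℝ) (V : H ≃ₗᵢ[ℂ] H) : S.xt t (S.xr b * V) = S.xt (t - b) V := by
  rw [xt, xt, mulA, mul_inv_rev, mulA, xr_inv, Zt_apply, Zt_apply, Z_xr, xr_xr, xr_xr]
  congr 3
  ring

lemma xv_xr_mul (b : ℝ) (V : H ≃ₗᵢ[ℂ] H) : S.xv (S.xr b * V) = S.xt (-b) V := by
  rw [← xt_zero, xt_xr_mul, zero_sub]

lemma norm_yv (V : H ≃ₗᵢ[ℂ] H) : ‖S.yv V‖ = 1 := by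
  rw [yv, (V⁻¹).norm_map, norm_smul, Complex.norm_I, one_mul, S.X.norm_map, S.Z.norm_map,
    V.norm_map, S.nOm]

/-- `<y(V), x(V)> = -i <V Om, X V Om>`; here in the form of imaginary parts -/
lemma im_inner_yv_xv (V : H ≃ₗᵢ[ℂ] H) :
    (inner ℂ (S.yv V) (S.xv V) : ℂ).im = (inner ℂ (V S.Om) (S.X (V S.Om)) : ℂ).re := by
  rw [yv, xv, (V⁻¹).inner_map_map, inner_smul_left, Complex.conj_I, S.inner_X, S.inner_Z, S.XZ,
    map_neg, S.ZZ, inner_neg_right]
  simp

/-! ### the word of a pulse -/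

lemma ev_ps (t s : ℝ) (w : List Gate) :
    S.ev (Gate.B t :: Gate.C s :: Gate.B (-t) :: w) = S.ps t s (S.ev w) := by
  have h : S.xv (S.xr (-t) * S.ev w) = S.xt t (S.ev w) := by rw [xv_xr_mul, neg_neg]
  change S.xr t * (S.zr ((s : ℂ) • S.iota (S.xv (S.xr (-t) * S.ev w))) * (S.xr (-t) * S.ev w)) = _
  rw [h, ps, pul, mul_assoc, mul_assoc]

end Sys

/-- the four-pulse word (head = last gate) -/
def wl (t1 t2 s1 s2 : ℝ) (w : List Gate) : List Gate :=
  Gate.B t1 :: Gate.C (-s1) :: Gate.B (-t1) :: Gate.B t2 :: Gate.C (-s2) :: Gate.B (-t2) ::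
  Gate.B t1 :: Gate.C s1 :: Gate.B (-t1) :: Gate.B t2 :: Gate.C s2 :: Gate.B (-t2) :: w

lemma plain_cons_B {b : ℝ} {w : List Gate} : Plain (Gate.B b :: w) ↔ Plain w := by
  constructor
  · intro h g hg k; exact h g (List.mem_cons_of_mem _ hg) k
  · intro h g hg k
    rcases List.mem_cons.1 hg with rfl | hg
    · simp
    · exact h g hg k

lemma plain_cons_C {b : ℝ} {w : List Gate} : Plain (Gate.C b :: w) ↔ Plain w := by
  constructor
  · intro h g hg k; exact h g (List.mem_cons_of_mem _ hg) k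
  · intro h g hg k
    rcases List.mem_cons.1 hg with rfl | hg
    · simp
    · exact h g hg k

lemma plain_nil : Plain [] := fun g hg => by simp at hg

lemma plain_wl {t1 t2 s1 s2 : ℝ} {w : List Gate} : Plain (wl t1 t2 s1 s2 w) ↔ Plain w := by
  simp only [wl, plain_cons_B, plain_cons_C]

namespace Sys

variable {H K : Type*} [NormedAddCommGroup H] [InnerProductSpace ℂ H]
  [NormedAddCommGroup K] [InnerProductSpace ℂ K] (S : Sys H K)

lemma ev_wl (t1 t2 s1 s2 : ℝ) (w : List Gate) :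
    S.ev (wl t1 t2 s1 s2 w) = S.wv t1 t2 s1 s2 (S.ev w) := by
  rw [wl, ev_ps, ev_ps, ev_ps, ev_ps, wv]

lemma abs_im_sq_le {x y : H} (hx : ‖x‖ ≤ 1) (hy : ‖y‖ ≤ 1) :
    |((inner ℂ x y : ℂ) ^ 2).im| ≤ 1 := by
  refine (Complex.abs_im_le_norm _).trans ?_
  rw [norm_pow]
  have h := norm_inner_le_norm (𝕜 := ℂ) x y
  have h1 : ‖(inner ℂ x y : ℂ)‖ ≤ 1 := h.trans (by nlinarith [norm_nonneg x, norm_nonneg y])
  exact pow_le_one₀ (norm_nonneg _) h1

/-- the four-pulse word changes the energy by at most `2 (|s1| + |s2|)` -/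
lemma eaux_wl (t1 t2 s1 s2 : ℝ) (w : List Gate) (y : H) (hy : ‖y‖ ≤ 1) :
    |S.eaux y (wl t1 t2 s1 s2 w) - S.eaux y w| ≤ 2 * (|s1| + |s2|) := by
  have h : ∀ (s : ℝ) (u : List Gate), |s * ((inner ℂ (S.xv (S.ev u)) y : ℂ) ^ 2).im| ≤ |s| := by
    intro s u
    rw [abs_mul]
    have := abs_im_sq_le (S.norm_xv (S.ev u)).le hy
    calc _ ≤ |s| * 1 := mul_le_mul_of_nonneg_left this (abs_nonneg _)
      _ = _ := mul_one _
  simp only [wl, eaux]
  have a1 := h (-s1) (Gate.B (-t1) :: Gate.B t2 :: Gate.C (-s2) :: Gate.B (-t2) ::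
    Gate.B t1 :: Gate.C s1 :: Gate.B (-t1) :: Gate.B t2 :: Gate.C s2 :: Gate.B (-t2) :: w)
  have a2 := h (-s2) (Gate.B (-t2) ::
    Gate.B t1 :: Gate.C s1 :: Gate.B (-t1) :: Gate.B t2 :: Gate.C s2 :: Gate.B (-t2) :: w)
  have a3 := h s1 (Gate.B (-t1) :: Gate.B t2 :: Gate.C s2 :: Gate.B (-t2) :: w)
  have a4 := h s2 (Gate.B (-t2) :: w)
  rw [abs_neg] at a1 a2
  rw [abs_le] at a1 a2 a3 a4 ⊢
  constructor <;> linarith [a1.1, a1.2, a2.1, a2.2, a3.1, a3.2, a4.1, a4.2]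

end Sys

end Vale.Agent.P367.A
end

section

/-! P367, block B: label systems (spin-Weyl system with commuting label functions), closed
reachability predicates, statement of T2 and of the level step. -/

namespace Vale.Agent.P367.A

open Complex Filter Topology MeasureTheory

/-- bounded measurable label functions -/
def Bm (f : ℝ → ℂ) : Prop := Measurable f ∧ ∃ C : ℝ, ∀ x, ‖f x‖ ≤ C

/-- a spin-Weyl system with label functions commuting with everything -/
structure LSys (H K : Type*) [NormedAddCommGroup H] [InnerProductSpace ℂ H]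
    [NormedAddCommGroup K] [InnerProductSpace ℂ K] extends Sys H K where
  mu : Measure ℝ
  prob : IsProbabilityMeasure mu
  noAtoms : ∀ t, mu {t} = 0
  lab : (ℝ → ℂ) → H →L[ℂ] H
  lab_const : ∀ c : ℂ, lab (fun _ => c) = c • (1 : H →L[ℂ] H)
  lab_add : ∀ f g, Bm f → Bm g → lab (fun t => f t + g t) = lab f + lab g
  lab_mul : ∀ f g, Bm f → Bm g → lab (fun t => f t * g t) = lab f * lab g
  lab_adj : ∀ f, Bm f → ∀ x y, inner ℂ (lab f x) y
    = inner ℂ x (lab (fun t => (starRingEnd ℂ) (f t)) y)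
  lab_X : ∀ f x, lab f (X x) = X (lab f x)
  lab_Z : ∀ f x, lab f (Z x) = Z (lab f x)
  lab_W : ∀ f a x, lab f (W a x) = W a (lab f x)
  lab_vac : ∀ f, Bm f → ∀ a, inner ℂ Om (lab f (W a Om))
    = (∫ t, f t ∂mu) * Complex.exp (-((‖a‖ ^ 2 / 2 : ℝ) : ℂ))
  cyc : (Submodule.span ℂ {x : H | ∃ (T : H →L[ℂ] H) (a : K),
      (∀ b y, W b (T y) = T (W b y)) ∧ (∀ f, Bm f → ∀ y, lab f (T y) = T (lab f y)) ∧
      x = T (W a Om)}).topologicalClosure = ⊤

namespace LSys

variable {H K : Type*} [NormedAddCommGroup H] [InnerProductSpace ℂ H]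
  [NormedAddCommGroup K] [InnerProductSpace ℂ K] (L : LSys H K)

/-- label projection -/
noncomputable def E (b : Set ℝ) : H →L[ℂ] H := L.lab (b.indicator fun _ => 1)

/-- Pauli operators `X, Y, Z` -/
noncomputable def pau : Fin 3 → (H ≃ₗᵢ[ℂ] H) := ![L.X, L.Zt (-(Real.pi / 4)), L.Z]

/-- `exp(-i P phi(v))` as a function on `H` -/
noncomputable def pw (P : H ≃ₗᵢ[ℂ] H) (v : K) (x : H) : H :=
  (1 / 2 : ℂ) • (L.W (-v) x + L.W v x) + (1 / 2 : ℂ) • (L.W (-v) (P x) - L.W v (P x))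

/-- the field vector of the block `b`, `iota (E_b V^* Q V Om)` -/
noncomputable def fv (Q : H ≃ₗᵢ[ℂ] H) (b : Set ℝ) (V : H ≃ₗᵢ[ℂ] H) : K :=
  L.iota (L.E b (V⁻¹ (Q (V L.Om))))

/-- `U` is the block coupling `exp(-i c sum_{A,B} K_kl P_k Q_l)` at the state `V` -/
def IsCoup (A B : Set ℝ) (P Q : Fin 3) (c : ℝ) (V U : H ≃ₗᵢ[ℂ] H) : Prop :=
  ∀ x, U x = L.pw (L.pau P) ((c : ℂ) • L.fv (L.pau Q) B V) (L.E A x)
    + L.pw (L.pau Q) ((c : ℂ) • L.fv (L.pau P) A V) (L.E B x)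
    + (x - L.E A x - L.E B x)

/-- `U = exp(-i a P)` for a bounded operator `a` -/
def IsRot (a : H →L[ℂ] H) (P : Fin 3) (U : H ≃ₗᵢ[ℂ] H) : Prop :=
  ∀ x, U x = NormedSpace.exp ((-Complex.I) • (a * (L.pau P).toContinuousLinearEquiv.toContinuousLinearMap)) x

/-- `U = exp(-i a)` -/
def IsPh (a : H →L[ℂ] H) (U : H ≃ₗᵢ[ℂ] H) : Prop :=
  ∀ x, U x = NormedSpace.exp ((-Complex.I) • a) x

/-- self-adjoint -/
def Sa (a : H →L[ℂ] H) : Prop := ∀ x y, inner ℂ (a x) y = inner ℂ x (a y)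

/-- an algebra of commuting controls -/
structure Ctl (𝔄 : Set (H →L[ℂ] H)) : Prop where
  lab : ∀ f, Bm f → L.lab f ∈ 𝔄
  add : ∀ a b, a ∈ 𝔄 → b ∈ 𝔄 → a + b ∈ 𝔄
  mul : ∀ a b, a ∈ 𝔄 → b ∈ 𝔄 → a * b ∈ 𝔄
  adj : ∀ a ∈ 𝔄, ∃ b ∈ 𝔄, ∀ x y, inner ℂ (a x) y = inner ℂ x (b y)
  comm : ∀ a b, a ∈ 𝔄 → b ∈ 𝔄 → a * b = b * a
  X : ∀ a ∈ 𝔄, ∀ x, a (L.X x) = L.X (a x)
  Z : ∀ a ∈ 𝔄, ∀ x, a (L.Z x) = L.Z (a x)
  /-- reality: for self-adjoint `T` in the commutant of `𝔄`, `W (iota (T Om))` commutes with `𝔄` -/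
  W : ∀ a ∈ 𝔄, ∀ T : H →L[ℂ] H, Sa T → (∀ b ∈ 𝔄, T * b = b * T) →
    ∀ x, a (L.W (L.iota (T L.Om)) x) = L.W (L.iota (T L.Om)) (a x)

/-- `Rch M R V`: a state which is `V` on the labels in `M`, untouched on the labels in `R`, and
arbitrary elsewhere can be reached (approximately). `G` = system labels. Closure properties. -/
structure Closed (G : Set ℝ) (𝔄 : Set (H →L[ℂ] H))
    (Rch : Set ℝ → Set ℝ → (H ≃ₗᵢ[ℂ] H) → Prop) : Prop where
  meas : ∀ M R V, Rch M R V → MeasurableSet M ∧ MeasurableSet R ∧ Disjoint M R ∧ G ⊆ M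
  comm : ∀ M R V, Rch M R V → ∀ a ∈ 𝔄, ∀ x, a (V x) = V (a x)
  lim : ∀ M R (V : ℕ → (H ≃ₗᵢ[ℂ] H)) (V0 : H ≃ₗᵢ[ℂ] H), (∀ n, Rch M R (V n)) →
    (∀ a ∈ 𝔄, ∀ x, a (V0 x) = V0 (a x)) →
    (∀ x, Tendsto (fun n => L.E M (V n x)) atTop (𝓝 (L.E M (V0 x)))) → Rch M R V0
  mono : ∀ M R R' V, Rch M R V → MeasurableSet R' → R' ⊆ R → Rch M R' V
  shrink : ∀ M M' R V, Rch M R V → MeasurableSet M' → M' ⊆ M → G ⊆ M' → Rch M' R V
  act : ∀ M R R0 V V', Rch M R V → MeasurableSet R0 → R0 ⊆ R →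
    (∀ a ∈ 𝔄, ∀ x, a (V' x) = V' (a x)) →
    (∀ x, L.E M (V' x) = L.E M (V x)) → (∀ x, L.E R0 (V' x) = L.E R0 x) →
    Rch (M ∪ R0) (R \ R0) V'
  /-- plain label rotations on the active labels -/
  rotl : ∀ M R V f P U, Rch M R V → Bm f → (∀ t, (f t).im = 0) → (∀ t, t ∉ M → f t = 0) →
    L.IsRot (L.lab f) P U → Rch M R (U * V)
  /-- controlled rotations on the system labels -/
  rot : ∀ M R V a P U, Rch M R V → a ∈ 𝔄 → Sa a → a * L.E G = a → L.IsRot a P U → Rch M R (U * V)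
  ph : ∀ M R V a U, Rch M R V → a ∈ 𝔄 → Sa a → IsPh a U → Rch M R (U * V)
  coup : ∀ M R V A B P Q c U, Rch M R V → MeasurableSet A → MeasurableSet B → A ⊆ M → B ⊆ M →
    Disjoint A B → L.IsCoup A B P Q c V U → Rch M R (U * V)

/-- the product unitary `exp(-i s [sg phi(x) + Z phi(iota (sg Om))])` on the labels of `G`, where
`sg` is a self-adjoint control with `sg^2 = E G` and `x = iota (E_G V^* Z V Om)` -/
def IsProd (G : Set ℝ) (sg : H →L[ℂ] H) (s : ℝ) (V U : H ≃ₗᵢ[ℂ] H) : Prop :=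
  ∀ x, U x = L.zr ((s : ℂ) • L.iota (sg L.Om))
      ((1 / 2 : ℂ) • (L.W (-((s : ℂ) • L.fv L.Z G V)) (L.E G x + sg x)
        + L.W ((s : ℂ) • L.fv L.Z G V) (L.E G x - sg x)))
    + (x - L.E G x)

/-- `sg` is a sign-valued control on `G` -/
def Sgn (G : Set ℝ) (𝔄 : Set (H →L[ℂ] H)) (sg : H →L[ℂ] H) : Prop :=
  sg ∈ 𝔄 ∧ Sa sg ∧ sg * sg = L.E G

/-- the conclusion of T2 (identity vertex) for one reachability predicate -/
def HasT2 (G : Set ℝ) (𝔄 : Set (H →L[ℂ] H)) (Rch : Set ℝ → Set ℝ → (H ≃ₗᵢ[ℂ] H) → Prop) :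
    Prop :=
  ∀ (M R R' : Set ℝ) (V : H ≃ₗᵢ[ℂ] H) (sg : H →L[ℂ] H) (s : ℝ),
      Rch M R V → MeasurableSet R' → R' ⊆ R → L.mu (R \ R') ≠ 0 → L.Sgn G 𝔄 sg →
      ∀ U, L.IsProd G sg s V U → Rch M R' (U * V)

/-- T2, the identity vertex -/
def T2Stmt : Prop :=
  ∀ (G : Set ℝ) (𝔄 : Set (H →L[ℂ] H)) (Rch : Set ℝ → Set ℝ → (H ≃ₗᵢ[ℂ] H) → Prop),
    MeasurableSet G → L.Ctl 𝔄 → L.Closed G 𝔄 Rch → L.HasT2 G 𝔄 Rch

/-- the control algebra generated by `𝔄` and the field `phi(y)` (closed under bounded strong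
sequential limits) -/
inductive Gen (𝔄 : Set (H →L[ℂ] H)) (y : K) : (H →L[ℂ] H) → Prop
  | base (a) : a ∈ 𝔄 → Gen 𝔄 y a
  | W (s : ℝ) : Gen 𝔄 y (L.W ((s : ℂ) • y)).toContinuousLinearEquiv.toContinuousLinearMap
  | add (a b) : Gen 𝔄 y a → Gen 𝔄 y b → Gen 𝔄 y (a + b)
  | mul (a b) : Gen 𝔄 y a → Gen 𝔄 y b → Gen 𝔄 y (a * b)
  | lim (a : ℕ → H →L[ℂ] H) (a0 : H →L[ℂ] H) (C : ℝ) : (∀ n, Gen 𝔄 y (a n)) → (∀ n, ‖a n‖ ≤ C) →
      (∀ x, Tendsto (fun n => a n x) atTop (𝓝 (a0 x))) → Gen 𝔄 y a0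

/-- the next control algebra -/
def nxt (𝔄 : Set (H →L[ℂ] H)) (y : K) : Set (H →L[ℂ] H) := {a | L.Gen 𝔄 y a}

/-- NEST0: the next control algebra is a control algebra. -/
def NestCtlStmt : Prop :=
  ∀ (𝔄 : Set (H →L[ℂ] H)) (psi : H →L[ℂ] H), L.Ctl 𝔄 → psi ∈ 𝔄 → Sa psi →
    L.Ctl (L.nxt 𝔄 (L.iota (psi L.Om)))

/-- NEST: level step. `psi = sum c_i sg_i` with sign-valued controls `sg_i`. -/
def NestStmt : Prop :=
  ∀ (G : Set ℝ) (𝔄 : Set (H →L[ℂ] H)) (Rch : Set ℝ → Set ℝ → (H ≃ₗᵢ[ℂ] H) → Prop),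
    MeasurableSet G → L.Ctl 𝔄 → L.Closed G 𝔄 Rch → L.HasT2 G 𝔄 Rch →
    ∀ (n : ℕ) (sg : Fin n → (H →L[ℂ] H)) (c : Fin n → ℝ), (∀ i, L.Sgn G 𝔄 (sg i)) →
    ∃ Rch' : Set ℝ → Set ℝ → (H ≃ₗᵢ[ℂ] H) → Prop,
      L.Closed G (L.nxt 𝔄 (L.iota ((∑ i, (c i : ℂ) • sg i) L.Om))) Rch' ∧
      (∀ M R V, Rch M R V →
        (∀ a ∈ L.nxt 𝔄 (L.iota ((∑ i, (c i : ℂ) • sg i) L.Om)), ∀ x, a (V x) = V (a x)) →
        Rch' M R V) ∧
      (∀ M R R' V, Rch' M R V → MeasurableSet R' → R' ⊆ R → L.mu (R \ R') ≠ 0 →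
        ∀ ε > 0, ∃ U, Rch M R' U ∧ ‖L.E M (L.xv U) - L.E M (L.xv V)‖ < ε)

end LSys

end Vale.Agent.P367.A
end

section

/-! P367: Fock space by exponential vectors. -/

namespace Vale.Agent.P367.NI

open Complex UniformSpace ComplexConjugate
open scoped ComplexOrder Matrix

section Fock

variable {K : Type} [NormedAddCommGroup K] [InnerProductSpace ℂ K]

lemma gram_pos : (Matrix.of fun a b : K => (inner ℂ a b : ℂ)).PosSemidef := by
  refine ⟨?_, fun x => ?_⟩
  · ext a b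
    simp [Matrix.conjTranspose_apply]
  · have h : (x.sum fun i xi => x.sum fun j xj => star xi
        * (Matrix.of fun a b : K => (inner ℂ a b : ℂ)) i j * xj)
        = inner ℂ (x.sum fun i xi => xi • i) (x.sum fun i xi => xi • i) := by
      rw [Finsupp.sum_inner]
      refine Finsupp.sum_congr fun i _ => ?_
      rw [Finsupp.inner_sum]
      refine Finsupp.sum_congr fun j _ => ?_
      simp only [Matrix.of_apply, RCLike.star_def, inner_smul_left, inner_smul_right]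
      ring
    rw [h, inner_self_eq_norm_sq_to_K]
    have : (0 : ℝ) ≤ ‖x.sum fun i xi => xi • i‖ ^ 2 := by positivity
    have h2 := Complex.zero_le_real.2 this
    simp

lemma gramPow_pos (n : ℕ) : (Matrix.of fun a b : K => (inner ℂ a b : ℂ) ^ n).PosSemidef := by
  induction n with
  | zero =>
    refine ⟨?_, fun x => ?_⟩
    · ext a b
      simp [Matrix.conjTranspose_apply]
    · have h : (x.sum fun i xi => x.sum fun j xj => star xi
          * (Matrix.of fun a b : K => (inner ℂ a b : ℂ) ^ 0) i j * xj)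
          = star (x.sum fun _ xi => xi) * (x.sum fun _ xi => xi) := by
        rw [star_finsuppSum, Finsupp.sum_mul]
        refine Finsupp.sum_congr fun i _ => ?_
        rw [Finsupp.mul_sum]
        refine Finsupp.sum_congr fun j _ => ?_
        simp
      rw [h]
      exact star_mul_self_nonneg _
  | succ n ih =>
    have h := ih.hadamard (gram_pos (K := K))
    convert! h using 1

lemma exp_pos (x : K →₀ ℂ) :
    0 ≤ RCLike.re (x.sum fun a z => x.sum fun b w => conj z * w * Complex.exp (inner ℂ a b)) := by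
  have h1 : HasSum (fun n : ℕ => x.sum fun a z => x.sum fun b w => conj z * w *
      ((n.factorial : ℂ)⁻¹ * (inner ℂ a b : ℂ) ^ n))
      (x.sum fun a z => x.sum fun b w => conj z * w * Complex.exp (inner ℂ a b)) := by
    unfold Finsupp.sum
    refine hasSum_sum fun a _ => hasSum_sum fun b _ => HasSum.mul_left _ ?_
    rw [Complex.exp_eq_exp_ℂ]
    have := NormedSpace.exp_series_hasSum_exp' (𝕂 := ℂ) (inner ℂ a b : ℂ)
    simpa [smul_eq_mul] using this
  have h2 := h1.mapL (RCLike.reCLM (K := ℂ))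
  refine h2.nonneg fun n => ?_
  have h3 := (gramPow_pos (K := K) n).2 x
  have h4 : (x.sum fun a z => x.sum fun b w => conj z * w *
      ((n.factorial : ℂ)⁻¹ * (inner ℂ a b : ℂ) ^ n))
      = ((n.factorial : ℝ)⁻¹ : ℝ) * (x.sum fun i xi => x.sum fun j xj => star xi
        * (Matrix.of fun a b : K => (inner ℂ a b : ℂ) ^ n) i j * xj) := by
    rw [Finsupp.mul_sum]
    refine Finsupp.sum_congr fun i _ => ?_
    rw [Finsupp.mul_sum]
    refine Finsupp.sum_congr fun j _ => ?_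
    simp only [Matrix.of_apply, RCLike.star_def]
    push_cast
    ring
  simp only [RCLike.reCLM_apply]
  rw [h4]
  have h5 := (RCLike.nonneg_iff.1 h3).1
  rw [show (((n.factorial : ℝ)⁻¹ : ℝ) : ℂ) = (((n.factorial : ℝ)⁻¹ : ℝ) : ℂ) from rfl]
  rw [RCLike.re_to_complex, Complex.re_ofReal_mul]
  have : 0 ≤ ((n.factorial : ℝ)⁻¹ : ℝ) := by positivity
  exact mul_nonneg this h5

/-- sesquilinear form of the exponential kernel -/
noncomputable def ip (f g : K →₀ ℂ) : ℂ :=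
  f.sum fun a z => g.sum fun b w => conj z * w * Complex.exp (inner ℂ a b)

lemma ip_conj (f g : K →₀ ℂ) : conj (ip g f) = ip f g := by
  unfold ip
  rw [map_finsuppSum]
  simp_rw [map_finsuppSum]
  rw [Finsupp.sum_comm]
  refine Finsupp.sum_congr fun i _ => Finsupp.sum_congr fun j _ => ?_
  rw [map_mul, map_mul, Complex.conj_conj, ← Complex.exp_conj, inner_conj_symm]
  ring

lemma ip_add (f g h : K →₀ ℂ) : ip (f + g) h = ip f h + ip g h := by
  unfold ip
  rw [Finsupp.sum_add_index']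
  · intro a
    simp [Finsupp.sum]
  · intro a b₁ b₂
    rw [← Finsupp.sum_add]
    refine Finsupp.sum_congr fun j _ => ?_
    rw [map_add]
    ring

lemma ip_smul (f g : K →₀ ℂ) (r : ℂ) : ip (r • f) g = conj r * ip f g := by
  unfold ip
  rw [Finsupp.sum_smul_index]
  · rw [Finsupp.mul_sum]
    refine Finsupp.sum_congr fun i _ => ?_
    rw [Finsupp.mul_sum]
    refine Finsupp.sum_congr fun j _ => ?_
    rw [map_mul]
    ring
  · intro i
    simp [Finsupp.sum]

lemma ip_single (a b : K) (z w : ℂ) : ip (Finsupp.single a z) (Finsupp.single b w)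
    = conj z * w * Complex.exp (inner ℂ a b) := by
  unfold ip
  rw [Finsupp.sum_single_index, Finsupp.sum_single_index]
  · simp
  · simp [Finsupp.sum]

variable (K) in
/-- finitely supported functions, the span of the exponential vectors -/
def EV : Type := K →₀ ℂ

namespace EV

noncomputable instance : AddCommGroup (EV K) := inferInstanceAs (AddCommGroup (K →₀ ℂ))
noncomputable instance : Module ℂ (EV K) := inferInstanceAs (Module ℂ (K →₀ ℂ))

noncomputable instance core : PreInnerProductSpace.Core ℂ (EV K) where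
  inner f g := ip f g
  conj_inner_symm f g := ip_conj f g
  add_left f g h := ip_add f g h
  smul_left f g r := ip_smul f g r
  re_inner_nonneg f := exp_pos f

noncomputable instance : SeminormedAddCommGroup (EV K) :=
  InnerProductSpace.Core.toSeminormedAddCommGroup (𝕜 := ℂ)

noncomputable instance : InnerProductSpace ℂ (EV K) := .ofCore _

/-- exponential vector times a scalar -/
noncomputable def e (a : K) (z : ℂ) : EV K := Finsupp.single a z

lemma inner_e (a b : K) (z w : ℂ) :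
    inner ℂ (e a z) (e b w) = conj z * w * Complex.exp (inner ℂ a b) := by
  exact ip_single a b z w

omit [NormedAddCommGroup K] [InnerProductSpace ℂ K] in
lemma induction {p : EV K → Prop} (f : EV K) (h0 : p 0) (hadd : ∀ f g, p f → p g → p (f + g))
    (he : ∀ a z, p (e a z)) : p f :=
  Finsupp.induction_linear f h0 hadd he

/-- multiplier -/
noncomputable def mu (c a : K) : ℂ :=
  Complex.exp (-((‖c‖ ^ 2 / 2 : ℝ) : ℂ) - inner ℂ c a)

/-- Weyl operator on the span of the exponential vectors -/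
noncomputable def W0 (c : K) : EV K →ₗ[ℂ] EV K :=
  Finsupp.lsum ℂ (fun a => (mu c a) • (Finsupp.lsingle (c + a) : ℂ →ₗ[ℂ] (K →₀ ℂ)))

lemma W0_e (c a : K) (z : ℂ) : W0 c (e a z) = e (c + a) (mu c a * z) := by
  change Finsupp.lsum ℂ (fun a => (mu c a) • (Finsupp.lsingle (c + a) : ℂ →ₗ[ℂ] (K →₀ ℂ)))
    (Finsupp.single a z) = Finsupp.single (c + a) (mu c a * z)
  rw [Finsupp.lsum_single]
  simp

lemma inner_W0 (c : K) (f g : EV K) : inner ℂ (W0 c f) (W0 c g) = (inner ℂ f g : ℂ) := by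
  induction f using EV.induction with
  | h0 => simp
  | hadd f₁ f₂ h₁ h₂ => rw [map_add, inner_add_left, inner_add_left, h₁, h₂]
  | he a z =>
    induction g using EV.induction with
    | h0 => simp
    | hadd g₁ g₂ h₁ h₂ => rw [map_add, inner_add_right, inner_add_right, h₁, h₂]
    | he b w =>
      rw [W0_e, W0_e, inner_e, inner_e, map_mul]
      unfold mu
      rw [← Complex.exp_conj]
      have h : conj (-((‖c‖ ^ 2 / 2 : ℝ) : ℂ) - inner ℂ c a)
          + (-((‖c‖ ^ 2 / 2 : ℝ) : ℂ) - inner ℂ c b) + inner ℂ (c + a) (c + b)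
          = (inner ℂ a b : ℂ) := by
        rw [map_sub, map_neg, Complex.conj_ofReal, inner_conj_symm, inner_add_left,
          inner_add_right, inner_add_right, inner_self_eq_norm_sq_to_K]
        push_cast
        simp only [Complex.coe_algebraMap]
        ring
      calc _ = conj z * w * Complex.exp (conj (-((‖c‖ ^ 2 / 2 : ℝ) : ℂ) - inner ℂ c a)
          + (-((‖c‖ ^ 2 / 2 : ℝ) : ℂ) - inner ℂ c b) + inner ℂ (c + a) (c + b)) := by
            rw [Complex.exp_add, Complex.exp_add]; ring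
        _ = _ := by rw [h]

lemma W0_neg (c : K) (f : EV K) : W0 (-c) (W0 c f) = f := by
  induction f using EV.induction with
  | h0 => simp
  | hadd f g hf hg => rw [map_add, map_add, hf, hg]
  | he a z =>
    rw [W0_e, W0_e, neg_add_cancel_left]
    unfold mu
    rw [← mul_assoc, ← Complex.exp_add]
    have h : -((‖-c‖ ^ 2 / 2 : ℝ) : ℂ) - inner ℂ (-c) (c + a)
        + (-((‖c‖ ^ 2 / 2 : ℝ) : ℂ) - inner ℂ c a) = 0 := by
      rw [norm_neg, inner_neg_left, inner_add_right, inner_self_eq_norm_sq_to_K]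
      push_cast
      simp only [Complex.coe_algebraMap]
      ring
    rw [h, Complex.exp_zero, one_mul]

lemma W0_mul (a b : K) (f : EV K) : W0 a (W0 b f)
    = Complex.exp (-(Complex.I * ((inner ℂ a b).im : ℂ))) • W0 (a + b) f := by
  induction f using EV.induction with
  | h0 => simp
  | hadd f g hf hg => rw [map_add, map_add, map_add, hf, hg, smul_add]
  | he c z =>
    rw [W0_e, W0_e, W0_e, ← add_assoc]
    have h1 : Complex.exp (-(Complex.I * ((inner ℂ a b).im : ℂ))) • e (a + b + c) (mu (a + b) c * z)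
        = e (a + b + c) (Complex.exp (-(Complex.I * ((inner ℂ a b).im : ℂ))) * (mu (a + b) c * z)) := by
      change Complex.exp (-(Complex.I * ((inner ℂ a b).im : ℂ))) • (Finsupp.single (a + b + c)
        (mu (a + b) c * z) : K →₀ ℂ) = _
      rw [Finsupp.smul_single]
      rfl
    rw [h1]
    congr 1
    unfold mu
    rw [← mul_assoc, ← mul_assoc, ← Complex.exp_add, ← Complex.exp_add]
    congr 2
    have h2 : ((‖a + b‖ ^ 2 / 2 : ℝ) : ℂ) = ((‖a‖ ^ 2 / 2 : ℝ) : ℂ) + ((‖b‖ ^ 2 / 2 : ℝ) : ℂ)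
        + ((inner ℂ a b).re : ℂ) := by
      have := @norm_add_sq ℂ K _ _ _ a b
      rw [RCLike.re_to_complex] at this
      rw [this]
      push_cast
      ring
    have h3 : (inner ℂ a b : ℂ) = ((inner ℂ a b).re : ℂ) + Complex.I * ((inner ℂ a b).im : ℂ) := by
      rw [mul_comm Complex.I]
      exact (Complex.re_add_im _).symm
    rw [h2, inner_add_left, inner_add_right]
    linear_combination -h3

/-- Weyl operator as a linear isometry equivalence -/
noncomputable def W1 (c : K) : EV K ≃ₗᵢ[ℂ] EV K where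
  toLinearEquiv := LinearEquiv.ofLinearMap (W0 c) (W0 (-c))
    (by
      ext1 f
      have := W0_neg (-c) f
      rwa [neg_neg] at this)
    (by
      ext1 f
      exact W0_neg c f)
  norm_map' f := by
    change ‖W0 c f‖ = ‖f‖
    rw [@norm_eq_sqrt_re_inner ℂ, inner_W0, ← @norm_eq_sqrt_re_inner ℂ]

end EV

end Fock

end Vale.Agent.P367.NI
end

section

/-! P367: existence of a Weyl system with the self-embedding. -/

namespace Vale.Agent.P367.NI

open Complex UniformSpace ComplexConjugate Topology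

section Comp

variable {K : Type} [NormedAddCommGroup K] [InnerProductSpace ℂ K]

variable (K) in
/-- Fock space -/
abbrev Fk : Type := UniformSpace.Completion (EV K)

/-- extension of an isometry of the pre-Hilbert space to the completion -/
noncomputable def extI (A : EV K ≃ₗᵢ[ℂ] EV K) : Fk K ≃ₗᵢ[ℂ] Fk K where
  toLinearEquiv := LinearEquiv.ofLinearMap
    (A.toContinuousLinearEquiv : EV K →L[ℂ] EV K).completion.toLinearMap
    (A.symm.toContinuousLinearEquiv : EV K →L[ℂ] EV K).completion.toLinearMap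
    (by
      ext1 x
      change (A.toContinuousLinearEquiv : EV K →L[ℂ] EV K).completion
        ((A.symm.toContinuousLinearEquiv : EV K →L[ℂ] EV K).completion x) = x
      induction x using UniformSpace.Completion.induction_on with
      | hp => exact isClosed_eq (by fun_prop) (by fun_prop)
      | ih x => simp)
    (by
      ext1 x
      change (A.symm.toContinuousLinearEquiv : EV K →L[ℂ] EV K).completion
        ((A.toContinuousLinearEquiv : EV K →L[ℂ] EV K).completion x) = x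
      induction x using UniformSpace.Completion.induction_on with
      | hp => exact isClosed_eq (by fun_prop) (by fun_prop)
      | ih x => simp)
  norm_map' x := by
    change ‖(A.toContinuousLinearEquiv : EV K →L[ℂ] EV K).completion x‖ = ‖x‖
    induction x using UniformSpace.Completion.induction_on with
    | hp => exact isClosed_eq (by fun_prop) (by fun_prop)
    | ih x => simp

@[simp] lemma extI_coe (A : EV K ≃ₗᵢ[ℂ] EV K) (x : EV K) :
    extI A (x : Fk K) = ((A x : EV K) : Fk K) := by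
  change (A.toContinuousLinearEquiv : EV K →L[ℂ] EV K).completion (x : Fk K) = _
  simp

/-- Weyl operators on Fock space -/
noncomputable def WF (c : K) : Fk K ≃ₗᵢ[ℂ] Fk K := extI (EV.W1 c)

lemma WF_mul (a b : K) (x : Fk K) : WF a (WF b x)
    = Complex.exp (-(Complex.I * ((inner ℂ a b).im : ℂ))) • WF (a + b) x := by
  induction x using UniformSpace.Completion.induction_on with
  | hp =>
    exact isClosed_eq ((WF a).continuous.comp (WF b).continuous)
      ((continuous_const_smul _).comp (WF (a + b)).continuous)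
  | ih x =>
    have h := EV.W0_mul a b x
    have h1 : ∀ (c : K) (y : EV K), WF c (y : Fk K) = ((EV.W0 c y : EV K) : Fk K) :=
      fun c y => extI_coe _ _
    rw [h1, h1, h1, h, UniformSpace.Completion.coe_smul]

/-- exponential vectors in Fock space -/
noncomputable def ef (a : K) : Fk K := ((EV.e a 1 : EV K) : Fk K)

lemma inner_ef (a b : K) : inner ℂ (ef a) (ef b) = Complex.exp (inner ℂ a b) := by
  unfold ef
  rw [UniformSpace.Completion.inner_coe, EV.inner_e]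
  simp

lemma WF_vac (a : K) : inner ℂ (ef (0 : K)) (WF a (ef 0))
    = Complex.exp (-((‖a‖ ^ 2 / 2 : ℝ) : ℂ)) := by
  have h1 : ∀ (c : K) (y : EV K), WF c (y : Fk K) = ((EV.W0 c y : EV K) : Fk K) :=
    fun c y => extI_coe _ _
  unfold ef
  rw [h1, UniformSpace.Completion.inner_coe, EV.W0_e, EV.inner_e]
  unfold EV.mu
  simp

lemma continuous_ef : Continuous (ef : K → Fk K) := by
  rw [continuous_iff_continuousAt]
  intro a
  rw [ContinuousAt, tendsto_iff_norm_sub_tendsto_zero]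
  have h : ∀ b : K, ‖ef b - ef a‖ = Real.sqrt (RCLike.re (Complex.exp (inner ℂ b b)
      - Complex.exp (inner ℂ b a) - Complex.exp (inner ℂ a b) + Complex.exp (inner ℂ a a))) := by
    intro b
    rw [@norm_eq_sqrt_re_inner ℂ]
    congr 2
    rw [inner_sub_left, inner_sub_right, inner_sub_right, inner_ef, inner_ef, inner_ef, inner_ef]
    ring
  simp_rw [h]
  have h2 : Filter.Tendsto (fun b : K => Real.sqrt (RCLike.re (Complex.exp (inner ℂ b b)
      - Complex.exp (inner ℂ b a) - Complex.exp (inner ℂ a b) + Complex.exp (inner ℂ a a))))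
      (𝓝 a) (𝓝 (Real.sqrt (RCLike.re (Complex.exp (inner ℂ a a)
      - Complex.exp (inner ℂ a a) - Complex.exp (inner ℂ a a) + Complex.exp (inner ℂ a a))))) := by
    have hc : Continuous (fun b : K => Real.sqrt (RCLike.re (Complex.exp (inner ℂ b b)
      - Complex.exp (inner ℂ b a) - Complex.exp (inner ℂ a b) + Complex.exp (inner ℂ a a)))) := by
      refine Real.continuous_sqrt.comp (RCLike.continuous_re.comp ?_)
      have h1 : Continuous fun b : K => (inner ℂ b b : ℂ) := continuous_id.inner continuous_id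
      have h2 : Continuous fun b : K => (inner ℂ b a : ℂ) := continuous_id.inner continuous_const
      have h3 : Continuous fun b : K => (inner ℂ a b : ℂ) := continuous_const.inner continuous_id
      fun_prop
    exact hc.tendsto a
  have h3 : Real.sqrt (RCLike.re (Complex.exp (inner ℂ a a)
      - Complex.exp (inner ℂ a a) - Complex.exp (inner ℂ a a) + Complex.exp (inner ℂ a a))) = 0 := by
    rw [show (Complex.exp (inner ℂ a a)
      - Complex.exp (inner ℂ a a) - Complex.exp (inner ℂ a a) + Complex.exp (inner ℂ a a)) = 0 by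
        ring]
    simp
  rwa [h3] at h2

lemma e_eq_smul (a : K) (z : ℂ) : ((EV.e a z : EV K) : Fk K) = z • ef a := by
  unfold ef
  rw [← UniformSpace.Completion.coe_smul]
  congr 1
  change (Finsupp.single a z : K →₀ ℂ) = z • (Finsupp.single a 1 : K →₀ ℂ)
  rw [Finsupp.smul_single, smul_eq_mul, mul_one]

lemma coe_mem_span (x : EV K) : (x : Fk K) ∈ Submodule.span ℂ (Set.range (ef : K → Fk K)) := by
  induction x using EV.induction with
  | h0 =>
    rw [UniformSpace.Completion.coe_zero]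
    exact zero_mem _
  | hadd f g hf hg =>
    rw [UniformSpace.Completion.coe_add]
    exact add_mem hf hg
  | he a z =>
    rw [e_eq_smul]
    exact Submodule.smul_mem _ _ (Submodule.subset_span ⟨a, rfl⟩)

instance sepFk [TopologicalSpace.SeparableSpace K] : TopologicalSpace.SeparableSpace (Fk K) := by
  rw [← TopologicalSpace.isSeparable_univ_iff]
  have h1 : TopologicalSpace.IsSeparable (Set.range (ef : K → Fk K)) :=
    TopologicalSpace.isSeparable_range continuous_ef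
  have h2 : TopologicalSpace.IsSeparable
      ((Submodule.span ℂ (Set.range (ef : K → Fk K)) : Submodule ℂ (Fk K)) : Set (Fk K)) :=
    h1.span
  refine h2.closure.mono fun x _ => ?_
  have h3 := UniformSpace.Completion.denseRange_coe (α := EV K) x
  refine closure_mono ?_ h3
  rintro _ ⟨y, rfl⟩
  exact coe_mem_span y

end Comp

section Iota

/-- the one-particle space -/
abbrev L2N : Type := lp (fun _ : ℕ => ℂ) 2

lemma sep_of_basis {E : Type} [NormedAddCommGroup E] [InnerProductSpace ℂ E] {ι : Type}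
    [Countable ι] (b : HilbertBasis ι ℂ E) : TopologicalSpace.SeparableSpace E := by
  rw [← TopologicalSpace.isSeparable_univ_iff]
  have h1 : TopologicalSpace.IsSeparable (Set.range b) :=
    (Set.countable_range b).isSeparable
  have h2 : TopologicalSpace.IsSeparable
      ((Submodule.span ℂ (Set.range b) : Submodule ℂ E) : Set E) := h1.span
  refine h2.closure.mono fun x _ => ?_
  have h3 := b.dense_span
  have h4 : x ∈ (Submodule.span ℂ (Set.range b)).topologicalClosure := by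
    rw [h3]; trivial
  exact h4

lemma countable_of_basis {E : Type} [NormedAddCommGroup E] [InnerProductSpace ℂ E]
    [TopologicalSpace.SeparableSpace E] {ι : Type} (b : HilbertBasis ι ℂ E) : Countable ι := by
  have h1 : Set.PairwiseDisjoint (Set.univ : Set ι) fun i => Metric.ball (b i) (1 / 2) := by
    intro i _ j _ hij
    refine Metric.ball_disjoint_ball ?_
    have h2 : ‖b i - b j‖ ^ 2 = 2 := by
      rw [@norm_sub_sq ℂ, b.orthonormal.1 i, b.orthonormal.1 j, b.orthonormal.2 hij]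
      norm_num
    rw [dist_eq_norm]
    nlinarith [norm_nonneg (b i - b j)]
  have h3 := h1.countable_of_isOpen (fun i _ => Metric.isOpen_ball)
    (fun i _ => ⟨b i, Metric.mem_ball_self (by norm_num)⟩)
  exact Set.countable_univ_iff.1 h3

instance : TopologicalSpace.SeparableSpace L2N :=
  sep_of_basis (HilbertBasis.ofRepr (LinearIsometryEquiv.refl ℂ L2N) : HilbertBasis ℕ ℂ L2N)

/-- shifted unit vectors -/
noncomputable def unitv (i : ℕ) : L2N := lp.single 2 i (1 : ℂ)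

lemma inner_unitv (i j : ℕ) : inner ℂ (unitv i) (unitv j) = if i = j then (1 : ℂ) else 0 := by
  unfold unitv
  rw [lp.inner_single_left]
  by_cases h : i = j
  · subst h
    simp
  · rw [if_neg h]
    simp [lp.single_apply, h]

lemma exists_iota (E : Type) [NormedAddCommGroup E] [InnerProductSpace ℂ E] [CompleteSpace E]
    [TopologicalSpace.SeparableSpace E] :
    ∃ T : E →ₗᵢ[ℂ] L2N, ∀ x, inner ℂ (unitv 0) (T x) = 0 := by
  classical
  obtain ⟨w, b, -⟩ := exists_hilbertBasis ℂ E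
  have : Countable w := countable_of_basis b
  obtain ⟨f, hf⟩ := exists_injective_nat w
  have ho : Orthonormal ℂ (fun i : w => unitv (f i + 1)) := by
    rw [orthonormal_iff_ite]
    intro i j
    rw [inner_unitv]
    by_cases h : i = j
    · subst h; simp
    · rw [if_neg h, if_neg]
      intro h'
      exact h (hf (by omega))
  refine ⟨ho.orthogonalFamily.linearIsometry.comp b.repr.toLinearIsometry, fun x => ?_⟩
  have h1 := ho.orthogonalFamily.hasSum_linearIsometry (b.repr x)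
  have h2 := h1.mapL (innerSL ℂ (unitv 0))
  have h3 : (fun i : w => (innerSL ℂ (unitv 0)) ((LinearIsometry.toSpanSingleton ℂ L2N
      (ho.1 i)) ((b.repr x : lp (fun _ : w => ℂ) 2) i))) = fun _ => 0 := by
    funext i
    rw [innerSL_apply_apply, LinearIsometry.toSpanSingleton_apply, inner_smul_right, inner_unitv,
      if_neg (by omega), mul_zero]
  change inner ℂ (unitv 0) (ho.orthogonalFamily.linearIsometry (b.repr x)) = 0
  have h5 : HasSum (fun _ : w => (0 : ℂ)) 0 := hasSum_zero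
  rw [← h3] at h5
  exact h2.unique h5

/-- the Fock space over `l2` -/
abbrev FN : Type := Fk L2N

instance : TopologicalSpace.SeparableSpace (HH FN) := by
  have h : Function.Surjective (WithLp.toLp 2 : FN × FN → HH FN) := fun x => ⟨x.ofLp, rfl⟩
  exact h.denseRange.separableSpace (WithLp.prod_continuous_toLp 2 FN FN)

/-- Existence of a Weyl system with complete spaces. -/
theorem exists_weyl : Nonempty (Weyl FN L2N) := by
  obtain ⟨T, hT⟩ := exists_iota (HH FN)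
  exact ⟨{
    W := WF
    Om := ef 0
    W_mul := WF_mul
    vac := WF_vac
    iota := T
    e0 := unitv 0
    norm_e0 := by
      have h := inner_unitv 0 0
      rw [if_pos rfl, inner_self_eq_norm_sq_to_K] at h
      have h2 : ‖unitv 0‖ ^ 2 = 1 := by
        have h3 := congrArg Complex.re h
        simpa [← Complex.ofReal_pow] using h3
      nlinarith [norm_nonneg (unitv 0)]
    e0_perp := hT }⟩

end Iota

end Vale.Agent.P367.NI
end

section

/-!
# P367: analytic dependence of the one-site model on the angles, removal of the alignment condition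
-/

namespace Vale.Agent.P367.NI

open Complex Set Filter Topology

/-! ### Analytic functions on the line -/

/-- real-analytic complex functions on the line -/
def An (f : ℝ → ℂ) : Prop := AnalyticOnNhd ℝ f univ

/-- real-analytic real functions on the line -/
def AnR (f : ℝ → ℝ) : Prop := AnalyticOnNhd ℝ f univ

lemma An.const (c : ℂ) : An (fun _ => c) := analyticOnNhd_const

lemma An.add {f g : ℝ → ℂ} (hf : An f) (hg : An g) : An (fun t => f t + g t) :=
  AnalyticOnNhd.add hf hg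

lemma An.mul {f g : ℝ → ℂ} (hf : An f) (hg : An g) : An (fun t => f t * g t) :=
  AnalyticOnNhd.mul hf hg

lemma An.neg {f : ℝ → ℂ} (hf : An f) : An (fun t => -f t) := AnalyticOnNhd.neg hf

lemma An.conj {f : ℝ → ℂ} (hf : An f) : An (fun t => (starRingEnd ℂ) (f t)) := by
  have h := (Complex.conjCLE : ℂ ≃L[ℝ] ℂ).toContinuousLinearMap.analyticOnNhd univ
  exact h.comp hf (fun _ _ => mem_univ _)

lemma An.cexp {f : ℝ → ℂ} (hf : An f) : An (fun t => Complex.exp (f t)) := by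
  intro t ht
  have h1 : AnalyticAt ℝ Complex.exp (f t) := (analyticAt_cexp (z := f t)).restrictScalars
  exact h1.fun_comp (hf t ht)

lemma AnR.ofReal {f : ℝ → ℝ} (hf : AnR f) : An (fun t => (f t : ℂ)) := by
  have h := Complex.ofRealCLM.analyticOnNhd univ
  exact h.comp hf (fun _ _ => mem_univ _)

lemma An.im {f : ℝ → ℂ} (hf : An f) : AnR (fun t => (f t).im) := by
  have h := Complex.imCLM.analyticOnNhd univ
  exact h.comp hf (fun _ _ => mem_univ _)

lemma An.re {f : ℝ → ℂ} (hf : An f) : AnR (fun t => (f t).re) := by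
  have h := Complex.reCLM.analyticOnNhd univ
  exact h.comp hf (fun _ _ => mem_univ _)

lemma AnR.const (c : ℝ) : AnR (fun _ => c) := analyticOnNhd_const

lemma AnR.add {f g : ℝ → ℝ} (hf : AnR f) (hg : AnR g) : AnR (fun t => f t + g t) :=
  AnalyticOnNhd.add hf hg

lemma AnR.mul {f g : ℝ → ℝ} (hf : AnR f) (hg : AnR g) : AnR (fun t => f t * g t) :=
  AnalyticOnNhd.mul hf hg

lemma AnR.neg {f : ℝ → ℝ} (hf : AnR f) : AnR (fun t => -f t) := AnalyticOnNhd.neg hf

lemma AnR.cos {f : ℝ → ℝ} (hf : AnR f) : AnR (fun t => Real.cos (f t)) := by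
  intro t ht
  exact Real.analyticAt_cos.fun_comp (hf t ht)

lemma AnR.sin {f : ℝ → ℝ} (hf : AnR f) : AnR (fun t => Real.sin (f t)) := by
  intro t ht
  exact Real.analyticAt_sin.fun_comp (hf t ht)

lemma AnR.id : AnR (fun t => t) := analyticOnNhd_id

/-! ### Families of vectors -/

variable {F K : Type} [NormedAddCommGroup F] [InnerProductSpace ℂ F]
  [NormedAddCommGroup K] [InnerProductSpace ℂ K]

/-- combinations of the families of `𝒢` with analytic coefficients -/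
inductive KF (𝒢 : Set (ℝ → K)) : (ℝ → K) → Prop
  | zero : KF 𝒢 (fun _ => 0)
  | gen {g : ℝ → K} : g ∈ 𝒢 → KF 𝒢 g
  | add {a b : ℝ → K} : KF 𝒢 a → KF 𝒢 b → KF 𝒢 (fun t => a t + b t)
  | smul {c : ℝ → ℂ} {a : ℝ → K} : An c → KF 𝒢 a → KF 𝒢 (fun t => c t • a t)

/-- families with analytic inner products -/
def GS (𝒢 : Set (ℝ → K)) : Prop := ∀ a ∈ 𝒢, ∀ b ∈ 𝒢, An (fun t => inner ℂ (a t) (b t))

lemma KF.mono {𝒢 𝒢' : Set (ℝ → K)} (h : 𝒢 ⊆ 𝒢') {a : ℝ → K} (ha : KF 𝒢 a) : KF 𝒢' a := by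
  induction ha with
  | zero => exact KF.zero
  | gen hg => exact KF.gen (h hg)
  | add _ _ h1 h2 => exact KF.add h1 h2
  | smul hc _ h1 => exact KF.smul hc h1

lemma KF.inner {𝒢 : Set (ℝ → K)} (h : GS 𝒢) {a b : ℝ → K} (ha : KF 𝒢 a) (hb : KF 𝒢 b) :
    An (fun t => inner ℂ (a t) (b t)) := by
  induction ha with
  | zero => simpa using An.const 0
  | gen hg =>
    induction hb with
    | zero => simpa using An.const 0
    | gen hg' => exact h _ hg _ hg'
    | add _ _ h1 h2 =>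
      simp only [inner_add_right]
      exact h1.add h2
    | smul hc _ h1 =>
      simp only [inner_smul_right]
      exact hc.mul h1
  | add _ _ h1 h2 =>
    simp only [inner_add_left]
    exact h1.add h2
  | smul hc _ h1 =>
    simp only [inner_smul_left]
    exact hc.conj.mul h1

lemma KF.neg {𝒢 : Set (ℝ → K)} {a : ℝ → K} (ha : KF 𝒢 a) : KF 𝒢 (fun t => -a t) := by
  have h := KF.smul (An.const (-1)) ha
  simpa using h

lemma KF.sub {𝒢 : Set (ℝ → K)} {a b : ℝ → K} (ha : KF 𝒢 a) (hb : KF 𝒢 b) :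
    KF 𝒢 (fun t => a t - b t) := by
  simpa only [sub_eq_add_neg] using ha.add hb.neg

namespace Weyl

variable (S : Weyl F K)

lemma W_zero (x : F) : S.W 0 x = x := by
  have h := S.W_mul 0 0 x
  rw [inner_zero_left, zero_im, ofReal_zero, mul_zero, neg_zero, Complex.exp_zero, one_smul,
    add_zero] at h
  exact (S.W 0).injective h

lemma W_neg_W (a : K) (x : F) : S.W (-a) (S.W a x) = x := by
  rw [S.W_mul, neg_add_cancel, W_zero, inner_neg_left]
  have h : (-(inner ℂ a a : ℂ)).im = 0 := by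
    have := inner_self_im (𝕜 := ℂ) a
    rw [neg_im]
    rw [neg_eq_zero]
    exact this
  rw [h, ofReal_zero, mul_zero, neg_zero, Complex.exp_zero, one_smul]

lemma W_symm (a : K) (x : F) : (S.W a).symm x = S.W (-a) x := by
  rw [LinearIsometryEquiv.symm_apply_eq]
  have h := S.W_neg_W (-a) x
  rw [neg_neg] at h
  exact h.symm

lemma inner_W (a b : K) : inner ℂ (S.W a S.Om) (S.W b S.Om) =
    Complex.exp (Complex.I * ((inner ℂ a b : ℂ).im : ℂ)) *
      Complex.exp (-((‖b - a‖ ^ 2 / 2 : ℝ) : ℂ)) := by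
  have h1 : inner ℂ (S.W a S.Om) (S.W b S.Om) = inner ℂ S.Om ((S.W a).symm (S.W b S.Om)) := by
    rw [LinearIsometryEquiv.inner_map_eq_flip]
  rw [h1, W_symm, S.W_mul, inner_smul_right, neg_add_eq_sub, S.vac, inner_neg_left, neg_im]
  congr 2
  push_cast
  ring

end Weyl

variable (S : Weyl F K)

/-- families of vectors of the one-site space: combinations of coherent vectors -/
inductive HF (𝒢 : Set (ℝ → K)) : (ℝ → HH F) → Prop
  | zero : HF 𝒢 (fun _ => 0)
  | fst {a : ℝ → K} : KF 𝒢 a → HF 𝒢 (fun t => WithLp.toLp 2 (S.W (a t) S.Om, 0))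
  | snd {a : ℝ → K} : KF 𝒢 a → HF 𝒢 (fun t => WithLp.toLp 2 (0, S.W (a t) S.Om))
  | add {x y : ℝ → HH F} : HF 𝒢 x → HF 𝒢 y → HF 𝒢 (fun t => x t + y t)
  | smul {c : ℝ → ℂ} {x : ℝ → HH F} : An c → HF 𝒢 x → HF 𝒢 (fun t => c t • x t)

variable {S}

lemma HF.mono {𝒢 𝒢' : Set (ℝ → K)} (h : 𝒢 ⊆ 𝒢') {x : ℝ → HH F} (hx : HF S 𝒢 x) :
    HF S 𝒢' x := by
  induction hx with
  | zero => exact HF.zero
  | fst ha => exact HF.fst (ha.mono h)
  | snd ha => exact HF.snd (ha.mono h)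
  | add _ _ h1 h2 => exact HF.add h1 h2
  | smul hc _ h1 => exact HF.smul hc h1

lemma an_inner_W {𝒢 : Set (ℝ → K)} (h : GS 𝒢) {a b : ℝ → K} (ha : KF 𝒢 a) (hb : KF 𝒢 b) :
    An (fun t => inner ℂ (S.W (a t) S.Om) (S.W (b t) S.Om)) := by
  simp only [Weyl.inner_W]
  refine An.mul (An.cexp ((An.const I).mul (AnR.ofReal (An.im (ha.inner h hb))))) ?_
  refine An.cexp (An.neg ?_)
  have h1 := (hb.sub ha).inner h (hb.sub ha)
  have h2 : (fun t => ((‖b t - a t‖ ^ 2 / 2 : ℝ) : ℂ)) =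
      fun t => inner ℂ (b t - a t) (b t - a t) * (1 / 2 : ℂ) := by
    funext t
    rw [inner_self_eq_norm_sq_to_K]
    push_cast
    simp only [coe_algebraMap]
    ring
  rw [h2]
  exact h1.mul (An.const _)

lemma inner_ff (u v : F) : inner ℂ (WithLp.toLp 2 (u, 0) : HH F) (WithLp.toLp 2 (v, 0)) =
    inner ℂ u v := by
  rw [inner_HH]
  change inner ℂ u v + inner ℂ (0 : F) (0 : F) = _
  rw [inner_zero_left, add_zero]

lemma inner_fs (u v : F) : inner ℂ (WithLp.toLp 2 (u, 0) : HH F) (WithLp.toLp 2 (0, v)) = 0 := by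
  rw [inner_HH]
  change inner ℂ u (0 : F) + inner ℂ (0 : F) v = _
  rw [inner_zero_left, inner_zero_right, add_zero]

lemma inner_sf (u v : F) : inner ℂ (WithLp.toLp 2 (0, u) : HH F) (WithLp.toLp 2 (v, 0)) = 0 := by
  rw [inner_HH]
  change inner ℂ (0 : F) v + inner ℂ u (0 : F) = _
  rw [inner_zero_left, inner_zero_right, add_zero]

lemma inner_ss (u v : F) : inner ℂ (WithLp.toLp 2 (0, u) : HH F) (WithLp.toLp 2 (0, v)) =
    inner ℂ u v := by
  rw [inner_HH]
  change inner ℂ (0 : F) (0 : F) + inner ℂ u v = _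
  rw [inner_zero_left, zero_add]

lemma HF.inner {𝒢 : Set (ℝ → K)} (h : GS 𝒢) {x y : ℝ → HH F} (hx : HF S 𝒢 x)
    (hy : HF S 𝒢 y) : An (fun t => inner ℂ (x t) (y t)) := by
  induction hx with
  | zero => simpa using An.const 0
  | fst ha =>
    induction hy with
    | zero => simpa using An.const 0
    | fst hb =>
      simp only [inner_ff]
      exact an_inner_W h ha hb
    | snd hb =>
      simp only [inner_fs]
      exact An.const 0
    | add _ _ h1 h2 =>
      simp only [inner_add_right]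
      exact h1.add h2
    | smul hc _ h1 =>
      simp only [inner_smul_right]
      exact hc.mul h1
  | snd ha =>
    induction hy with
    | zero => simpa using An.const 0
    | fst hb =>
      simp only [inner_sf]
      exact An.const 0
    | snd hb =>
      simp only [inner_ss]
      exact an_inner_W h ha hb
    | add _ _ h1 h2 =>
      simp only [inner_add_right]
      exact h1.add h2
    | smul hc _ h1 =>
      simp only [inner_smul_right]
      exact hc.mul h1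
  | add _ _ h1 h2 =>
    simp only [inner_add_left]
    exact h1.add h2
  | smul hc _ h1 =>
    simp only [inner_smul_left]
    exact hc.conj.mul h1

/-! ### The gates preserve the families -/

lemma HF.xr {𝒢 : Set (ℝ → K)} {b : ℝ → ℝ} (hb : AnR b) {x : ℝ → HH F} (hx : HF S 𝒢 x) :
    HF S 𝒢 (fun t => NI.xr (b t) (x t)) := by
  have hc := hb.cos.ofReal
  have hs := ((An.const I).mul hb.sin.ofReal).neg
  induction hx with
  | zero => simpa using HF.zero
  | fst ha =>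
    have h := (HF.smul hc (HF.fst (S := S) ha)).add (HF.smul hs (HF.snd ha))
    convert h using 2 with t
    apply (WithLp.equiv 2 (F × F)).injective
    refine Prod.ext ?_ ?_
    · simp [NI.xr]
    · simp [NI.xr]
  | snd ha =>
    have h := (HF.smul hs (HF.fst (S := S) ha)).add (HF.smul hc (HF.snd ha))
    convert h using 2 with t
    apply (WithLp.equiv 2 (F × F)).injective
    refine Prod.ext ?_ ?_
    · simp [NI.xr]
    · simp [NI.xr]
  | add _ _ h1 h2 =>
    simp only [map_add]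
    exact h1.add h2
  | smul hc _ h1 =>
    simp only [map_smul]
    exact HF.smul hc h1

lemma xr_symm (b : ℝ) (x : HH F) : (NI.xr b).symm x = NI.xr (-b) x := by
  change WithLp.toLp 2 ((Real.cos b : ℂ) • x.fst + (Complex.I * (Real.sin b : ℂ)) • x.snd,
    (Complex.I * (Real.sin b : ℂ)) • x.fst + (Real.cos b : ℂ) • x.snd) =
    WithLp.toLp 2 ((Real.cos (-b) : ℂ) • x.fst - (Complex.I * (Real.sin (-b) : ℂ)) • x.snd,
    -((Complex.I * (Real.sin (-b) : ℂ)) • x.fst) + (Real.cos (-b) : ℂ) • x.snd)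
  rw [Real.cos_neg, Real.sin_neg]
  push_cast
  simp only [mul_neg, neg_smul, sub_neg_eq_add, neg_neg]

lemma HF.xr_symm {𝒢 : Set (ℝ → K)} {b : ℝ → ℝ} (hb : AnR b) {x : ℝ → HH F} (hx : HF S 𝒢 x) :
    HF S 𝒢 (fun t => (NI.xr (b t)).symm (x t)) := by
  simp only [NI.xr_symm]
  exact HF.xr hb.neg hx

lemma zr_symm (v : K) (x : HH F) : (S.zr v).symm x = S.zr (-v) x := by
  apply (WithLp.equiv 2 (F × F)).injective
  refine Prod.ext ?_ ?_
  · change (S.W (-v)).symm x.fst = S.W (- -v) x.fst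
    rw [Weyl.W_symm]
  · change (S.W v).symm x.snd = S.W (-v) x.snd
    rw [Weyl.W_symm]

lemma KF.phase {𝒢 : Set (ℝ → K)} (h : GS 𝒢) {v a : ℝ → K} (hv : KF 𝒢 v) (ha : KF 𝒢 a) :
    An (fun t => Complex.exp (-(Complex.I * ((Inner.inner ℂ (v t) (a t) : ℂ).im : ℂ)))) :=
  An.cexp (((An.const I).mul (AnR.ofReal (An.im (hv.inner h ha)))).neg)

lemma HF.zr {𝒢 : Set (ℝ → K)} (h : GS 𝒢) {v : ℝ → K} (hv : KF 𝒢 v) {x : ℝ → HH F}
    (hx : HF S 𝒢 x) : HF S 𝒢 (fun t => S.zr (v t) (x t)) := by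
  induction hx with
  | zero => simpa using HF.zero
  | fst ha =>
    have h1 := HF.smul (KF.phase h hv.neg ha) (HF.fst (S := S) (hv.neg.add ha))
    convert h1 using 2 with t
    apply (WithLp.equiv 2 (F × F)).injective
    refine Prod.ext ?_ ?_
    · exact S.W_mul _ _ _
    · change S.W (v t) 0 = _ • (0 : F)
      rw [map_zero, smul_zero]
  | snd ha =>
    have h1 := HF.smul (KF.phase h hv ha) (HF.snd (S := S) (hv.add ha))
    convert h1 using 2 with t
    apply (WithLp.equiv 2 (F × F)).injective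
    refine Prod.ext ?_ ?_
    · change S.W (-v t) 0 = _ • (0 : F)
      rw [map_zero, smul_zero]
    · exact S.W_mul _ _ _
  | add _ _ h1 h2 =>
    simp only [map_add]
    exact h1.add h2
  | smul hc _ h1 =>
    simp only [map_smul]
    exact HF.smul hc h1

lemma HF.zr_symm {𝒢 : Set (ℝ → K)} (h : GS 𝒢) {v : ℝ → K} (hv : KF 𝒢 v) {x : ℝ → HH F}
    (hx : HF S 𝒢 x) : HF S 𝒢 (fun t => (S.zr (v t)).symm (x t)) := by
  simp only [NI.zr_symm]
  exact HF.zr h hv.neg hx

lemma HF.zop {𝒢 : Set (ℝ → K)} {x : ℝ → HH F} (hx : HF S 𝒢 x) :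
    HF S 𝒢 (fun t => NI.zop F (x t)) := by
  induction hx with
  | zero => simpa using HF.zero
  | fst ha =>
    convert HF.fst (S := S) ha using 2 with t
    apply (WithLp.equiv 2 (F × F)).injective
    refine Prod.ext rfl ?_
    change -(0 : F) = 0
    exact neg_zero
  | snd ha =>
    have h1 := HF.smul (An.const (-1)) (HF.snd (S := S) ha)
    convert h1 using 2 with t
    apply (WithLp.equiv 2 (F × F)).injective
    refine Prod.ext ?_ ?_
    · change (0 : F) = (-1 : ℂ) • (0 : F)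
      rw [smul_zero]
    · change -(S.W _ S.Om) = (-1 : ℂ) • (S.W _ S.Om)
      rw [neg_one_smul]
  | add _ _ h1 h2 =>
    simp only [map_add]
    exact h1.add h2
  | smul hc _ h1 =>
    simp only [map_smul]
    exact HF.smul hc h1

lemma HF.omH (𝒢 : Set (ℝ → K)) : HF S 𝒢 (fun _ => S.OmH) := by
  have h1 := (HF.smul (An.const (((Real.sqrt 2)⁻¹ : ℝ) : ℂ)) (HF.fst (S := S) (KF.zero (𝒢 := 𝒢)))).add
    (HF.smul (An.const (((Real.sqrt 2)⁻¹ : ℝ) : ℂ)) (HF.snd (S := S) (KF.zero (𝒢 := 𝒢))))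
  convert h1 using 2 with t
  apply (WithLp.equiv 2 (F × F)).injective
  refine Prod.ext ?_ ?_
  · change (((Real.sqrt 2)⁻¹ : ℝ) : ℂ) • S.Om = (((Real.sqrt 2)⁻¹ : ℝ) : ℂ) • S.W 0 S.Om +
      (((Real.sqrt 2)⁻¹ : ℝ) : ℂ) • (0 : F)
    rw [S.W_zero, smul_zero, add_zero]
  · change (((Real.sqrt 2)⁻¹ : ℝ) : ℂ) • S.Om = (((Real.sqrt 2)⁻¹ : ℝ) : ℂ) • (0 : F) +
      (((Real.sqrt 2)⁻¹ : ℝ) : ℂ) • S.W 0 S.Om
    rw [S.W_zero, smul_zero, zero_add]

/-! ### Words with analytic angles -/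

/-- gates with variable angles -/
inductive FG : Type
  | B (b : ℝ → ℝ) : FG
  | C (g : ℝ → ℝ) : FG
  | G (k : ℝ → ℝ) : FG

/-- the gate at the parameter `t` -/
def FG.at (t : ℝ) : FG → Gate
  | FG.B b => Gate.B (b t)
  | FG.C g => Gate.C (g t)
  | FG.G k => Gate.G (k t)

/-- the angle is analytic -/
def FG.ok : FG → Prop
  | FG.B b => AnR b
  | FG.C g => AnR g
  | FG.G k => AnR k

/-- the word at the parameter `t` -/
def wat (w : List FG) (t : ℝ) : List Gate := w.map (FG.at t)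

/-- the field vector of a family of words -/
noncomputable def XS (S : Weyl F K) (w : List FG) (t : ℝ) : HH F := S.xv (S.ev (wat w t))

/-- the families generated by a word -/
def GW (S : Weyl F K) : List FG → Set (ℝ → K)
  | [] => {fun _ => S.e0}
  | _ :: w => insert (fun t => S.iota (XS S w t)) (GW S w)

lemma gw_mem_e0 (w : List FG) : (fun _ : ℝ => S.e0) ∈ GW S w := by
  induction w with
  | nil => exact rfl
  | cons a w ih => exact Or.inr ih

/-- a word preserves the families which contain its generators -/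
def Pres (S : Weyl F K) (w : List FG) : Prop := ∀ 𝒢 : Set (ℝ → K), GW S w ⊆ 𝒢 → GS 𝒢 →
  ∀ x : ℝ → HH F, HF S 𝒢 x → HF S 𝒢 (fun t => S.ev (wat w t) (x t)) ∧
    HF S 𝒢 (fun t => (S.ev (wat w t)).symm (x t))

/-- the families of a word are combinations -/
def Rep (S : Weyl F K) (w : List FG) : Prop := ∀ a ∈ GW S w, a = (fun _ => S.e0) ∨
  ∃ y : ℝ → HH F, HF S (GW S w) y ∧ a = fun t => S.iota (y t)

lemma main_word (w : List FG) (hw : ∀ g ∈ w, FG.ok g) :
    GS (GW S w) ∧ Pres S w ∧ Rep S w ∧ HF S (GW S w) (XS S w) := by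
  induction w with
  | nil =>
    have hP : Pres S [] := fun 𝒢 _ _ x hx => ⟨hx, hx⟩
    have hG : GS (GW S []) := by
      rintro a (rfl : a = _) b (rfl : b = _)
      exact An.const _
    refine ⟨hG, hP, ?_, ?_⟩
    · rintro a (rfl : a = _)
      exact Or.inl rfl
    · exact (HF.omH _).zop
  | cons g w ih =>
    obtain ⟨hG, hP, hR, hX⟩ := ih fun a ha => hw a (List.mem_cons_of_mem _ ha)
    have hg := hw g List.mem_cons_self
    have hsub : GW S w ⊆ GW S (g :: w) := subset_insert _ _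
    have hG' : GS (GW S (g :: w)) := by
      have key : ∀ a ∈ GW S w, An (fun t => inner ℂ (a t) (S.iota (XS S w t))) := by
        intro a ha
        rcases hR a ha with rfl | ⟨y, hy, rfl⟩
        · simp only [S.e0_perp]
          exact An.const 0
        · simp only [LinearIsometry.inner_map_map]
          exact hy.inner hG hX
      rintro a (rfl | ha) b (rfl | hb)
      · simp only [LinearIsometry.inner_map_map]
        exact hX.inner hG hX
      · have h1 := (key b hb).conj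
        refine (congrArg An ?_).mp h1
        funext t
        exact inner_conj_symm _ _
      · exact key a ha
      · exact hG a ha b hb
    have hP' : Pres S (g :: w) := by
      intro 𝒢 h𝒢 hGS x hx
      have hsub' : GW S w ⊆ 𝒢 := hsub.trans h𝒢
      have hX' : KF 𝒢 (fun t => S.iota (XS S w t)) := KF.gen (h𝒢 (Or.inl rfl))
      have he0 : KF 𝒢 (fun _ : ℝ => S.e0) := KF.gen (hsub' (gw_mem_e0 w))
      cases g with
      | B b =>
        refine ⟨HF.xr hg (hP 𝒢 hsub' hGS x hx).1, ?_⟩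
        exact (hP 𝒢 hsub' hGS _ (HF.xr_symm hg hx)).2
      | C b =>
        have hv : KF 𝒢 (fun t => (b t : ℂ) • S.iota (XS S w t)) := KF.smul (AnR.ofReal hg) hX'
        refine ⟨HF.zr hGS hv (hP 𝒢 hsub' hGS x hx).1, ?_⟩
        exact (hP 𝒢 hsub' hGS _ (HF.zr_symm hGS hv hx)).2
      | G b =>
        have hv : KF 𝒢 (fun t => (b t : ℂ) • S.e0) := KF.smul (AnR.ofReal hg) he0
        refine ⟨HF.zr hGS hv (hP 𝒢 hsub' hGS x hx).1, ?_⟩
        exact (hP 𝒢 hsub' hGS _ (HF.zr_symm hGS hv hx)).2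
    refine ⟨hG', hP', ?_, ?_⟩
    · rintro a (rfl | ha)
      · exact Or.inr ⟨XS S w, hX.mono hsub, rfl⟩
      · rcases hR a ha with h | ⟨y, hy, h⟩
        · exact Or.inl h
        · exact Or.inr ⟨y, hy.mono hsub, h⟩
    · have h1 := (hP' _ subset_rfl hG' _ (HF.omH _)).1.zop
      exact (hP' _ subset_rfl hG' _ h1).2

lemma an_laux {w : List FG} (hw : ∀ g ∈ w, FG.ok g) {𝒢 : Set (ℝ → K)} (h : GW S w ⊆ 𝒢)
    (hGS : GS 𝒢) {y : ℝ → HH F} (hy : HF S 𝒢 y) : AnR (fun t => S.laux (y t) (wat w t)) := by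
  induction w with
  | nil => exact AnR.const 0
  | cons g w ih =>
    have hw' : ∀ a ∈ w, FG.ok a := fun a ha => hw a (List.mem_cons_of_mem _ ha)
    have hsub : GW S w ⊆ 𝒢 := (subset_insert _ _).trans h
    have h1 := ih hw' hsub
    have hg := hw g List.mem_cons_self
    cases g with
    | B b => exact h1
    | C b => exact h1
    | G b =>
      have hX := ((main_word w hw').2.2.2 : HF S (GW S w) (XS S w)).mono hsub
      exact (AnR.mul hg (An.im (hX.inner hGS hy))).add h1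

lemma an_eaux {w : List FG} (hw : ∀ g ∈ w, FG.ok g) {𝒢 : Set (ℝ → K)} (h : GW S w ⊆ 𝒢)
    (hGS : GS 𝒢) {y : ℝ → HH F} (hy : HF S 𝒢 y) : AnR (fun t => S.eaux (y t) (wat w t)) := by
  induction w with
  | nil => exact AnR.const 0
  | cons g w ih =>
    have hw' : ∀ a ∈ w, FG.ok a := fun a ha => hw a (List.mem_cons_of_mem _ ha)
    have hsub : GW S w ⊆ 𝒢 := (subset_insert _ _).trans h
    have h1 := ih hw' hsub
    have hg := hw g List.mem_cons_self
    cases g with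
    | B b => exact h1
    | G b => exact h1
    | C b =>
      have hX := ((main_word w hw').2.2.2 : HF S (GW S w) (XS S w)).mono hsub
      have h2 := hX.inner hGS hy
      have h3 : An (fun t => (inner ℂ (XS S w t) (y t)) ^ 2) := by
        simp only [pow_two]
        exact h2.mul h2
      exact ((AnR.mul hg (An.im h3)).neg).add h1

theorem an_al {w : List FG} (hw : ∀ g ∈ w, FG.ok g) : AnR (fun t => S.al (wat w t)) := by
  obtain ⟨hG, -, -, hX⟩ := main_word (S := S) w hw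
  exact an_laux hw subset_rfl hG hX

theorem an_energy {w : List FG} (hw : ∀ g ∈ w, FG.ok g) : AnR (fun t => S.energy (wat w t)) := by
  obtain ⟨hG, -, -, hX⟩ := main_word (S := S) w hw
  exact an_eaux hw subset_rfl hG hX

/-! ### Removal of the alignment condition -/

/-- the gate with its angle multiplied by `t` -/
def sc (t : ℝ) : Gate → Gate
  | Gate.B b => Gate.B (t * b)
  | Gate.C g => Gate.C (t * g)
  | Gate.G k => Gate.G (t * k)

/-- the same as a gate with a variable angle -/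
def scF : Gate → FG
  | Gate.B b => FG.B (fun t => t * b)
  | Gate.C g => FG.C (fun t => t * g)
  | Gate.G k => FG.G (fun t => t * k)

lemma scF_at (t : ℝ) (g : Gate) : FG.at t (scF g) = sc t g := by cases g <;> rfl

lemma scF_ok (g : Gate) : FG.ok (scF g) := by
  cases g <;> exact AnR.id.mul (AnR.const _)

/-- the two first gates -/
noncomputable def base : List Gate := [Gate.B (Real.pi / 4), Gate.G 1]

/-- the two first gates, as gates with constant angles -/
noncomputable def baseF : List FG := [FG.B (fun _ => Real.pi / 4), FG.G (fun _ => 1)]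

lemma wat_sc (w : List Gate) (t : ℝ) : wat (w.map scF ++ baseF) t = w.map (sc t) ++ base := by
  unfold wat baseF base
  rw [List.map_append, List.map_map]
  congr 1
  refine List.map_congr_left fun g _ => ?_
  exact scF_at t g

lemma ok_sc (w : List Gate) : ∀ g ∈ w.map scF ++ baseF, FG.ok g := by
  intro g hg
  rcases List.mem_append.1 hg with h | h
  · obtain ⟨a, -, rfl⟩ := List.mem_map.1 h
    exact scF_ok a
  · simp only [baseF, List.mem_cons, List.not_mem_nil, or_false] at h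
    rcases h with rfl | rfl
    · exact AnR.const _
    · exact AnR.const _

lemma zr_zero : S.zr 0 = LinearIsometryEquiv.refl ℂ (HH F) := by
  ext x
  apply (WithLp.equiv 2 (F × F)).injective
  refine Prod.ext ?_ ?_
  · change S.W (-0) x.fst = x.fst
    rw [neg_zero, S.W_zero]
  · exact S.W_zero _

lemma xr_zero : NI.xr (F := F) 0 = LinearIsometryEquiv.refl ℂ (HH F) := by
  ext x
  apply (WithLp.equiv 2 (F × F)).injective
  refine Prod.ext ?_ ?_
  · simp [NI.xr]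
  · simp [NI.xr]

lemma ev_sc_zero (w v : List Gate) : S.ev (w.map (sc 0) ++ v) = S.ev v := by
  induction w with
  | nil => rfl
  | cons g w ih =>
    change S.step (sc 0 g) (S.ev (w.map (sc 0) ++ v)) = _
    rw [ih]
    cases g with
    | B b =>
      change (S.ev v).trans (NI.xr (0 * b)) = _
      rw [zero_mul, xr_zero]
      rfl
    | C b =>
      change (S.ev v).trans (S.zr (((0 * b : ℝ) : ℂ) • _)) = _
      rw [zero_mul, ofReal_zero, zero_smul, zr_zero]
      rfl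
    | G b =>
      change (S.ev v).trans (S.zr (((0 * b : ℝ) : ℂ) • _)) = _
      rw [zero_mul, ofReal_zero, zero_smul, zr_zero]
      rfl

lemma laux_sc_zero (w v : List Gate) (y : HH F) :
    S.laux y (w.map (sc 0) ++ v) = S.laux y v := by
  induction w with
  | nil => rfl
  | cons g w ih =>
    cases g with
    | B b => exact ih
    | C b => exact ih
    | G b =>
      change 0 * b * _ + S.laux y (w.map (sc 0) ++ v) = _
      rw [zero_mul, zero_mul, zero_add, ih]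

lemma al_sc_zero (w v : List Gate) : S.al (w.map (sc 0) ++ v) = S.al v := by
  unfold Weyl.al
  rw [ev_sc_zero, laux_sc_zero]

variable (S)

lemma xr_apply (b : ℝ) (x y : F) : NI.xr b (WithLp.toLp 2 (x, y) : HH F) =
    WithLp.toLp 2 ((Real.cos b : ℂ) • x - (Complex.I * (Real.sin b : ℂ)) • y,
    -((Complex.I * (Real.sin b : ℂ)) • x) + (Real.cos b : ℂ) • y) := rfl

lemma zr_apply (v : K) (x y : F) : S.zr v (WithLp.toLp 2 (x, y) : HH F) =
    WithLp.toLp 2 (S.W (-v) x, S.W v y) := rfl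

lemma zop_apply (x y : F) : NI.zop F (WithLp.toLp 2 (x, y) : HH F) =
    WithLp.toLp 2 (x, -y) := rfl

lemma W_two (v : K) (x : F) : S.W v (S.W v x) = S.W (v + v) x := by
  rw [S.W_mul]
  have h : (inner ℂ v v : ℂ).im = 0 := inner_self_im (𝕜 := ℂ) v
  rw [h, ofReal_zero, mul_zero, neg_zero, Complex.exp_zero, one_smul]

lemma omH_eq (a : ℂ) (ha : a = (((Real.sqrt 2)⁻¹ : ℝ) : ℂ)) :
    S.OmH = WithLp.toLp 2 (a • S.Om, a • S.Om) := by rw [ha]; rfl

lemma xv_base (a : ℂ) (ha : a = (((Real.sqrt 2)⁻¹ : ℝ) : ℂ)) :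
    S.xv (S.ev base) = WithLp.toLp 2 ((-(I * a)) • S.W (S.e0 + S.e0) S.Om,
      (I * a) • S.W (-S.e0 + -S.e0) S.Om) := by
  have hb : base = Gate.B (Real.pi / 4) :: Gate.G 1 :: [] := rfl
  have hev1 : S.ev [Gate.G 1] = S.zr S.e0 := by
    change (LinearIsometryEquiv.refl ℂ (HH F)).trans (S.zr (((1 : ℝ) : ℂ) • S.e0)) = _
    rw [ofReal_one, one_smul]
    rfl
  have hev : S.ev base = (S.zr S.e0).trans (NI.xr (Real.pi / 4)) := by
    rw [hb, ← hev1]
    rfl
  obtain ⟨r, hr⟩ : ∃ r : ℂ, r = ((Real.sqrt 2 / 2 : ℝ) : ℂ) := ⟨_, rfl⟩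
  have hrr : r * r = 1 / 2 := by
    rw [hr, ← ofReal_mul]
    have : Real.sqrt 2 / 2 * (Real.sqrt 2 / 2) = 1 / 2 := by
      have := Real.mul_self_sqrt (show (0:ℝ) ≤ 2 by norm_num)
      nlinarith
    rw [this]
    push_cast
    rfl
  have hc : (Real.cos (Real.pi / 4) : ℂ) = r := by rw [Real.cos_pi_div_four, hr]
  have hs : (Real.sin (Real.pi / 4) : ℂ) = r := by rw [Real.sin_pi_div_four, hr]
  have hc' : (Real.cos (-(Real.pi / 4)) : ℂ) = r := by rw [Real.cos_neg, hc]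
  have hs' : (Real.sin (-(Real.pi / 4)) : ℂ) = -r := by rw [Real.sin_neg, ofReal_neg, hs]
  have h1 : S.ev base S.OmH = WithLp.toLp 2
      (r • (a • S.W (-S.e0) S.Om) - (I * r) • (a • S.W S.e0 S.Om),
       -((I * r) • (a • S.W (-S.e0) S.Om)) + r • (a • S.W S.e0 S.Om)) := by
    rw [hev, LinearIsometryEquiv.trans_apply, omH_eq S a ha, zr_apply, xr_apply, hc, hs,
      map_smul, map_smul]
  have h2 : S.xv (S.ev base) = S.zr (-S.e0) (NI.xr (-(Real.pi / 4))
      (NI.zop F (S.ev base S.OmH))) := by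
    unfold Weyl.xv
    rw [hev]
    change (S.zr S.e0).symm ((NI.xr (Real.pi / 4)).symm _) = _
    rw [zr_symm, xr_symm]
  rw [h2, h1, zop_apply, xr_apply, hc', hs', zr_apply]
  have hI := Complex.I_mul_I
  have e1 : r • (r • (a • S.W (-S.e0) S.Om) - (I * r) • (a • S.W S.e0 S.Om)) -
      (I * -r) • -(-((I * r) • (a • S.W (-S.e0) S.Om)) + r • (a • S.W S.e0 S.Om)) =
      (-(I * a)) • S.W S.e0 S.Om := by
    have h3 : r * r * a + I * I * (r * r) * a = 0 := by rw [hI]; ring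
    have h4 : -(r * (I * r) * a) - I * r * r * a = -(I * a) := by
      linear_combination (-2 * I * a) * hrr
    calc _ = (r * r * a + I * I * (r * r) * a) • S.W (-S.e0) S.Om +
          (-(r * (I * r) * a) - I * r * r * a) • S.W S.e0 S.Om := by module
      _ = _ := by rw [h3, h4, zero_smul, zero_add]
  have e2 : -((I * -r) • (r • (a • S.W (-S.e0) S.Om) - (I * r) • (a • S.W S.e0 S.Om))) +
      r • -(-((I * r) • (a • S.W (-S.e0) S.Om)) + r • (a • S.W S.e0 S.Om)) =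
      (I * a) • S.W (-S.e0) S.Om := by
    have h3 : I * r * r * a + r * (I * r) * a = I * a := by
      linear_combination (2 * I * a) * hrr
    have h4 : -(I * r * (I * r) * a) - r * r * a = 0 := by
      linear_combination (-r * r * a) * hI
    calc _ = (I * r * r * a + r * (I * r) * a) • S.W (-S.e0) S.Om +
          (-(I * r * (I * r) * a) - r * r * a) • S.W S.e0 S.Om := by module
      _ = _ := by rw [h3, h4, zero_smul, add_zero]
  rw [e1, e2, map_smul, map_smul, neg_neg, W_two, W_two]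

lemma al_base : S.al base = -Real.exp (-2) := by
  obtain ⟨a, ha⟩ : ∃ a : ℂ, a = (((Real.sqrt 2)⁻¹ : ℝ) : ℂ) := ⟨_, rfl⟩
  have haa : a * a = 1 / 2 := by
    rw [ha, ← ofReal_mul, ← mul_inv, Real.mul_self_sqrt (by norm_num)]
    push_cast
    norm_num
  have hca : (starRingEnd ℂ) a = a := by rw [ha, conj_ofReal]
  have h0 : S.xv (S.ev []) = WithLp.toLp 2 (a • S.Om, -(a • S.Om)) := by
    change NI.zop F S.OmH = _
    rw [omH_eq S a ha, zop_apply]
  have hn : ∀ v : K, v = S.e0 + S.e0 ∨ v = -S.e0 + -S.e0 → ‖v‖ ^ 2 / 2 = 2 := by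
    have : ‖S.e0 + S.e0‖ = 2 := by
      rw [← two_smul ℝ, norm_smul, S.norm_e0]
      norm_num
    rintro v (rfl | rfl)
    · rw [this]; norm_num
    · rw [← neg_add, norm_neg, this]; norm_num
  have hal : S.al base = (inner ℂ (S.xv (S.ev [])) (S.xv (S.ev base)) : ℂ).im := by
    change 1 * _ + 0 = _
    rw [one_mul, add_zero]
  rw [hal, h0, xv_base S a ha, inner_HH]
  change (inner ℂ (a • S.Om) ((-(I * a)) • S.W (S.e0 + S.e0) S.Om) +
    inner ℂ (-(a • S.Om)) ((I * a) • S.W (-S.e0 + -S.e0) S.Om) : ℂ).im = _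
  rw [inner_neg_left, inner_smul_left, inner_smul_right, inner_smul_left, inner_smul_right,
    S.vac, S.vac, hn _ (Or.inl rfl), hn _ (Or.inr rfl), hca]
  have h5 : a * (-(I * a) * Complex.exp (-((2 : ℝ) : ℂ))) +
      -(a * (I * a * Complex.exp (-((2 : ℝ) : ℂ)))) = -(I * ((Real.exp (-2) : ℝ) : ℂ)) := by
    rw [← ofReal_neg, ← ofReal_exp]
    linear_combination (-2 * I * ((Real.exp (-2) : ℝ) : ℂ)) * haa
  rw [h5, neg_im, I_mul_im, ofReal_re]


/-- the inverse of the two first gates -/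
noncomputable def undo : List Gate := [Gate.G (-1), Gate.B (-(Real.pi / 4))]

/-- reduction of the angle of a `B` gate modulo `2 pi` -/
noncomputable def red : Gate → Gate
  | Gate.B b => Gate.B (b - round (b / (2 * Real.pi)) * (2 * Real.pi))
  | Gate.C g => Gate.C g
  | Gate.G k => Gate.G k

lemma red_le (b : ℝ) : |b - round (b / (2 * Real.pi)) * (2 * Real.pi)| ≤ Real.pi := by
  have h := abs_sub_round (b / (2 * Real.pi))
  have hp : (0 : ℝ) < 2 * Real.pi := by positivity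
  have e : b - round (b / (2 * Real.pi)) * (2 * Real.pi) =
      (b / (2 * Real.pi) - round (b / (2 * Real.pi))) * (2 * Real.pi) := by
    field_simp
  rw [e, abs_mul, abs_of_pos hp]
  calc _ ≤ 1 / 2 * (2 * Real.pi) := mul_le_mul_of_nonneg_right h hp.le
    _ = _ := by ring

lemma xr_congr {b b' : ℝ} (hc : Real.cos b = Real.cos b') (hs : Real.sin b = Real.sin b') :
    NI.xr (F := F) b = NI.xr b' := by
  ext x
  obtain ⟨x1, x2⟩ := x
  rw [xr_apply, xr_apply, hc, hs]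

lemma ev_red (w : List Gate) : S.ev (w.map red) = S.ev w := by
  induction w with
  | nil => rfl
  | cons g w ih =>
    change S.step (red g) (S.ev (w.map red)) = S.step g (S.ev w)
    rw [ih]
    cases g with
    | B b =>
      change (S.ev w).trans (NI.xr _) = (S.ev w).trans (NI.xr _)
      rw [xr_congr (b' := b) (Real.cos_sub_int_mul_two_pi _ _) (Real.sin_sub_int_mul_two_pi _ _)]
    | C b => rfl
    | G b => rfl

lemma eaux_red (w : List Gate) (y : HH F) : S.eaux y (w.map red) = S.eaux y w := by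
  induction w with
  | nil => rfl
  | cons g w ih =>
    cases g with
    | B b => exact ih
    | G b => exact ih
    | C b =>
      change -(b * ((inner ℂ (S.xv (S.ev (w.map red))) y) ^ 2 : ℂ).im) + S.eaux y (w.map red) = _
      rw [ev_red, ih]
      rfl

lemma xr_neg_trans (b : ℝ) : (NI.xr (F := F) b).trans (NI.xr (-b)) =
    LinearIsometryEquiv.refl ℂ (HH F) := by
  ext x
  change NI.xr (-b) (NI.xr b x) = x
  rw [← xr_symm, LinearIsometryEquiv.symm_apply_apply]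

lemma zr_neg_trans (v : K) : (S.zr v).trans (S.zr (-v)) =
    LinearIsometryEquiv.refl ℂ (HH F) := by
  ext x
  change S.zr (-v) (S.zr v x) = x
  rw [← zr_symm, LinearIsometryEquiv.symm_apply_apply]

lemma ev_undo : S.ev (undo ++ base) = LinearIsometryEquiv.refl ℂ (HH F) := by
  ext x
  change S.zr (((-1 : ℝ) : ℂ) • S.e0) (NI.xr (-(Real.pi / 4)) (NI.xr (Real.pi / 4)
    (S.zr (((1 : ℝ) : ℂ) • S.e0) x))) = x
  rw [← xr_symm, LinearIsometryEquiv.symm_apply_apply, ofReal_neg, neg_smul, ← zr_symm,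
    LinearIsometryEquiv.symm_apply_apply]

lemma ev_app_undo (w : List Gate) : S.ev (w ++ (undo ++ base)) = S.ev w := by
  induction w with
  | nil => exact ev_undo S
  | cons g w ih =>
    change S.step g (S.ev (w ++ (undo ++ base))) = S.step g (S.ev w)
    rw [ih]

lemma eaux_app_undo (w : List Gate) (y : HH F) :
    S.eaux y (w ++ (undo ++ base)) = S.eaux y w := by
  induction w with
  | nil => rfl
  | cons g w ih =>
    cases g with
    | B b => exact ih
    | G b => exact ih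
    | C b =>
      change -(b * ((inner ℂ (S.xv (S.ev (w ++ (undo ++ base)))) y) ^ 2 : ℂ).im) +
        S.eaux y (w ++ (undo ++ base)) = _
      rw [ev_app_undo, ih]
      rfl

lemma energy_app_undo (w : List Gate) : S.energy (w ++ (undo ++ base)) = S.energy w := by
  unfold Weyl.energy
  rw [eaux_app_undo, ev_app_undo]

lemma energy_red (w : List Gate) : S.energy (w.map red) = S.energy w := by
  unfold Weyl.energy
  rw [eaux_red, ev_red]

lemma map_sc_one (w : List Gate) : w.map (sc 1) = w := by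
  conv_rhs => rw [← List.map_id w]
  refine List.map_congr_left fun g _ => ?_
  cases g <;> simp [sc]

lemma AnR.prod_list {ι : Type} (l : List ι) (f : ι → ℝ → ℝ) (h : ∀ i ∈ l, AnR (f i)) :
    AnR (fun t => (l.map fun i => f i t).prod) := by
  induction l with
  | nil => exact AnR.const 1
  | cons a l ih =>
    simp only [List.map_cons, List.prod_cons]
    exact (h a List.mem_cons_self).mul (ih fun i hi => h i (List.mem_cons_of_mem _ hi))

/-- **Removal of the alignment condition.** -/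
theorem perturb (S : Weyl F K) (W : List Gate) {d : ℝ} (hd : 0 < d) :
    ∃ u : List Gate, (∀ b, Gate.B b ∈ u → |b| ≤ Real.pi) ∧
      (∀ v : List Gate, v <:+ u → S.al (v ++ [Gate.B (Real.pi / 4), Gate.G 1]) ≠ 0) ∧
      |S.energy (u ++ [Gate.B (Real.pi / 4), Gate.G 1]) - S.energy W| < d := by
  set u1 : List Gate := W.map red ++ undo with hu1
  -- the product of the alignments
  set P : ℝ → ℝ := fun t => (u1.tails.map fun v => S.al (v.map (sc t) ++ base)).prod with hP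
  have hPan : AnR P := by
    refine AnR.prod_list u1.tails (fun v t => S.al (v.map (sc t) ++ base)) fun v _ => ?_
    have h := an_al (S := S) (ok_sc v)
    simp only [wat_sc] at h
    exact h
  have hP0 : P 0 ≠ 0 := by
    rw [hP]
    refine List.prod_ne_zero fun h => ?_
    obtain ⟨v, -, hv⟩ := List.mem_map.1 h
    rw [al_sc_zero, al_base] at hv
    exact (neg_ne_zero.2 (Real.exp_pos _).ne') hv
  have hfr : ∀ᶠ t in 𝓝[≠] (1 : ℝ), P t ≠ 0 := by
    by_contra hcon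
    have h1 : ∃ᶠ t in 𝓝[≠] (1 : ℝ), P t = 0 :=
      (Filter.not_eventually.1 hcon).mono fun t ht => not_not.1 ht
    have h2 := AnalyticOnNhd.eqOn_zero_of_preconnected_of_frequently_eq_zero hPan
      isPreconnected_univ (mem_univ (1 : ℝ)) h1
    exact hP0 (h2 (mem_univ 0))
  have hlt : ∀ᶠ t in 𝓝[<] (1 : ℝ), P t ≠ 0 :=
    hfr.filter_mono (nhdsWithin_mono _ fun t ht => ne_of_lt ht)
  have hen : ∀ᶠ t in 𝓝[<] (1 : ℝ), |S.energy (u1.map (sc t) ++ base) - S.energy W| < d := by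
    have h := an_energy (S := S) (ok_sc u1)
    simp only [wat_sc] at h
    have hc : ContinuousAt (fun t => S.energy (u1.map (sc t) ++ base)) 1 :=
      (h 1 (mem_univ _)).continuousAt
    have h1 : S.energy (u1.map (sc 1) ++ base) = S.energy W := by
      rw [map_sc_one, hu1, List.append_assoc, energy_app_undo, energy_red]
    have h2 : Tendsto (fun t => |S.energy (u1.map (sc t) ++ base) - S.energy W|) (𝓝 1)
        (𝓝 0) := by
      have h3 := (hc.sub_const (S.energy W)).abs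
      have h4 : Tendsto (fun t => |S.energy (u1.map (sc t) ++ base) - S.energy W|) (𝓝 1)
        (𝓝 |S.energy (u1.map (sc 1) ++ base) - S.energy W|) := h3
      rw [h1, sub_self, abs_zero] at h4
      exact h4
    exact (h2.eventually (gt_mem_nhds hd)).filter_mono nhdsWithin_le_nhds
  have hpos : ∀ᶠ t in 𝓝[<] (1 : ℝ), 0 < t :=
    (lt_mem_nhds (show (0 : ℝ) < 1 by norm_num)).filter_mono nhdsWithin_le_nhds
  have hlt1 : ∀ᶠ t in 𝓝[<] (1 : ℝ), t < 1 := self_mem_nhdsWithin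
  obtain ⟨t, ht1, ht2, ht3, ht4⟩ := (hlt.and (hen.and (hpos.and hlt1))).exists
  refine ⟨u1.map (sc t), ?_, ?_, ht2⟩
  · intro b hb
    obtain ⟨g, hg, hgb⟩ := List.mem_map.1 hb
    cases g with
    | C g => simp [sc] at hgb
    | G g => simp [sc] at hgb
    | B b' =>
      simp only [sc, Gate.B.injEq] at hgb
      have hb' : |b'| ≤ Real.pi := by
        rw [hu1] at hg
        rcases List.mem_append.1 hg with h | h
        · obtain ⟨g', -, hg'⟩ := List.mem_map.1 h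
          cases g' with
          | C g => simp [red] at hg'
          | G g => simp [red] at hg'
          | B c =>
            simp only [red, Gate.B.injEq] at hg'
            rw [← hg']
            exact red_le c
        · simp only [undo, List.mem_cons, List.not_mem_nil, or_false, reduceCtorEq,
            false_or, Gate.B.injEq] at h
          rw [h, abs_neg, abs_of_pos (by positivity)]
          linarith [Real.pi_pos]
      rw [← hgb, abs_mul, abs_of_pos ht3]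
      nlinarith [abs_nonneg b']
  · intro v hv
    obtain ⟨v', hv', rfl⟩ := List.suffix_map_iff.1 hv
    intro h0
    refine ht1 ?_
    rw [hP]
    refine List.prod_eq_zero (List.mem_map.2 ⟨v', (List.mem_tails v' u1).2 hv', h0⟩)

end Vale.Agent.P367.NI
end

section

/-! P367: strong topology on the states of the one-site model, continuity of all words. -/

namespace Vale.Agent.P367.NI

open Complex Filter Topology

section general

variable {E : Type} [NormedAddCommGroup E] [InnerProductSpace ℂ E] {α : Type*} {l : Filter α}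

lemma strong_apply {A : α → E ≃ₗᵢ[ℂ] E} {A0 : E ≃ₗᵢ[ℂ] E}
    (hA : ∀ x, Tendsto (fun i => A i x) l (𝓝 (A0 x))) {u : α → E} {u0 : E}
    (hu : Tendsto u l (𝓝 u0)) : Tendsto (fun i => A i (u i)) l (𝓝 (A0 u0)) := by
  have h1 : Tendsto (fun i => A i (u i - u0)) l (𝓝 0) := by
    rw [tendsto_zero_iff_norm_tendsto_zero]
    have h2 : Tendsto (fun i => ‖u i - u0‖) l (𝓝 0) := tendsto_iff_norm_sub_tendsto_zero.1 hu
    refine h2.congr fun i => ?_
    rw [LinearIsometryEquiv.norm_map]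
  have h3 := h1.add (hA u0)
  rw [zero_add] at h3
  refine h3.congr fun i => ?_
  rw [map_sub, sub_add_cancel]

lemma strong_symm {A : α → E ≃ₗᵢ[ℂ] E} {A0 : E ≃ₗᵢ[ℂ] E}
    (hA : ∀ x, Tendsto (fun i => A i x) l (𝓝 (A0 x))) (x : E) :
    Tendsto (fun i => (A i).symm x) l (𝓝 (A0.symm x)) := by
  rw [tendsto_iff_norm_sub_tendsto_zero]
  have h1 := tendsto_iff_norm_sub_tendsto_zero.1 (hA (A0.symm x))
  refine h1.congr fun i => ?_
  have h2 : ‖(A i).symm x - A0.symm x‖ = ‖A i ((A i).symm x - A0.symm x)‖ := by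
    rw [LinearIsometryEquiv.norm_map]
  rw [h2, map_sub, LinearIsometryEquiv.apply_symm_apply, LinearIsometryEquiv.apply_symm_apply,
    norm_sub_rev]

lemma strong_of_dense {A : α → E ≃ₗᵢ[ℂ] E} {A0 : E ≃ₗᵢ[ℂ] E} {s : Set E}
    (hs : (Submodule.span ℂ s).topologicalClosure = ⊤)
    (hA : ∀ x ∈ s, Tendsto (fun i => A i x) l (𝓝 (A0 x))) (x : E) :
    Tendsto (fun i => A i x) l (𝓝 (A0 x)) := by
  have h1 : ∀ y ∈ Submodule.span ℂ s, Tendsto (fun i => A i y) l (𝓝 (A0 y)) := by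
    intro y hy
    induction hy using Submodule.span_induction with
    | mem x hx => exact hA x hx
    | zero => simpa using tendsto_const_nhds
    | add x y _ _ hx hy => simpa using hx.add hy
    | smul c x _ hx => simpa using hx.const_smul c
  rw [Metric.tendsto_nhds]
  intro ε hε
  have hx : x ∈ closure ((Submodule.span ℂ s : Submodule ℂ E) : Set E) := by
    have : x ∈ (Submodule.span ℂ s).topologicalClosure := by rw [hs]; trivial
    exact this
  obtain ⟨y, hy, hxy⟩ := Metric.mem_closure_iff.1 hx (ε / 3) (by positivity)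
  have h2 := Metric.tendsto_nhds.1 (h1 y hy) (ε / 3) (by positivity)
  filter_upwards [h2] with i hi
  have e1 : dist (A i x) (A i y) = dist x y := (A i).dist_map x y
  have e2 : dist (A0 x) (A0 y) = dist x y := A0.dist_map x y
  calc dist (A i x) (A0 x) ≤ dist (A i x) (A i y) + dist (A i y) (A0 y) + dist (A0 y) (A0 x) :=
        dist_triangle4 _ _ _ _
    _ < ε / 3 + ε / 3 + ε / 3 := by
        rw [e1, dist_comm (A0 y) (A0 x), e2]
        gcongr
    _ = ε := by ring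

end general

variable {F K : Type} [NormedAddCommGroup F] [InnerProductSpace ℂ F]
  [NormedAddCommGroup K] [InnerProductSpace ℂ K]

/-- strong operator topology -/
noncomputable instance sot : TopologicalSpace (HH F ≃ₗᵢ[ℂ] HH F) :=
  TopologicalSpace.induced (fun (V : HH F ≃ₗᵢ[ℂ] HH F) (x : HH F) => V x) inferInstance

lemma tendsto_sot {α : Type*} {l : Filter α} {V : α → St F} {V0 : St F} :
    Tendsto V l (𝓝 V0) ↔ ∀ x, Tendsto (fun i => V i x) l (𝓝 (V0 x)) := by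
  rw [nhds_induced, tendsto_comap_iff, tendsto_pi_nhds]
  rfl

lemma continuous_eval (x : HH F) : Continuous fun V : St F => V x :=
  continuous_iff_continuousAt.2 fun V0 => (tendsto_sot.1 (tendsto_id (x := 𝓝 V0))) x

lemma tendsto_HH {α : Type*} {l : Filter α} {u : α → HH F} {u0 : HH F}
    (h1 : Tendsto (fun i => (u i).fst) l (𝓝 u0.fst)) (h2 : Tendsto (fun i => (u i).snd) l (𝓝 u0.snd)) :
    Tendsto u l (𝓝 u0) := by
  have h3 := (WithLp.prod_continuous_toLp 2 F F).tendsto (u0.fst, u0.snd)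
  exact h3.comp (h1.prodMk_nhds h2)

lemma tendsto_fst {α : Type*} {l : Filter α} {u : α → HH F} {u0 : HH F}
    (h : Tendsto u l (𝓝 u0)) : Tendsto (fun i => (u i).fst) l (𝓝 u0.fst) := by
  have h3 := (continuous_fst.comp (WithLp.prod_continuous_ofLp 2 F F)).tendsto u0
  exact h3.comp h

lemma tendsto_snd {α : Type*} {l : Filter α} {u : α → HH F} {u0 : HH F}
    (h : Tendsto u l (𝓝 u0)) : Tendsto (fun i => (u i).snd) l (𝓝 u0.snd) := by
  have h3 := (continuous_snd.comp (WithLp.prod_continuous_ofLp 2 F F)).tendsto u0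
  exact h3.comp h

lemma dg_strong {α : Type*} {l : Filter α} {A B : α → F ≃ₗᵢ[ℂ] F} {A0 B0 : F ≃ₗᵢ[ℂ] F}
    (hA : ∀ x, Tendsto (fun i => A i x) l (𝓝 (A0 x)))
    (hB : ∀ x, Tendsto (fun i => B i x) l (𝓝 (B0 x))) (x : HH F) :
    Tendsto (fun i => dg (A i) (B i) x) l (𝓝 (dg A0 B0 x)) :=
  tendsto_HH (hA x.fst) (hB x.snd)

/-- composition of strongly convergent states -/
lemma tendsto_trans {α : Type*} {l : Filter α} {V A : α → St F} {V0 A0 : St F}
    (hV : Tendsto V l (𝓝 V0)) (hA : Tendsto A l (𝓝 A0)) :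
    Tendsto (fun i => (V i).trans (A i)) l (𝓝 (V0.trans A0)) := by
  rw [tendsto_sot]
  intro x
  exact strong_apply (tendsto_sot.1 hA) ((tendsto_sot.1 hV) x)

lemma tendsto_symm {α : Type*} {l : Filter α} {V : α → St F} {V0 : St F}
    (hV : Tendsto V l (𝓝 V0)) : Tendsto (fun i => (V i).symm) l (𝓝 V0.symm) :=
  tendsto_sot.2 fun x => strong_symm (tendsto_sot.1 hV) x

namespace Weyl

variable (S : Weyl F K)

/-- the vacuum is cyclic -/
def Cyc : Prop := (Submodule.span ℂ (Set.range fun a => S.W a S.Om)).topologicalClosure = ⊤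

lemma norm_Om : ‖S.Om‖ = 1 := by
  have h := S.vac 0
  rw [S.W_zero, inner_self_eq_norm_sq_to_K] at h
  have h2 : ‖S.Om‖ ^ 2 = 1 := by
    have h3 := congrArg Complex.re h
    simpa [← Complex.ofReal_pow] using h3
  nlinarith [norm_nonneg S.Om]

lemma inner_W_W (a b : K) : inner ℂ (S.W a S.Om) (S.W b S.Om)
    = Complex.exp (Complex.I * ((inner ℂ a b).im : ℂ) - ((‖b - a‖ ^ 2 / 2 : ℝ) : ℂ)) := by
  rw [S.inner_W, ← Complex.exp_add, ← sub_eq_add_neg]

lemma tendsto_WOm {α : Type*} {l : Filter α} {a : α → K} {a0 : K} (ha : Tendsto a l (𝓝 a0)) :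
    Tendsto (fun i => S.W (a i) S.Om) l (𝓝 (S.W a0 S.Om)) := by
  rw [tendsto_iff_norm_sub_tendsto_zero]
  have h : ∀ c : K, ‖S.W c S.Om - S.W a0 S.Om‖ = Real.sqrt (2 - 2 * (Complex.exp (Complex.I *
      ((inner ℂ c a0).im : ℂ) - ((‖a0 - c‖ ^ 2 / 2 : ℝ) : ℂ))).re) := by
    intro c
    have h1 := @norm_sub_sq ℂ F _ _ _ (S.W c S.Om) (S.W a0 S.Om)
    rw [S.inner_W_W, LinearIsometryEquiv.norm_map, LinearIsometryEquiv.norm_map, S.norm_Om,
      RCLike.re_to_complex] at h1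
    rw [← Real.sqrt_sq (norm_nonneg (S.W c S.Om - S.W a0 S.Om)), h1]
    congr 1
    ring
  simp_rw [h]
  have hc : Continuous fun c : K => Real.sqrt (2 - 2 * (Complex.exp (Complex.I *
      ((inner ℂ c a0).im : ℂ) - ((‖a0 - c‖ ^ 2 / 2 : ℝ) : ℂ))).re) := by
    have h1 : Continuous fun c : K => (inner ℂ c a0 : ℂ) := continuous_id.inner continuous_const
    have h2 : Continuous fun c : K => ((inner ℂ c a0).im : ℂ) :=
      Complex.continuous_ofReal.comp (Complex.continuous_im.comp h1)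
    have h3 : Continuous fun c : K => ((‖a0 - c‖ ^ 2 / 2 : ℝ) : ℂ) := by fun_prop
    have h4 : Continuous fun c : K => (Complex.exp (Complex.I *
      ((inner ℂ c a0).im : ℂ) - ((‖a0 - c‖ ^ 2 / 2 : ℝ) : ℂ))).re := by fun_prop
    fun_prop
  have h2 := (hc.tendsto a0).comp ha
  have h3 : Real.sqrt (2 - 2 * (Complex.exp (Complex.I *
      ((inner ℂ a0 a0).im : ℂ) - ((‖a0 - a0‖ ^ 2 / 2 : ℝ) : ℂ))).re) = 0 := by
    have h4 : (inner ℂ a0 a0 : ℂ).im = 0 := by
      rw [inner_self_eq_norm_sq_to_K]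
      simp [← Complex.ofReal_pow]
    rw [h4]
    simp
  rw [h3] at h2
  exact h2

/-- strong continuity of the Weyl operators -/
lemma tendsto_W (hS : S.Cyc) {α : Type*} {l : Filter α} {a : α → K} {a0 : K}
    (ha : Tendsto a l (𝓝 a0)) (f : F) :
    Tendsto (fun i => S.W (a i) f) l (𝓝 (S.W a0 f)) := by
  refine strong_of_dense (A := fun i => S.W (a i)) hS ?_ f
  rintro _ ⟨b, rfl⟩
  simp only [S.W_mul]
  have h1 : Tendsto (fun i => Complex.exp (-(Complex.I * ((inner ℂ (a i) b).im : ℂ)))) l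
      (𝓝 (Complex.exp (-(Complex.I * ((inner ℂ a0 b).im : ℂ))))) := by
    have hc : Continuous fun c : K => Complex.exp (-(Complex.I * ((inner ℂ c b).im : ℂ))) := by
      have h1 : Continuous fun c : K => (inner ℂ c b : ℂ) := continuous_id.inner continuous_const
      have h2 : Continuous fun c : K => ((inner ℂ c b).im : ℂ) :=
        Complex.continuous_ofReal.comp (Complex.continuous_im.comp h1)
      fun_prop
    exact (hc.tendsto a0).comp ha
  exact h1.smul (S.tendsto_WOm (ha.add_const b))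

lemma tendsto_zr (hS : S.Cyc) {α : Type*} {l : Filter α} {a : α → K} {a0 : K}
    (ha : Tendsto a l (𝓝 a0)) : Tendsto (fun i => S.zr (a i)) l (𝓝 (S.zr a0)) := by
  rw [tendsto_sot]
  exact fun x => dg_strong (S.tendsto_W hS ha.neg) (S.tendsto_W hS ha) x

lemma tendsto_xv {α : Type*} {l : Filter α} {V : α → St F} {V0 : St F}
    (hV : Tendsto V l (𝓝 V0)) : Tendsto (fun i => S.xv (V i)) l (𝓝 (S.xv V0)) := by
  have h1 : Tendsto (fun i => zop F (V i S.OmH)) l (𝓝 (zop F (V0 S.OmH))) :=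
    ((zop F).continuous.tendsto _).comp ((tendsto_sot.1 hV) S.OmH)
  exact strong_apply (strong_symm (tendsto_sot.1 hV)) h1

lemma tendsto_step (hS : S.Cyc) {α : Type*} {l : Filter α} {V : α → St F} {V0 : St F}
    (g : Gate) (hV : Tendsto V l (𝓝 V0)) : Tendsto (fun i => S.step g (V i)) l (𝓝 (S.step g V0)) := by
  cases g with
  | B b => exact tendsto_trans hV tendsto_const_nhds
  | C g =>
    refine tendsto_trans hV (S.tendsto_zr hS ?_)
    exact ((S.iota.continuous.tendsto _).comp (S.tendsto_xv hV)).const_smul (g : ℂ)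
  | G k => exact tendsto_trans hV tendsto_const_nhds

/-- a word acting on an arbitrary state -/
noncomputable def run : List Gate → St F → St F
  | [], V => V
  | g :: w, V => S.step g (run w V)

@[simp] lemma run_nil (V : St F) : S.run [] V = V := rfl
@[simp] lemma run_cons (g : Gate) (w : List Gate) (V : St F) :
    S.run (g :: w) V = S.step g (S.run w V) := rfl

lemma run_append (w u : List Gate) (V : St F) : S.run (w ++ u) V = S.run w (S.run u V) := by
  induction w with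
  | nil => rfl
  | cons g w ih => rw [List.cons_append, run_cons, run_cons, ih]

lemma ev_eq_run (w : List Gate) : S.ev w = S.run w (LinearIsometryEquiv.refl ℂ (HH F)) := by
  induction w with
  | nil => rfl
  | cons g w ih =>
    rw [run_cons, ← ih]
    rfl

lemma ev_append (w u : List Gate) : S.ev (w ++ u) = S.run w (S.ev u) := by
  rw [ev_eq_run, run_append, ← ev_eq_run]

lemma continuous_run (hS : S.Cyc) (w : List Gate) : Continuous (S.run w) := by
  induction w with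
  | nil => exact continuous_id
  | cons g w ih =>
    rw [continuous_iff_continuousAt]
    intro V0
    exact S.tendsto_step hS g (ih.tendsto V0)

/-- reachable states and their strong limits -/
def Cl : Set (St F) := closure (Set.range S.ev)

lemma ev_mem_Cl (w : List Gate) : S.ev w ∈ S.Cl := subset_closure ⟨w, rfl⟩

lemma run_mem_Cl (hS : S.Cyc) (w : List Gate) {V : St F} (hV : V ∈ S.Cl) : S.run w V ∈ S.Cl := by
  refine map_mem_closure (S.continuous_run hS w) hV ?_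
  rintro _ ⟨u, rfl⟩
  exact ⟨w ++ u, S.ev_append w u⟩

lemma isClosed_Cl : IsClosed S.Cl := isClosed_closure

lemma mem_Cl_of_tendsto {α : Type*} {l : Filter α} [l.NeBot] {V : α → St F} {V0 : St F}
    (h : Tendsto V l (𝓝 V0)) (hV : ∀ i, V i ∈ S.Cl) : V0 ∈ S.Cl :=
  S.isClosed_Cl.mem_of_tendsto h (Eventually.of_forall hV)

/-- a (possibly limiting) gate: a map of states which keeps closed invariant sets -/
lemma limit_gate_mem_Cl (hS : S.Cyc) {α : Type*} {l : Filter α} [l.NeBot] (w : α → List Gate)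
    {V V' : St F} (hV : V ∈ S.Cl) (h : Tendsto (fun i => S.run (w i) V) l (𝓝 V')) : V' ∈ S.Cl :=
  S.mem_Cl_of_tendsto h fun i => S.run_mem_Cl hS (w i) hV

end Weyl

/-- the cyclic Weyl system exists -/
theorem exists_weyl_cyc : ∃ S : Weyl FN L2N, S.Cyc := by
  obtain ⟨T, hT⟩ := exists_iota (HH FN)
  refine ⟨{
    W := WF
    Om := ef 0
    W_mul := WF_mul
    vac := WF_vac
    iota := T
    e0 := unitv 0
    norm_e0 := by
      have h := inner_unitv 0 0
      rw [if_pos rfl, inner_self_eq_norm_sq_to_K] at h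
      have h2 : ‖unitv 0‖ ^ 2 = 1 := by
        have h3 := congrArg Complex.re h
        simpa [← Complex.ofReal_pow] using h3
      nlinarith [norm_nonneg (unitv 0)]
    e0_perp := hT }, ?_⟩
  unfold Weyl.Cyc
  rw [eq_top_iff]
  intro x _
  have h3 := UniformSpace.Completion.denseRange_coe (α := EV L2N) x
  refine closure_mono ?_ h3
  rintro _ ⟨y, rfl⟩
  have h4 : Submodule.span ℂ (Set.range (ef : L2N → FN))
      ≤ Submodule.span ℂ (Set.range fun a => WF a (ef 0)) := by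
    rw [Submodule.span_le]
    rintro _ ⟨a, rfl⟩
    have h5 : WF a (ef 0) = (EV.mu a 0 : ℂ) • ef a := by
      have h1 : ∀ (c : L2N) (y : EV L2N), WF c (y : Fk L2N) = ((EV.W0 c y : EV L2N) : Fk L2N) :=
        fun c y => extI_coe _ _
      unfold ef
      rw [h1, EV.W0_e, add_zero, mul_one, ← UniformSpace.Completion.coe_smul]
      congr 1
      change (Finsupp.single a (EV.mu a 0) : L2N →₀ ℂ) = EV.mu a 0 • (Finsupp.single a 1 : L2N →₀ ℂ)
      rw [Finsupp.smul_single, smul_eq_mul, mul_one]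
    have h6 : EV.mu a (0 : L2N) ≠ 0 := Complex.exp_ne_zero _
    have h7 : ef a = (EV.mu a (0 : L2N))⁻¹ • WF a (ef 0) := by
      rw [h5, smul_smul, inv_mul_cancel₀ h6, one_smul]
    rw [h7]
    exact Submodule.smul_mem _ _ (Submodule.subset_span ⟨a, rfl⟩)
  exact h4 (coe_mem_span y)

end Vale.Agent.P367.NI
end

section

/-! P367, Theorem A, block X: the field vector of a simulated state is close to the field vector
of its regular part. -/

namespace Vale.Agent.P367.A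

open Complex Filter Topology

namespace Sys

variable {H K : Type*} [NormedAddCommGroup H] [InnerProductSpace ℂ H]
  [NormedAddCommGroup K] [InnerProductSpace ℂ K] (S : Sys H K)

lemma x_W_xr (a : K) (b : ℝ) (x : H) : S.W a (S.xr b x) = S.xr b (S.W a x) := by
  rw [xr_apply, xr_apply, map_sub, map_smul, map_smul, S.WX]

lemma x_W_Zt (a : K) (t : ℝ) (x : H) : S.W a (S.Zt t x) = S.Zt t (S.W a x) := by
  show S.W a (S.xr t (S.Z (S.xr (-t) x))) = S.xr t (S.Z (S.xr (-t) (S.W a x)))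
  rw [x_W_xr, S.WZ, x_W_xr]

/-- comparison of `V⁻¹ U V Ω` and `T⁻¹ U T Ω` -/
lemma x_aux (hN : S.NStmt) {C ε : ℝ} (hC : 0 ≤ C) (hε : 0 < ε) (hε1 : ε ≤ 1)
    {V T : H ≃ₗᵢ[ℂ] H} {θ : ℂ} {σ : ℝ} {a : K} {η e : H} (h : S.St C ε V T θ σ a η e)
    (U : H ≃ₗᵢ[ℂ] H) (hU : ∀ a x, S.W a (U x) = U (S.W a x)) :
    S.Nice (C * (C * 3)) (T⁻¹ (U (T S.Om))) ∧
      ‖V⁻¹ (U (V S.Om)) - T⁻¹ (U (T S.Om))‖ ≤ (2 * C + C * (C * (C * 3))) * ε := by
  have n1 : S.Nice (C * 3) (T S.Om) := (h.T_nice 3 S.Om hN.om).1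
  have n2 : S.Nice (C * 3) (U (T S.Om)) := hN.comm U hU _ _ n1
  have n3 : S.Nice (C * (C * 3)) (T⁻¹ (U (T S.Om))) := (h.T_nice _ _ n2).2
  refine ⟨n3, ?_⟩
  have hη : ‖S.zr (-(((σ / ε : ℝ) : ℂ) • a)) η‖ ≤ C := by
    rw [LinearIsometryEquiv.norm_map]
    exact h.eta.m0
  have e1 : ‖V S.Om - θ • T S.Om‖ ≤ 2 * C * ε := by
    have h1 : V S.Om - θ • T S.Om = (V S.Om - θ • T S.Om -
        (ε : ℂ) • S.zr (-(((σ / ε : ℝ) : ℂ) • a)) η) +
        (ε : ℂ) • S.zr (-(((σ / ε : ℝ) : ℂ) • a)) η := by abel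
    rw [h1]
    refine (norm_add_le _ _).trans ?_
    rw [norm_smul, Complex.norm_real, Real.norm_eq_abs, abs_of_pos hε]
    have h2 := h.i1
    have h3 : C * ε ^ 2 ≤ C * ε := by
      have : ε ^ 2 ≤ ε := by nlinarith
      exact mul_le_mul_of_nonneg_left this hC
    nlinarith [mul_le_mul_of_nonneg_left hη hε.le]
  have e2 : ‖V⁻¹ (U (V S.Om)) - V⁻¹ (U (θ • T S.Om))‖ ≤ 2 * C * ε := by
    rw [← map_sub, ← map_sub, LinearIsometryEquiv.norm_map, LinearIsometryEquiv.norm_map]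
    exact e1
  have e3 : ‖V⁻¹ (U (θ • T S.Om)) - T⁻¹ (U (T S.Om))‖ ≤ C * (C * (C * 3)) * ε := by
    have h1 := h.i2 _ _ n3
    have h2 : T (T⁻¹ (U (T S.Om))) = U (T S.Om) := T.apply_symm_apply _
    rw [h2, ← map_smul U] at h1
    have h3 : V⁻¹ (V (T⁻¹ (U (T S.Om)))) = T⁻¹ (U (T S.Om)) := V.symm_apply_apply _
    rw [← h3, ← map_sub, LinearIsometryEquiv.norm_map, norm_sub_rev]
    exact h1
  calc ‖V⁻¹ (U (V S.Om)) - T⁻¹ (U (T S.Om))‖
      = ‖(V⁻¹ (U (V S.Om)) - V⁻¹ (U (θ • T S.Om))) +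
        (V⁻¹ (U (θ • T S.Om)) - T⁻¹ (U (T S.Om)))‖ := by
        congr 1
        abel
    _ ≤ 2 * C * ε + C * (C * (C * 3)) * ε := (norm_add_le _ _).trans (add_le_add e2 e3)
    _ = _ := by ring

theorem xStmt (hN : S.NStmt) : S.XStmt := by
  intro C hC
  have hD : 0 ≤ C * (C * (C * 3)) := by positivity
  refine ⟨(2 * C + C * (C * (C * 3))) + C * (C * (C * 3)), by linarith, ?_⟩
  intro ε hε hε1 V T θ σ a η e h
  have hx : ‖S.xv V - S.xv T‖ ≤ (2 * C + C * (C * (C * 3))) * ε :=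
    (S.x_aux hN hC hε hε1 h S.Z S.WZ).2
  have hDε : 0 ≤ C * (C * (C * 3)) * ε := mul_nonneg hD hε.le
  refine ⟨fun t => ?_, ?_, fun hL => ?_⟩
  · have h1 := (S.x_aux hN hC hε hε1 h (S.Zt t) (fun a x => S.x_W_Zt a t x)).2
    have h2 : S.xt t V - S.xt t T =
        V⁻¹ (S.Zt t (V S.Om)) - T⁻¹ (S.Zt t (T S.Om)) := rfl
    rw [h2]
    linarith
  · linarith
  · have n3 : S.Nice (C * (C * 3)) (S.xv T) := (S.x_aux hN hC hε hε1 h S.Z S.WZ).1
    have h1 := hL.perp _ _ n3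
    have h2 : (inner ℂ e (S.xv V) : ℂ) =
        inner ℂ e (S.xv V - S.xv T) + inner ℂ e (S.xv T) := by
      rw [← inner_add_right, sub_add_cancel]
    have h3 : ‖(inner ℂ e (S.xv V - S.xv T) : ℂ)‖ ≤ ‖S.xv V - S.xv T‖ := by
      refine (norm_inner_le_norm _ _).trans ?_
      rw [hL.n, one_mul]
    rw [h2]
    refine (norm_add_le _ _).trans ?_
    linarith

end Sys

end Vale.Agent.P367.A
end

section

/-! P367, block B: basic lemmas on label systems (helper96). -/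

namespace Vale.Agent.P367.A

open Complex Filter Topology MeasureTheory

namespace LSys

variable {H K : Type*} [NormedAddCommGroup H] [InnerProductSpace ℂ H]
  [NormedAddCommGroup K] [InnerProductSpace ℂ K] (L : LSys H K)

lemma bm_const (c : ℂ) : Bm (fun _ => c) := ⟨measurable_const, ‖c‖, fun _ => le_rfl⟩

lemma bm_ind {b : Set ℝ} (hb : MeasurableSet b) : Bm (b.indicator fun _ => (1 : ℂ)) := by
  refine ⟨measurable_const.indicator hb, 1, fun x => ?_⟩
  by_cases h : x ∈ b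
  · simp [Set.indicator_of_mem h]
  · simp [Set.indicator_of_notMem h]

lemma bm_add {f g : ℝ → ℂ} (hf : Bm f) (hg : Bm g) : Bm (fun t => f t + g t) := by
  obtain ⟨h1, C, h2⟩ := hf
  obtain ⟨h3, D, h4⟩ := hg
  exact ⟨h1.add h3, C + D, fun x => (norm_add_le _ _).trans (add_le_add (h2 x) (h4 x))⟩

lemma bm_mul {f g : ℝ → ℂ} (hf : Bm f) (hg : Bm g) : Bm (fun t => f t * g t) := by
  obtain ⟨h1, C, h2⟩ := hf
  obtain ⟨h3, D, h4⟩ := hg
  refine ⟨h1.mul h3, C * D, fun x => ?_⟩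
  rw [norm_mul]
  exact mul_le_mul (h2 x) (h4 x) (norm_nonneg _) ((norm_nonneg _).trans (h2 x))

lemma bm_real {f : ℝ → ℝ} (hf : Measurable f) {C : ℝ} (hC : ∀ t, |f t| ≤ C) :
    Bm (fun t => (f t : ℂ)) :=
  ⟨Complex.measurable_ofReal.comp hf, C, fun x => by
    rw [Complex.norm_real, Real.norm_eq_abs]; exact hC x⟩

lemma lab_one : L.lab (fun _ => (1 : ℂ)) = 1 := by rw [L.lab_const, one_smul]

lemma lab_smul (c : ℂ) {f : ℝ → ℂ} (hf : Bm f) : L.lab (fun t => c * f t) = c • L.lab f := by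
  rw [L.lab_mul (fun _ => c) f (bm_const c) hf, L.lab_const, smul_mul_assoc, one_mul]

lemma o_lab_zero : L.lab (fun _ => (0 : ℂ)) = 0 := by rw [L.lab_const, zero_smul]

lemma lab_neg {f : ℝ → ℂ} (hf : Bm f) : L.lab (fun t => -f t) = -L.lab f := by
  have := L.lab_smul (-1) hf
  simpa using this

lemma bm_neg {f : ℝ → ℂ} (hf : Bm f) : Bm (fun t => -f t) := by
  obtain ⟨h1, C, h2⟩ := hf
  exact ⟨h1.neg, C, fun x => by rw [norm_neg]; exact h2 x⟩

lemma bm_smul (c : ℂ) {f : ℝ → ℂ} (hf : Bm f) : Bm (fun t => c * f t) := bm_mul (bm_const c) hf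

lemma lab_sub {f g : ℝ → ℂ} (hf : Bm f) (hg : Bm g) :
    L.lab (fun t => f t - g t) = L.lab f - L.lab g := by
  have h := L.lab_add f (fun t => -g t) hf (bm_neg hg)
  rw [L.lab_neg hg] at h
  simpa [sub_eq_add_neg] using h

lemma o_lab_comm {f g : ℝ → ℂ} (hf : Bm f) (hg : Bm g) : L.lab f * L.lab g = L.lab g * L.lab f := by
  rw [← L.lab_mul f g hf hg, ← L.lab_mul g f hg hf]
  simp only [mul_comm]

lemma o_E_univ : L.E Set.univ = 1 := by
  unfold E
  rw [Set.indicator_univ, L.lab_one]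

lemma o_E_empty : L.E ∅ = 0 := by
  unfold E
  have : (∅ : Set ℝ).indicator (fun _ => (1 : ℂ)) = fun _ => 0 := by
    ext t; simp
  rw [this, L.o_lab_zero]

lemma o_E_mul {b c : Set ℝ} (hb : MeasurableSet b) (hc : MeasurableSet c) :
    L.E b * L.E c = L.E (b ∩ c) := by
  unfold E
  rw [← L.lab_mul _ _ (bm_ind hb) (bm_ind hc)]
  congr 1
  ext t
  by_cases h1 : t ∈ b
  · by_cases h2 : t ∈ c
    · simp [h1, h2]
    · simp [h1, h2]
  · simp [h1]

lemma o_E_mulA {b c : Set ℝ} (hb : MeasurableSet b) (hc : MeasurableSet c) (x : H) :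
    L.E b (L.E c x) = L.E (b ∩ c) x := by
  rw [← L.o_E_mul hb hc]; rfl

lemma o_E_idem {b : Set ℝ} (hb : MeasurableSet b) (x : H) : L.E b (L.E b x) = L.E b x := by
  rw [L.o_E_mulA hb hb, Set.inter_self]

lemma o_E_comm {b c : Set ℝ} (hb : MeasurableSet b) (hc : MeasurableSet c) (x : H) :
    L.E b (L.E c x) = L.E c (L.E b x) := by
  rw [L.o_E_mulA hb hc, L.o_E_mulA hc hb, Set.inter_comm]

lemma o_E_sub_mem {b c : Set ℝ} (hb : MeasurableSet b) (hc : MeasurableSet c) (h : b ⊆ c) (x : H) :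
    L.E b (L.E c x) = L.E b x := by
  rw [L.o_E_mulA hb hc, Set.inter_eq_left.2 h]

lemma o_E_sub_mem' {b c : Set ℝ} (hb : MeasurableSet b) (hc : MeasurableSet c) (h : b ⊆ c) (x : H) :
    L.E c (L.E b x) = L.E b x := by
  rw [L.o_E_mulA hc hb, Set.inter_eq_right.2 h]

lemma o_E_disj {b c : Set ℝ} (hb : MeasurableSet b) (hc : MeasurableSet c) (h : Disjoint b c)
    (x : H) : L.E b (L.E c x) = 0 := by
  rw [L.o_E_mulA hb hc, h.inter_eq, L.o_E_empty]; rfl

lemma o_E_union {b c : Set ℝ} (hb : MeasurableSet b) (hc : MeasurableSet c) (h : Disjoint b c) :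
    L.E (b ∪ c) = L.E b + L.E c := by
  unfold E
  rw [← L.lab_add _ _ (bm_ind hb) (bm_ind hc), Set.indicator_union_of_disjoint h]

lemma o_E_unionA {b c : Set ℝ} (hb : MeasurableSet b) (hc : MeasurableSet c) (h : Disjoint b c)
    (x : H) : L.E (b ∪ c) x = L.E b x + L.E c x := by
  rw [L.o_E_union hb hc h]; rfl

lemma o_E_compl {b : Set ℝ} (hb : MeasurableSet b) (x : H) : L.E bᶜ x = x - L.E b x := by
  have h := L.o_E_unionA hb hb.compl disjoint_compl_right x
  rw [Set.union_compl_self, L.o_E_univ] at h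
  rw [eq_sub_iff_add_eq, add_comm]
  exact h.symm

lemma o_E_sa (b : Set ℝ) (hb : MeasurableSet b) (x y : H) :
    inner ℂ (L.E b x) y = inner ℂ x (L.E b y) := by
  unfold E
  rw [L.lab_adj _ (bm_ind hb)]
  congr 3
  ext t
  by_cases h : t ∈ b
  · simp [h]
  · simp [h]

lemma o_E_X (b : Set ℝ) (x : H) : L.E b (L.X x) = L.X (L.E b x) := L.lab_X _ x

lemma o_E_Z (b : Set ℝ) (x : H) : L.E b (L.Z x) = L.Z (L.E b x) := L.lab_Z _ x

lemma o_E_W (b : Set ℝ) (a : K) (x : H) : L.E b (L.W a x) = L.W a (L.E b x) := L.lab_W _ a x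

lemma o_lab_xr (f : ℝ → ℂ) (t : ℝ) (x : H) : L.lab f (L.xr t x) = L.xr t (L.lab f x) := by
  rw [L.xr_apply, L.xr_apply, map_sub, map_smul, map_smul, L.lab_X]

lemma o_lab_Zt (f : ℝ → ℂ) (t : ℝ) (x : H) : L.lab f (L.Zt t x) = L.Zt t (L.lab f x) := by
  rw [L.Zt_apply, L.Zt_apply, L.o_lab_xr, L.lab_Z]

lemma o_lab_zr (f : ℝ → ℂ) (v : K) (x : H) : L.lab f (L.zr v x) = L.zr v (L.lab f x) := by
  rw [L.zr_apply, L.zr_apply]
  simp only [map_add, map_sub, map_smul, L.lab_W, L.lab_Z]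

lemma o_lab_pul (f : ℝ → ℂ) (t : ℝ) (v : K) (x : H) :
    L.lab f (L.pul t v x) = L.pul t v (L.lab f x) := by
  rw [L.pul_def, L.pul_def, L.o_lab_xr, L.o_lab_zr, L.o_lab_xr]

lemma o_lab_pau (f : ℝ → ℂ) (P : Fin 3) (x : H) : L.lab f (L.pau P x) = L.pau P (L.lab f x) := by
  fin_cases P
  · exact L.lab_X f x
  · exact L.o_lab_Zt f _ x
  · exact L.lab_Z f x

/-- Pythagoras for a projection -/
lemma o_norm_sq_E {b : Set ℝ} (hb : MeasurableSet b) (x : H) :
    ‖x‖ ^ 2 = ‖L.E b x‖ ^ 2 + ‖x - L.E b x‖ ^ 2 := by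
  have h0 : (inner ℂ (L.E b x) (x - L.E b x) : ℂ) = 0 := by
    rw [L.o_E_sa b hb, map_sub, L.o_E_idem hb, sub_self, inner_zero_right]
  have h := @norm_add_sq ℂ H _ _ _ (L.E b x) (x - L.E b x)
  rw [h0, add_sub_cancel] at h
  simpa using h

lemma o_norm_E_le {b : Set ℝ} (hb : MeasurableSet b) (x : H) : ‖L.E b x‖ ≤ ‖x‖ := by
  refine (sq_le_sq₀ (norm_nonneg _) (norm_nonneg _)).1 ?_
  rw [L.o_norm_sq_E hb x]; nlinarith [sq_nonneg ‖x - L.E b x‖]

/-- `lab f` is bounded by the sup norm of `f` -/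
lemma norm_lab_le {f : ℝ → ℂ} (hf : Bm f) {C : ℝ} (hC : ∀ t, ‖f t‖ ≤ C) (x : H) :
    ‖L.lab f x‖ ≤ C * ‖x‖ := by
  have hC0 : 0 ≤ C := (norm_nonneg _).trans (hC 0)
  -- `C^2 - |f|^2 = g^2`
  set g : ℝ → ℂ := fun t => ((Real.sqrt (C ^ 2 - ‖f t‖ ^ 2) : ℝ) : ℂ) with hg
  have hgm : Bm g := by
    refine ⟨Complex.measurable_ofReal.comp (Real.continuous_sqrt.measurable.comp
      (measurable_const.sub ((hf.1.norm).pow_const 2))), C, fun t => ?_⟩
    rw [hg, Complex.norm_real, Real.norm_eq_abs, abs_of_nonneg (Real.sqrt_nonneg _)]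
    rw [Real.sqrt_le_left hC0]
    nlinarith [sq_nonneg ‖f t‖]
  have hfs : Bm (fun t => (starRingEnd ℂ) (f t)) := by
    obtain ⟨h1, D, h2⟩ := hf
    exact ⟨Complex.continuous_conj.measurable.comp h1, D, fun t => by
      rw [RCLike.norm_conj]; exact h2 t⟩
  have h1 : ∀ h : ℝ → ℂ, Bm h → ((‖L.lab h x‖ ^ 2 : ℝ) : ℂ)
      = inner ℂ x (L.lab (fun t => (starRingEnd ℂ) (h t) * h t) x) := by
    intro h hh
    have hhs : Bm (fun t => (starRingEnd ℂ) (h t)) := by
      obtain ⟨h1, D, h2⟩ := hh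
      exact ⟨Complex.continuous_conj.measurable.comp h1, D, fun t => by
        rw [RCLike.norm_conj]; exact h2 t⟩
    rw [L.lab_mul _ _ hhs hh]
    change _ = inner ℂ x (L.lab (fun t => (starRingEnd ℂ) (h t)) (L.lab h x))
    rw [← L.lab_adj h hh, inner_self_eq_norm_sq_to_K]
    norm_cast
  have e1 := h1 f hf
  have e2 := h1 g hgm
  have e3 : (fun t => (starRingEnd ℂ) (f t) * f t + (starRingEnd ℂ) (g t) * g t)
      = fun _ => ((C ^ 2 : ℝ) : ℂ) := by
    ext t
    have h4 : (starRingEnd ℂ) (f t) * f t = ((‖f t‖ ^ 2 : ℝ) : ℂ) := by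
      rw [mul_comm, Complex.mul_conj, Complex.normSq_eq_norm_sq]
    have h5 : (starRingEnd ℂ) (g t) * g t = ((C ^ 2 - ‖f t‖ ^ 2 : ℝ) : ℂ) := by
      rw [hg]
      simp only [Complex.conj_ofReal]
      rw [← Complex.ofReal_mul, Real.mul_self_sqrt]
      nlinarith [hC t, norm_nonneg (f t)]
    rw [h4, h5, ← Complex.ofReal_add]
    congr 1
    ring
  have hgs : Bm (fun t => (starRingEnd ℂ) (g t)) := by
    obtain ⟨h1, D, h2⟩ := hgm
    exact ⟨Complex.continuous_conj.measurable.comp h1, D, fun t => by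
      rw [RCLike.norm_conj]; exact h2 t⟩
  have e4 : ((‖L.lab f x‖ ^ 2 : ℝ) : ℂ) + ((‖L.lab g x‖ ^ 2 : ℝ) : ℂ)
      = ((C ^ 2 * ‖x‖ ^ 2 : ℝ) : ℂ) := by
    rw [e1, e2, ← inner_add_right]
    have h6 : L.lab (fun t => (starRingEnd ℂ) (f t) * f t) x
        + L.lab (fun t => (starRingEnd ℂ) (g t) * g t) x = ((C ^ 2 : ℝ) : ℂ) • x := by
      have := L.lab_add _ _ (bm_mul hfs hf) (bm_mul hgs hgm)
      rw [e3, L.lab_const] at this
      have h7 := congrArg (fun T : H →L[ℂ] H => T x) this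
      simpa using h7.symm
    rw [h6, inner_smul_right, inner_self_eq_norm_sq_to_K, Complex.ofReal_mul,
      Complex.ofReal_pow ‖x‖]
    rfl
  have e5 : ‖L.lab f x‖ ^ 2 + ‖L.lab g x‖ ^ 2 = C ^ 2 * ‖x‖ ^ 2 := by exact_mod_cast e4
  refine (sq_le_sq₀ (norm_nonneg _) (by positivity)).1 ?_
  rw [mul_pow]
  nlinarith [sq_nonneg ‖L.lab g x‖]

lemma opNorm_lab_le {f : ℝ → ℂ} (hf : Bm f) {C : ℝ} (hC : ∀ t, ‖f t‖ ≤ C) : ‖L.lab f‖ ≤ C :=
  ContinuousLinearMap.opNorm_le_bound _ ((norm_nonneg _).trans (hC 0)) (L.norm_lab_le hf hC)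

lemma bm_pow {f : ℝ → ℂ} (hf : Bm f) (n : ℕ) : Bm (fun t => f t ^ n) := by
  obtain ⟨h1, C, h2⟩ := hf
  refine ⟨h1.pow_const n, C ^ n, fun t => ?_⟩
  rw [norm_pow]
  exact pow_le_pow_left₀ (norm_nonneg _) (h2 t) n

lemma lab_pow {f : ℝ → ℂ} (hf : Bm f) (n : ℕ) : L.lab (fun t => f t ^ n) = L.lab f ^ n := by
  induction n with
  | zero => simpa using L.lab_one
  | succ n ih =>
    rw [pow_succ, ← ih, ← L.lab_mul _ _ (bm_pow hf n) hf]
    simp only [pow_succ]

lemma bm_sum {ι : Type*} (s : Finset ι) {f : ι → ℝ → ℂ} (hf : ∀ i ∈ s, Bm (f i)) :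
    Bm (fun t => ∑ i ∈ s, f i t) := by
  classical
  induction s using Finset.induction_on with
  | empty => simpa using bm_const 0
  | insert i s hi ih =>
    have := bm_add (hf i (Finset.mem_insert_self i s))
      (ih fun j hj => hf j (Finset.mem_insert_of_mem hj))
    simpa [Finset.sum_insert hi] using this

lemma lab_sum {ι : Type*} (s : Finset ι) {f : ι → ℝ → ℂ} (hf : ∀ i ∈ s, Bm (f i)) :
    L.lab (fun t => ∑ i ∈ s, f i t) = ∑ i ∈ s, L.lab (f i) := by
  classical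
  induction s using Finset.induction_on with
  | empty => simpa using L.o_lab_zero
  | insert i s hi ih =>
    have h := L.lab_add _ _ (hf i (Finset.mem_insert_self i s))
      (bm_sum s fun j hj => hf j (Finset.mem_insert_of_mem hj))
    rw [Finset.sum_insert hi, ← ih fun j hj => hf j (Finset.mem_insert_of_mem hj), ← h]
    simp only [Finset.sum_insert hi]

/-- exponentials of label functions -/
lemma exp_lab [CompleteSpace H] {f : ℝ → ℂ} (hf : Bm f) :
    NormedSpace.exp (L.lab f) = L.lab (fun t => Complex.exp (f t)) := by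
  obtain ⟨C, hC⟩ := hf.2
  have hC0 : 0 ≤ C := (norm_nonneg _).trans (hC 0)
  have hexp : Bm (fun t => Complex.exp (f t)) := by
    refine ⟨Complex.measurable_exp.comp hf.1, Real.exp C, fun t => ?_⟩
    rw [Complex.norm_exp]
    exact Real.exp_le_exp.2 ((Complex.re_le_norm _).trans (hC t))
  have h1 : Tendsto (fun N : ℕ => ∑ n ∈ Finset.range N, ((n.factorial : ℂ)⁻¹) • (L.lab f) ^ n)
      atTop (𝓝 (NormedSpace.exp (L.lab f))) :=
    (NormedSpace.exp_series_hasSum_exp' (𝕂 := ℂ) (L.lab f)).tendsto_sum_nat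
  refine tendsto_nhds_unique h1 ?_
  rw [tendsto_iff_norm_sub_tendsto_zero]
  have hterm : ∀ n : ℕ, Bm (fun t => ((n.factorial : ℂ)⁻¹) * f t ^ n) := fun n =>
    bm_smul _ (bm_pow hf n)
  have key : ∀ N : ℕ, ‖∑ n ∈ Finset.range N, ((n.factorial : ℂ)⁻¹) • (L.lab f) ^ n
      - L.lab (fun t => Complex.exp (f t))‖
      ≤ Real.exp C - ∑ n ∈ Finset.range N, C ^ n / (n.factorial : ℝ) := by
    intro N
    have e1 : ∑ n ∈ Finset.range N, ((n.factorial : ℂ)⁻¹) • (L.lab f) ^ n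
        = L.lab (fun t => ∑ n ∈ Finset.range N, ((n.factorial : ℂ)⁻¹) * f t ^ n) := by
      rw [L.lab_sum _ fun n _ => hterm n]
      refine Finset.sum_congr rfl fun n _ => ?_
      rw [L.lab_smul _ (bm_pow hf n), L.lab_pow hf]
    rw [e1, ← L.lab_sub (bm_sum _ fun n _ => hterm n) hexp]
    refine L.opNorm_lab_le ?_ fun t => ?_
    · have := bm_add (bm_sum (Finset.range N) fun n _ => hterm n) (bm_neg hexp)
      simpa [sub_eq_add_neg] using this
    · rw [norm_sub_rev]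
      have h2 : HasSum (fun n : ℕ => ((n.factorial : ℂ)⁻¹) * f t ^ n) (Complex.exp (f t)) := by
        have := NormedSpace.exp_series_hasSum_exp' (𝕂 := ℂ) (f t)
        rw [← Complex.exp_eq_exp_ℂ] at this
        simpa [smul_eq_mul] using this
      have h3 : HasSum (fun n : ℕ => C ^ n / (n.factorial : ℝ)) (Real.exp C) := by
        have := NormedSpace.exp_series_hasSum_exp' (𝕂 := ℝ) C
        rw [← Real.exp_eq_exp_ℝ] at this
        simpa [smul_eq_mul, div_eq_inv_mul] using this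
      have h4 := h2.summable.sum_add_tsum_nat_add N
      rw [h2.tsum_eq] at h4
      have h5 := h3.summable.sum_add_tsum_nat_add N
      rw [h3.tsum_eq] at h5
      rw [← h4, ← h5, add_sub_cancel_left, add_sub_cancel_left]
      refine tsum_of_norm_bounded
        ((summable_nat_add_iff N).2 h3.summable).hasSum fun n => ?_
      rw [norm_mul, norm_inv, norm_pow, Complex.norm_natCast, div_eq_inv_mul]
      exact mul_le_mul_of_nonneg_left (pow_le_pow_left₀ (norm_nonneg _) (hC t) _) (by positivity)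
  have h3 : Tendsto (fun N : ℕ => Real.exp C - ∑ n ∈ Finset.range N, C ^ n / (n.factorial : ℝ))
      atTop (𝓝 0) := by
    have : HasSum (fun n : ℕ => C ^ n / (n.factorial : ℝ)) (Real.exp C) := by
      have := NormedSpace.exp_series_hasSum_exp' (𝕂 := ℝ) C
      rw [← Real.exp_eq_exp_ℝ] at this
      simpa [smul_eq_mul, div_eq_inv_mul] using this
    have h := this.tendsto_sum_nat.const_sub (Real.exp C)
    rwa [sub_self] at h
  exact squeeze_zero (fun N => norm_nonneg _) key h3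

end LSys

end Vale.Agent.P367.A
end

section

/-! P367, block B, T2: finite form of the conclusion (what the sweep analysis delivers) (helper96) -/

namespace Vale.Agent.P367.A

open Complex Filter Topology MeasureTheory

namespace LSys

variable {H K : Type*} [NormedAddCommGroup H] [InnerProductSpace ℂ H]
  [NormedAddCommGroup K] [InnerProductSpace ℂ K] (L : LSys H K)

/-- finite form of T2: `R0` is a fresh activated reserve (`V` is the identity on it), disjoint from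
`G`. For finitely many vectors and every `ε` there is a reachable state `V'` which equals `V`
outside `G ∪ R0` and is `ε`-close to `U V` on `G` up to label phases `exp(i f)`. -/
def T2FinStmt : Prop :=
  ∀ (G : Set ℝ) (𝔄 : Set (H →L[ℂ] H)) (Rch : Set ℝ → Set ℝ → (H ≃ₗᵢ[ℂ] H) → Prop),
    MeasurableSet G → L.Ctl 𝔄 → L.Closed G 𝔄 Rch →
    ∀ (M R R0 : Set ℝ) (V : H ≃ₗᵢ[ℂ] H) (sg : H →L[ℂ] H) (s : ℝ),
      Rch M R V → MeasurableSet R0 → R0 ⊆ M → Disjoint G R0 → L.mu R0 ≠ 0 →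
      (∀ x, L.E R0 (V x) = L.E R0 x) → L.Sgn G 𝔄 sg →
      ∀ U, L.IsProd G sg s V U →
      ∀ (F : Finset H) (ε : ℝ), 0 < ε →
        ∃ (V' : H ≃ₗᵢ[ℂ] H) (f : ℝ → ℝ), Measurable f ∧ (∃ C : ℝ, ∀ t, |f t| ≤ C) ∧
          (∀ t, t ∉ G → f t = 0) ∧ Rch M R V' ∧
          (∀ x, L.E (G ∪ R0)ᶜ (V' x) = L.E (G ∪ R0)ᶜ (V x)) ∧
          ∀ x ∈ F, ‖L.lab (fun t => Complex.exp (Complex.I * (f t : ℂ))) (L.E G (V' x))
            - L.E G (U (V x))‖ ≤ ε

end LSys

end Vale.Agent.P367.A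
end

section

/-! P367 block B: bounded exponentials, Weyl families, and the limit of the own-batch gate. -/

namespace Vale.Agent.P367.B

open Filter Topology Complex

section expo

variable {E : Type} [NormedAddCommGroup E] [InnerProductSpace ℂ E] [CompleteSpace E]

/-- `exp(i A)` -/
noncomputable def ex (A : E →L[ℂ] E) : E →L[ℂ] E := NormedSpace.exp (Complex.I • A)

lemma ex_zero : ex (0 : E →L[ℂ] E) = 1 := by
  simp [ex]

lemma ex_add {A B : E →L[ℂ] E} (h : Commute A B) : ex (A + B) = ex A * ex B := by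
  unfold ex
  rw [smul_add]
  let +nondep : NormedAlgebra ℚ (E →L[ℂ] E) := .restrictScalars ℚ ℂ (E →L[ℂ] E)
  exact NormedSpace.exp_add_of_commute ((h.smul_left I).smul_right I)

lemma ex_neg_mul (A : E →L[ℂ] E) : ex (-A) * ex A = 1 := by
  rw [← ex_add (Commute.refl A).neg_left, neg_add_cancel, ex_zero]

lemma ex_mul_neg (A : E →L[ℂ] E) : ex A * ex (-A) = 1 := by
  rw [← ex_add (Commute.refl A).neg_right, add_neg_cancel, ex_zero]

lemma ex_commute {A B : E →L[ℂ] E} (h : Commute A B) : Commute (ex A) B := by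
  unfold ex
  exact (h.smul_left I).exp_left

lemma star_ex {A : E →L[ℂ] E} (hA : IsSelfAdjoint A) : star (ex A) = ex (-A) := by
  unfold ex
  rw [NormedSpace.star_exp, star_smul, hA.star_eq]
  congr 1
  rw [smul_neg, ← neg_smul]
  congr 1
  simp

lemma norm_ex {A : E →L[ℂ] E} (hA : IsSelfAdjoint A) (z : E) : ‖ex A z‖ = ‖z‖ := by
  have h : inner ℂ (ex A z) (ex A z) = inner ℂ z z := by
    rw [← ContinuousLinearMap.adjoint_inner_right, ← ContinuousLinearMap.star_eq_adjoint,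
      star_ex hA, ← mul_apply_eq_comp, ex_neg_mul]
    rfl
  have h2 := congrArg Complex.re h
  rw [show (inner ℂ (ex A z) (ex A z) : ℂ).re = ‖ex A z‖ ^ 2 from
      (norm_sq_eq_re_inner (𝕜 := ℂ) _).symm,
    show (inner ℂ z z : ℂ).re = ‖z‖ ^ 2 from (norm_sq_eq_re_inner (𝕜 := ℂ) _).symm] at h2
  exact (sq_eq_sq₀ (norm_nonneg _) (norm_nonneg _)).1 h2

/-- (O1) first order bound -/
lemma norm_ex_sub_one_le {A : E →L[ℂ] E} (hA : IsSelfAdjoint A) (z : E) :
    ‖ex A z - z‖ ≤ ‖A z‖ := by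
  have hd : ∀ t : ℝ, HasDerivAt (fun t : ℝ => NormedSpace.exp (t • (Complex.I • A)) z)
      ((NormedSpace.exp (t • (Complex.I • A)) * (Complex.I • A)) z) t := by
    intro t
    have h1 := hasDerivAt_exp_smul_const (𝕂 := ℝ) (Complex.I • A) t
    exact ((ContinuousLinearMap.apply ℂ E z).restrictScalars ℝ).hasFDerivAt.comp_hasDerivAt t h1
  have hb : ∀ t ∈ Set.Ico (0:ℝ) 1, ‖(NormedSpace.exp (t • (Complex.I • A)) * (Complex.I • A)) z‖
      ≤ ‖A z‖ := by
    intro t _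
    have e : NormedSpace.exp (t • (Complex.I • A)) = ex (t • A) := by
      unfold ex
      rw [smul_comm]
    have hs : IsSelfAdjoint (t • A) := by
      rw [isSelfAdjoint_iff, star_smul, hA.star_eq]
      simp
    rw [mul_apply_eq_comp, e, norm_ex hs, smul_apply, norm_smul,
      Complex.norm_I, one_mul]
  have := norm_image_sub_le_of_norm_deriv_le_segment_01'
    (fun t _ => (hd t).hasDerivWithinAt) hb
  simpa [ex] using this

lemma norm_ex_sub_ex_le {A B : E →L[ℂ] E} (hA : IsSelfAdjoint A) (hB : IsSelfAdjoint B)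
    (h : Commute A B) (z : E) : ‖ex A z - ex B z‖ ≤ ‖(A - B) z‖ := by
  have hc : Commute B (A - B) := (h.symm).sub_right (Commute.refl B)
  have e : ex A = ex B * ex (A - B) := by
    rw [← ex_add hc]
    congr 1
    abel
  rw [e, mul_apply_eq_comp, ← map_sub, norm_ex hB]
  exact norm_ex_sub_one_le (hA.sub hB) z

end expo

/-- a Weyl family of unitaries on a Hilbert space `E`, over the one-particle space `K` -/
structure WFam (K E : Type) [NormedAddCommGroup K] [InnerProductSpace ℂ K]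
    [NormedAddCommGroup E] [InnerProductSpace ℂ E] where
  /-- Weyl operators -/
  W : K → E ≃ₗᵢ[ℂ] E
  mul : ∀ (a b : K) (x : E), W a (W b x)
    = Complex.exp (-(Complex.I * ((inner ℂ a b).im : ℂ))) • W (a + b) x
  cont : ∀ x : E, Tendsto (fun a => W a x) (𝓝 0) (𝓝 x)

namespace WFam

variable {K E : Type} [NormedAddCommGroup K] [InnerProductSpace ℂ K]
  [NormedAddCommGroup E] [InnerProductSpace ℂ E] (T : WFam K E)

lemma W_zero (x : E) : T.W 0 x = x := by
  have h := T.mul 0 0 x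
  simp only [inner_zero_left, zero_im, ofReal_zero, mul_zero, neg_zero, Complex.exp_zero,
    one_smul, add_zero] at h
  exact (T.W 0).injective h

lemma mul_real {a b : K} (h : (inner ℂ a b : ℂ).im = 0) (x : E) :
    T.W a (T.W b x) = T.W (a + b) x := by
  rw [T.mul, h]
  simp

lemma W_neg_W (a : K) (x : E) : T.W (-a) (T.W a x) = x := by
  rw [T.mul_real, neg_add_cancel, T.W_zero]
  rw [inner_neg_left, neg_im, inner_self_im', neg_zero]
  where inner_self_im' : (inner ℂ a a : ℂ).im = 0 := inner_self_im (𝕜 := ℂ) a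

lemma W_W_neg (a : K) (x : E) : T.W a (T.W (-a) x) = x := by
  have := T.W_neg_W (-a) x
  rwa [neg_neg] at this

lemma W_symm (a : K) (x : E) : (T.W a).symm x = T.W (-a) x := by
  rw [LinearIsometryEquiv.symm_apply_eq, T.W_W_neg]

/-- the Weyl operator as a bounded operator -/
noncomputable def op (a : K) : E →L[ℂ] E := ((T.W a : E ≃ₗᵢ[ℂ] E).toContinuousLinearEquiv : E →L[ℂ] E)

@[simp] lemma op_apply (a : K) (x : E) : T.op a x = T.W a x := rfl

lemma norm_op_apply (a : K) (x : E) : ‖T.op a x‖ = ‖x‖ := (T.W a).norm_map x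

lemma op_zero : T.op 0 = 1 := by
  ext x
  exact T.W_zero x

lemma op_mul (a b : K) : T.op a * T.op b
    = Complex.exp (-(Complex.I * ((inner ℂ a b).im : ℂ))) • T.op (a + b) := by
  ext x
  exact T.mul a b x

lemma op_mul_real {a b : K} (h : (inner ℂ a b : ℂ).im = 0) : T.op a * T.op b = T.op (a + b) := by
  ext x
  exact T.mul_real h x

lemma inner_im_symm (a b : K) : (inner ℂ b a : ℂ).im = -(inner ℂ a b : ℂ).im := by
  rw [← inner_conj_symm (𝕜 := ℂ) b a, conj_im]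

lemma op_commute {a b : K} (h : (inner ℂ a b : ℂ).im = 0) : Commute (T.op a) (T.op b) := by
  unfold Commute SemiconjBy
  rw [T.op_mul_real h, T.op_mul_real (by rw [inner_im_symm, h, neg_zero]), add_comm]

/-- the commutation relation -/
lemma op_swap (a b : K) : T.op a * T.op b
    = Complex.exp (-(Complex.I * ((2 * (inner ℂ a b : ℂ).im : ℝ) : ℂ))) • (T.op b * T.op a) := by
  rw [T.op_mul, T.op_mul b a, smul_smul, ← Complex.exp_add, inner_im_symm a b, add_comm b a]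
  congr 2
  push_cast
  ring

lemma op_neg_mul (a : K) : T.op (-a) * T.op a = 1 := by
  ext x
  exact T.W_neg_W a x

lemma op_mul_neg (a : K) : T.op a * T.op (-a) = 1 := by
  ext x
  exact T.W_W_neg a x

lemma star_op [CompleteSpace E] (a : K) : star (T.op a) = T.op (-a) := by
  rw [ContinuousLinearMap.star_eq_adjoint]
  symm
  rw [ContinuousLinearMap.eq_adjoint_iff]
  intro x y
  have h := (T.W a).inner_map_map (T.W (-a) x) y
  rw [T.W_W_neg] at h
  exact h.symm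

/-- `sin phi(v)` -/
noncomputable def sn (v : K) : E →L[ℂ] E := (2 * Complex.I)⁻¹ • (T.op v - T.op (-v))

/-- `cos phi(v)` -/
noncomputable def cs (v : K) : E →L[ℂ] E := (2 : ℂ)⁻¹ • (T.op v + T.op (-v))

lemma sn_sa [CompleteSpace E] (v : K) : IsSelfAdjoint (T.sn v) := by
  rw [isSelfAdjoint_iff, sn, star_smul, star_sub, T.star_op, T.star_op, neg_neg,
    ← neg_sub (T.op v), smul_neg, ← neg_smul]
  congr 1
  simp

lemma cs_sa [CompleteSpace E] (v : K) : IsSelfAdjoint (T.cs v) := by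
  rw [isSelfAdjoint_iff, cs, star_smul, star_add, T.star_op, T.star_op, neg_neg, add_comm]
  simp

/-- `C` commutes with all Weyl operators along `v` -/
def Com (C : E →L[ℂ] E) (v : K) : Prop := ∀ t : ℝ, Commute C (T.op ((t : ℂ) • v))

lemma Com.neg_op {T : WFam K E} {C : E →L[ℂ] E} {v : K} (h : T.Com C v) (t : ℝ) :
    Commute C (T.op (-((t : ℂ) • v))) := by
  have := h (-t)
  rwa [ofReal_neg, neg_smul] at this

lemma Com.sn {T : WFam K E} {C : E →L[ℂ] E} {v : K} (h : T.Com C v) (t : ℝ) :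
    Commute C (T.sn ((t : ℂ) • v)) := by
  unfold WFam.sn
  exact (((h t).sub_right (h.neg_op t)).smul_right _)

lemma Com.cs {T : WFam K E} {C : E →L[ℂ] E} {v : K} (h : T.Com C v) (t : ℝ) :
    Commute C (T.cs ((t : ℂ) • v)) := by
  unfold WFam.cs
  exact (((h t).add_right (h.neg_op t)).smul_right _)

lemma im_smul_smul (s t : ℝ) {a b : K} (h : (inner ℂ a b : ℂ).im = 0) :
    (inner ℂ ((s : ℂ) • a) ((t : ℂ) • b) : ℂ).im = 0 := by
  rw [inner_smul_left, inner_smul_right, conj_ofReal, ← mul_assoc, ← ofReal_mul, im_ofReal_mul, h,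
    mul_zero]

lemma im_self (a : K) : (inner ℂ a a : ℂ).im = 0 := inner_self_im (𝕜 := ℂ) a

lemma im_neg_left {a b : K} (h : (inner ℂ a b : ℂ).im = 0) : (inner ℂ (-a) b : ℂ).im = 0 := by
  rw [inner_neg_left, neg_im, h, neg_zero]

lemma im_neg_right {a b : K} (h : (inner ℂ a b : ℂ).im = 0) : (inner ℂ a (-b) : ℂ).im = 0 := by
  rw [inner_neg_right, neg_im, h, neg_zero]

lemma sn_commute {a b : K} (h : (inner ℂ a b : ℂ).im = 0) : Commute (T.sn a) (T.sn b) := by
  unfold sn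
  refine ((Commute.sub_left ?_ ?_).smul_left _)
  · exact ((T.op_commute h).sub_right (T.op_commute (im_neg_right h))).smul_right _
  · exact ((T.op_commute (im_neg_left h)).sub_right
      (T.op_commute (im_neg_left (im_neg_right h)))).smul_right _

lemma sn_cs_commute {a b : K} (h : (inner ℂ a b : ℂ).im = 0) : Commute (T.sn a) (T.cs b) := by
  unfold sn cs
  refine ((Commute.sub_left ?_ ?_).smul_left _)
  · exact ((T.op_commute h).add_right (T.op_commute (im_neg_right h))).smul_right _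
  · exact ((T.op_commute (im_neg_left h)).add_right
      (T.op_commute (im_neg_left (im_neg_right h)))).smul_right _

lemma cs_commute {a b : K} (h : (inner ℂ a b : ℂ).im = 0) : Commute (T.cs a) (T.cs b) := by
  unfold cs
  refine ((Commute.add_left ?_ ?_).smul_left _)
  · exact ((T.op_commute h).add_right (T.op_commute (im_neg_right h))).smul_right _
  · exact ((T.op_commute (im_neg_left h)).add_right
      (T.op_commute (im_neg_left (im_neg_right h)))).smul_right _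

lemma norm_W_neg_sub (v : K) (z : E) : ‖T.W (-v) z - z‖ = ‖T.W v z - z‖ := by
  rw [← (T.W v).norm_map (T.W (-v) z - z), map_sub, T.W_W_neg, norm_sub_rev]

lemma norm_sn_le (v : K) (z : E) : ‖T.sn v z‖ ≤ ‖T.W v z - z‖ := by
  have e : T.sn v z = (2 * Complex.I)⁻¹ • ((T.W v z - z) - (T.W (-v) z - z)) := by
    change (2 * Complex.I)⁻¹ • (T.W v z - T.W (-v) z) = _
    congr 1
    abel
  rw [e, norm_smul, norm_inv, norm_mul, norm_I, mul_one]
  have h1 := norm_sub_le (T.W v z - z) (T.W (-v) z - z)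
  rw [T.norm_W_neg_sub] at h1
  have h2 : ‖(2:ℂ)‖ = 2 := by simp
  rw [h2]
  linarith

lemma norm_sn_le' (v : K) (z : E) : ‖T.sn v z‖ ≤ ‖z‖ := by
  have e : T.sn v z = (2 * Complex.I)⁻¹ • (T.W v z - T.W (-v) z) := rfl
  rw [e, norm_smul, norm_inv, norm_mul, norm_I, mul_one]
  have h1 := norm_sub_le (T.W v z) (T.W (-v) z)
  rw [LinearIsometryEquiv.norm_map, LinearIsometryEquiv.norm_map] at h1
  have h2 : ‖(2:ℂ)‖ = 2 := by simp
  rw [h2]
  linarith

lemma norm_cs_le' (v : K) (z : E) : ‖T.cs v z‖ ≤ ‖z‖ := by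
  have e : T.cs v z = (2 : ℂ)⁻¹ • (T.W v z + T.W (-v) z) := rfl
  rw [e, norm_smul, norm_inv]
  have h1 := norm_add_le (T.W v z) (T.W (-v) z)
  rw [LinearIsometryEquiv.norm_map, LinearIsometryEquiv.norm_map] at h1
  have h2 : ‖(2:ℂ)‖ = 2 := by simp
  rw [h2]
  linarith

lemma norm_cs_sub_le (v : K) (z : E) : ‖T.cs v z - z‖ ≤ ‖T.W v z - z‖ := by
  have e : T.cs v z - z = (2 : ℂ)⁻¹ • ((T.W v z - z) + (T.W (-v) z - z)) := by
    change (2 : ℂ)⁻¹ • (T.W v z + T.W (-v) z) - z = _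
    module
  rw [e, norm_smul, norm_inv]
  have h1 := norm_add_le (T.W v z - z) (T.W (-v) z - z)
  rw [T.norm_W_neg_sub] at h1
  have h2 : ‖(2:ℂ)‖ = 2 := by simp
  rw [h2]
  linarith

/-- uniform smallness near `0` -/
lemma small (z : E) {κ : ℝ} (hκ : 0 < κ) : ∃ δ > 0, ∀ w : K, ‖w‖ < δ → ‖T.W w z - z‖ ≤ κ := by
  have h := Metric.tendsto_nhds_nhds.1 (T.cont z) κ hκ
  obtain ⟨δ, hδ, h⟩ := h
  refine ⟨δ, hδ, fun w hw => ?_⟩
  have := h (x := w) (by rwa [dist_zero_right])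
  rw [dist_eq_norm] at this
  exact this.le

/-- the one-parameter orbit -/
noncomputable def orb (v : K) (z : E) (t : ℝ) : E := T.W ((t : ℂ) • v) z

lemma W_orb (v : K) (z : E) (s t : ℝ) : T.W ((s : ℂ) • v) (T.orb v z t) = T.orb v z (s + t) := by
  unfold orb
  rw [T.mul_real (im_smul_smul s t (im_self v)), ← add_smul, ofReal_add]

lemma orb_zero (v : K) (z : E) : T.orb v z 0 = z := by
  unfold orb
  rw [ofReal_zero, zero_smul, T.W_zero]

lemma continuous_orb (v : K) (z : E) : Continuous (T.orb v z) := by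
  rw [continuous_iff_continuousAt]
  intro t
  have h1 : Tendsto (fun s : ℝ => (((s - t : ℝ)) : ℂ) • v) (𝓝 t) (𝓝 0) := by
    have : Continuous fun s : ℝ => (((s - t : ℝ)) : ℂ) • v := by fun_prop
    have h := this.tendsto t
    simpa using h
  have h2 := (T.cont z).comp h1
  have h3 := ((T.W ((t : ℂ) • v)).continuous.tendsto z).comp h2
  have e : (T.orb v z) = (T.W ((t : ℂ) • v)) ∘ ((fun a => T.W a z) ∘
      (fun s : ℝ => (((s - t : ℝ)) : ℂ) • v)) := by
    funext s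
    have := T.W_orb v z t (s - t)
    rw [add_sub_cancel] at this
    exact this.symm
  rw [ContinuousAt, e]
  simpa [T.W_zero] using h3

/-- mollified vector -/
noncomputable def moll (v : K) (z : E) (r : ℝ) : E := ((r : ℂ))⁻¹ • ∫ t in (0:ℝ)..r, T.orb v z t

variable [CompleteSpace E]

lemma norm_moll_sub_le (v : K) (z : E) {r : ℝ} (hr : 0 < r) {κ : ℝ}
    (h : ∀ t ∈ Set.Icc 0 r, ‖T.orb v z t - z‖ ≤ κ) : ‖T.moll v z r - z‖ ≤ κ := by
  have e : T.moll v z r - z = ((r : ℂ))⁻¹ • ∫ t in (0:ℝ)..r, (T.orb v z t - z) := by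
    rw [intervalIntegral.integral_sub ((T.continuous_orb v z).intervalIntegrable _ _)
      (by simp), smul_sub]
    congr 1
    rw [intervalIntegral.integral_const, sub_zero]
    have : (r : ℂ) ≠ 0 := by exact_mod_cast hr.ne'
    rw [show (r • z : E) = (r : ℂ) • z from (Complex.coe_smul r z).symm, smul_smul,
      inv_mul_cancel₀ this, one_smul]
  rw [e, norm_smul, norm_inv, norm_real, Real.norm_eq_abs, abs_of_pos hr]
  have h2 : ‖∫ t in (0:ℝ)..r, (T.orb v z t - z)‖ ≤ κ * |r - 0| := by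
    apply intervalIntegral.norm_integral_le_of_norm_le_const
    intro t ht
    rw [Set.uIoc_of_le hr.le] at ht
    exact h t ⟨ht.1.le, ht.2⟩
  rw [sub_zero, abs_of_pos hr] at h2
  rw [inv_mul_le_iff₀ hr]
  linarith

/-- shifting the mollifier: `sin` of the field on a mollified vector -/
lemma sn_moll (v : K) (z : E) (r μ : ℝ) : T.sn ((μ : ℂ) • v) (T.moll v z r)
    = (2 * Complex.I * r)⁻¹ • ∫ t in (-μ)..μ, (T.orb v z (r + t) - T.orb v z t) := by
  have hc := T.continuous_orb v z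
  have hi : ∀ a b : ℝ, IntervalIntegrable (T.orb v z) MeasureTheory.volume a b :=
    fun a b => hc.intervalIntegrable a b
  have h1 : ∀ s : ℝ, T.op ((s : ℂ) • v) (∫ t in (0:ℝ)..r, T.orb v z t)
      = ∫ t in s..(r + s), T.orb v z t := by
    intro s
    rw [← ContinuousLinearMap.intervalIntegral_comp_comm _ (hi 0 r)]
    have : (fun t => T.op ((s : ℂ) • v) (T.orb v z t)) = fun t => T.orb v z (t + s) := by
      funext t
      rw [op_apply, T.W_orb, add_comm]
    rw [this, intervalIntegral.integral_comp_add_right, zero_add]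
  have h2 := h1 μ
  have h3 := h1 (-μ)
  rw [ofReal_neg, neg_smul] at h3
  have h4 : (∫ t in μ..(r + μ), T.orb v z t) - (∫ t in (-μ)..(r + -μ), T.orb v z t)
      = ∫ t in (-μ)..μ, (T.orb v z (r + t) - T.orb v z t) := by
    have hi1 : IntervalIntegrable (fun t => T.orb v z (r + t)) MeasureTheory.volume (-μ) μ :=
      (hc.comp (continuous_const.add continuous_id)).intervalIntegrable _ _
    rw [intervalIntegral.integral_sub hi1 (hi _ _)]
    have h5 : ∫ t in (-μ)..μ, T.orb v z (r + t) = ∫ t in (r + -μ)..(r + μ), T.orb v z t :=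
      intervalIntegral.integral_comp_add_left _ _
    rw [h5]
    have h6 := intervalIntegral.integral_add_adjacent_intervals (hi (-μ) μ) (hi μ (r + μ))
    have h7 := intervalIntegral.integral_add_adjacent_intervals (hi (-μ) (r + -μ))
      (hi (r + -μ) (r + μ))
    rw [← h7] at h6
    rw [sub_eq_sub_iff_add_eq_add, add_comm, h6, add_comm]
  unfold sn moll
  rw [smul_apply, sub_apply, map_smul, map_smul, h2, h3,
    ← smul_sub, smul_smul, h4]
  congr 1
  rw [mul_inv, mul_inv, mul_inv]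

/-- (O2) the bounded approximation of the generator on a mollified vector -/
lemma norm_sn_moll_sub_le (v : K) (z : E) {r μ : ℝ} (hr : 0 < r) (hμ : 0 < μ) {κ : ℝ}
    (h : ∀ t ∈ Set.Icc (-μ) μ, ‖T.orb v z t - z‖ ≤ κ) :
    ‖((μ : ℂ))⁻¹ • T.sn ((μ : ℂ) • v) (T.moll v z r)
      - (Complex.I * r)⁻¹ • (T.orb v z r - z)‖ ≤ 2 * κ / r := by
  have hc := T.continuous_orb v z
  have hμ' : (μ : ℂ) ≠ 0 := by exact_mod_cast hμ.ne'
  have hr' : (r : ℂ) ≠ 0 := by exact_mod_cast hr.ne'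
  have e : ((μ : ℂ))⁻¹ • T.sn ((μ : ℂ) • v) (T.moll v z r)
      - (Complex.I * r)⁻¹ • (T.orb v z r - z)
      = (2 * Complex.I * r * μ)⁻¹ • ∫ t in (-μ)..μ, ((T.orb v z (r + t) - T.orb v z t)
        - (T.orb v z r - z)) := by
    have hi1 : IntervalIntegrable (fun t => T.orb v z (r + t) - T.orb v z t)
        MeasureTheory.volume (-μ) μ :=
      ((hc.comp (continuous_const.add continuous_id)).sub hc).intervalIntegrable _ _
    rw [T.sn_moll, intervalIntegral.integral_sub hi1 (by simp)]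
    generalize (T.orb v z r - z) = D
    generalize (∫ t in (-μ)..μ, (T.orb v z (r + t) - T.orb v z t)) = Q
    rw [intervalIntegral.integral_const, smul_sub, smul_smul, mul_inv _ (μ : ℂ),
      mul_comm _ ((μ : ℂ))⁻¹]
    congr 1
    rw [show μ - -μ = 2 * μ by ring, ← Complex.coe_smul, smul_smul]
    congr 1
    push_cast
    field_simp
  rw [e, norm_smul, norm_inv]
  have h2 : ‖∫ t in (-μ)..μ, ((T.orb v z (r + t) - T.orb v z t) - (T.orb v z r - z))‖
      ≤ (2 * κ) * |μ - -μ| := by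
    apply intervalIntegral.norm_integral_le_of_norm_le_const
    intro t ht
    rw [Set.uIoc_of_le (by linarith)] at ht
    have h3 := h t ⟨ht.1.le, ht.2⟩
    have h4 : ‖T.orb v z (r + t) - T.orb v z r‖ ≤ κ := by
      rw [← T.W_orb v z r t]
      unfold orb
      rw [← map_sub, LinearIsometryEquiv.norm_map]
      exact h3
    calc ‖(T.orb v z (r + t) - T.orb v z t) - (T.orb v z r - z)‖
        = ‖(T.orb v z (r + t) - T.orb v z r) - (T.orb v z t - z)‖ := by
          congr 1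
          abel
      _ ≤ κ + κ := (norm_sub_le _ _).trans (add_le_add h4 h3)
      _ = 2 * κ := by ring
  have h5 : ‖2 * Complex.I * (r : ℂ) * (μ : ℂ)‖ = 2 * r * μ := by
    rw [norm_mul, norm_mul, norm_mul, norm_I, norm_real, norm_real, Real.norm_eq_abs,
      Real.norm_eq_abs, abs_of_pos hr, abs_of_pos hμ]
    simp
  rw [h5, inv_mul_le_iff₀ (by positivity)]
  refine h2.trans (le_of_eq ?_)
  rw [show μ - -μ = 2 * μ by ring, abs_of_pos (by positivity)]
  field_simp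

/-- shift of the mollified vector along the same direction -/
lemma W_moll_sub (v : K) (z : E) (r μ : ℝ) : T.W ((μ : ℂ) • v) (T.moll v z r) - T.moll v z r
    = ((r : ℂ))⁻¹ • ∫ t in (0:ℝ)..μ, (T.orb v z (r + t) - T.orb v z t) := by
  have hc := T.continuous_orb v z
  have hi : ∀ a b : ℝ, IntervalIntegrable (T.orb v z) MeasureTheory.volume a b :=
    fun a b => hc.intervalIntegrable a b
  have h1 : T.op ((μ : ℂ) • v) (∫ t in (0:ℝ)..r, T.orb v z t)
      = ∫ t in μ..(r + μ), T.orb v z t := by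
    rw [← ContinuousLinearMap.intervalIntegral_comp_comm _ (hi 0 r)]
    have : (fun t => T.op ((μ : ℂ) • v) (T.orb v z t)) = fun t => T.orb v z (t + μ) := by
      funext t
      rw [op_apply, T.W_orb, add_comm]
    rw [this, intervalIntegral.integral_comp_add_right, zero_add]
  have h4 : (∫ t in μ..(r + μ), T.orb v z t) - (∫ t in (0:ℝ)..r, T.orb v z t)
      = ∫ t in (0:ℝ)..μ, (T.orb v z (r + t) - T.orb v z t) := by
    have hi1 : IntervalIntegrable (fun t => T.orb v z (r + t)) MeasureTheory.volume 0 μ :=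
      (hc.comp (continuous_const.add continuous_id)).intervalIntegrable _ _
    rw [intervalIntegral.integral_sub hi1 (hi _ _)]
    have h5 : ∫ t in (0:ℝ)..μ, T.orb v z (r + t) = ∫ t in (r + 0)..(r + μ), T.orb v z t :=
      intervalIntegral.integral_comp_add_left _ _
    rw [h5, add_zero]
    have h6 := intervalIntegral.integral_add_adjacent_intervals (hi 0 μ) (hi μ (r + μ))
    have h7 := intervalIntegral.integral_add_adjacent_intervals (hi 0 r) (hi r (r + μ))
    rw [← h7] at h6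
    rw [sub_eq_sub_iff_add_eq_add, add_comm, h6, add_comm]
  unfold moll
  rw [map_smul, ← smul_sub]
  congr 1
  rw [← h4, ← h1]
  rfl

lemma norm_W_moll_sub_le (v : K) (z : E) {μ : ℝ} (hμ : 0 ≤ μ) {κ : ℝ}
    (h : ‖T.W v z - z‖ ≤ κ) :
    ‖T.W ((μ : ℂ) • v) (T.moll v z 1) - T.moll v z 1‖ ≤ μ * κ := by
  rw [T.W_moll_sub, ofReal_one, inv_one, one_smul]
  have h2 : ‖∫ t in (0:ℝ)..μ, (T.orb v z (1 + t) - T.orb v z t)‖ ≤ κ * |μ - 0| := by
    apply intervalIntegral.norm_integral_le_of_norm_le_const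
    intro t _
    have e : T.orb v z (1 + t) - T.orb v z t = T.W ((t : ℂ) • v) (T.W v z - z) := by
      rw [map_sub, add_comm, ← T.W_orb v z t 1]
      unfold orb
      rw [ofReal_one, one_smul]
    rw [e, LinearIsometryEquiv.norm_map]
    exact h
  rw [sub_zero, abs_of_nonneg hμ] at h2
  linarith

/-- `mu^{-1} C sin(mu phi(v))` -/
noncomputable def gen (C : E →L[ℂ] E) (v : K) (μ : ℝ) : E →L[ℂ] E :=
  ((μ : ℂ))⁻¹ • (C * T.sn ((μ : ℂ) • v))

lemma gen_sa {C : E →L[ℂ] E} (hC : IsSelfAdjoint C) {v : K} (hv : T.Com C v) (μ : ℝ) :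
    IsSelfAdjoint (T.gen C v μ) := by
  have h1 : IsSelfAdjoint (C * T.sn ((μ : ℂ) • v)) := by
    rw [isSelfAdjoint_iff, star_mul, (T.sn_sa _).star_eq, hC.star_eq]
    exact (hv.sn μ).symm
  rw [isSelfAdjoint_iff, gen, star_smul, h1.star_eq]
  congr 1
  rw [star_inv₀]
  simp

lemma gen_commute {C : E →L[ℂ] E} {v v' : K} (hv : T.Com C v) (hv' : T.Com C v')
    (h : (inner ℂ v v' : ℂ).im = 0) (μ μ' : ℝ) : Commute (T.gen C v μ) (T.gen C v' μ') := by
  unfold gen
  refine ((Commute.mul_left ?_ ?_).smul_left _)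
  · exact ((Commute.refl C).mul_right (hv'.sn μ')).smul_right _
  · exact (((hv.sn μ).symm).mul_right (T.sn_commute (im_smul_smul μ μ' h))).smul_right _

/-- (O3) stability of the bounded gate in the direction of the control vector -/
lemma norm_ex_gen_sub_le {C : E →L[ℂ] E} (hC : IsSelfAdjoint C) {v v' : K} (hv : T.Com C v)
    (hv' : T.Com C v') (h : (inner ℂ v v' : ℂ).im = 0) {μ : ℝ} (hμ : 0 < μ) (z : E) {κ : ℝ}
    (hκ : ∀ t ∈ Set.Icc (0:ℝ) 1, ‖T.W ((t : ℂ) • (v' - v)) z - z‖ ≤ κ) :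
    ‖ex (T.gen C v' μ) z - ex (T.gen C v μ) z‖ ≤ (2 + ‖C‖) * κ := by
  have hμ' : (μ : ℂ) ≠ 0 := by exact_mod_cast hμ.ne'
  set z1 := T.moll (v' - v) z 1 with hz1
  have h1 : ‖z1 - z‖ ≤ κ := T.norm_moll_sub_le _ _ one_pos (fun t ht => hκ t ht)
  have hκ1 : ‖T.W (v' - v) z - z‖ ≤ κ := by
    have := hκ 1 ⟨zero_le_one, le_refl _⟩
    rwa [ofReal_one, one_smul] at this
  have h2 : ‖T.W ((μ : ℂ) • (v' - v)) z1 - z1‖ ≤ μ * κ := T.norm_W_moll_sub_le _ _ hμ.le hκ1
  have h3 : ‖T.W (-((μ : ℂ) • (v' - v))) z1 - z1‖ ≤ μ * κ := by rwa [T.norm_W_neg_sub]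
  have hvd : (inner ℂ v (v' - v) : ℂ).im = 0 := by
    rw [inner_sub_right, sub_im, h, im_self, sub_zero]
  have e1 : T.W ((μ : ℂ) • v') z1 - T.W ((μ : ℂ) • v) z1
      = T.W ((μ : ℂ) • v) (T.W ((μ : ℂ) • (v' - v)) z1 - z1) := by
    rw [map_sub, T.mul_real (im_smul_smul μ μ hvd), ← smul_add]
    congr 3
    abel_nf
  have e2 : T.W (-((μ : ℂ) • v')) z1 - T.W (-((μ : ℂ) • v)) z1
      = T.W (-((μ : ℂ) • v)) (T.W (-((μ : ℂ) • (v' - v))) z1 - z1) := by
    rw [map_sub, T.mul_real (im_neg_left (im_neg_right (im_smul_smul μ μ hvd))), ← neg_add,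
      ← smul_add]
    congr 4
    abel_nf
  have h4 : ‖(T.sn ((μ : ℂ) • v') - T.sn ((μ : ℂ) • v)) z1‖ ≤ μ * κ := by
    have e3 : (T.sn ((μ : ℂ) • v') - T.sn ((μ : ℂ) • v)) z1
        = (2 * Complex.I)⁻¹ • ((T.W ((μ : ℂ) • v') z1 - T.W ((μ : ℂ) • v) z1)
          - (T.W (-((μ : ℂ) • v')) z1 - T.W (-((μ : ℂ) • v)) z1)) := by
      change (2 * Complex.I)⁻¹ • (T.W _ z1 - T.W _ z1) - (2 * Complex.I)⁻¹ • (T.W _ z1 - T.W _ z1)
        = _
      rw [← smul_sub]
      congr 1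
      abel
    rw [e3, e1, e2, norm_smul, norm_inv, norm_mul, norm_I, mul_one]
    have h5 := norm_sub_le (T.W ((μ : ℂ) • v) (T.W ((μ : ℂ) • (v' - v)) z1 - z1))
      (T.W (-((μ : ℂ) • v)) (T.W (-((μ : ℂ) • (v' - v))) z1 - z1))
    rw [LinearIsometryEquiv.norm_map, LinearIsometryEquiv.norm_map] at h5
    have h6 : ‖(2:ℂ)‖ = 2 := by simp
    rw [h6]
    linarith
  have h5 : ‖(T.gen C v' μ - T.gen C v μ) z1‖ ≤ ‖C‖ * κ := by
    have e : (T.gen C v' μ - T.gen C v μ) z1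
        = ((μ : ℂ))⁻¹ • C ((T.sn ((μ : ℂ) • v') - T.sn ((μ : ℂ) • v)) z1) := by
      unfold gen
      rw [← smul_sub, ← mul_sub]
      rfl
    rw [e, norm_smul, norm_inv, norm_real, Real.norm_eq_abs, abs_of_pos hμ]
    have := C.le_opNorm ((T.sn ((μ : ℂ) • v') - T.sn ((μ : ℂ) • v)) z1)
    rw [inv_mul_le_iff₀ hμ]
    calc _ ≤ ‖C‖ * ‖(T.sn ((μ : ℂ) • v') - T.sn ((μ : ℂ) • v)) z1‖ := this
      _ ≤ ‖C‖ * (μ * κ) := by gcongr
      _ = _ := by ring
  have hsv := T.gen_sa hC hv μ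
  have hsv' := T.gen_sa hC hv' μ
  have hcom : Commute (T.gen C v' μ) (T.gen C v μ) :=
    T.gen_commute hv' hv (by rw [inner_im_symm, h, neg_zero]) μ μ
  have h6 := norm_ex_sub_ex_le hsv' hsv hcom z1
  have h7 : ‖ex (T.gen C v' μ) z - ex (T.gen C v' μ) z1‖ ≤ κ := by
    rw [← map_sub, norm_ex hsv', norm_sub_rev]
    exact h1
  have h8 : ‖ex (T.gen C v μ) z1 - ex (T.gen C v μ) z‖ ≤ κ := by
    rw [← map_sub, norm_ex hsv]
    exact h1
  calc ‖ex (T.gen C v' μ) z - ex (T.gen C v μ) z‖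
      = ‖(ex (T.gen C v' μ) z - ex (T.gen C v' μ) z1)
        + ((ex (T.gen C v' μ) z1 - ex (T.gen C v μ) z1)
          + (ex (T.gen C v μ) z1 - ex (T.gen C v μ) z))‖ := by
        congr 1
        abel
    _ ≤ κ + (‖C‖ * κ + κ) := by
        refine (norm_add_le _ _).trans (add_le_add h7 ((norm_add_le _ _).trans
          (add_le_add (h6.trans h5) h8)))
    _ = _ := by ring

/-- (O2') Cauchy property in the step size -/
lemma norm_ex_gen_gen_le {C : E →L[ℂ] E} (hC : IsSelfAdjoint C) {v : K} (hv : T.Com C v)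
    {r μ μ' : ℝ} (hr : 0 < r) (hμ : 0 < μ) (hμ' : 0 < μ') (z : E) {κ κ' : ℝ}
    (h0 : ∀ t ∈ Set.Icc (0:ℝ) r, ‖T.orb v z t - z‖ ≤ κ)
    (h1 : ∀ t ∈ Set.Icc (-μ) μ, ‖T.orb v z t - z‖ ≤ κ')
    (h2 : ∀ t ∈ Set.Icc (-μ') μ', ‖T.orb v z t - z‖ ≤ κ') :
    ‖ex (T.gen C v μ) z - ex (T.gen C v μ') z‖ ≤ 2 * κ + ‖C‖ * (4 * κ' / r) := by
  set z1 := T.moll v z r with hz1
  have h3 : ‖z1 - z‖ ≤ κ := T.norm_moll_sub_le _ _ hr h0
  have h4 := T.norm_sn_moll_sub_le v z hr hμ h1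
  have h5 := T.norm_sn_moll_sub_le v z hr hμ' h2
  rw [← hz1] at h4 h5
  have hsv := T.gen_sa hC hv μ
  have hsv' := T.gen_sa hC hv μ'
  have hcom : Commute (T.gen C v μ) (T.gen C v μ') := T.gen_commute hv hv (im_self v) μ μ'
  have h6 := norm_ex_sub_ex_le hsv hsv' hcom z1
  have h7 : ‖(T.gen C v μ - T.gen C v μ') z1‖ ≤ ‖C‖ * (4 * κ' / r) := by
    have e : (T.gen C v μ - T.gen C v μ') z1
        = C ((((μ : ℂ))⁻¹ • T.sn ((μ : ℂ) • v) z1 - (Complex.I * r)⁻¹ • (T.orb v z r - z))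
          - (((μ' : ℂ))⁻¹ • T.sn ((μ' : ℂ) • v) z1 - (Complex.I * r)⁻¹ • (T.orb v z r - z))) := by
      rw [sub_sub_sub_cancel_right, map_sub, map_smul, map_smul]
      rfl
    rw [e]
    refine (C.le_opNorm _).trans ?_
    gcongr
    refine (norm_sub_le _ _).trans ?_
    calc _ ≤ 2 * κ' / r + 2 * κ' / r := add_le_add h4 h5
      _ = _ := by ring
  have h8 : ‖ex (T.gen C v μ) z - ex (T.gen C v μ) z1‖ ≤ κ := by
    rw [← map_sub, norm_ex hsv, norm_sub_rev]
    exact h3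
  have h9 : ‖ex (T.gen C v μ') z1 - ex (T.gen C v μ') z‖ ≤ κ := by
    rw [← map_sub, norm_ex hsv']
    exact h3
  calc ‖ex (T.gen C v μ) z - ex (T.gen C v μ') z‖
      = ‖(ex (T.gen C v μ) z - ex (T.gen C v μ) z1)
        + ((ex (T.gen C v μ) z1 - ex (T.gen C v μ') z1)
          + (ex (T.gen C v μ') z1 - ex (T.gen C v μ') z))‖ := by
        congr 1
        abel
    _ ≤ κ + (‖C‖ * (4 * κ' / r) + κ) := by
        refine (norm_add_le _ _).trans (add_le_add h8 ((norm_add_le _ _).trans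
          (add_le_add (h6.trans h7) h9)))
    _ = _ := by ring

end WFam

end Vale.Agent.P367.B
end

section

/-! P367 block B, T2CORE part 1: operator identities for the own batch. -/

namespace Vale.Agent.P367.B

open Filter Topology Complex
open Vale.Agent.P367.A

variable {H K : Type} [NormedAddCommGroup H] [InnerProductSpace ℂ H]
  [NormedAddCommGroup K] [InnerProductSpace ℂ K]

/-- the Weyl family of a system with strongly continuous Weyl operators -/
def famS (S : Sys H K) (hc : ∀ x : H, Tendsto (fun a => S.W a x) (𝓝 0) (𝓝 x)) : WFam K H :=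
  ⟨S.W, S.WW, hc⟩

/-- unitaries as bounded operators -/
noncomputable def cl (U : H ≃ₗᵢ[ℂ] H) : H →L[ℂ] H :=
  ((U : H ≃ₗᵢ[ℂ] H).toContinuousLinearEquiv : H →L[ℂ] H)

@[simp] lemma cl_apply (U : H ≃ₗᵢ[ℂ] H) (x : H) : cl U x = U x := rfl

/-- unit of the operator algebra from a unitary -/
noncomputable def clu (U : H ≃ₗᵢ[ℂ] H) : (H →L[ℂ] H)ˣ where
  val := cl U
  inv := cl U⁻¹
  val_inv := by ext x; exact U.apply_symm_apply x
  inv_val := by ext x; exact U.symm_apply_apply x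

lemma star_cl [CompleteSpace H] (U : H ≃ₗᵢ[ℂ] H) : star (cl U) = cl U⁻¹ := by
  rw [ContinuousLinearMap.star_eq_adjoint]
  symm
  rw [ContinuousLinearMap.eq_adjoint_iff]
  intro x y
  exact Sys.inner_invA U x y

lemma cl_sa [CompleteSpace H] (U : H ≃ₗᵢ[ℂ] H) (h : ∀ x, U (U x) = x) : IsSelfAdjoint (cl U) := by
  rw [isSelfAdjoint_iff, star_cl]
  ext x
  exact Sys.inv_apply_eq (h x)

/-- conjugation of an exponential -/
lemma ex_conj [CompleteSpace H] (U : H ≃ₗᵢ[ℂ] H) {A B : H →L[ℂ] H}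
    (h : ∀ x, A (U x) = U (B x)) (x : H) : ex A (U x) = U (ex B x) := by
  have e : I • A = (clu U : H →L[ℂ] H) * (I • B) * (↑(clu U)⁻¹ : H →L[ℂ] H) := by
    ext y
    change I • A y = U (I • B (U⁻¹ y))
    rw [map_smul, ← h]
    congr 2
    exact (U.apply_symm_apply y).symm
  unfold ex
  let +nondep : NormedAlgebra ℚ (H →L[ℂ] H) := .restrictScalars ℚ ℂ (H →L[ℂ] H)
  rw [e, NormedSpace.exp_units_conj]
  change U (NormedSpace.exp (I • B) (U⁻¹ (U x))) = _
  rw [Sys.invA]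

section sys

variable (S : Sys H K) (hc : ∀ x : H, Tendsto (fun a => S.W a x) (𝓝 0) (𝓝 x))

lemma sn_apply' (v : K) (x : H) : (famS S hc).sn v x = (2 * I)⁻¹ • (S.W v x - S.W (-v) x) := rfl

lemma cs_apply' (v : K) (x : H) : (famS S hc).cs v x = (2 : ℂ)⁻¹ • (S.W v x + S.W (-v) x) := rfl

lemma sn_Z (v : K) (x : H) : (famS S hc).sn v (S.Z x) = S.Z ((famS S hc).sn v x) := by
  rw [sn_apply', sn_apply', map_smul, map_sub, S.WZ, S.WZ]

lemma cs_Z (v : K) (x : H) : (famS S hc).cs v (S.Z x) = S.Z ((famS S hc).cs v x) := by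
  rw [cs_apply', cs_apply', map_smul, map_add, S.WZ, S.WZ]

lemma rot0_apply (f : ℝ) (x : H) :
    S.rot 0 f x = (Real.cos (2 * f) : ℂ) • x + (I * (Real.sin (2 * f) : ℂ)) • S.Z x := by
  rw [Sys.rot_apply, Sys.Zt_zero]

lemma rot0_zr (f : ℝ) (v : K) (x : H) : S.rot 0 f (S.zr v x) = S.zr v (S.rot 0 f x) := by
  rw [rot0_apply, rot0_apply, map_add, map_smul, map_smul, S.Z_zr]

lemma rot0_neg (f : ℝ) (x : H) : S.rot 0 (-f) (S.rot 0 f x) = x := by
  have := S.rotL_rotL_neg 0 (-f) x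
  rwa [neg_neg] at this

/-- Weyl operator past a `zr` gate -/
lemma W_zr (c w : K) (x : H) :
    S.W w (S.zr (-c) x) = S.zr (-c) (S.W w (S.rot 0 (th c w) x)) := by
  rw [S.zr_W (-c) w, th_neg_left, ← rot0_zr, rot0_neg]

/-- shift of the cosine by a `zr` gate -/
lemma cs_zr (c v : K) (x : H) : (famS S hc).cs v (S.zr (-c) x)
    = S.zr (-c) ((Real.cos (2 * th c v) : ℂ) • (famS S hc).cs v x
      - (Real.sin (2 * th c v) : ℂ) • S.Z ((famS S hc).sn v x)) := by
  rw [cs_apply', W_zr, W_zr, ← map_add, ← map_smul]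
  congr 1
  rw [rot0_apply, rot0_apply, th_neg_right, cs_apply', sn_apply']
  simp only [mul_neg, Real.cos_neg, Real.sin_neg, ofReal_neg, map_add, map_smul, map_sub, S.WZ,
    smul_add, smul_sub, smul_smul, neg_smul, mul_neg, map_neg]
  have hI : I * I = -1 := I_mul_I
  have h2 : (2 * I)⁻¹ = -(2 : ℂ)⁻¹ * I := by
    rw [mul_inv, Complex.inv_I]; ring
  rw [h2]
  module

/-- shift of the sine by a `zr` gate -/
lemma sn_zr (c v : K) (x : H) : (famS S hc).sn v (S.zr (-c) x)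
    = S.zr (-c) ((Real.cos (2 * th c v) : ℂ) • (famS S hc).sn v x
      + (Real.sin (2 * th c v) : ℂ) • S.Z ((famS S hc).cs v x)) := by
  rw [sn_apply', W_zr, W_zr, ← map_sub, ← map_smul]
  congr 1
  rw [rot0_apply, rot0_apply, th_neg_right, cs_apply', sn_apply']
  have h2 : (2 * I)⁻¹ = -(2 : ℂ)⁻¹ * I := by
    rw [mul_inv, Complex.inv_I]; ring
  obtain ⟨α, hα⟩ : ∃ α : ℂ, α = (2 * I)⁻¹ := ⟨_, rfl⟩
  rw [← hα]
  have h4 : ∀ r : ℂ, α * (I * r) = (2 : ℂ)⁻¹ * r := by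
    intro r
    rw [hα, h2]
    linear_combination (-(2:ℂ)⁻¹ * r) * I_mul_I
  simp only [mul_neg, Real.cos_neg, Real.sin_neg, ofReal_neg, map_add, map_smul, S.WZ,
    smul_add, smul_sub, smul_smul, neg_smul, map_neg, h4, smul_neg]
  module

end sys

/-- `exp(iA)` as a unitary -/
noncomputable def exU [CompleteSpace H] (A : H →L[ℂ] H) (hA : IsSelfAdjoint A) : H ≃ₗᵢ[ℂ] H where
  toFun := ex A
  invFun := ex (-A)
  map_add' := (ex A).map_add
  map_smul' := (ex A).map_smul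
  left_inv x := by
    have h := ex_neg_mul A
    exact congrArg (fun T : H →L[ℂ] H => T x) h
  right_inv x := by
    have h := ex_mul_neg A
    exact congrArg (fun T : H →L[ℂ] H => T x) h
  norm_map' x := norm_ex hA x

@[simp] lemma exU_apply [CompleteSpace H] (A : H →L[ℂ] H) (hA : IsSelfAdjoint A) (x : H) :
    exU A hA x = ex A x := rfl

section own

variable [CompleteSpace H] (S : Sys H K)
  (hc : ∀ x : H, Tendsto (fun a => S.W a x) (𝓝 0) (𝓝 x))

/-- own-batch generator before the shift, `-C Z cos phi(v)` -/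
noncomputable def gb (C : H →L[ℂ] H) (v : K) : H →L[ℂ] H :=
  -(C * cl S.Z * (famS S hc).cs v)

/-- own-batch generator after the shift by `th`, `C (sin th sin phi(v) - cos th Z cos phi(v))` -/
noncomputable def ga (C : H →L[ℂ] H) (v : K) (θ : ℝ) : H →L[ℂ] H :=
  C * ((Real.sin θ : ℂ) • (famS S hc).sn v - (Real.cos θ : ℂ) • (cl S.Z * (famS S hc).cs v))

lemma gb_apply (C : H →L[ℂ] H) (v : K) (x : H) :
    gb S hc C v x = -(C (S.Z ((famS S hc).cs v x))) := rfl

lemma ga_apply (C : H →L[ℂ] H) (v : K) (θ : ℝ) (x : H) :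
    ga S hc C v θ x = C ((Real.sin θ : ℂ) • (famS S hc).sn v x
      - (Real.cos θ : ℂ) • (S.Z ((famS S hc).cs v x))) := rfl

/-- a bounded operator commuting with `Z` and `W c` commutes with `zr c` -/
lemma op_zr {C : H →L[ℂ] H} (hZ : ∀ x, C (S.Z x) = S.Z (C x)) {c : K}
    (h1 : ∀ x, C (S.W c x) = S.W c (C x)) (h2 : ∀ x, C (S.W (-c) x) = S.W (-c) (C x)) (x : H) :
    C (S.zr c x) = S.zr c (C x) := by
  rw [S.zr_apply, S.zr_apply]
  simp only [map_add, map_sub, map_smul, h1, h2, hZ]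

/-- the own-batch gate in front of a `zr` gate -/
lemma ex_gb_zr {C : H →L[ℂ] H} (hZ : ∀ x, C (S.Z x) = S.Z (C x)) {c v : K}
    (hcz : ∀ x, C (S.zr (-c) x) = S.zr (-c) (C x)) (x : H) :
    ex (gb S hc C v) (S.zr (-c) x) = S.zr (-c) (ex (ga S hc C v (2 * th c v)) x) := by
  apply ex_conj
  intro y
  rw [gb_apply, ga_apply, cs_zr, S.Z_zr, hcz, ← map_neg]
  congr 1
  rw [← map_neg]
  congr 1
  rw [map_sub, map_smul, map_smul, S.ZZ]
  module

/-- the reaction operator after a `zr` gate -/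
lemma react_zr {ψ : H →L[ℂ] H} {c v : K}
    (hcz : ∀ x, ψ (S.zr (-c) x) = S.zr (-c) (ψ x)) (x : H) :
    ψ (S.Z ((famS S hc).sn v (S.zr (-c) x)))
      = S.zr (-c) (ψ ((Real.cos (2 * th c v) : ℂ) • S.Z ((famS S hc).sn v x)
        + (Real.sin (2 * th c v) : ℂ) • (famS S hc).cs v x)) := by
  rw [sn_zr, S.Z_zr, hcz]
  congr 2
  rw [map_add, map_smul, map_smul, S.ZZ]

lemma cs_op_commute {C : H →L[ℂ] H} {v : K}
    (h1 : ∀ x, C (S.W v x) = S.W v (C x)) (h2 : ∀ x, C (S.W (-v) x) = S.W (-v) (C x)) :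
    Commute C ((famS S hc).cs v) := by
  ext x
  change C ((famS S hc).cs v x) = (famS S hc).cs v (C x)
  rw [cs_apply', cs_apply', map_smul, map_add, h1, h2]

lemma sn_op_commute {C : H →L[ℂ] H} {v : K}
    (h1 : ∀ x, C (S.W v x) = S.W v (C x)) (h2 : ∀ x, C (S.W (-v) x) = S.W (-v) (C x)) :
    Commute C ((famS S hc).sn v) := by
  ext x
  change C ((famS S hc).sn v x) = (famS S hc).sn v (C x)
  rw [sn_apply', sn_apply', map_smul, map_sub, h1, h2]

lemma Z_cs_commute (v : K) : Commute (cl S.Z) ((famS S hc).cs v) := by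
  ext x
  exact (cs_Z S hc v x).symm

lemma Z_sn_commute (v : K) : Commute (cl S.Z) ((famS S hc).sn v) := by
  ext x
  exact (sn_Z S hc v x).symm

lemma clZ_sa : IsSelfAdjoint (cl S.Z) := cl_sa _ S.ZZ

lemma sa_mul {A B : H →L[ℂ] H} (hA : IsSelfAdjoint A) (hB : IsSelfAdjoint B) (h : Commute A B) :
    IsSelfAdjoint (A * B) := by
  rw [isSelfAdjoint_iff, star_mul, hA.star_eq, hB.star_eq]
  exact h.symm

lemma sa_real_smul {A : H →L[ℂ] H} (hA : IsSelfAdjoint A) (r : ℝ) :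
    IsSelfAdjoint ((r : ℂ) • A) := by
  rw [isSelfAdjoint_iff, star_smul, hA.star_eq]
  simp

lemma gb_sa {C : H →L[ℂ] H} (hC : IsSelfAdjoint C) (hZ : Commute C (cl S.Z)) {v : K}
    (h1 : ∀ x, C (S.W v x) = S.W v (C x)) (h2 : ∀ x, C (S.W (-v) x) = S.W (-v) (C x)) :
    IsSelfAdjoint (gb S hc C v) := by
  unfold gb
  apply IsSelfAdjoint.neg
  apply sa_mul (sa_mul hC (clZ_sa S) hZ) ((famS S hc).cs_sa v)
  exact (cs_op_commute S hc h1 h2).mul_left (Z_cs_commute S hc v)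

lemma ga_sa {C : H →L[ℂ] H} (hC : IsSelfAdjoint C) (hZ : Commute C (cl S.Z)) {v : K}
    (h1 : ∀ x, C (S.W v x) = S.W v (C x)) (h2 : ∀ x, C (S.W (-v) x) = S.W (-v) (C x)) (θ : ℝ) :
    IsSelfAdjoint (ga S hc C v θ) := by
  unfold ga
  have a1 := sn_op_commute S hc h1 h2
  have a2 := cs_op_commute S hc h1 h2
  apply sa_mul hC
  · exact (sa_real_smul ((famS S hc).sn_sa v) _).sub
      (sa_real_smul (sa_mul (clZ_sa S) ((famS S hc).cs_sa v) (Z_cs_commute S hc v)) _)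
  · exact (a1.smul_right _).sub_right ((hZ.mul_right a2).smul_right _)

/-- the residual Pauli is small: comparison of the shifted own gate with the pure sine gate -/
lemma norm_ex_ga_sub_le {C : H →L[ℂ] H} (hC : IsSelfAdjoint C) (hZ : Commute C (cl S.Z)) {v : K}
    (h1 : ∀ x, C (S.W v x) = S.W v (C x)) (h2 : ∀ x, C (S.W (-v) x) = S.W (-v) (C x)) (θ : ℝ)
    (x : H) : ‖ex (ga S hc C v θ) x - ex (C * (famS S hc).sn v) x‖
      ≤ ‖C‖ * ((|Real.sin θ - 1| + |Real.cos θ|) * ‖x‖) := by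
  have a1 := sn_op_commute S hc h1 h2
  have a2 := cs_op_commute S hc h1 h2
  have hs : IsSelfAdjoint (C * (famS S hc).sn v) := sa_mul hC ((famS S hc).sn_sa v) a1
  have a3 : Commute (C * (famS S hc).sn v) (cl S.Z * (famS S hc).cs v) := by
    have z1 : Commute ((famS S hc).sn v) (cl S.Z) := (Z_sn_commute S hc v).symm
    have z2 : Commute ((famS S hc).sn v) ((famS S hc).cs v) :=
      (famS S hc).sn_cs_commute (WFam.im_self v)
    exact (hZ.mul_right a2).mul_left (z1.mul_right z2)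
  have hcom : Commute (ga S hc C v θ) (C * (famS S hc).sn v) := by
    unfold ga
    rw [mul_sub]
    refine (Commute.sub_left ?_ ?_)
    · rw [mul_smul_comm]
      exact (Commute.refl _).smul_left _
    · rw [mul_smul_comm]
      refine Commute.smul_left ?_ _
      exact ((Commute.refl C).mul_right a1).mul_left a3.symm
  refine (norm_ex_sub_ex_le (ga_sa S hc hC hZ h1 h2 θ) hs hcom x).trans ?_
  have e : (ga S hc C v θ - C * (famS S hc).sn v) x
      = C (((Real.sin θ - 1 : ℝ) : ℂ) • (famS S hc).sn v x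
        - (Real.cos θ : ℂ) • S.Z ((famS S hc).cs v x)) := by
    rw [sub_apply, ga_apply, mul_apply_eq_comp, ← map_sub]
    congr 1
    push_cast
    module
  rw [e]
  refine (C.le_opNorm _).trans ?_
  gcongr
  refine (norm_sub_le _ _).trans ?_
  rw [norm_smul, norm_smul, norm_real, norm_real, Real.norm_eq_abs, Real.norm_eq_abs,
    S.Z.norm_map, add_mul]
  gcongr
  · exact (famS S hc).norm_sn_le' v x
  · exact (famS S hc).norm_cs_le' v x

end own

end Vale.Agent.P367.B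
end

section

/-! P367, block B, T2: one step of the sweep, existence of sweeps (statements). -/

namespace Vale.Agent.P367.A

open Complex Filter Topology MeasureTheory
open Vale.Agent.P367.B (famS ex gb)

namespace LSys

variable {H K : Type} [NormedAddCommGroup H] [InnerProductSpace ℂ H]
  [NormedAddCommGroup K] [InnerProductSpace ℂ K] (L : LSys H K)

/-- control vector of the function gate of the batch `b`, at the state `V1` -/
noncomputable def stv (G r b : Set ℝ) (mu la : ℝ) (V1 : H ≃ₗᵢ[ℂ] H) : K :=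
  (mu : ℂ) • L.fv L.Z (G \ b) V1 + (la : ℂ) • L.fv (L.pau 1) r V1

/-- amplitude `-(s/mu) sg E_b` of the function gate -/
noncomputable def stC (b : Set ℝ) (sg : H →L[ℂ] H) (s mu : ℝ) : H →L[ℂ] H :=
  (-((s / mu : ℝ) : ℂ)) • (sg * L.E b)

variable (hc : ∀ x : H, Tendsto (fun a => L.W a x) (𝓝 0) (𝓝 x))

/-- reaction vector `iota (E_b V1^-1 C Z sin phi(v) V1 Om)` -/
noncomputable def stq (G r b : Set ℝ) (sg : H →L[ℂ] H) (s mu la : ℝ) (V1 : H ≃ₗᵢ[ℂ] H) : K :=
  L.iota (L.E b (V1⁻¹ (L.stC b sg s mu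
    (L.Z ((famS L.toSys hc).sn (L.stv G r b mu la V1) (V1 L.Om))))))

/-- one step `A^-1 Bl A` of the sweep, at the batch `b`; `V1`, `V2` are the intermediate states -/
structure StepRel [CompleteSpace H] (G r b : Set ℝ) (sg : H →L[ℂ] H) (s mu a la : ℝ)
    (V V1 V2 V' : H ≃ₗᵢ[ℂ] H) (co cr : ℂ) : Prop where
  nco : ‖co‖ = 1
  ncr : ‖cr‖ = 1
  h1 : ∀ x, V1 x = L.zr (-((a : ℂ) • L.fv L.Z r V)) (L.E b (V x))
    + L.zr (-((a : ℂ) • L.fv L.Z b V)) (L.E r (V x)) + (V x - L.E b (V x) - L.E r (V x))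
  h2 : ∀ x, V2 x = ex (gb L.toSys hc (L.stC b sg s mu) (L.stv G r b mu la V1)) (L.E b (V1 x))
    + co • L.zr (-((mu : ℂ) • L.stq hc G r b sg s mu la V1)) (L.E (G \ b) (V1 x))
    + cr • L.pw (L.pau 1) (-((la : ℂ) • L.stq hc G r b sg s mu la V1)) (L.E r (V1 x))
    + (V1 x - L.E b (V1 x) - L.E (G \ b) (V1 x) - L.E r (V1 x))
  h3 : ∀ x, V' x = L.zr ((a : ℂ) • L.fv L.Z r V2) (L.E b (V2 x))
    + L.zr ((a : ℂ) • L.fv L.Z b V2) (L.E r (V2 x)) + (V2 x - L.E b (V2 x) - L.E r (V2 x))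

/-- (S) existence of sweeps -/
def SweepStmt [CompleteSpace H] : Prop :=
  ∀ (G : Set ℝ) (𝔄 : Set (H →L[ℂ] H)) (Rch : Set ℝ → Set ℝ → (H ≃ₗᵢ[ℂ] H) → Prop),
    MeasurableSet G → L.Ctl 𝔄 → L.Closed G 𝔄 Rch →
    ∀ (M R r : Set ℝ) (V0 : H ≃ₗᵢ[ℂ] H) (sg : H →L[ℂ] H) (s mu a la : ℝ) (b : ℕ → Set ℝ),
      Rch M R V0 → MeasurableSet r → r ⊆ M → Disjoint G r → L.Sgn G 𝔄 sg →
      (∀ i, MeasurableSet (b i)) → (∀ i, b i ⊆ G) →
      ∃ (V V1 V2 : ℕ → (H ≃ₗᵢ[ℂ] H)) (co cr : ℕ → ℂ), V 0 = V0 ∧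
        (∀ i, Rch M R (V i)) ∧ (∀ i, Rch M R (V1 i)) ∧ (∀ i, Rch M R (V2 i)) ∧
        (∀ i, L.StepRel hc G r (b i) sg s mu a la (V i) (V1 i) (V2 i) (V (i + 1)) (co i) (cr i)) ∧
        (∀ i x, L.E (G ∪ r)ᶜ (V i x) = L.E (G ∪ r)ᶜ (V0 x))

end LSys

end Vale.Agent.P367.A
end

section

/-! P367, block B: label partitions of small mesh. -/

namespace Vale.Agent.P367.A

open Complex Filter Topology MeasureTheory

/-- finite measurable partitions of `G` into pieces of measure at most `δ` -/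
def PartOf (μ : Measure ℝ) (δ : ENNReal) (G : Set ℝ) : Prop :=
  ∃ (n : ℕ) (b : ℕ → Set ℝ), (∀ i, MeasurableSet (b i)) ∧ (∀ i j, i ≠ j → Disjoint (b i) (b j)) ∧
    (⋃ i ∈ Finset.range n, b i) = G ∧ (∀ i, b i ⊆ G) ∧ (∀ i, n ≤ i → b i = ∅) ∧ ∀ i, μ (b i) ≤ δ

lemma PartOf.single {μ : Measure ℝ} {δ : ENNReal} {A : Set ℝ} (hA : MeasurableSet A)
    (h : μ A ≤ δ) : PartOf μ δ A := by
  refine ⟨1, fun i => if i = 0 then A else ∅, ?_, ?_, ?_, ?_, ?_, ?_⟩
  · intro i; dsimp only; split_ifs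
    · exact hA
    · exact MeasurableSet.empty
  · intro i j hij
    dsimp only
    split_ifs with h1 h2
    · exact absurd (h1.trans h2.symm) hij
    · exact disjoint_bot_right
    · exact disjoint_bot_left
    · exact disjoint_bot_left
  · simp
  · intro i; dsimp only; split_ifs
    · exact le_rfl
    · exact Set.empty_subset _
  · intro i hi
    dsimp only
    rw [if_neg (by omega)]
  · intro i; dsimp only; split_ifs
    · exact h
    · simp

lemma PartOf.union {μ : Measure ℝ} {δ : ENNReal} {A V : Set ℝ} (hA : PartOf μ δ A)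
    (hV : MeasurableSet V) (h : μ V ≤ δ) : PartOf μ δ (A ∪ V) := by
  obtain ⟨n, b, h1, h2, h3, h4, h5, h6⟩ := hA
  have hAm : MeasurableSet A := by
    rw [← h3]
    exact Finset.measurableSet_biUnion _ fun i _ => h1 i
  refine ⟨n + 1, fun i => if i = n then V \ A else b i, ?_, ?_, ?_, ?_, ?_, ?_⟩
  · intro i; dsimp only; split_ifs
    · exact hV.diff hAm
    · exact h1 i
  · intro i j hij
    dsimp only
    split_ifs with g1 g2
    · exact absurd (g1.trans g2.symm) hij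
    · exact (Set.disjoint_sdiff_left (s := A) (t := V)).mono_right (h4 j)
    · exact ((Set.disjoint_sdiff_left (s := A) (t := V)).mono_right (h4 i)).symm
    · exact h2 i j hij
  · ext t
    simp only [Set.mem_iUnion, Finset.mem_range, Set.mem_union, exists_prop]
    constructor
    · rintro ⟨i, hi, ht⟩
      split_ifs at ht with g
      · exact Or.inr ht.1
      · exact Or.inl (h4 i ht)
    · intro ht
      by_cases hA : t ∈ A
      · rw [← h3] at hA
        simp only [Set.mem_iUnion, Finset.mem_range, exists_prop] at hA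
        obtain ⟨i, hi, hti⟩ := hA
        exact ⟨i, by omega, by rw [if_neg (by omega)]; exact hti⟩
      · exact ⟨n, by omega, by rw [if_pos rfl]; exact ⟨ht.resolve_left hA, hA⟩⟩
  · intro i; dsimp only; split_ifs
    · exact fun t ht => Or.inr ht.1
    · exact fun t ht => Or.inl (h4 i ht)
  · intro i hi
    dsimp only
    rw [if_neg (by omega)]
    exact h5 i (by omega)
  · intro i; dsimp only; split_ifs
    · exact (measure_mono Set.sdiff_subset).trans h
    · exact h6 i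

/-- small partitions exist for atomless probability measures -/
theorem exists_partOf (μ : Measure ℝ) [IsProbabilityMeasure μ] (hat : ∀ t, μ {t} = 0)
    {G : Set ℝ} (hG : MeasurableSet G) {δ : ENNReal} (hδ : 0 < δ) : PartOf μ δ G := by
  have h1 : ∀ t : ℝ, ∃ U : Set ℝ, {t} ⊆ U ∧ IsOpen U ∧ μ U < δ := fun t => by
    obtain ⟨U, hU1, hU2, hU3⟩ := Set.exists_isOpen_lt_of_lt {t} δ (by rw [hat t]; exact hδ)
    exact ⟨U, hU1, hU2, hU3⟩
  choose U hU1 hU2 hU3 using h1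
  obtain ⟨C, hC1, hC2, hC3⟩ := hG.exists_isCompact_lt_add (measure_ne_top μ G) hδ.ne'
  obtain ⟨T, hT⟩ := hC2.elim_finite_subcover U hU2 (fun t _ =>
    Set.mem_iUnion.2 ⟨t, hU1 t rfl⟩)
  have h2 : ∀ T : Finset ℝ, PartOf μ δ ((G \ C) ∪ ⋃ t ∈ T, (U t ∩ G)) := by
    classical
    intro T
    induction T using Finset.induction_on with
    | empty =>
      simp only [Finset.notMem_empty, Set.iUnion_of_empty, Set.iUnion_empty, Set.union_empty]
      refine PartOf.single (hG.diff hC2.measurableSet) ?_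
      have h3 := measure_sdiff_le_iff_le_add hC2.measurableSet.nullMeasurableSet hC1
        (measure_ne_top μ C) (ε := δ)
      exact h3.2 hC3.le
    | insert a T _ ih =>
      have e : (G \ C) ∪ ⋃ t ∈ insert a T, (U t ∩ G)
          = ((G \ C) ∪ ⋃ t ∈ T, (U t ∩ G)) ∪ (U a ∩ G) := by
        rw [Finset.set_biUnion_insert]
        ext t
        simp only [Set.mem_union]
        tauto
      rw [e]
      exact ih.union ((hU2 a).measurableSet.inter hG)
        ((measure_mono Set.inter_subset_left).trans (hU3 a).le)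
  have h4 : (G \ C) ∪ ⋃ t ∈ T, (U t ∩ G) = G := by
    ext t
    simp only [Set.mem_union, Set.mem_sdiff, Set.mem_iUnion, Set.mem_inter_iff, exists_prop]
    constructor
    · rintro (h | ⟨_, _, _, h⟩)
      · exact h.1
      · exact h
    · intro ht
      by_cases hc : t ∈ C
      · obtain ⟨s, hs⟩ := Set.mem_iUnion.1 (hT hc)
        obtain ⟨hs1, hs2⟩ := Set.mem_iUnion.1 hs
        exact Or.inr ⟨s, hs1, hs2, ht⟩
      · exact Or.inl ⟨ht, hc⟩
  have h5 := h2 T
  rwa [h4] at h5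

namespace LSys

variable {H K : Type*} [NormedAddCommGroup H] [InnerProductSpace ℂ H]
  [NormedAddCommGroup K] [InnerProductSpace ℂ K] (L : LSys H K)

/-- **(P)**: label partitions of small mesh -/
theorem exists_part {G : Set ℝ} (hG : MeasurableSet G) {δ : ℝ} (hδ : 0 < δ) :
    ∃ (n : ℕ) (b : ℕ → Set ℝ), (∀ i, MeasurableSet (b i)) ∧
      (∀ i j, i ≠ j → Disjoint (b i) (b j)) ∧ (⋃ i ∈ Finset.range n, b i) = G ∧
      (∀ i, b i ⊆ G) ∧ (∀ i, n ≤ i → b i = ∅) ∧ ∀ i, L.mu.real (b i) ≤ δ := by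
  have := L.prob
  obtain ⟨n, b, h1, h2, h3, h4, h5, h6⟩ := exists_partOf L.mu L.noAtoms hG
    (ENNReal.ofReal_pos.2 hδ)
  refine ⟨n, b, h1, h2, h3, h4, h5, fun i => ?_⟩
  exact ENNReal.toReal_le_of_le_ofReal hδ.le (h6 i)

/-- **(P)**, version with `Fin n` -/
theorem exists_part_fin {G : Set ℝ} (hG : MeasurableSet G) {δ : ℝ} (hδ : 0 < δ) :
    ∃ (n : ℕ) (b : Fin n → Set ℝ), (∀ i, MeasurableSet (b i)) ∧
      (Pairwise fun i j => Disjoint (b i) (b j)) ∧ (⋃ i, b i) = G ∧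
      (∀ i, b i ⊆ G) ∧ ∀ i, L.mu.real (b i) ≤ δ := by
  obtain ⟨n, b, h1, h2, h3, h4, h5, h6⟩ := L.exists_part hG hδ
  refine ⟨n, fun i => b i, fun i => h1 i, fun i j hij => h2 i j fun h => hij (Fin.ext h), ?_,
    fun i => h4 i, fun i => h6 i⟩
  rw [← h3]
  ext t
  simp only [Set.mem_iUnion, Finset.mem_range, exists_prop]
  exact ⟨fun ⟨i, hi⟩ => ⟨i, i.2, hi⟩, fun ⟨i, hi, ht⟩ => ⟨⟨i, hi⟩, ht⟩⟩

end LSys

end Vale.Agent.P367.A
end

section

/-! P367, block B: basic lemmas for label systems `LSys`: label projections, Pauli operators, pulses,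
existence of couplings and product unitaries. -/

namespace Vale.Agent.P367.A

open Complex Filter Topology MeasureTheory

section bm

lemma Bm.const (c : ℂ) : Bm (fun _ => c) := ⟨measurable_const, ‖c‖, fun _ => le_rfl⟩

lemma Bm.ind {b : Set ℝ} (hb : MeasurableSet b) (c : ℂ) : Bm (b.indicator fun _ => c) :=
  ⟨measurable_const.indicator hb, ‖c‖, fun x => by
    by_cases hx : x ∈ b
    · rw [Set.indicator_of_mem hx]
    · rw [Set.indicator_of_notMem hx, norm_zero]; exact norm_nonneg _⟩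

lemma Bm.add {f g : ℝ → ℂ} (hf : Bm f) (hg : Bm g) : Bm (fun t => f t + g t) := by
  obtain ⟨h1, C, h2⟩ := hf
  obtain ⟨h3, D, h4⟩ := hg
  exact ⟨h1.add h3, C + D, fun x => (norm_add_le _ _).trans (add_le_add (h2 x) (h4 x))⟩

lemma Bm.mul {f g : ℝ → ℂ} (hf : Bm f) (hg : Bm g) : Bm (fun t => f t * g t) := by
  obtain ⟨h1, C, h2⟩ := hf
  obtain ⟨h3, D, h4⟩ := hg
  refine ⟨h1.mul h3, C * D, fun x => ?_⟩
  rw [norm_mul]
  exact mul_le_mul (h2 x) (h4 x) (norm_nonneg _) ((norm_nonneg _).trans (h2 x))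

lemma Bm.conj {f : ℝ → ℂ} (hf : Bm f) : Bm (fun t => (starRingEnd ℂ) (f t)) := by
  obtain ⟨h1, C, h2⟩ := hf
  exact ⟨continuous_conj.measurable.comp h1, C, fun x => by rw [RCLike.norm_conj]; exact h2 x⟩

end bm

namespace LSys

variable {H K : Type*} [NormedAddCommGroup H] [InnerProductSpace ℂ H]
  [NormedAddCommGroup K] [InnerProductSpace ℂ K] (L : LSys H K)

/-! ### label projections -/

lemma lab_zero : L.lab (fun _ => 0) = 0 := by rw [L.lab_const]; simp

lemma lab_comm (f g : ℝ → ℂ) (hf : Bm f) (hg : Bm g) (x : H) :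
    L.lab f (L.lab g x) = L.lab g (L.lab f x) := by
  have h1 := L.lab_mul f g hf hg
  have h2 := L.lab_mul g f hg hf
  have h3 : (fun t => f t * g t) = fun t => g t * f t := by funext t; ring
  rw [h3, h2] at h1
  exact (congrArg (fun T : H →L[ℂ] H => T x) h1).symm

lemma E_inter {a b : Set ℝ} (ha : MeasurableSet a) (hb : MeasurableSet b) (x : H) :
    L.E a (L.E b x) = L.E (a ∩ b) x := by
  have h1 := L.lab_mul _ _ (Bm.ind ha 1) (Bm.ind hb 1)
  have h2 : (fun t => a.indicator (fun _ => (1 : ℂ)) t * b.indicator (fun _ => (1 : ℂ)) t)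
      = (a ∩ b).indicator fun _ => 1 := by
    funext t
    by_cases hta : t ∈ a <;> by_cases htb : t ∈ b <;> simp [hta, htb]
  rw [h2] at h1
  exact (congrArg (fun T : H →L[ℂ] H => T x) h1).symm

lemma E_empty (x : H) : L.E ∅ x = 0 := by
  rw [E, Set.indicator_empty, L.lab_zero]; rfl

lemma E_univ (x : H) : L.E Set.univ x = x := by
  rw [E, Set.indicator_univ, L.lab_const]; simp

lemma E_E {b : Set ℝ} (hb : MeasurableSet b) (x : H) : L.E b (L.E b x) = L.E b x := by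
  rw [L.E_inter hb hb, Set.inter_self]

lemma E_dis {a b : Set ℝ} (ha : MeasurableSet a) (hb : MeasurableSet b) (h : Disjoint a b)
    (x : H) : L.E a (L.E b x) = 0 := by
  rw [L.E_inter ha hb, h.inter_eq, E_empty]

lemma E_sub {a b : Set ℝ} (ha : MeasurableSet a) (hb : MeasurableSet b) (h : a ⊆ b)
    (x : H) : L.E a (L.E b x) = L.E a x := by
  rw [L.E_inter ha hb, Set.inter_eq_left.2 h]

lemma E_sub' {a b : Set ℝ} (ha : MeasurableSet a) (hb : MeasurableSet b) (h : a ⊆ b)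
    (x : H) : L.E b (L.E a x) = L.E a x := by
  rw [L.E_inter hb ha, Set.inter_eq_right.2 h]

lemma E_comm {a b : Set ℝ} (ha : MeasurableSet a) (hb : MeasurableSet b) (x : H) :
    L.E a (L.E b x) = L.E b (L.E a x) := by
  rw [L.E_inter ha hb, L.E_inter hb ha, Set.inter_comm]

lemma E_union {a b : Set ℝ} (ha : MeasurableSet a) (hb : MeasurableSet b) (h : Disjoint a b)
    (x : H) : L.E (a ∪ b) x = L.E a x + L.E b x := by
  have h1 := L.lab_add _ _ (Bm.ind ha 1) (Bm.ind hb 1)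
  have h2 : (fun t => a.indicator (fun _ => (1 : ℂ)) t + b.indicator (fun _ => (1 : ℂ)) t)
      = (a ∪ b).indicator fun _ => 1 := by
    funext t
    by_cases hta : t ∈ a
    · have htb : t ∉ b := fun htb => (Set.disjoint_left.1 h) hta htb
      simp [hta, htb]
    · by_cases htb : t ∈ b <;> simp [hta, htb]
  rw [h2] at h1
  exact congrArg (fun T : H →L[ℂ] H => T x) h1

lemma E_compl {b : Set ℝ} (hb : MeasurableSet b) (x : H) : L.E bᶜ x = x - L.E b x := by
  have h := L.E_union hb hb.compl disjoint_compl_right x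
  rw [Set.union_compl_self, E_univ] at h
  rw [eq_sub_iff_add_eq, add_comm]
  exact h.symm

lemma E_diff {a b : Set ℝ} (ha : MeasurableSet a) (hb : MeasurableSet b) (h : b ⊆ a) (x : H) :
    L.E (a \ b) x = L.E a x - L.E b x := by
  have h1 := L.E_union (ha.diff hb) hb Set.disjoint_sdiff_left x
  rw [Set.sdiff_union_of_subset h] at h1
  rw [h1, add_sub_cancel_right]

lemma E_sa {b : Set ℝ} (hb : MeasurableSet b) (x y : H) :
    inner ℂ (L.E b x) y = (inner ℂ x (L.E b y) : ℂ) := by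
  have h := L.lab_adj _ (Bm.ind hb 1) x y
  have h2 : (fun t => (starRingEnd ℂ) (b.indicator (fun _ => (1 : ℂ)) t))
      = b.indicator fun _ => 1 := by
    funext t
    by_cases ht : t ∈ b <;> simp [ht]
  rw [h2] at h
  exact h

lemma E_X (b : Set ℝ) (x : H) : L.E b (L.X x) = L.X (L.E b x) := L.lab_X _ x

lemma E_Z (b : Set ℝ) (x : H) : L.E b (L.Z x) = L.Z (L.E b x) := L.lab_Z _ x

lemma E_W (b : Set ℝ) (a : K) (x : H) : L.E b (L.W a x) = L.W a (L.E b x) := L.lab_W _ a x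

lemma lab_xr (f : ℝ → ℂ) (t : ℝ) (x : H) : L.lab f (L.xr t x) = L.xr t (L.lab f x) := by
  rw [L.xr_apply, L.xr_apply, map_sub, map_smul, map_smul, L.lab_X]

lemma lab_Zt (f : ℝ → ℂ) (t : ℝ) (x : H) : L.lab f (L.Zt t x) = L.Zt t (L.lab f x) := by
  rw [L.Zt_apply, L.Zt_apply, lab_xr, L.lab_Z]

lemma lab_pul (f : ℝ → ℂ) (t : ℝ) (v : K) (x : H) :
    L.lab f (L.pul t v x) = L.pul t v (L.lab f x) := by
  simp only [L.pul_apply, map_add, map_sub, map_smul, L.lab_W, L.lab_Zt]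

lemma lab_zr (f : ℝ → ℂ) (v : K) (x : H) : L.lab f (L.zr v x) = L.zr v (L.lab f x) := by
  rw [← L.pul_time_zero, L.lab_pul]

lemma E_xr (b : Set ℝ) (t : ℝ) (x : H) : L.E b (L.xr t x) = L.xr t (L.E b x) := L.lab_xr _ t x

lemma E_Zt (b : Set ℝ) (t : ℝ) (x : H) : L.E b (L.Zt t x) = L.Zt t (L.E b x) := L.lab_Zt _ t x

lemma E_pul (b : Set ℝ) (t : ℝ) (v : K) (x : H) : L.E b (L.pul t v x) = L.pul t v (L.E b x) :=
  L.lab_pul _ t v x

lemma E_zr (b : Set ℝ) (v : K) (x : H) : L.E b (L.zr v x) = L.zr v (L.E b x) := L.lab_zr _ v x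

lemma inner_E_compl {b : Set ℝ} (hb : MeasurableSet b) (x y : H) :
    (inner ℂ (L.E b x) (y - L.E b y) : ℂ) = 0 := by
  rw [inner_sub_right, L.E_sa hb, L.E_sa hb, L.E_E hb, sub_self]

lemma inner_E_dis {a b : Set ℝ} (ha : MeasurableSet a) (hb : MeasurableSet b) (h : Disjoint a b)
    (x y : H) : (inner ℂ (L.E a x) (L.E b y) : ℂ) = 0 := by
  rw [L.E_sa ha, L.E_dis ha hb h, inner_zero_right]

lemma norm_sq_E {b : Set ℝ} (hb : MeasurableSet b) (x : H) :
    ‖x‖ ^ 2 = ‖L.E b x‖ ^ 2 + ‖x - L.E b x‖ ^ 2 := by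
  conv_lhs => rw [show x = L.E b x + (x - L.E b x) by abel]
  rw [@norm_add_sq ℂ H, L.inner_E_compl hb]
  simp

lemma norm_E_le {b : Set ℝ} (hb : MeasurableSet b) (x : H) : ‖L.E b x‖ ≤ ‖x‖ := by
  refine (sq_le_sq₀ (norm_nonneg _) (norm_nonneg _)).1 ?_
  rw [L.norm_sq_E hb x]; nlinarith [sq_nonneg ‖x - L.E b x‖]

lemma norm_sq_E_add {a b : Set ℝ} (ha : MeasurableSet a) (hb : MeasurableSet b)
    (h : Disjoint a b) (x y : H) :
    ‖L.E a x + L.E b y‖ ^ 2 = ‖L.E a x‖ ^ 2 + ‖L.E b y‖ ^ 2 := by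
  rw [@norm_add_sq ℂ H, L.inner_E_dis ha hb h]
  simp

/-- the vacuum functional of a label projection -/
lemma vacE {b : Set ℝ} (hb : MeasurableSet b) (a : K) : inner ℂ L.Om (L.E b (L.W a L.Om))
    = ((L.mu.real b : ℝ) : ℂ) * Complex.exp (-((‖a‖ ^ 2 / 2 : ℝ) : ℂ)) := by
  rw [E, L.lab_vac _ (Bm.ind hb 1)]
  congr 1
  rw [integral_indicator hb, setIntegral_const]
  simp

lemma norm_E_Om {b : Set ℝ} (hb : MeasurableSet b) : ‖L.E b L.Om‖ ^ 2 = L.mu.real b := by
  have h := L.vacE hb 0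
  rw [L.W_zero_apply, norm_zero] at h
  have h2 : (inner ℂ (L.E b L.Om) (L.E b L.Om) : ℂ) = ((L.mu.real b : ℝ) : ℂ) := by
    rw [L.E_sa hb, L.E_E hb, h]
    simp
  rw [inner_self_eq_norm_sq_to_K] at h2
  apply Complex.ofReal_injective
  rw [← h2, Complex.ofReal_pow]
  rfl

/-! ### Pauli operators -/

lemma pau_zero : L.pau 0 = L.X := rfl

lemma pau_one : L.pau 1 = L.Zt (-(Real.pi / 4)) := rfl

lemma pau_two : L.pau 2 = L.Z := rfl

lemma pau_sq (P : Fin 3) (x : H) : L.pau P (L.pau P x) = x := by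
  fin_cases P
  · exact L.XX x
  · exact L.Zt_sq _ x
  · exact L.ZZ x

lemma W_pau (P : Fin 3) (a : K) (x : H) : L.W a (L.pau P x) = L.pau P (L.W a x) := by
  fin_cases P
  · exact L.WX a x
  · exact L.W_ZtA a _ x
  · exact L.WZ a x

lemma inner_pau (P : Fin 3) (x y : H) :
    inner ℂ (L.pau P x) y = (inner ℂ x (L.pau P y) : ℂ) := by
  have h := (L.pau P).inner_map_map x (L.pau P y)
  rwa [L.pau_sq] at h

lemma lab_pau (f : ℝ → ℂ) (P : Fin 3) (x : H) : L.lab f (L.pau P x) = L.pau P (L.lab f x) := by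
  fin_cases P
  · exact L.lab_X f x
  · exact L.lab_Zt f _ x
  · exact L.lab_Z f x

lemma E_pau (b : Set ℝ) (P : Fin 3) (x : H) : L.E b (L.pau P x) = L.pau P (L.E b x) :=
  L.lab_pau _ P x

/-! ### pulses -/

/-- linear map underlying the pulse `exp(-i P phi(v))` -/
noncomputable def pwLin (P : Fin 3) (v : K) : H →ₗ[ℂ] H :=
  (1 / 2 : ℂ) • ((L.W (-v)).toLinearEquiv.toLinearMap + (L.W v).toLinearEquiv.toLinearMap)
  + (1 / 2 : ℂ) • ((L.W (-v)).toLinearEquiv.toLinearMap - (L.W v).toLinearEquiv.toLinearMap)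
      ∘ₗ (L.pau P).toLinearEquiv.toLinearMap

lemma pwLin_apply (P : Fin 3) (v : K) (x : H) : L.pwLin P v x = L.pw (L.pau P) v x := rfl

lemma pw_add (P : Fin 3) (v : K) (x y : H) :
    L.pw (L.pau P) v (x + y) = L.pw (L.pau P) v x + L.pw (L.pau P) v y := by
  rw [← pwLin_apply, map_add]; rfl

lemma pw_smul (P : Fin 3) (v : K) (c : ℂ) (x : H) :
    L.pw (L.pau P) v (c • x) = c • L.pw (L.pau P) v x := by
  rw [← pwLin_apply, map_smul]; rfl

lemma pw_pw (P : Fin 3) (v w : K) (x : H) : L.pw (L.pau P) v (L.pw (L.pau P) w x)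
    = Complex.exp (-(Complex.I * (th v w : ℂ))) • L.pw (L.pau P) (v + w) x := by
  simp only [pw, map_add, map_sub, map_smul, L.W_pau, L.pau_sq, L.WW', th_neg_left,
    th_neg_right, neg_neg, neg_add, Complex.ofReal_neg]
  module

lemma pw_zero (P : Fin 3) (x : H) : L.pw (L.pau P) 0 x = x := by
  rw [pw, neg_zero, L.W_zero_apply, L.W_zero_apply]; module

lemma pw_neg_pw (P : Fin 3) (v : K) (x : H) : L.pw (L.pau P) (-v) (L.pw (L.pau P) v x) = x := by
  rw [pw_pw, neg_add_cancel, pw_zero, th_neg_left, th_self]; simp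

lemma pw_pw_neg (P : Fin 3) (v : K) (x : H) : L.pw (L.pau P) v (L.pw (L.pau P) (-v) x) = x := by
  have := L.pw_neg_pw P (-v) x
  rwa [neg_neg] at this

/-- the pulse `exp(-i P phi(v))` as a unitary -/
noncomputable def pwU (P : Fin 3) (v : K) : H ≃ₗᵢ[ℂ] H :=
  mkU (L.pwLin P v) (L.pwLin P (-v)) (fun x => L.pw_neg_pw P v x) (fun x => L.pw_pw_neg P v x)
    (fun x y => by
      simp only [pwLin_apply, pw, inner_sub_left, inner_sub_right, inner_smul_left,
        inner_smul_right, L.inner_pau, L.inner_W, inner_add_left, inner_add_right, neg_neg,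
        ← L.W_pau, map_div₀, map_one, Complex.conj_ofNat])

lemma pwU_apply (P : Fin 3) (v : K) (x : H) : L.pwU P v x = L.pw (L.pau P) v x := rfl

lemma pwU_inv (P : Fin 3) (v : K) : (L.pwU P v)⁻¹ = L.pwU P (-v) := by
  ext x; exact Sys.inv_apply_eq (L.pw_pw_neg P v x)

lemma norm_pw (P : Fin 3) (v : K) (x : H) : ‖L.pw (L.pau P) v x‖ = ‖x‖ :=
  (L.pwU P v).norm_map x

lemma pw_two (v : K) (x : H) : L.pw (L.pau 2) v x = L.zr v x := rfl

lemma pw_Zt (t : ℝ) (v : K) (x : H) : L.pw (L.Zt t) v x = L.pul t v x := by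
  rw [pw, L.pul_apply]

lemma pw_one (v : K) (x : H) : L.pw (L.pau 1) v x = L.pul (-(Real.pi / 4)) v x := L.pw_Zt _ v x

lemma pau_pw (P : Fin 3) (v : K) (x : H) :
    L.pau P (L.pw (L.pau P) v x) = L.pw (L.pau P) v (L.pau P x) := by
  simp only [pw, map_add, map_sub, map_smul, L.W_pau]

/-- a linear map commuting with the Weyl operators involved and the Pauli operators commutes with
pulses -/
lemma map_pw (T : H →L[ℂ] H) (P : Fin 3) (v : K) (hv : ∀ x, T (L.W v x) = L.W v (T x))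
    (hv' : ∀ x, T (L.W (-v) x) = L.W (-v) (T x)) (hP : ∀ x, T (L.pau P x) = L.pau P (T x))
    (x : H) : T (L.pw (L.pau P) v x) = L.pw (L.pau P) v (T x) := by
  simp only [pw, map_add, map_sub, map_smul, hv, hv', hP]

lemma lab_pw (f : ℝ → ℂ) (P : Fin 3) (v : K) (x : H) :
    L.lab f (L.pw (L.pau P) v x) = L.pw (L.pau P) v (L.lab f x) :=
  L.map_pw _ P v (fun x => L.lab_W f v x) (fun x => L.lab_W f (-v) x) (fun x => L.lab_pau f P x) x

lemma E_pw (b : Set ℝ) (P : Fin 3) (v : K) (x : H) :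
    L.E b (L.pw (L.pau P) v x) = L.pw (L.pau P) v (L.E b x) := L.lab_pw _ P v x

lemma lab_pwU (f : ℝ → ℂ) (P : Fin 3) (v : K) (x : H) :
    L.lab f (L.pwU P v x) = L.pwU P v (L.lab f x) := L.lab_pw f P v x

lemma E_pwU (b : Set ℝ) (P : Fin 3) (v : K) (x : H) :
    L.E b (L.pwU P v x) = L.pwU P v (L.E b x) := L.E_pw b P v x

/-! ### block unitaries -/

/-- `U` on the labels in `b`, identity elsewhere -/
noncomputable def bU {b : Set ℝ} (hb : MeasurableSet b) (U : H ≃ₗᵢ[ℂ] H)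
    (hU : ∀ x, L.E b (U x) = U (L.E b x)) : H ≃ₗᵢ[ℂ] H :=
  mkU (U.toLinearEquiv.toLinearMap ∘ₗ (L.E b).toLinearMap + (LinearMap.id - (L.E b).toLinearMap))
    (U⁻¹.toLinearEquiv.toLinearMap ∘ₗ (L.E b).toLinearMap
      + (LinearMap.id - (L.E b).toLinearMap))
    (fun x => by
      change U⁻¹ (L.E b (U (L.E b x) + (x - L.E b x))) + ((U (L.E b x) + (x - L.E b x))
        - L.E b (U (L.E b x) + (x - L.E b x))) = x
      rw [map_add, map_sub, hU, L.E_E hb, sub_self, add_zero, Sys.invA]; abel)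
    (fun x => by
      have hU' : ∀ x, L.E b (U⁻¹ x) = U⁻¹ (L.E b x) := by
        intro x
        apply U.injective
        rw [← hU, Sys.Ainv, Sys.Ainv]
      change U (L.E b (U⁻¹ (L.E b x) + (x - L.E b x))) + ((U⁻¹ (L.E b x) + (x - L.E b x))
        - L.E b (U⁻¹ (L.E b x) + (x - L.E b x))) = x
      rw [map_add, map_sub, hU', L.E_E hb, sub_self, add_zero, Sys.Ainv]; abel)
    (fun x y => by
      change inner ℂ (U (L.E b x) + (x - L.E b x)) y = inner ℂ x (U⁻¹ (L.E b y) + (y - L.E b y))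
      have hU' : ∀ x, L.E b (U⁻¹ x) = U⁻¹ (L.E b x) := by
        intro x
        apply U.injective
        rw [← hU, Sys.Ainv, Sys.Ainv]
      have h1 : inner ℂ (U (L.E b x)) y = (inner ℂ x (U⁻¹ (L.E b y)) : ℂ) := by
        rw [← hU', ← L.E_sa hb, ← Sys.inner_invA, inv_inv]
      rw [inner_add_left, inner_add_right, inner_sub_left, inner_sub_right, h1, L.E_sa hb])

lemma bU_apply {b : Set ℝ} (hb : MeasurableSet b) (U : H ≃ₗᵢ[ℂ] H) (hU) (x : H) :
    L.bU hb U hU x = U (L.E b x) + (x - L.E b x) := rfl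

/-- existence of block couplings -/
lemma exists_coup {A B : Set ℝ} (hA : MeasurableSet A) (hB : MeasurableSet B)
    (hAB : Disjoint A B) (P Q : Fin 3) (c : ℝ) (V : H ≃ₗᵢ[ℂ] H) :
    ∃ U, L.IsCoup A B P Q c V U := by
  refine ⟨L.bU hA (L.pwU P ((c : ℂ) • L.fv (L.pau Q) B V)) (L.E_pwU A P _)
    * L.bU hB (L.pwU Q ((c : ℂ) • L.fv (L.pau P) A V)) (L.E_pwU B Q _), fun x => ?_⟩
  rw [Sys.mulA, bU_apply, bU_apply, map_add, map_sub, L.E_pwU, L.E_dis hA hB hAB, map_zero,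
    sub_zero, zero_add]
  rw [pwU_apply, pwU_apply]
  abel

end LSys

end Vale.Agent.P367.A
end

section

/-! P367, block B, T2: interface of the function gate. -/

namespace Vale.Agent.P367.A

open Complex Filter Topology MeasureTheory

namespace LSys

variable {H K : Type*} [NormedAddCommGroup H] [InnerProductSpace ℂ H]
  [NormedAddCommGroup K] [InnerProductSpace ℂ K] (L : LSys H K)

/-- a unitary as a bounded operator -/
noncomputable def clm (U : H ≃ₗᵢ[ℂ] H) : H →L[ℂ] H :=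
  U.toContinuousLinearEquiv.toContinuousLinearMap

@[simp] lemma clm_apply (U : H ≃ₗᵢ[ℂ] H) (x : H) : clm U x = U x := rfl

/-- `cos phi(v)` -/
noncomputable def cosf (v : K) : H →L[ℂ] H := (1 / 2 : ℂ) • (clm (L.W v) + clm (L.W (-v)))

/-- `sin phi(v)` -/
noncomputable def sinf (v : K) : H →L[ℂ] H :=
  (-(Complex.I / 2)) • (clm (L.W v) - clm (L.W (-v)))

/-- `exp(-i P phi(v))` as a bounded operator -/
noncomputable def pwC (P : H ≃ₗᵢ[ℂ] H) (v : K) : H →L[ℂ] H :=
  (1 / 2 : ℂ) • (clm (L.W (-v)) + clm (L.W v))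
    + (1 / 2 : ℂ) • ((clm (L.W (-v)) - clm (L.W v)) * clm P)

lemma pwC_apply (P : H ≃ₗᵢ[ℂ] H) (v : K) (x : H) : L.pwC P v x = L.pw P v x := rfl

/-- the control vector `mu * fv Z o V + lam * fv Y r V` -/
noncomputable def cvec (μ ν : ℝ) (o r : Set ℝ) (V : H ≃ₗᵢ[ℂ] H) : K :=
  (μ : ℂ) • L.fv (L.pau 2) o V + (ν : ℂ) • L.fv (L.pau 1) r V

/-- `exp(-(i/2) X phi(v))` and its inverse -/
noncomputable def kk (v : K) : H →L[ℂ] H := L.pwC (L.pau 0) ((1 / 2 : ℂ) • v)

noncomputable def kki (v : K) : H →L[ℂ] H := L.pwC (L.pau 0) (-((1 / 2 : ℂ) • v))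

/-- `exp(-i ε psi Z)` -/
noncomputable def rr (psi : H →L[ℂ] H) (ε : ℝ) : H →L[ℂ] H :=
  NormedSpace.exp ((-Complex.I) • (((ε : ℂ) • psi) * clm (L.pau 2)))

/-- one micro step on the own batch -/
noncomputable def fm (v : K) (psi : H →L[ℂ] H) (ε : ℝ) : H →L[ℂ] H :=
  L.kk v * (L.rr psi ε * (L.kki v * (L.kki v * (L.rr psi ε * L.kk v))))

/-- its inverse -/
noncomputable def fmi (v : K) (psi : H →L[ℂ] H) (ε : ℝ) : H →L[ℂ] H :=
  L.kki v * (L.rr psi (-ε) * (L.kk v * (L.kk v * (L.rr psi (-ε) * L.kki v))))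

/-- sum of the reactions of the `m` micro steps: `Σ_j (X_j - 2 X'_j + X_{j+1})` -/
noncomputable def sumX (v : K) (psi : H →L[ℂ] H) (ε : ℝ) (m : ℕ) : H →L[ℂ] H :=
  ∑ j ∈ Finset.range m, (L.fmi v psi ε ^ j * clm L.X * L.fm v psi ε ^ j
    - (2 : ℂ) • (L.fmi v psi ε ^ j * (L.kki v * L.rr psi (-ε) * clm L.X * L.rr psi ε * L.kk v)
        * L.fm v psi ε ^ j)
    + L.fmi v psi ε ^ (j + 1) * clm L.X * L.fm v psi ε ^ (j + 1))

/-- block unitary: `Ub` on `b`, `tho * exp(-i Z phi(p))` on `o`, `thr * exp(-i Y phi(q))` on `r` -/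
def IsBlk (b o r : Set ℝ) (Ub : H →L[ℂ] H) (p q : K) (tho thr : ℂ) (U : H ≃ₗᵢ[ℂ] H) : Prop :=
  ∀ x, U x = Ub (L.E b x) + tho • L.pw (L.pau 2) p (L.E o x)
    + thr • L.pw (L.pau 1) q (L.E r x) + (x - L.E b x - L.E o x - L.E r x)

/-- data of a function gate -/
structure FData (G : Set ℝ) (𝔄 : Set (H →L[ℂ] H)) (M b o r : Set ℝ) (psi : H →L[ℂ] H) : Prop where
  mb : MeasurableSet b
  mo : MeasurableSet o
  mr : MeasurableSet r
  bM : b ⊆ M
  oM : o ⊆ M
  rM : r ⊆ M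
  bo : Disjoint b o
  br : Disjoint b r
  or : Disjoint o r
  psiA : psi ∈ 𝔄
  psiS : Sa psi
  psiG : psi * L.E G = psi
  psib : psi * L.E b = psi

/-- (a): the gates of `m` micro steps, exactly -/
def FaStmt : Prop :=
  ∀ (G : Set ℝ) (𝔄 : Set (H →L[ℂ] H)) (Rch : Set ℝ → Set ℝ → (H ≃ₗᵢ[ℂ] H) → Prop),
    MeasurableSet G → L.Ctl 𝔄 → L.Closed G 𝔄 Rch →
    ∀ (M R b o r : Set ℝ) (V : H ≃ₗᵢ[ℂ] H) (psi : H →L[ℂ] H) (μ ν s : ℝ), Rch M R V →
      L.FData G 𝔄 M b o r psi → ∀ m : ℕ, 1 ≤ m →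
      ∃ (U : H ≃ₗᵢ[ℂ] H) (tho thr : ℂ), ‖tho‖ = 1 ∧ ‖thr‖ = 1 ∧
        L.IsBlk b o r (L.fm (L.cvec μ ν o r V) psi (s / (2 * m)) ^ m)
          (((μ / 2 : ℝ) : ℂ) • L.iota (L.E b (V⁻¹ (L.sumX (L.cvec μ ν o r V) psi (s / (2 * m)) m
            (V L.Om)))))
          (((ν / 2 : ℝ) : ℂ) • L.iota (L.E b (V⁻¹ (L.sumX (L.cvec μ ν o r V) psi (s / (2 * m)) m
            (V L.Om))))) tho thr U ∧
        Rch M R (U * V)

/-- the limiting reaction vector `- s * iota (E_b V^* psi Z sin phi(v) V Om)` -/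
noncomputable def rvec (v : K) (b : Set ℝ) (psi : H →L[ℂ] H) (s : ℝ) (V : H ≃ₗᵢ[ℂ] H) : K :=
  (-(s : ℂ)) • L.iota (L.E b (V⁻¹ (psi (L.Z (L.sinf v (V L.Om))))))

/-- **function gate**: `exp(-i s psi Z cos phi(v))` on `b` and its reactions are reachable -/
def FGStmt : Prop :=
  ∀ (G : Set ℝ) (𝔄 : Set (H →L[ℂ] H)) (Rch : Set ℝ → Set ℝ → (H ≃ₗᵢ[ℂ] H) → Prop),
    MeasurableSet G → L.Ctl 𝔄 → L.Closed G 𝔄 Rch →
    ∀ (M R b o r : Set ℝ) (V : H ≃ₗᵢ[ℂ] H) (psi : H →L[ℂ] H) (μ ν s : ℝ), Rch M R V →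
      L.FData G 𝔄 M b o r psi →
      ∀ U : H ≃ₗᵢ[ℂ] H, L.IsBlk b o r
          (NormedSpace.exp ((-(Complex.I * (s : ℂ))) •
            (psi * (clm L.Z * L.cosf (L.cvec μ ν o r V)))))
          ((μ : ℂ) • L.rvec (L.cvec μ ν o r V) b psi s V)
          ((ν : ℂ) • L.rvec (L.cvec μ ν o r V) b psi s V) 1 1 U →
        Rch M R (U * V)

end LSys

end Vale.Agent.P367.A
end

section

/-! P367 block B: parity and leakage of the reserve, in the abstract spin-Weyl system.
Reference vector `Om` (`X Om = Om`), pulses `pul t v` around axes in the `Z-Y` plane. -/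

namespace Vale.Agent.P367.B.LKS

open Complex Vale.Agent.P367.A

variable {H K : Type*} [NormedAddCommGroup H] [InnerProductSpace ℂ H]
  [NormedAddCommGroup K] [InnerProductSpace ℂ K] (S : Sys H K)

/-- linear map of a Weyl operator -/
noncomputable def Wl (a : K) : H →ₗ[ℂ] H := (S.W a).toLinearEquiv.toLinearMap

lemma Wl_apply (a : K) (x : H) : Wl S a x = S.W a x := rfl

/-- even (`s = 1`) or odd (`s = -1`) combinations of Weyl operators with labels in `L` -/
def Eo (L : Submodule ℂ K) (s : ℂ) : Submodule ℂ (H →ₗ[ℂ] H) :=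
  Submodule.span ℂ {A | ∃ v ∈ L, A = Wl S v + s • Wl S (-v)}

variable {S}

lemma Eo.mem {L : Submodule ℂ K} {v : K} (hv : v ∈ L) (s : ℂ) :
    Wl S v + s • Wl S (-v) ∈ Eo S L s := Submodule.subset_span ⟨v, hv, rfl⟩

lemma Wl_comp (a b : K) : Wl S a ∘ₗ Wl S b
    = Complex.exp (-(Complex.I * ((inner ℂ a b).im : ℂ))) • Wl S (a + b) := by
  ext x
  simp only [LinearMap.comp_apply, LinearMap.smul_apply, Wl_apply, S.WW]

lemma Wl_comp_neg (a b : K) : Wl S (-a) ∘ₗ Wl S (-b)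
    = Complex.exp (-(Complex.I * ((inner ℂ a b).im : ℂ))) • Wl S (-(a + b)) := by
  rw [Wl_comp, inner_neg_neg, neg_add]

lemma Wl_comp_neg_left (a b : K) : Wl S (-a) ∘ₗ Wl S b
    = Complex.exp (Complex.I * ((inner ℂ a b).im : ℂ)) • Wl S (-(a - b)) := by
  rw [Wl_comp, inner_neg_left]
  congr 2
  · simp
  · abel_nf

lemma Wl_comp_neg_right (a b : K) : Wl S a ∘ₗ Wl S (-b)
    = Complex.exp (Complex.I * ((inner ℂ a b).im : ℂ)) • Wl S (a - b) := by
  rw [Wl_comp, inner_neg_right]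
  congr 2
  · simp
  · abel_nf

/-- products of even and odd elements -/
lemma Eo.comp {L : Submodule ℂ K} {s t : ℂ} (ht : t * t = 1)
    {A B : H →ₗ[ℂ] H} (hA : A ∈ Eo S L s) (hB : B ∈ Eo S L t) : A ∘ₗ B ∈ Eo S L (s * t) := by
  induction hA using Submodule.span_induction with
  | mem A hA =>
    obtain ⟨v, hv, rfl⟩ := hA
    induction hB using Submodule.span_induction with
    | mem B hB =>
      obtain ⟨w, hw, rfl⟩ := hB
      have e : (Wl S v + s • Wl S (-v)) ∘ₗ (Wl S w + t • Wl S (-w))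
          = Complex.exp (-(Complex.I * ((inner ℂ v w).im : ℂ))) •
              (Wl S (v + w) + (s * t) • Wl S (-(v + w)))
            + (t * Complex.exp (Complex.I * ((inner ℂ v w).im : ℂ))) •
              (Wl S (v - w) + (s * t) • Wl S (-(v - w))) := by
        simp only [LinearMap.add_comp, LinearMap.comp_add, LinearMap.smul_comp,
          LinearMap.comp_smul]
        rw [Wl_comp v w, Wl_comp_neg v w, Wl_comp_neg_left, Wl_comp_neg_right]
        generalize Complex.exp (-(Complex.I * ((inner ℂ v w).im : ℂ))) = e1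
        generalize Complex.exp (Complex.I * ((inner ℂ v w).im : ℂ)) = e2
        have h3 : s * e2 = t * e2 * (s * t) := by linear_combination -(s * e2) * ht
        have h4 : s • (e2 • Wl S (-(v - w))) = (t * e2) • ((s * t) • Wl S (-(v - w))) := by
          rw [smul_smul, smul_smul, h3]
        rw [h4]
        module
      rw [e]
      exact Submodule.add_mem _ (Submodule.smul_mem _ _ (Eo.mem (L.add_mem hv hw) _))
        (Submodule.smul_mem _ _ (Eo.mem (L.sub_mem hv hw) _))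
    | zero => simp
    | add B C _ _ hB hC => rw [LinearMap.comp_add]; exact Submodule.add_mem _ hB hC
    | smul c B _ hB => rw [LinearMap.comp_smul]; exact Submodule.smul_mem _ _ hB
  | zero => simp
  | add A C _ _ hA hC => rw [LinearMap.add_comp]; exact Submodule.add_mem _ hA hC
  | smul c A _ hA => rw [LinearMap.smul_comp]; exact Submodule.smul_mem _ _ hA

lemma Eo.pp {L : Submodule ℂ K} {A B : H →ₗ[ℂ] H} (hA : A ∈ Eo S L 1) (hB : B ∈ Eo S L 1) :
    A ∘ₗ B ∈ Eo S L 1 := by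
  have h := Eo.comp (by ring : (1 : ℂ) * 1 = 1) hA hB
  rwa [one_mul] at h

lemma Eo.pm {L : Submodule ℂ K} {A B : H →ₗ[ℂ] H} (hA : A ∈ Eo S L 1) (hB : B ∈ Eo S L (-1)) :
    A ∘ₗ B ∈ Eo S L (-1) := by
  have h := Eo.comp (by ring : (-1 : ℂ) * (-1) = 1) hA hB
  rwa [one_mul] at h

lemma Eo.mp {L : Submodule ℂ K} {A B : H →ₗ[ℂ] H} (hA : A ∈ Eo S L (-1)) (hB : B ∈ Eo S L 1) :
    A ∘ₗ B ∈ Eo S L (-1) := by
  have h := Eo.comp (by ring : (1 : ℂ) * 1 = 1) hA hB
  rwa [mul_one] at h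

lemma Eo.mm {L : Submodule ℂ K} {A B : H →ₗ[ℂ] H} (hA : A ∈ Eo S L (-1)) (hB : B ∈ Eo S L (-1)) :
    A ∘ₗ B ∈ Eo S L 1 := by
  have h := Eo.comp (by ring : (-1 : ℂ) * (-1) = 1) hA hB
  rwa [show (-1 : ℂ) * (-1) = 1 by ring] at h

lemma Eo.mono {L L' : Submodule ℂ K} (h : L ≤ L') (s : ℂ) : Eo S L s ≤ Eo S L' s := by
  refine Submodule.span_mono ?_
  rintro _ ⟨v, hv, rfl⟩
  exact ⟨v, h hv, rfl⟩

/-- the combinations commute with `X` -/
lemma Eo_X {L : Submodule ℂ K} {s : ℂ} {A : H →ₗ[ℂ] H} (hA : A ∈ Eo S L s) (x : H) :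
    A (S.X x) = S.X (A x) := by
  induction hA using Submodule.span_induction with
  | mem A hA =>
    obtain ⟨v, hv, rfl⟩ := hA
    simp only [LinearMap.add_apply, LinearMap.smul_apply, Wl_apply, S.WX, map_add, map_smul]
  | zero => simp
  | add A C _ _ hA hC => rw [LinearMap.add_apply, LinearMap.add_apply, map_add, hA, hC]
  | smul c A _ hA => rw [LinearMap.smul_apply, LinearMap.smul_apply, map_smul, hA]

/-- the combinations commute with `Z` -/
lemma Eo_Z {L : Submodule ℂ K} {s : ℂ} {A : H →ₗ[ℂ] H} (hA : A ∈ Eo S L s) (x : H) :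
    A (S.Z x) = S.Z (A x) := by
  induction hA using Submodule.span_induction with
  | mem A hA =>
    obtain ⟨v, hv, rfl⟩ := hA
    simp only [LinearMap.add_apply, LinearMap.smul_apply, Wl_apply, S.WZ, map_add, map_smul]
  | zero => simp
  | add A C _ _ hA hC => rw [LinearMap.add_apply, LinearMap.add_apply, map_add, hA, hC]
  | smul c A _ hA => rw [LinearMap.smul_apply, LinearMap.smul_apply, map_smul, hA]

/-- odd elements have no vacuum expectation -/
lemma Eo.odd {L : Submodule ℂ K} {A : H →ₗ[ℂ] H} (hA : A ∈ Eo S L (-1)) :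
    inner ℂ S.Om (A S.Om) = 0 := by
  induction hA using Submodule.span_induction with
  | mem A hA =>
    obtain ⟨v, hv, rfl⟩ := hA
    simp only [LinearMap.add_apply, LinearMap.smul_apply, Wl_apply, inner_add_right,
      inner_smul_right, S.vac, norm_neg]
    ring
  | zero => simp
  | add A C _ _ hA hC => rw [LinearMap.add_apply, inner_add_right, hA, hC, add_zero]
  | smul c A _ hA => rw [LinearMap.smul_apply, inner_smul_right, hA, mul_zero]

/-- factorisation of vacuum expectations over orthogonal labels -/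
lemma Eo.factor {L L' : Submodule ℂ K} (hL : ∀ v ∈ L, ∀ w ∈ L', inner ℂ v w = 0) {s t : ℂ}
    {A B : H →ₗ[ℂ] H} (hA : A ∈ Eo S L s) (hB : B ∈ Eo S L' t) :
    inner ℂ S.Om (A (B S.Om)) = inner ℂ S.Om (A S.Om) * inner ℂ S.Om (B S.Om) := by
  have h0 : ∀ v ∈ L, ∀ w ∈ L', inner ℂ S.Om (S.W v (S.W w S.Om))
      = inner ℂ S.Om (S.W v S.Om) * inner ℂ S.Om (S.W w S.Om) := by
    intro v hv w hw
    rw [S.WW, hL v hv w hw, inner_smul_right, S.vac, S.vac, S.vac, ← Complex.exp_add,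
      ← Complex.exp_add]
    congr 1
    have h1 := @norm_add_sq ℂ K _ _ _ v w
    rw [hL v hv w hw] at h1
    rw [h1]
    push_cast
    simp
    ring
  induction hA using Submodule.span_induction with
  | mem A hA =>
    obtain ⟨v, hv, rfl⟩ := hA
    induction hB using Submodule.span_induction with
    | mem B hB =>
      obtain ⟨w, hw, rfl⟩ := hB
      simp only [LinearMap.add_apply, LinearMap.smul_apply, Wl_apply, inner_add_right,
        inner_smul_right, map_add, map_smul, smul_add]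
      rw [h0 v hv w hw, h0 v hv (-w) (L'.neg_mem hw), h0 (-v) (L.neg_mem hv) w hw,
        h0 (-v) (L.neg_mem hv) (-w) (L'.neg_mem hw)]
      ring
    | zero => simp
    | add B C _ _ hB hC =>
      rw [LinearMap.add_apply B C, map_add, inner_add_right, hB, hC, inner_add_right]; ring
    | smul c B _ hB =>
      rw [LinearMap.smul_apply c B, map_smul, inner_smul_right, hB, inner_smul_right]; ring
  | zero => simp
  | add A C _ _ hA hC =>
    rw [LinearMap.add_apply, inner_add_right, hA, hC, LinearMap.add_apply, inner_add_right]; ring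
  | smul c A _ hA =>
    rw [LinearMap.smul_apply, inner_smul_right, hA, LinearMap.smul_apply, inner_smul_right]; ring

variable (S)

/-- operators which commute with `X (-1)^N` and only touch the modes `L` -/
structure Par (L : Submodule ℂ K) (U : H → H) (a b c d : H →ₗ[ℂ] H) : Prop where
  ha : a ∈ Eo S L 1
  hb : b ∈ Eo S L 1
  hc : c ∈ Eo S L (-1)
  hd : d ∈ Eo S L (-1)
  eq : ∀ x, U x = a x + S.X (b x) + S.Z (c x) + S.Z (S.X (d x))

variable {S}

lemma Par.comp {L : Submodule ℂ K} {U V : H → H} {a b c d a' b' c' d' : H →ₗ[ℂ] H}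
    (hU : Par S L U a b c d) (hV : Par S L V a' b' c' d') :
    Par S L (fun x => U (V x))
      (a ∘ₗ a' + b ∘ₗ b' + c ∘ₗ c' - d ∘ₗ d') (a ∘ₗ b' + b ∘ₗ a' + c ∘ₗ d' - d ∘ₗ c')
      (a ∘ₗ c' - b ∘ₗ d' + c ∘ₗ a' + d ∘ₗ b') (a ∘ₗ d' - b ∘ₗ c' + c ∘ₗ b' + d ∘ₗ a') := by
  constructor
  · exact Submodule.sub_mem _ (Submodule.add_mem _ (Submodule.add_mem _ (Eo.pp hU.ha hV.ha)
      (Eo.pp hU.hb hV.hb)) (Eo.mm hU.hc hV.hc)) (Eo.mm hU.hd hV.hd)
  · exact Submodule.sub_mem _ (Submodule.add_mem _ (Submodule.add_mem _ (Eo.pp hU.ha hV.hb)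
      (Eo.pp hU.hb hV.ha)) (Eo.mm hU.hc hV.hd)) (Eo.mm hU.hd hV.hc)
  · exact Submodule.add_mem _ (Submodule.add_mem _ (Submodule.sub_mem _ (Eo.pm hU.ha hV.hc)
      (Eo.pm hU.hb hV.hd)) (Eo.mp hU.hc hV.ha)) (Eo.mp hU.hd hV.hb)
  · exact Submodule.add_mem _ (Submodule.add_mem _ (Submodule.sub_mem _ (Eo.pm hU.ha hV.hd)
      (Eo.pm hU.hb hV.hc)) (Eo.mp hU.hc hV.hb)) (Eo.mp hU.hd hV.ha)
  · intro x
    rw [hU.eq, hV.eq]
    simp only [map_add, LinearMap.add_apply, LinearMap.sub_apply, map_sub, LinearMap.comp_apply,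
      Eo_X hU.ha, Eo_Z hU.ha, Eo_X hU.hb, Eo_Z hU.hb, Eo_X hU.hc, Eo_Z hU.hc, Eo_X hU.hd,
      Eo_Z hU.hd, S.XX, S.ZZ, S.XZ, map_neg]
    abel

lemma Par.mono {L L' : Submodule ℂ K} (h : L ≤ L') {U : H → H} {a b c d : H →ₗ[ℂ] H}
    (hU : Par S L U a b c d) : Par S L' U a b c d :=
  ⟨Eo.mono h _ hU.ha, Eo.mono h _ hU.hb, Eo.mono h _ hU.hc, Eo.mono h _ hU.hd, hU.eq⟩

lemma inner_Om_X (x : H) : inner ℂ S.Om (S.X x) = inner ℂ S.Om x := by
  rw [← S.inner_X, S.XOm]

lemma inner_Om_Z_of {x : H} (h : S.X x = x) : inner ℂ S.Om (S.Z x) = 0 := by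
  have h1 : inner ℂ S.Om (S.Z x) = -inner ℂ S.Om (S.Z x) := by
    conv_lhs => rw [← inner_Om_X, S.XZ, h, inner_neg_right]
  have h2 : (2 : ℂ) * inner ℂ S.Om (S.Z x) = 0 := by linear_combination h1
  exact (mul_eq_zero.1 h2).resolve_left two_ne_zero

lemma Par.exp {L : Submodule ℂ K} {U : H → H} {a b c d : H →ₗ[ℂ] H} (hU : Par S L U a b c d) :
    inner ℂ S.Om (U S.Om) = inner ℂ S.Om (a S.Om) + inner ℂ S.Om (b S.Om) := by
  have hc : S.X (c S.Om) = c S.Om := by rw [← Eo_X hU.hc, S.XOm]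
  have hd : S.X (d S.Om) = d S.Om := by rw [← Eo_X hU.hd, S.XOm]
  rw [hU.eq, inner_add_right, inner_add_right, inner_add_right, inner_Om_X, hd,
    inner_Om_Z_of hc, inner_Om_Z_of hd, add_zero, add_zero]

/-- multiplicativity of the vacuum expectation over orthogonal modes -/
lemma Par.factor {L L' : Submodule ℂ K} (hL : ∀ v ∈ L, ∀ w ∈ L', inner ℂ v w = 0)
    {U V : H → H} {a b c d a' b' c' d' : H →ₗ[ℂ] H}
    (hU : Par S L U a b c d) (hV : Par S L' V a' b' c' d') :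
    inner ℂ S.Om (U (V S.Om)) = inner ℂ S.Om (U S.Om) * inner ℂ S.Om (V S.Om) := by
  have h1 := (hU.mono (le_sup_left : L ≤ L ⊔ L')).comp (hV.mono (le_sup_right : L' ≤ L ⊔ L'))
  rw [h1.exp, hU.exp, hV.exp]
  simp only [LinearMap.add_apply, LinearMap.sub_apply, LinearMap.comp_apply, inner_add_right,
    inner_sub_right]
  rw [Eo.factor hL hU.ha hV.ha, Eo.factor hL hU.hb hV.hb, Eo.factor hL hU.hc hV.hc,
    Eo.factor hL hU.hd hV.hd, Eo.factor hL hU.ha hV.hb, Eo.factor hL hU.hb hV.ha,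
    Eo.factor hL hU.hc hV.hd, Eo.factor hL hU.hd hV.hc, Eo.odd hU.hc, Eo.odd hU.hd]
  ring

variable (S)

/-- `X (-1)^N`-even operators on the modes `L` -/
def IsPar (L : Submodule ℂ K) (U : H → H) : Prop := ∃ a b c d, Par S L U a b c d

variable {S}

lemma IsPar.comp {L : Submodule ℂ K} {U V : H → H} (hU : IsPar S L U) (hV : IsPar S L V) :
    IsPar S L fun x => U (V x) := by
  obtain ⟨a, b, c, d, hU⟩ := hU
  obtain ⟨a', b', c', d', hV⟩ := hV
  exact ⟨_, _, _, _, hU.comp hV⟩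

lemma IsPar.mul {L : Submodule ℂ K} {U V : H ≃ₗᵢ[ℂ] H} (hU : IsPar S L U) (hV : IsPar S L V) :
    IsPar S L (U * V : H ≃ₗᵢ[ℂ] H) := by
  change IsPar S L fun x => U (V x)
  exact IsPar.comp (U := U) (V := V) hU hV

lemma IsPar.mono {L L' : Submodule ℂ K} (h : L ≤ L') {U : H → H} (hU : IsPar S L U) :
    IsPar S L' U := by
  obtain ⟨a, b, c, d, hU⟩ := hU
  exact ⟨_, _, _, _, hU.mono h⟩

lemma Eo.one (L : Submodule ℂ K) : (LinearMap.id : H →ₗ[ℂ] H) ∈ Eo S L 1 := by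
  have h := Eo.mem (S := S) (L := L) L.zero_mem 1
  have e : (LinearMap.id : H →ₗ[ℂ] H) = (1 / 2 : ℂ) • (Wl S 0 + (1 : ℂ) • Wl S (-0)) := by
    ext x
    simp only [LinearMap.id_apply, LinearMap.smul_apply, LinearMap.add_apply, Wl_apply, neg_zero,
      S.W_zero_apply]
    module
  rw [e]
  exact Submodule.smul_mem _ _ h

/-- scalar and `X`-rotations are allowed -/
lemma IsPar.rotX (L : Submodule ℂ K) {U : H → H} (c1 c2 : ℂ) (h : ∀ x, U x = c1 • x + c2 • S.X x) :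
    IsPar S L U :=
  ⟨c1 • LinearMap.id, c2 • LinearMap.id, 0, 0, Submodule.smul_mem _ _ (Eo.one L),
    Submodule.smul_mem _ _ (Eo.one L), Submodule.zero_mem _, Submodule.zero_mem _, fun x => by
      rw [h]; simp⟩

lemma IsPar.id (L : Submodule ℂ K) : IsPar S L fun x => x :=
  IsPar.rotX L 1 0 fun x => by rw [one_smul, zero_smul, add_zero]

lemma IsPar.xr (L : Submodule ℂ K) (b : ℝ) : IsPar S L (S.xr b) :=
  IsPar.rotX L (Real.cos b) (-(Complex.I * (Real.sin b : ℂ))) fun x => by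
    rw [S.xr_apply, neg_smul, sub_eq_add_neg]

/-- pulses are allowed -/
lemma IsPar.pul {L : Submodule ℂ K} (t : ℝ) {v : K} (hv : v ∈ L) : IsPar S L (S.pul t v) := by
  refine ⟨(1 / 2 : ℂ) • (Wl S v + (1 : ℂ) • Wl S (-v)), 0,
    (-(1 / 2) * (Real.cos (2 * t) : ℂ)) • (Wl S v + (-1 : ℂ) • Wl S (-v)),
    (-(1 / 2) * (Complex.I * (Real.sin (2 * t) : ℂ))) • (Wl S v + (-1 : ℂ) • Wl S (-v)),
    Submodule.smul_mem _ _ (Eo.mem hv _), Submodule.zero_mem _,
    Submodule.smul_mem _ _ (Eo.mem hv _), Submodule.smul_mem _ _ (Eo.mem hv _), fun x => ?_⟩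
  rw [S.pul_apply]
  simp only [S.Zt_apply, S.xr_apply, LinearMap.smul_apply, LinearMap.add_apply, Wl_apply,
    LinearMap.zero_apply, map_zero, map_add, map_sub, map_smul, map_neg, S.XZ, S.WX, S.WZ]
  module

lemma IsPar.zr {L : Submodule ℂ K} {v : K} (hv : v ∈ L) : IsPar S L (S.zr v) := by
  rw [← S.pul_time_zero]; exact IsPar.pul 0 hv

lemma IsPar.factor {L L' : Submodule ℂ K} (hL : ∀ v ∈ L, ∀ w ∈ L', inner ℂ v w = 0)
    {U V : H → H} (hU : IsPar S L U) (hV : IsPar S L' V) :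
    inner ℂ S.Om (U (V S.Om)) = inner ℂ S.Om (U S.Om) * inner ℂ S.Om (V S.Om) := by
  obtain ⟨a, b, c, d, hU⟩ := hU
  obtain ⟨a', b', c', d', hV⟩ := hV
  exact hU.factor hL hV

/-- `U (n-1) o ... o U 0` -/
noncomputable def cmp (U : ℕ → H → H) : ℕ → H → H
  | 0, x => x
  | n + 1, x => U n (cmp U n x)

/-- the composition only touches the union of the modes -/
lemma isPar_cmp {L : ℕ → Submodule ℂ K} {U : ℕ → H → H} {n : ℕ}
    (hU : ∀ i < n, IsPar S (L i) (U i)) : ∀ m ≤ n, IsPar S (⨆ i ∈ Finset.range m, L i) (cmp U m) := by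
  intro m
  induction m with
  | zero => intro _; exact IsPar.id _
  | succ m ih =>
    intro hm
    change IsPar S _ (fun x => U m (cmp U m x))
    refine IsPar.comp (U := U m) (V := cmp U m) (IsPar.mono ?_ (hU m (by omega)))
      (IsPar.mono ?_ (ih (by omega)))
    · exact le_iSup₂_of_le m (Finset.self_mem_range_succ m) le_rfl
    · refine iSup₂_le fun i hi => ?_
      exact le_iSup₂_of_le i (Finset.mem_range.2 (by have := Finset.mem_range.1 hi; omega)) le_rfl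

/-- **Leakage formula** -/
theorem inner_cmp {L : ℕ → Submodule ℂ K} {U : ℕ → H → H} {n : ℕ}
    (hL : ∀ i j, i < j → j < n → ∀ v ∈ L i, ∀ w ∈ L j, inner ℂ v w = 0)
    (hU : ∀ i < n, IsPar S (L i) (U i)) : ∀ m ≤ n,
    inner ℂ S.Om (cmp U m S.Om) = ∏ i ∈ Finset.range m, inner ℂ S.Om (U i S.Om) := by
  intro m
  induction m with
  | zero =>
    intro _
    simp only [cmp, Finset.range_zero, Finset.prod_empty]
    rw [inner_self_eq_norm_sq_to_K, S.nOm]
    simp
  | succ m ih =>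
    intro hm
    rw [Finset.prod_range_succ, ← ih (by omega), mul_comm]
    change inner ℂ S.Om (U m (cmp U m S.Om)) = _
    refine IsPar.factor ?_ (hU m (by omega)) (isPar_cmp hU m (by omega))
    intro v hv w hw
    have h3 : (⨆ i ∈ Finset.range m, L i) ≤ (Submodule.span ℂ {v})ᗮ := by
      refine iSup₂_le fun i hi => ?_
      intro u hu
      rw [Submodule.mem_orthogonal_singleton_iff_inner_left]
      exact hL i m (Finset.mem_range.1 hi) (by omega) u hu v hv
    have h4 := h3 hw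
    rwa [Submodule.mem_orthogonal_singleton_iff_inner_right] at h4

/-- distance of a unit vector to the line of `e` -/
lemma one_sub_inner_le {E : Type*} [NormedAddCommGroup E] [InnerProductSpace ℂ E] {e x : E}
    (he : ‖e‖ = 1) (hx : ‖x‖ = 1) (c : ℂ) : 1 - ‖inner ℂ e x‖ ^ 2 ≤ ‖x - c • e‖ ^ 2 := by
  have h := @norm_sub_sq ℂ E _ _ _ x (c • e)
  rw [norm_smul, he, hx, inner_smul_right, mul_one] at h
  rw [h]
  have h1 : RCLike.re (c * inner ℂ x e) ≤ ‖c‖ * ‖inner ℂ e x‖ := by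
    refine (RCLike.re_le_norm _).trans ?_
    rw [norm_mul, norm_inner_symm]
  nlinarith [sq_nonneg (‖c‖ - ‖inner ℂ e x‖)]

lemma exists_phase {E : Type*} [NormedAddCommGroup E] [InnerProductSpace ℂ E] {e x : E}
    (he : ‖e‖ = 1) (hx : ‖x‖ = 1) : ∃ c : ℂ, ‖c‖ = 1 ∧
      ‖x - c • e‖ ^ 2 ≤ 2 * (1 - ‖inner ℂ e x‖ ^ 2) := by
  set z : ℂ := inner ℂ e x with hz
  have hz1 : ‖z‖ ≤ 1 := by
    have := norm_inner_le_norm (𝕜 := ℂ) e x
    rwa [he, hx, one_mul, ← hz] at this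
  have key : ∀ c : ℂ, ‖c‖ = 1 → RCLike.re (c * inner ℂ x e) = ‖z‖ →
      ‖x - c • e‖ ^ 2 ≤ 2 * (1 - ‖z‖ ^ 2) := by
    intro c hc h1
    have h := @norm_sub_sq ℂ E _ _ _ x (c • e)
    rw [norm_smul, he, hx, inner_smul_right, mul_one, hc, h1] at h
    rw [h]
    nlinarith [norm_nonneg z]
  by_cases h0 : z = 0
  · refine ⟨1, norm_one, key 1 norm_one ?_⟩
    rw [one_mul, ← inner_conj_symm, ← hz, h0]
    simp
  · have hn : (‖z‖ : ℂ) ≠ 0 := by
      exact_mod_cast norm_ne_zero_iff.2 h0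
    have hc : ‖z / (‖z‖ : ℂ)‖ = 1 := by
      rw [norm_div, Complex.norm_real, norm_norm]
      exact div_self (norm_ne_zero_iff.2 h0)
    refine ⟨z / (‖z‖ : ℂ), hc, key _ hc ?_⟩
    have e1 : (inner ℂ x e : ℂ) = (starRingEnd ℂ) z := by rw [hz, inner_conj_symm]
    rw [e1]
    have e2 : z / (‖z‖ : ℂ) * (starRingEnd ℂ) z = (‖z‖ : ℂ) := by
      rw [div_mul_eq_mul_div, Complex.mul_conj, Complex.normSq_eq_norm_sq]
      push_cast
      field_simp
    rw [e2]
    simp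

lemma one_sub_prod_le {n : ℕ} {r : ℕ → ℝ} (h0 : ∀ i < n, 0 ≤ r i) (h1 : ∀ i < n, r i ≤ 1) :
    1 - ∏ i ∈ Finset.range n, r i ≤ ∑ i ∈ Finset.range n, (1 - r i) := by
  have key : ∀ m ≤ n, 0 ≤ ∏ i ∈ Finset.range m, r i ∧ ∏ i ∈ Finset.range m, r i ≤ 1 ∧
      1 - ∏ i ∈ Finset.range m, r i ≤ ∑ i ∈ Finset.range m, (1 - r i) := by
    intro m
    induction m with
    | zero => intro _; simp
    | succ m ih =>
      intro hm
      obtain ⟨a, b, c⟩ := ih (by omega)
      have h2 := h0 m (by omega)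
      have h3 := h1 m (by omega)
      rw [Finset.prod_range_succ, Finset.sum_range_succ]
      refine ⟨mul_nonneg a h2, by nlinarith, ?_⟩
      nlinarith
  exact (key n le_rfl).2.2

omit [InnerProductSpace ℂ H] in
lemma norm_cmp {U : ℕ → H → H} {n : ℕ} (hn : ∀ i < n, ∀ x, ‖U i x‖ = ‖x‖) (x : H) :
    ∀ m ≤ n, ‖cmp U m x‖ = ‖x‖ := by
  intro m
  induction m with
  | zero => intro _; rfl
  | succ m ih =>
    intro hm
    change ‖U m (cmp U m x)‖ = ‖x‖
    rw [hn m (by omega), ih (by omega)]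

/-- **Leakage estimate** -/
theorem leakage {L : ℕ → Submodule ℂ K} {U : ℕ → H → H} {n : ℕ}
    (hL : ∀ i j, i < j → j < n → ∀ v ∈ L i, ∀ w ∈ L j, inner ℂ v w = 0)
    (hU : ∀ i < n, IsPar S (L i) (U i)) (hn : ∀ i < n, ∀ x, ‖U i x‖ = ‖x‖)
    (c : ℕ → ℂ) (m : ℕ) (hm : m ≤ n) : ∃ θ : ℂ, ‖θ‖ = 1 ∧ ‖cmp U m S.Om - θ • S.Om‖ ^ 2 ≤
      2 * ∑ i ∈ Finset.range m, ‖U i S.Om - c i • S.Om‖ ^ 2 := by
  have hnorm : ‖cmp U m S.Om‖ = 1 := by rw [norm_cmp hn S.Om m hm, S.nOm]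
  obtain ⟨θ, h1, h2⟩ := exists_phase S.nOm hnorm
  refine ⟨θ, h1, h2.trans ?_⟩
  rw [inner_cmp hL hU m hm, norm_prod, ← Finset.prod_pow]
  have h3 := one_sub_prod_le (n := m) (r := fun i => ‖inner ℂ S.Om (U i S.Om)‖ ^ 2)
    (fun i _ => by positivity) (fun i hi => by
      have := norm_inner_le_norm (𝕜 := ℂ) S.Om (U i S.Om)
      rw [hn i (by omega), S.nOm, one_mul] at this
      exact pow_le_one₀ (norm_nonneg _) this)
  have h4 : ∑ i ∈ Finset.range m, (1 - ‖inner ℂ S.Om (U i S.Om)‖ ^ 2)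
      ≤ ∑ i ∈ Finset.range m, ‖U i S.Om - c i • S.Om‖ ^ 2 := by
    refine Finset.sum_le_sum fun i hi => ?_
    exact one_sub_inner_le S.nOm
      (by rw [hn i (by have := Finset.mem_range.1 hi; omega), S.nOm]) (c i)
  linarith

/-- the `X = -1` component -/
lemma norm_sub_X_le (x : H) (θ : ℂ) : ‖x - S.X x‖ ≤ 2 * ‖x - θ • S.Om‖ := by
  have e : x - S.X x = (x - θ • S.Om) - S.X (x - θ • S.Om) := by
    rw [map_sub, map_smul, S.XOm]; abel
  rw [e]
  refine (norm_sub_le _ _).trans ?_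
  rw [LinearIsometryEquiv.norm_map, two_mul]

/-- small displacements of displaced vacua -/
lemma norm_W_zr_Om (v q : K) : ‖S.W q (S.zr v S.Om) - S.zr v S.Om‖ ^ 2
    ≤ ‖q‖ ^ 2 * (1 + 4 * ‖v‖ ^ 2) := by
  have h1 := @norm_sub_sq ℂ H _ _ _ (S.W q (S.zr v S.Om)) (S.zr v S.Om)
  rw [LinearIsometryEquiv.norm_map, LinearIsometryEquiv.norm_map, S.nOm] at h1
  set f : ℝ := th (-v) q with hf
  have h2 : S.zr (-v) (S.W q (S.zr v S.Om)) = S.W q (S.rot 0 f S.Om) := by
    rw [S.zr_W, S.zr_neg_zr]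
  have h3 : (inner ℂ (S.W q (S.zr v S.Om)) (S.zr v S.Om) : ℂ)
      = (Real.cos (2 * f) * Real.exp (-(‖q‖ ^ 2 / 2)) : ℝ) := by
    have e1 : (inner ℂ (S.W q (S.zr v S.Om)) (S.zr v S.Om) : ℂ)
        = inner ℂ (S.zr (-v) (S.W q (S.zr v S.Om))) S.Om := by
      rw [S.inner_zr, neg_neg]
    have e2 : (inner ℂ (S.W q S.Om) S.Om : ℂ) = (Real.exp (-(‖q‖ ^ 2 / 2)) : ℝ) := by
      rw [← inner_conj_symm, S.vac, Complex.ofReal_exp, ← Complex.exp_conj]
      congr 1
      rw [map_neg, Complex.conj_ofReal]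
      push_cast
      ring
    have e3 : (inner ℂ (S.Z (S.W q S.Om)) S.Om : ℂ) = 0 := by
      rw [← inner_conj_symm, inner_Om_Z_of, map_zero]
      rw [← S.WX, S.XOm]
    rw [e1, h2, S.rot_apply, S.Zt_zero, map_add, map_smul, map_smul, S.WZ, inner_add_left,
      inner_smul_left, inner_smul_left, e3, e2, mul_zero, add_zero, Complex.conj_ofReal]
    push_cast
    ring
  rw [h3] at h1
  have h4 : RCLike.re (((Real.cos (2 * f) * Real.exp (-(‖q‖ ^ 2 / 2)) : ℝ) : ℂ))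
      = Real.cos (2 * f) * Real.exp (-(‖q‖ ^ 2 / 2)) := by
    rw [RCLike.re_to_complex, Complex.ofReal_re]
  rw [h4] at h1
  have h5 : 1 - ‖q‖ ^ 2 / 2 ≤ Real.exp (-(‖q‖ ^ 2 / 2)) := by
    have := Real.add_one_le_exp (-(‖q‖ ^ 2 / 2)); linarith
  have h6 : 1 - (2 * f) ^ 2 / 2 ≤ Real.cos (2 * f) := Real.one_sub_sq_div_two_le_cos
  have h7 : Real.exp (-(‖q‖ ^ 2 / 2)) ≤ 1 := Real.exp_le_one_iff.2 (by
    have := sq_nonneg ‖q‖; linarith)
  have h8 : 0 < Real.exp (-(‖q‖ ^ 2 / 2)) := Real.exp_pos _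
  have h9 : Real.cos (2 * f) ≤ 1 := Real.cos_le_one _
  have h10 : f ^ 2 ≤ ‖v‖ ^ 2 * ‖q‖ ^ 2 := by
    have := abs_th_le (-v) q
    rw [norm_neg, ← hf] at this
    have h := sq_le_sq' (by linarith [neg_abs_le f, this]) ((le_abs_self f).trans this)
    nlinarith
  nlinarith [mul_nonneg h8.le (sub_nonneg.2 h9), mul_nonneg h8.le (sub_nonneg.2 h6),
    sq_nonneg f, mul_le_mul_of_nonneg_left h7 (sq_nonneg f)]

/-- small pulses -/
lemma norm_pul_sub_sq (t : ℝ) (q : K) (x : H) : ‖S.pul t q x - x‖ ^ 2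
    ≤ ‖S.W (-q) x - x‖ ^ 2 + ‖S.W q x - x‖ ^ 2 := by
  have e : S.pul t q x - x = S.Pp t (S.W (-q) x - x) + S.Pm t (S.W q x - x) := by
    have h := S.Pp_add_Pm t x
    rw [S.pul_eq_P, S.W_Pp, S.W_Pm]
    calc S.Pp t (S.W (-q) x) + S.Pm t (S.W q x) - x
        = S.Pp t (S.W (-q) x) + S.Pm t (S.W q x) - (S.Pp t x + S.Pm t x) := by rw [h]
      _ = S.Pp t (S.W (-q) x - x) + S.Pm t (S.W q x - x) := by
        simp only [Sys.Pp, Sys.Pm, map_sub]
        module
  have h1 := @norm_add_sq ℂ H _ _ _ (S.Pp t (S.W (-q) x - x)) (S.Pm t (S.W q x - x))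
  rw [S.inner_Pp_Pm, map_zero, mul_zero, add_zero] at h1
  rw [e, h1]
  have h2 := S.norm_Pp_le t (S.W (-q) x - x)
  have h3 := S.norm_Pm_le t (S.W q x - x)
  gcongr

/-- the effect of one batch on the reserve -/
lemma norm_kick_sub (t : ℝ) (v q : K) :
    ‖S.zr (-v) (S.pul t q (S.zr v S.Om)) - S.Om‖ ^ 2 ≤ 2 * (‖q‖ ^ 2 * (1 + 4 * ‖v‖ ^ 2)) := by
  have e : ‖S.zr (-v) (S.pul t q (S.zr v S.Om)) - S.Om‖
      = ‖S.pul t q (S.zr v S.Om) - S.zr v S.Om‖ := by
    rw [← LinearIsometryEquiv.norm_map (S.zr v)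
      (S.zr (-v) (S.pul t q (S.zr v S.Om)) - S.Om), map_sub, S.zr_zr_neg]
  rw [e]
  refine (norm_pul_sub_sq t q _).trans ?_
  have h1 := norm_W_zr_Om (S := S) v q
  have h2 := norm_W_zr_Om (S := S) v (-q)
  rw [norm_neg] at h2
  linarith

lemma isPar_kick {L : Submodule ℂ K} (t : ℝ) {v q : K} (hv : v ∈ L) (hq : q ∈ L) :
    IsPar S L fun x => S.zr (-v) (S.pul t q (S.zr v x)) :=
  IsPar.comp (IsPar.zr (L.neg_mem hv)) (IsPar.comp (IsPar.pul t hq) (IsPar.zr hv))

/-- **Leakage of the reserve**: after the batches `0, ..., m-1` the reserve vector is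
`θ • Om` up to the root of `4 ∑ ‖q i‖² (1 + 4 ‖v i‖²)`. -/
theorem leak_kicks {n : ℕ} (t : ℕ → ℝ) (v q : ℕ → K) (L : ℕ → Submodule ℂ K)
    (hv : ∀ i < n, v i ∈ L i) (hq : ∀ i < n, q i ∈ L i)
    (hL : ∀ i j, i < j → j < n → ∀ v ∈ L i, ∀ w ∈ L j, inner ℂ v w = 0) (m : ℕ) (hm : m ≤ n) :
    ∃ θ : ℂ, ‖θ‖ = 1 ∧
      ‖cmp (fun i x => S.zr (-v i) (S.pul (t i) (q i) (S.zr (v i) x))) m S.Om - θ • S.Om‖ ^ 2 ≤
      4 * ∑ i ∈ Finset.range m, ‖q i‖ ^ 2 * (1 + 4 * ‖v i‖ ^ 2) := by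
  obtain ⟨θ, h1, h2⟩ := leakage (S := S) (L := L) (n := n)
    (U := fun i x => S.zr (-v i) (S.pul (t i) (q i) (S.zr (v i) x))) hL
    (fun i hi => isPar_kick (t i) (hv i hi) (hq i hi))
    (fun i _ x => by
      rw [LinearIsometryEquiv.norm_map, LinearIsometryEquiv.norm_map, LinearIsometryEquiv.norm_map])
    (fun _ => 1) m hm
  refine ⟨θ, h1, h2.trans ?_⟩
  have h3 : ∑ i ∈ Finset.range m, ‖S.zr (-v i) (S.pul (t i) (q i) (S.zr (v i) S.Om))
      - (1 : ℂ) • S.Om‖ ^ 2 ≤ ∑ i ∈ Finset.range m, 2 * (‖q i‖ ^ 2 * (1 + 4 * ‖v i‖ ^ 2)) := by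
    refine Finset.sum_le_sum fun i _ => ?_
    rw [one_smul]
    exact norm_kick_sub (t i) (v i) (q i)
  rw [← Finset.mul_sum] at h3
  linarith

/-! ### label projections: vectors of the reserve -/

/-- the span of the vectors `σ W(v) Om`, `σ` in the spin algebra -/
def SW (S : Sys H K) : Submodule ℂ H :=
  Submodule.span ℂ {x | ∃ v : K, x = S.W v S.Om ∨ x = S.Z (S.W v S.Om)}

lemma SW.W (v : K) : S.W v S.Om ∈ SW S := Submodule.subset_span ⟨v, Or.inl rfl⟩

lemma SW.ZW (v : K) : S.Z (S.W v S.Om) ∈ SW S := Submodule.subset_span ⟨v, Or.inr rfl⟩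

lemma SW.Om : S.Om ∈ SW S := by
  have := SW.W (S := S) 0
  rwa [S.W_zero_apply] at this

lemma SW.mapW {x : H} (hx : x ∈ SW S) (a : K) : S.W a x ∈ SW S := by
  induction hx using Submodule.span_induction with
  | mem x hx =>
    obtain ⟨v, rfl | rfl⟩ := hx
    · rw [S.WW]; exact Submodule.smul_mem _ _ (SW.W _)
    · rw [S.WZ, S.WW, map_smul]; exact Submodule.smul_mem _ _ (SW.ZW _)
  | zero => rw [map_zero]; exact Submodule.zero_mem _
  | add x y _ _ hx hy => rw [map_add]; exact Submodule.add_mem _ hx hy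
  | smul c x _ hx => rw [map_smul]; exact Submodule.smul_mem _ _ hx

lemma SW.mapX {x : H} (hx : x ∈ SW S) : S.X x ∈ SW S := by
  induction hx using Submodule.span_induction with
  | mem x hx =>
    obtain ⟨v, rfl | rfl⟩ := hx
    · rw [← S.WX, S.XOm]; exact SW.W _
    · rw [S.XZ, ← S.WX, S.XOm]; exact Submodule.neg_mem _ (SW.ZW _)
  | zero => rw [map_zero]; exact Submodule.zero_mem _
  | add x y _ _ hx hy => rw [map_add]; exact Submodule.add_mem _ hx hy
  | smul c x _ hx => rw [map_smul]; exact Submodule.smul_mem _ _ hx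

lemma SW.mapZ {x : H} (hx : x ∈ SW S) : S.Z x ∈ SW S := by
  induction hx using Submodule.span_induction with
  | mem x hx =>
    obtain ⟨v, rfl | rfl⟩ := hx
    · exact SW.ZW _
    · rw [S.ZZ]; exact SW.W _
  | zero => rw [map_zero]; exact Submodule.zero_mem _
  | add x y _ _ hx hy => rw [map_add]; exact Submodule.add_mem _ hx hy
  | smul c x _ hx => rw [map_smul]; exact Submodule.smul_mem _ _ hx

lemma SW.mapxr {x : H} (hx : x ∈ SW S) (b : ℝ) : S.xr b x ∈ SW S := by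
  rw [S.xr_apply]
  exact Submodule.sub_mem _ (Submodule.smul_mem _ _ hx) (Submodule.smul_mem _ _ (SW.mapX hx))

lemma SW.mapZt {x : H} (hx : x ∈ SW S) (t : ℝ) : S.Zt t x ∈ SW S := by
  rw [S.Zt_apply]; exact SW.mapxr (SW.mapZ hx) _

lemma SW.mappul {x : H} (hx : x ∈ SW S) (t : ℝ) (v : K) : S.pul t v x ∈ SW S := by
  rw [S.pul_apply]
  exact Submodule.add_mem _ (Submodule.smul_mem _ _ (Submodule.add_mem _ (SW.mapW hx _)
    (SW.mapW hx _))) (Submodule.smul_mem _ _ (Submodule.sub_mem _ (SW.mapW (SW.mapZt hx t) _)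
    (SW.mapW (SW.mapZt hx t) _)))

lemma SW.mapzr {x : H} (hx : x ∈ SW S) (v : K) : S.zr v x ∈ SW S := by
  rw [← S.pul_time_zero]; exact SW.mappul hx 0 v

lemma SW.cmp {n : ℕ} {U : ℕ → H → H} (hU : ∀ i < n, ∀ x ∈ SW S, U i x ∈ SW S) {x : H}
    (hx : x ∈ SW S) : ∀ m ≤ n, cmp U m x ∈ SW S := by
  intro m
  induction m with
  | zero => intro _; exact hx
  | succ m ih => intro hm; exact hU m (by omega) _ (ih (by omega))

/-- a projection `E` commuting with the spin and the Weyl operators, with weight `ρ` -/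
lemma inner_E {E : H →ₗ[ℂ] H} {ρ : ℝ} (hX : ∀ x, E (S.X x) = S.X (E x))
    (hZ : ∀ x, E (S.Z x) = S.Z (E x)) (hW : ∀ v x, E (S.W v x) = S.W v (E x))
    (hvac : ∀ v, inner ℂ S.Om (E (S.W v S.Om)) = (ρ : ℂ) * inner ℂ S.Om (S.W v S.Om))
    {x y : H} (hx : x ∈ SW S) (hy : y ∈ SW S) : inner ℂ x (E y) = (ρ : ℂ) * inner ℂ x y := by
  have hXEOm : ∀ w, S.X (E (S.W w S.Om)) = E (S.W w S.Om) := by
    intro w; rw [← hX, ← S.WX, S.XOm]
  have hEW : ∀ v w, inner ℂ (S.W v S.Om) (E (S.W w S.Om))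
      = (ρ : ℂ) * inner ℂ (S.W v S.Om) (S.W w S.Om) := by
    intro v w
    rw [S.inner_W, S.inner_W, ← hW, S.WW, map_smul, inner_smul_right, inner_smul_right, hvac]
    ring
  have hZ0 : ∀ v, inner ℂ S.Om (S.Z (E (S.W v S.Om))) = 0 := fun v => inner_Om_Z_of (hXEOm v)
  have hZ1 : ∀ v, inner ℂ S.Om (S.Z (S.W v S.Om)) = 0 := fun v =>
    inner_Om_Z_of (by rw [← S.WX, S.XOm])
  have hEZW : ∀ v w, inner ℂ (S.W v S.Om) (S.Z (E (S.W w S.Om))) = 0 := by
    intro v w
    rw [S.inner_W, S.WZ, ← hW, S.WW, map_smul, map_smul, inner_smul_right, hZ0, mul_zero]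
  have hZW : ∀ v w, inner ℂ (S.W v S.Om) (S.Z (S.W w S.Om)) = 0 := by
    intro v w
    rw [S.inner_W, S.WZ, S.WW, map_smul, inner_smul_right, hZ1, mul_zero]
  induction hx using Submodule.span_induction with
  | mem x hx =>
    induction hy using Submodule.span_induction with
    | mem y hy =>
      obtain ⟨v, rfl | rfl⟩ := hx <;> obtain ⟨w, rfl | rfl⟩ := hy
      · exact hEW v w
      · rw [hZ, hEZW, hZW, mul_zero]
      · rw [S.inner_Z, S.inner_Z, hEZW, hZW, mul_zero]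
      · rw [hZ, S.inner_Z, S.inner_Z, S.ZZ, S.ZZ, hEW]
    | zero => simp
    | add y z _ _ hy hz => rw [map_add, inner_add_right, inner_add_right, hy, hz]; ring
    | smul c y _ hy => rw [map_smul, inner_smul_right, inner_smul_right, hy]; ring
  | zero => simp
  | add x z _ _ hx hz => rw [inner_add_left, inner_add_left, hx, hz]; ring
  | smul c x _ hx => rw [inner_smul_left, inner_smul_left, hx]; ring

/-- norms on the reserve -/
lemma norm_E {E : H →ₗ[ℂ] H} {ρ : ℝ} (hX : ∀ x, E (S.X x) = S.X (E x))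
    (hZ : ∀ x, E (S.Z x) = S.Z (E x)) (hW : ∀ v x, E (S.W v x) = S.W v (E x))
    (hE : ∀ x, E (E x) = E x) (hadj : ∀ x y, inner ℂ (E x) y = inner ℂ x (E y))
    (hvac : ∀ v, inner ℂ S.Om (E (S.W v S.Om)) = (ρ : ℂ) * inner ℂ S.Om (S.W v S.Om))
    {x : H} (hx : x ∈ SW S) : ‖E x‖ ^ 2 = ρ * ‖x‖ ^ 2 := by
  have h := inner_E hX hZ hW hvac hx hx
  have h1 : (inner ℂ (E x) (E x) : ℂ) = (ρ : ℂ) * inner ℂ x x := by
    rw [hadj, hE, h]
  rw [inner_self_eq_norm_sq_to_K, inner_self_eq_norm_sq_to_K] at h1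
  have h2 : ((‖E x‖ ^ 2 : ℝ) : ℂ) = ((ρ * ‖x‖ ^ 2 : ℝ) : ℂ) := by
    push_cast
    exact h1
  exact Complex.ofReal_injective h2

end Vale.Agent.P367.B.LKS
end

section

/-! P367, block B: uniform smallness of small displacements over label partitions (US). -/

namespace Vale.Agent.P367.A

open Complex Filter Topology MeasureTheory

namespace LSys

variable {H K : Type*} [NormedAddCommGroup H] [InnerProductSpace ℂ H]
  [NormedAddCommGroup K] [InnerProductSpace ℂ K] (L : LSys H K)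

/-- displacement differences on a label block, uniformly small relative to `sqrt (mu b)` -/
def UsGood (y : H) : Prop := ∃ C : ℝ, 0 ≤ C ∧ ∀ b : Set ℝ, MeasurableSet b → ∀ w : K,
  ‖L.E b (L.W w y) - L.E b y‖ ≤ C * ‖w‖ * Real.sqrt (L.mu.real b)

lemma norm_E_SW {b : Set ℝ} (hb : MeasurableSet b) {x : H} (hx : x ∈ B.LKS.SW L.toSys) :
    ‖L.E b x‖ ^ 2 = L.mu.real b * ‖x‖ ^ 2 := by
  refine B.LKS.norm_E (S := L.toSys) (E := (L.E b).toLinearMap) ?_ ?_ ?_ ?_ ?_ ?_ hx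
  · exact fun x => L.E_X b x
  · exact fun x => L.E_Z b x
  · exact fun v x => L.E_W b v x
  · exact fun x => L.E_E hb x
  · exact fun x y => L.E_sa hb x y
  · intro v
    change inner ℂ L.Om (L.E b (L.W v L.Om)) = _
    rw [L.vacE hb, L.vac]

lemma us_norm_W_Om_sub (w : K) : ‖L.W w L.Om - L.Om‖ ≤ ‖w‖ := by
  have h := B.LKS.norm_W_zr_Om (S := L.toSys) 0 w
  rw [L.zr_zero, norm_zero] at h
  refine (sq_le_sq₀ (norm_nonneg _) (norm_nonneg _)).1 ?_
  linarith

lemma us_norm_W_W_Om_sub (w a : K) : ‖L.W w (L.W a L.Om) - L.W a L.Om‖ ≤ (2 * ‖a‖ + 1) * ‖w‖ := by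
  rw [L.Wx w a, ← map_smul, ← map_sub, LinearIsometryEquiv.norm_map]
  set p : ℂ := Complex.exp (-(2 * Complex.I * (th w a : ℂ))) with hp
  have e : p • L.W w L.Om - L.Om = p • (L.W w L.Om - L.Om) + (p - 1) • L.Om := by
    rw [smul_sub, sub_smul, one_smul]; abel
  have hp1 : ‖p‖ = 1 := by
    rw [hp, show -(2 * Complex.I * (th w a : ℂ)) = ((-(2 * th w a) : ℝ) : ℂ) * Complex.I by
      push_cast; ring, Complex.norm_exp_ofReal_mul_I]
  have hp2 : ‖p - 1‖ ≤ 2 * (‖w‖ * ‖a‖) := by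
    have h1 := Real.norm_exp_I_mul_ofReal_sub_one_le (x := -(2 * th w a))
    rw [show Complex.I * ((-(2 * th w a) : ℝ) : ℂ) = -(2 * Complex.I * (th w a : ℂ)) by
      push_cast; ring, ← hp, Real.norm_eq_abs, abs_neg, abs_mul, abs_two] at h1
    have h2 := abs_th_le w a
    linarith
  rw [e]
  refine (norm_add_le _ _).trans ?_
  rw [norm_smul, norm_smul, hp1, L.nOm, one_mul, mul_one]
  have := L.us_norm_W_Om_sub w
  nlinarith

lemma UsGood.gen {T : H →L[ℂ] H} {a : K} (h1 : ∀ b y, L.W b (T y) = T (L.W b y))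
    (h2 : ∀ f, Bm f → ∀ y, L.lab f (T y) = T (L.lab f y)) : L.UsGood (T (L.W a L.Om)) := by
  refine ⟨‖T‖ * (2 * ‖a‖ + 1), by positivity, fun b hb w => ?_⟩
  have e : L.E b (L.W w (T (L.W a L.Om))) - L.E b (T (L.W a L.Om))
      = T (L.E b (L.W w (L.W a L.Om) - L.W a L.Om)) := by
    rw [h1]
    unfold LSys.E
    rw [h2 _ (Bm.ind hb 1), h2 _ (Bm.ind hb 1), map_sub, map_sub]
  rw [e]
  refine (T.le_opNorm _).trans ?_
  have hm : L.W w (L.W a L.Om) - L.W a L.Om ∈ B.LKS.SW L.toSys :=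
    Submodule.sub_mem _ (B.LKS.SW.mapW (B.LKS.SW.W a) w) (B.LKS.SW.W a)
  have h3 := L.norm_E_SW hb hm
  have h4 : ‖L.E b (L.W w (L.W a L.Om) - L.W a L.Om)‖
      = Real.sqrt (L.mu.real b) * ‖L.W w (L.W a L.Om) - L.W a L.Om‖ := by
    rw [← Real.sqrt_sq (norm_nonneg (L.E b (L.W w (L.W a L.Om) - L.W a L.Om))), h3,
      Real.sqrt_mul measureReal_nonneg, Real.sqrt_sq (norm_nonneg _)]
  rw [h4]
  have h5 := L.us_norm_W_W_Om_sub w a
  have h6 := Real.sqrt_nonneg (L.mu.real b)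
  calc ‖T‖ * (Real.sqrt (L.mu.real b) * ‖L.W w (L.W a L.Om) - L.W a L.Om‖)
      ≤ ‖T‖ * (Real.sqrt (L.mu.real b) * ((2 * ‖a‖ + 1) * ‖w‖)) := by gcongr
    _ = _ := by ring

lemma UsGood.span {y : H} (hy : y ∈ Submodule.span ℂ {x : H | ∃ (T : H →L[ℂ] H) (a : K),
      (∀ b y, L.W b (T y) = T (L.W b y)) ∧ (∀ f, Bm f → ∀ y, L.lab f (T y) = T (L.lab f y)) ∧
      x = T (L.W a L.Om)}) : L.UsGood y := by
  induction hy using Submodule.span_induction with
  | mem x hx =>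
    obtain ⟨T, a, h1, h2, rfl⟩ := hx
    exact UsGood.gen L h1 h2
  | zero => exact ⟨0, le_rfl, fun b _ w => by simp⟩
  | add x y _ _ hx hy =>
    obtain ⟨C, hC, h1⟩ := hx
    obtain ⟨D, hD, h2⟩ := hy
    refine ⟨C + D, by positivity, fun b hb w => ?_⟩
    have e : L.E b (L.W w (x + y)) - L.E b (x + y)
        = (L.E b (L.W w x) - L.E b x) + (L.E b (L.W w y) - L.E b y) := by
      simp only [map_add]; abel
    rw [e]
    refine (norm_add_le _ _).trans ?_
    have := h1 b hb w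
    have := h2 b hb w
    linarith
  | smul c x _ hx =>
    obtain ⟨C, hC, h1⟩ := hx
    refine ⟨‖c‖ * C, by positivity, fun b hb w => ?_⟩
    have e : L.E b (L.W w (c • x)) - L.E b (c • x) = c • (L.E b (L.W w x) - L.E b x) := by
      simp only [map_smul, smul_sub]
    rw [e, norm_smul]
    have := h1 b hb w
    calc ‖c‖ * ‖L.E b (L.W w x) - L.E b x‖ ≤ ‖c‖ * (C * ‖w‖ * Real.sqrt (L.mu.real b)) := by gcongr
      _ = _ := by ring

/-- Bessel inequality for disjoint label blocks -/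
lemma us_bessel {n : ℕ} (b : Fin n → Set ℝ) (hb : ∀ i, MeasurableSet (b i))
    (hd : Pairwise fun i j => Disjoint (b i) (b j)) (z : H) : ∑ i, ‖L.E (b i) z‖ ^ 2 ≤ ‖z‖ ^ 2 := by
  set P := ∑ i, L.E (b i) z with hP
  have h1 : ∀ i, (inner ℂ (L.E (b i) z) z : ℂ) = ((‖L.E (b i) z‖ ^ 2 : ℝ) : ℂ) := by
    intro i
    have : (inner ℂ (L.E (b i) z) z : ℂ) = inner ℂ (L.E (b i) z) (L.E (b i) z) := by
      rw [← L.E_sa (hb i), L.E_E (hb i)]
    rw [this, inner_self_eq_norm_sq_to_K]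
    push_cast
    rfl
  have h2 : (inner ℂ P z : ℂ) = ((∑ i, ‖L.E (b i) z‖ ^ 2 : ℝ) : ℂ) := by
    rw [hP, sum_inner, Finset.sum_congr rfl fun i _ => h1 i]
    push_cast
    rfl
  have h3 : (inner ℂ P P : ℂ) = ((∑ i, ‖L.E (b i) z‖ ^ 2 : ℝ) : ℂ) := by
    conv_lhs => rw [hP, sum_inner]
    have : ∀ i ∈ Finset.univ, (inner ℂ (L.E (b i) z) (∑ j, L.E (b j) z) : ℂ)
        = ((‖L.E (b i) z‖ ^ 2 : ℝ) : ℂ) := by
      intro i _
      rw [inner_sum, Finset.sum_eq_single i]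
      · rw [inner_self_eq_norm_sq_to_K]
        push_cast
        rfl
      · intro j _ hj
        exact L.inner_E_dis (hb i) (hb j) (hd hj.symm) z z
      · intro h; exact absurd (Finset.mem_univ i) h
    rw [Finset.sum_congr rfl this]
    push_cast
    rfl
  set s : ℝ := ∑ i, ‖L.E (b i) z‖ ^ 2 with hs
  have hs0 : 0 ≤ s := Finset.sum_nonneg fun i _ => by positivity
  have h4 : ‖P‖ ^ 2 = s := by
    rw [inner_self_eq_norm_sq_to_K] at h3
    apply Complex.ofReal_injective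
    rw [← h3, Complex.ofReal_pow]
    rfl
  have h5 : s ≤ ‖P‖ * ‖z‖ := by
    have := norm_inner_le_norm (𝕜 := ℂ) P z
    rw [h2, Complex.norm_real, Real.norm_eq_abs, abs_of_nonneg hs0] at this
    exact this
  nlinarith [norm_nonneg P, norm_nonneg z, sq_nonneg (‖P‖ - ‖z‖)]

/-- **(US)** -/
theorem us (x : H) {κ : ℝ} (hκ : 0 < κ) : ∃ r > 0, ∀ (n : ℕ) (b : Fin n → Set ℝ),
    (∀ i, MeasurableSet (b i)) → (Pairwise fun i j => Disjoint (b i) (b j)) →
    ∃ k : Fin n → ℝ, (∀ i, 0 ≤ k i) ∧ ∑ i, k i ^ 2 ≤ κ ^ 2 ∧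
      ∀ i (w : K), ‖w‖ < r → ‖L.E (b i) (L.W w x) - L.E (b i) x‖ ≤ k i := by
  have hx : x ∈ (Submodule.span ℂ {x : H | ∃ (T : H →L[ℂ] H) (a : K),
      (∀ b y, L.W b (T y) = T (L.W b y)) ∧ (∀ f, Bm f → ∀ y, L.lab f (T y) = T (L.lab f y)) ∧
      x = T (L.W a L.Om)}).topologicalClosure := by rw [L.cyc]; trivial
  obtain ⟨y, hy, hxy⟩ := Metric.mem_closure_iff.1 hx (κ / 4) (by positivity)
  obtain ⟨C, hC, hCy⟩ := UsGood.span L hy
  rw [dist_eq_norm] at hxy
  refine ⟨κ / (2 * (C + 1)), by positivity, fun n b hb hd => ?_⟩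
  set r := κ / (2 * (C + 1)) with hr
  have hr0 : 0 < r := by positivity
  have hCr : C * r ≤ κ / 2 := by
    rw [hr, mul_div_assoc', div_le_div_iff₀ (by positivity) (by positivity)]
    nlinarith
  refine ⟨fun i => 2 * ‖L.E (b i) (x - y)‖ + C * r * Real.sqrt (L.mu.real (b i)),
    fun i => by positivity, ?_, fun i w hw => ?_⟩
  · have h1 := L.us_bessel b hb hd (x - y)
    have h2 := L.us_bessel b hb hd L.Om
    rw [L.nOm] at h2
    have h3 : ∀ i, (2 * ‖L.E (b i) (x - y)‖ + C * r * Real.sqrt (L.mu.real (b i))) ^ 2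
        ≤ 8 * ‖L.E (b i) (x - y)‖ ^ 2 + 2 * (C * r) ^ 2 * ‖L.E (b i) L.Om‖ ^ 2 := by
      intro i
      have h4 : Real.sqrt (L.mu.real (b i)) ^ 2 = ‖L.E (b i) L.Om‖ ^ 2 := by
        rw [Real.sq_sqrt measureReal_nonneg, L.norm_E_Om (hb i)]
      nlinarith [sq_nonneg (2 * ‖L.E (b i) (x - y)‖ - C * r * Real.sqrt (L.mu.real (b i)))]
    calc ∑ i, (2 * ‖L.E (b i) (x - y)‖ + C * r * Real.sqrt (L.mu.real (b i))) ^ 2
        ≤ ∑ i, (8 * ‖L.E (b i) (x - y)‖ ^ 2 + 2 * (C * r) ^ 2 * ‖L.E (b i) L.Om‖ ^ 2) :=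
          Finset.sum_le_sum fun i _ => h3 i
      _ = 8 * ∑ i, ‖L.E (b i) (x - y)‖ ^ 2 + 2 * (C * r) ^ 2 * ∑ i, ‖L.E (b i) L.Om‖ ^ 2 := by
          rw [Finset.sum_add_distrib, Finset.mul_sum, Finset.mul_sum]
      _ ≤ 8 * (κ / 4) ^ 2 + 2 * (κ / 2) ^ 2 * 1 := by
          have h5 : ‖x - y‖ ^ 2 ≤ (κ / 4) ^ 2 := by gcongr
          have h6 : (C * r) ^ 2 ≤ (κ / 2) ^ 2 := by gcongr
          have h7 : 0 ≤ ∑ i, ‖L.E (b i) L.Om‖ ^ 2 := Finset.sum_nonneg fun i _ => by positivity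
          have h8 : 2 * (C * r) ^ 2 * ∑ i, ‖L.E (b i) L.Om‖ ^ 2 ≤ 2 * (κ / 2) ^ 2 * 1 := by
            refine mul_le_mul (by linarith) (by linarith) h7 (by positivity)
          linarith
      _ = κ ^ 2 := by ring
  · have e : L.E (b i) (L.W w x) - L.E (b i) x
        = (L.W w (L.E (b i) (x - y)) - L.E (b i) (x - y))
          + (L.E (b i) (L.W w y) - L.E (b i) y) := by
      rw [← L.E_W, map_sub, map_sub, map_sub]; abel
    rw [e]
    refine (norm_add_le _ _).trans ?_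
    have h1 := norm_sub_le (L.W w (L.E (b i) (x - y))) (L.E (b i) (x - y))
    rw [LinearIsometryEquiv.norm_map] at h1
    have h2 := hCy (b i) (hb i) w
    have h3 : C * ‖w‖ * Real.sqrt (L.mu.real (b i)) ≤ C * r * Real.sqrt (L.mu.real (b i)) := by
      gcongr
    change _ ≤ 2 * ‖L.E (b i) (x - y)‖ + C * r * Real.sqrt (L.mu.real (b i))
    linarith

/-- small displacements -/
theorem small_W (x : H) {κ : ℝ} (hκ : 0 < κ) : ∃ r > 0, ∀ w : K, ‖w‖ < r → ‖L.W w x - x‖ ≤ κ := by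
  obtain ⟨r, hr, h⟩ := L.us x hκ
  refine ⟨r, hr, fun w hw => ?_⟩
  obtain ⟨k, hk0, hk, h1⟩ := h 1 (fun _ => Set.univ) (fun _ => MeasurableSet.univ)
    (fun i j hij => absurd (Subsingleton.elim i j) hij)
  have h2 := h1 0 w hw
  rw [L.E_univ, L.E_univ] at h2
  refine h2.trans ?_
  rw [Fin.sum_univ_one] at hk
  exact (sq_le_sq₀ (hk0 0) hκ.le).1 hk

/-- strong continuity of the Weyl operators at the origin -/
theorem tendsto_W0 (x : H) : Tendsto (fun a => L.W a x) (𝓝 0) (𝓝 x) := by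
  rw [Metric.tendsto_nhds_nhds]
  intro ε hε
  obtain ⟨r, hr, h⟩ := L.small_W x (half_pos hε)
  refine ⟨r, hr, fun {w} hw => ?_⟩
  rw [dist_zero_right] at hw
  rw [dist_eq_norm]
  exact (h w hw).trans_lt (half_lt_self hε)

end LSys

end Vale.Agent.P367.A
end

section

/-! P367: the limit-free form of `Q_p → P_*`. -/

open Filter Topology

namespace Vale.Agent.P367

open Gap

theorem limit_free (h1 : Tendsto groundValue atTop (𝓝 Pstar))
    (h2 : ∀ (p : ℕ) (γ β : Fin p → ℝ),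
      Tendsto (fun n : ℕ => qaoaValue n p γ β) atTop (𝓝 (vLim p γ β)))
    (h4 : Tendsto Qsup atTop (𝓝 Pstar)) (ε : ℝ) (hε : 0 < ε) :
    ∃ (p : ℕ) (γ β : Fin p → ℝ), ∀ᶠ n in atTop, groundValue n - ε ≤ qaoaValue n p γ β := by
  obtain ⟨p, hp⟩ := (h4.eventually (lt_mem_nhds (show Pstar - ε / 4 < Pstar by linarith))).exists
  obtain ⟨a, ha⟩ := exists_lt_of_lt_ciSup (show Pstar - ε / 4 < Qsup p from hp)
  refine ⟨p, a.1, a.2, ?_⟩
  have h5 := h1.eventually (gt_mem_nhds (show Pstar < Pstar + ε / 4 by linarith))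
  have h6 := (h2 p a.1 a.2).eventually (lt_mem_nhds (show vLim p a.1 a.2 - ε / 4 <
    vLim p a.1 a.2 by linarith))
  filter_upwards [h5, h6] with n h7 h8
  linarith

end Vale.Agent.P367
end

theorem P367.eqforce_Vale_Agent_P367_NI_Weyl_eaux : True := by first | exact (fun _ => trivial) @Vale.Agent.P367.NI.Weyl.eaux.eq_1 | exact (fun _ => trivial) @Vale.Agent.P367.NI.Weyl.eaux.eq_1.{0} | exact (fun _ => trivial) @Vale.Agent.P367.NI.Weyl.eaux.eq_1.{0,0} | exact (fun _ => trivial) @Vale.Agent.P367.NI.Weyl.eaux.eq_1.{0,0,0}
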