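import Mathlib
import Vale.Agent.P367.Gap.Defs
import Vale.Agent.P146.Bdl.B20
import Vale.Agent.P146.Bdl.B5
import Vale.Agent.P146.Bd3.B1
import Vale.Agent.P146.Bdl.B13
import Vale.Agent.P146.Bdl.B21
import Vale.Agent.P146.Bdl.B34
import Vale.Agent.P146.Bdl.B10
import Vale.Agent.P146.Bdl.B30

set_option linter.all false

section

namespace Vale.Agent.P367.Lim

open Finset ComplexConjugate Vale.Agent.P367.Gap

/-- one-qubit matrix element of `exp(-iβX)` -/
noncomputable def mix (β : ℝ) (b b' : Bool) : ℂ :=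
  if b = b' then (Real.cos β : ℂ) else -(Complex.I * Real.sin β)

lemma mix_unitary (β : ℝ) (a b : Bool) :
    ∑ z, mix β z a * conj (mix β z b) = if a = b then 1 else 0 := by
  have h : (Real.cos β : ℂ) * Real.cos β + (Real.sin β : ℂ) * Real.sin β = 1 := by
    have := Real.cos_sq_add_sin_sq β
    rw [← Complex.ofReal_mul, ← Complex.ofReal_mul, ← Complex.ofReal_add,
      ← pow_two, ← pow_two, this, Complex.ofReal_one]
  have hI := Complex.I_mul_I
  cases a <;> cases b <;>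
    simp only [mix, Fintype.univ_bool, mem_singleton, sum_insert, sum_singleton, if_true,
      Bool.false_eq_true, Bool.true_eq_false, if_false, not_false_eq_true,
      map_neg, map_mul, Complex.conj_I, Complex.conj_ofReal]
  · linear_combination h - (Real.sin β : ℂ) ^ 2 * hI
  · ring
  · ring
  · linear_combination h - (Real.sin β : ℂ) ^ 2 * hI

/-- one-sided single-site path -/
abbrev Pth (p : ℕ) : Type := Fin (p + 1) → Bool

/-- contour path of a single site: ket path and bra path -/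
abbrev CP (p : ℕ) : Type := Pth p × Pth p

/-- one-sided path weight -/
noncomputable def kap (β : ℕ → ℝ) : (p : ℕ) → Pth p → ℂ
  | 0, _ => (((Real.sqrt 2)⁻¹ : ℝ) : ℂ)
  | p + 1, a => mix (β p) (a (Fin.last (p + 1))) (a (Fin.last p).castSucc) * kap β p (Fin.init a)

/-- closed contour weight -/
noncomputable def wgt (β : ℕ → ℝ) (p : ℕ) (x : CP p) : ℂ :=
  kap β p x.1 * conj (kap β p x.2) * (if x.1 (Fin.last p) = x.2 (Fin.last p) then 1 else 0)

/-- truncated path -/
def ini {p : ℕ} (x : CP (p + 1)) : CP p := (Fin.init x.1, Fin.init x.2)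

/-- interaction through the phases of layers `< p` -/
noncomputable def qq (γ : ℕ → ℝ) (p : ℕ) (x y : CP p) : ℝ :=
  ∑ k : Fin p, γ k * (spin (x.1 k.castSucc) * spin (y.1 k.castSucc)
    - spin (x.2 k.castSucc) * spin (y.2 k.castSucc))

/-- interaction including the phase at the last time -/
noncomputable def qh (γ : ℕ → ℝ) (p : ℕ) (x y : CP p) : ℝ :=
  ∑ k : Fin (p + 1), γ k * (spin (x.1 k) * spin (y.1 k) - spin (x.2 k) * spin (y.2 k))

lemma qq_succ (γ : ℕ → ℝ) (p : ℕ) (x y : CP (p + 1)) :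
    qq γ (p + 1) x y = qh γ p (ini x) (ini y) := rfl

lemma qh_eq (γ : ℕ → ℝ) (p : ℕ) (x y : CP p) :
    qh γ p x y = qq γ p x y + γ p * (spin (x.1 (Fin.last p)) * spin (y.1 (Fin.last p))
      - spin (x.2 (Fin.last p)) * spin (y.2 (Fin.last p))) := by
  unfold qh qq
  rw [Fin.sum_univ_castSucc]
  rfl

/-- last spin of the ket path -/
noncomputable def lst {p : ℕ} (x : CP p) : ℝ := spin (x.1 (Fin.last p))

variable {V : Type} [Fintype V] [DecidableEq V]

/-- many-site amplitude with insertions `u k` -/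
noncomputable def amp (β : ℕ → ℝ) : (p : ℕ) → (ℕ → (V → Bool) → ℂ) → (V → Bool) → ℂ
  | 0, u, z => u 0 z * ∏ _j : V, (((Real.sqrt 2)⁻¹ : ℝ) : ℂ)
  | p + 1, u, z => u (p + 1) z * ∑ z' : V → Bool, (∏ j, mix (β p) (z j) (z' j)) * amp β p u z'

lemma tensor_unitary (β : ℝ) (a b : V → Bool) :
    ∑ z : V → Bool, (∏ j, mix β (z j) (a j)) * conj (∏ j, mix β (z j) (b j))
      = if a = b then 1 else 0 := by
  have h1 : ∀ z : V → Bool, (∏ j, mix β (z j) (a j)) * conj (∏ j, mix β (z j) (b j))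
      = ∏ j, (mix β (z j) (a j) * conj (mix β (z j) (b j))) := by
    intro z
    rw [map_prod, prod_mul_distrib]
  simp_rw [h1]
  have h2 := (Finset.prod_univ_sum (fun _ : V => (univ : Finset Bool))
    (fun j z => mix β z (a j) * conj (mix β z (b j))))
  rw [Fintype.piFinset_univ] at h2
  rw [← h2]
  simp_rw [mix_unitary]
  by_cases h : a = b
  · subst h; simp
  · rw [if_neg h]
    obtain ⟨j, hj⟩ := Function.ne_iff.1 h
    exact prod_eq_zero (mem_univ j) (if_neg hj)

lemma sum_norm_sq_tensor (β : ℝ) (f : (V → Bool) → ℂ) :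
    ∑ z : V → Bool, ‖∑ z' : V → Bool, (∏ j, mix β (z j) (z' j)) * f z'‖ ^ 2
      = ∑ z', ‖f z'‖ ^ 2 := by
  have hc : ((∑ z : V → Bool, ‖∑ z' : V → Bool, (∏ j, mix β (z j) (z' j)) * f z'‖ ^ 2 : ℝ) : ℂ)
      = ((∑ z', ‖f z'‖ ^ 2 : ℝ) : ℂ) := by
    push_cast
    simp_rw [← Complex.mul_conj']
    calc ∑ z : V → Bool, (∑ z', (∏ j, mix β (z j) (z' j)) * f z')
            * conj (∑ z', (∏ j, mix β (z j) (z' j)) * f z')
        = ∑ z : V → Bool, ∑ a : V → Bool, ∑ b : V → Bool,
            ((∏ j, mix β (z j) (a j)) * conj (∏ j, mix β (z j) (b j))) * (f a * conj (f b)) := by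
          refine sum_congr rfl fun z _ => ?_
          rw [map_sum, sum_mul_sum]
          refine sum_congr rfl fun a _ => sum_congr rfl fun b _ => ?_
          rw [map_mul]
          ring
      _ = ∑ a : V → Bool, ∑ b : V → Bool,
            (∑ z : V → Bool, (∏ j, mix β (z j) (a j)) * conj (∏ j, mix β (z j) (b j)))
              * (f a * conj (f b)) := by
          rw [sum_comm]
          refine sum_congr rfl fun a _ => ?_
          rw [sum_comm]
          refine sum_congr rfl fun b _ => ?_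
          rw [sum_mul]
      _ = ∑ z', f z' * conj (f z') := by
          simp_rw [tensor_unitary]
          simp
  exact_mod_cast hc

lemma sum_norm_sq_amp (β : ℕ → ℝ) (p : ℕ) (u : ℕ → (V → Bool) → ℂ)
    (hu : ∀ k z, ‖u k z‖ ≤ 1) : ∑ z, ‖amp β p u z‖ ^ 2 ≤ 1 := by
  induction p with
  | zero =>
    have h : ∀ z : V → Bool, ‖amp β 0 u z‖ ^ 2 ≤ (2⁻¹ : ℝ) ^ Fintype.card V := by
      intro z
      simp only [amp, norm_mul, prod_const, card_univ, norm_pow]
      have h1 : ‖(((Real.sqrt 2)⁻¹ : ℝ) : ℂ)‖ = (Real.sqrt 2)⁻¹ := by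
        rw [Complex.norm_real, Real.norm_eq_abs, abs_of_nonneg (by positivity)]
      rw [h1, mul_pow, ← pow_mul, mul_comm (Fintype.card V) 2, pow_mul, inv_pow,
        Real.sq_sqrt (by norm_num)]
      have h2 : ‖u 0 z‖ ^ 2 ≤ 1 := pow_le_one₀ (norm_nonneg _) (hu 0 z)
      calc ‖u 0 z‖ ^ 2 * (2⁻¹ : ℝ) ^ Fintype.card V ≤ 1 * (2⁻¹ : ℝ) ^ Fintype.card V := by
            gcongr
        _ = _ := one_mul _
    refine (sum_le_sum fun z _ => h z).trans ?_
    rw [sum_const, card_univ, Fintype.card_fun, Fintype.card_bool, nsmul_eq_mul]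
    push_cast
    rw [← mul_pow]
    norm_num
  | succ p ih =>
    have h : ∀ z : V → Bool, ‖amp β (p + 1) u z‖ ^ 2
        ≤ ‖∑ z' : V → Bool, (∏ j, mix (β p) (z j) (z' j)) * amp β p u z'‖ ^ 2 := by
      intro z
      simp only [amp, norm_mul]
      have := hu (p + 1) z
      have h0 := norm_nonneg (∑ z' : V → Bool, (∏ j, mix (β p) (z j) (z' j)) * amp β p u z')
      gcongr
      exact mul_le_of_le_one_left h0 this
    refine (sum_le_sum fun z _ => h z).trans ?_
    rw [sum_norm_sq_tensor]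
    exact ih

/-- split off the last time of a family of paths -/
def splitE (V : Type) (p : ℕ) : (V → Pth (p + 1)) ≃ (V → Pth p) × (V → Bool) where
  toFun A := (fun j => Fin.init (A j), fun j => A j (Fin.last (p + 1)))
  invFun B := fun j => Fin.snoc (α := fun _ => Bool) (B.1 j) (B.2 j)
  left_inv A := by
    funext j
    exact Fin.snoc_init_self (A j)
  right_inv B := by
    refine Prod.ext ?_ ?_
    · funext j
      simp only [Fin.init_snoc]
    · funext j
      simp only [Fin.snoc_last]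

lemma amp_path (β : ℕ → ℝ) (p : ℕ) (u : ℕ → (V → Bool) → ℂ) (z : V → Bool) :
    amp β p u z = ∑ A : V → Pth p, (if (fun j => A j (Fin.last p)) = z then (1 : ℂ) else 0)
      * ((∏ j, kap β p (A j)) * ∏ k : Fin (p + 1), u k (fun j => A j k)) := by
  induction p generalizing z with
  | zero =>
    have h : ∀ A : V → Pth 0, (if (fun j => A j (Fin.last 0)) = z then (1 : ℂ) else 0)
        * ((∏ j, kap β 0 (A j)) * ∏ k : Fin (0 + 1), u k (fun j => A j k))
        = if A = (fun j _ => z j) then u 0 z * ∏ _j : V, (((Real.sqrt 2)⁻¹ : ℝ) : ℂ) else 0 := by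
      intro A
      by_cases hA : A = (fun j _ => z j)
      · subst hA
        simp [kap]
        ring
      · rw [if_neg hA, if_neg, zero_mul]
        intro h
        apply hA
        funext j k
        rw [← h]
        congr 1
        exact Subsingleton.elim (α := Fin 1) _ _
    simp_rw [h]
    simp [amp]
  | succ p ih =>
    rw [← (splitE V p).symm.sum_comp, Fintype.sum_prod_type]
    have h1 : ∀ (A : V → Pth p) (y : V → Bool),
        (if (fun j => (splitE V p).symm (A, y) j (Fin.last (p + 1))) = z then (1 : ℂ) else 0)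
        * ((∏ j, kap β (p + 1) ((splitE V p).symm (A, y) j))
          * ∏ k : Fin (p + 1 + 1), u k (fun j => (splitE V p).symm (A, y) j k))
        = (if y = z then (1 : ℂ) else 0) * (u (p + 1) y *
            ((∏ j, mix (β p) (y j) (A j (Fin.last p))) *
            ((∏ j, kap β p (A j)) * ∏ k : Fin (p + 1), u k (fun j => A j k)))) := by
      intro A y
      have e1 : (fun j => (splitE V p).symm (A, y) j (Fin.last (p + 1))) = y := by
        funext j; simp [splitE]
      have e2 : ∀ j, kap β (p + 1) ((splitE V p).symm (A, y) j)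
          = mix (β p) (y j) (A j (Fin.last p)) * kap β p (A j) := by
        intro j
        have hl : (splitE V p).symm (A, y) j (Fin.last (p + 1)) = y j := by simp [splitE]
        have hc : (splitE V p).symm (A, y) j (Fin.last p).castSucc = A j (Fin.last p) := by
          simp only [splitE, Equiv.coe_fn_symm_mk, Fin.snoc_castSucc]
        have hi : Fin.init ((splitE V p).symm (A, y) j) = A j := by
          simp only [splitE, Equiv.coe_fn_symm_mk, Fin.init_snoc]
        rw [kap, hl, hc, hi]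
      have e3 : ∏ k : Fin (p + 1 + 1), u k (fun j => (splitE V p).symm (A, y) j k)
          = (∏ k : Fin (p + 1), u k (fun j => A j k)) * u (p + 1) y := by
        rw [Fin.prod_univ_castSucc]
        congr 1
        · refine prod_congr rfl fun k _ => ?_
          simp only [splitE, Equiv.coe_fn_symm_mk, Fin.snoc_castSucc, Fin.val_castSucc]
        · simp only [splitE, Equiv.coe_fn_symm_mk, Fin.snoc_last, Fin.val_last]
      rw [e1, e3]
      simp_rw [e2]
      rw [prod_mul_distrib]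
      ring
    simp_rw [h1]
    rw [amp]
    simp_rw [ih]
    have h2 : ∀ A : V → Pth p, ∑ y : V → Bool, (if y = z then (1 : ℂ) else 0) * (u (p + 1) y *
            ((∏ j, mix (β p) (y j) (A j (Fin.last p))) *
            ((∏ j, kap β p (A j)) * ∏ k : Fin (p + 1), u k (fun j => A j k))))
        = u (p + 1) z * ((∏ j, mix (β p) (z j) (A j (Fin.last p))) *
            ((∏ j, kap β p (A j)) * ∏ k : Fin (p + 1), u k (fun j => A j k))) := by
      intro A
      rw [sum_eq_single z]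
      · simp
      · intro y _ hy; simp [hy]
      · intro h; exact absurd (mem_univ z) h
    simp_rw [h2]
    rw [← mul_sum]
    congr 1
    simp_rw [mul_sum]
    rw [sum_comm]
    refine sum_congr rfl fun A _ => ?_
    rw [sum_eq_single (fun j => A j (Fin.last p))]
    · simp
    · intro y _ hy
      rw [if_neg (fun h => hy h.symm)]
      ring
    · intro h; exact absurd (mem_univ _) h

/-- the two-sided sum as a sum over contour paths -/
theorem sum_amp_mul_conj (β : ℕ → ℝ) (p : ℕ) (u v : ℕ → (V → Bool) → ℂ) :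
    ∑ z, amp β p u z * conj (amp β p v z) =
      ∑ X : V → CP p, (∏ j, wgt β p (X j)) *
        ((∏ k : Fin (p + 1), u k (fun j => (X j).1 k)) *
          ∏ k : Fin (p + 1), conj (v k (fun j => (X j).2 k))) := by
  rw [← (Equiv.arrowProdEquivProdArrow V (fun _ => Pth p) (fun _ => Pth p)).symm.sum_comp,
    Fintype.sum_prod_type]
  have h1 : ∀ z : V → Bool, amp β p u z * conj (amp β p v z)
      = ∑ A : V → Pth p, ∑ B : V → Pth p,
        (if (fun j => A j (Fin.last p)) = z then (1 : ℂ) else 0) *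
        (if (fun j => B j (Fin.last p)) = z then (1 : ℂ) else 0) *
        (((∏ j, kap β p (A j)) * ∏ k : Fin (p + 1), u k (fun j => A j k)) *
          conj ((∏ j, kap β p (B j)) * ∏ k : Fin (p + 1), v k (fun j => B j k))) := by
    intro z
    rw [amp_path β p u, amp_path β p v, map_sum, sum_mul_sum]
    refine sum_congr rfl fun A _ => sum_congr rfl fun B _ => ?_
    rw [map_mul]
    have : conj (if (fun j => B j (Fin.last p)) = z then (1 : ℂ) else 0)
        = (if (fun j => B j (Fin.last p)) = z then (1 : ℂ) else 0) := by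
      split_ifs <;> simp
    rw [this]
    ring
  simp_rw [h1]
  rw [sum_comm]
  refine sum_congr rfl fun A _ => ?_
  rw [sum_comm]
  refine sum_congr rfl fun B _ => ?_
  have h2 : ∑ z : V → Bool, (if (fun j => A j (Fin.last p)) = z then (1 : ℂ) else 0) *
        (if (fun j => B j (Fin.last p)) = z then (1 : ℂ) else 0) *
        (((∏ j, kap β p (A j)) * ∏ k : Fin (p + 1), u k (fun j => A j k)) *
          conj ((∏ j, kap β p (B j)) * ∏ k : Fin (p + 1), v k (fun j => B j k)))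
      = (if (fun j => A j (Fin.last p)) = (fun j => B j (Fin.last p)) then (1 : ℂ) else 0) *
        (((∏ j, kap β p (A j)) * ∏ k : Fin (p + 1), u k (fun j => A j k)) *
          conj ((∏ j, kap β p (B j)) * ∏ k : Fin (p + 1), v k (fun j => B j k))) := by
    rw [sum_eq_single (fun j => A j (Fin.last p))]
    · by_cases h : (fun j => A j (Fin.last p)) = (fun j => B j (Fin.last p))
      · simp [h]
      · rw [if_neg h, if_neg (fun h' => h (Eq.symm h'))]
        simp
    · intro z _ hz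
      rw [if_neg (fun h => hz h.symm)]
      ring
    · intro h; exact absurd (mem_univ _) h
  rw [h2]
  have h3 : ∏ j, wgt β p (((Equiv.arrowProdEquivProdArrow V (fun _ => Pth p)
      (fun _ => Pth p)).symm (A, B)) j)
      = (if (fun j => A j (Fin.last p)) = (fun j => B j (Fin.last p)) then (1 : ℂ) else 0) *
        ((∏ j, kap β p (A j)) * conj (∏ j, kap β p (B j))) := by
    have h4 : ∀ j, wgt β p (((Equiv.arrowProdEquivProdArrow V (fun _ => Pth p)
        (fun _ => Pth p)).symm (A, B)) j) = kap β p (A j) * conj (kap β p (B j)) *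
          (if A j (Fin.last p) = B j (Fin.last p) then (1 : ℂ) else 0) := fun j => rfl
    simp_rw [h4]
    rw [prod_mul_distrib, prod_mul_distrib, map_prod]
    have : ∏ j, (if A j (Fin.last p) = B j (Fin.last p) then (1 : ℂ) else 0)
        = (if (fun j => A j (Fin.last p)) = (fun j => B j (Fin.last p)) then (1 : ℂ) else 0) := by
      by_cases h : (fun j => A j (Fin.last p)) = (fun j => B j (Fin.last p))
      · rw [if_pos h]
        exact prod_eq_one fun j _ => if_pos (congrFun h j)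
      · rw [if_neg h]
        obtain ⟨j, hj⟩ := Function.ne_iff.1 h
        exact prod_eq_zero (mem_univ j) (if_neg hj)
    rw [this]
    ring
  rw [h3]
  simp only [Equiv.arrowProdEquivProdArrow, Equiv.coe_fn_symm_mk, map_mul, map_prod]
  ring

/-- unitarity bound -/
theorem norm_sum_paths_le (β : ℕ → ℝ) (p : ℕ) (u v : ℕ → (V → Bool) → ℂ)
    (hu : ∀ k z, ‖u k z‖ ≤ 1) (hv : ∀ k z, ‖v k z‖ ≤ 1) :
    ‖∑ X : V → CP p, (∏ j, wgt β p (X j)) *
        ((∏ k : Fin (p + 1), u k (fun j => (X j).1 k)) *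
          ∏ k : Fin (p + 1), conj (v k (fun j => (X j).2 k)))‖ ≤ 1 := by
  rw [← sum_amp_mul_conj]
  have h1 := sum_norm_sq_amp β p u hu
  have h2 := sum_norm_sq_amp β p v hv
  calc ‖∑ z, amp β p u z * conj (amp β p v z)‖ ≤ ∑ z, ‖amp β p u z * conj (amp β p v z)‖ :=
        norm_sum_le _ _
    _ ≤ ∑ z, (‖amp β p u z‖ ^ 2 + ‖amp β p v z‖ ^ 2) / 2 := by
        refine sum_le_sum fun z _ => ?_
        rw [norm_mul, RCLike.norm_conj]
        nlinarith [sq_nonneg (‖amp β p u z‖ - ‖amp β p v z‖)]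
    _ = ((∑ z, ‖amp β p u z‖ ^ 2) + ∑ z, ‖amp β p v z‖ ^ 2) / 2 := by
        rw [← sum_div, sum_add_distrib]
    _ ≤ 1 := by linarith

end Vale.Agent.P367.Lim
end

section

namespace Vale.Agent.P367.Lim

open Finset ComplexConjugate MeasureTheory ProbabilityTheory Vale.Agent.P367.Gap

/-- characteristic function of a linear form in independent standard Gaussians -/
lemma gauss_char {ι : Type*} [Fintype ι] (c : ι → ℝ) :
    ∫ J : ι → ℝ, Complex.exp (-(Complex.I * ((∑ e, c e * J e : ℝ) : ℂ)))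
      ∂(Measure.pi fun _ => gaussianReal 0 1) = Complex.exp (-((1 / 2 * ∑ e, c e ^ 2 : ℝ) : ℂ)) := by
  have h1 : ∀ J : ι → ℝ, Complex.exp (-(Complex.I * ((∑ e, c e * J e : ℝ) : ℂ)))
      = ∏ e, Complex.exp (((-c e : ℝ) : ℂ) * (J e : ℂ) * Complex.I) := by
    intro J
    rw [← Complex.exp_sum]
    congr 1
    push_cast
    rw [mul_sum, ← sum_neg_distrib]
    refine sum_congr rfl fun e _ => ?_
    ring
  simp_rw [h1]
  rw [integral_fintype_prod_eq_prod (f := fun e (x : ℝ) =>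
    Complex.exp (((-c e : ℝ) : ℂ) * (x : ℂ) * Complex.I))]
  have h2 : ∀ e, ∫ x : ℝ, Complex.exp (((-c e : ℝ) : ℂ) * (x : ℂ) * Complex.I)
      ∂(gaussianReal 0 1) = Complex.exp (-((1 / 2 * c e ^ 2 : ℝ) : ℂ)) := by
    intro e
    rw [← charFun_apply_real, charFun_gaussianReal]
    congr 1
    push_cast
    ring
  simp_rw [h2]
  rw [← Complex.exp_sum]
  congr 1
  push_cast
  rw [mul_sum, ← sum_neg_distrib]

variable {V : Type} [Fintype V] [DecidableEq V]

/-- quadratic interaction of a family of contour paths -/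
noncomputable def QI (γ : ℕ → ℝ) (p : ℕ) (ξ : V → V → ℝ) (X : V → CP p) : ℝ :=
  ∑ i, ∑ j, if i = j then 0 else (qq γ p (X i) (X j) + ξ i j * (lst (X i) * lst (X j))) ^ 2

/-- averaged path functional -/
noncomputable def FF (γ β : ℕ → ℝ) (p : ℕ) (s : ℝ) (ξ : V → V → ℝ) (φ : V → CP p → ℂ) : ℂ :=
  ∑ X : V → CP p, (∏ j, wgt β p (X j) * φ j (X j)) *
    Complex.exp (-((s ^ 2 / 4 * QI γ p ξ X : ℝ) : ℂ))

/-- pair energy with ordered couplings -/
noncomputable def EJ (s : ℝ) (J : V × V → ℝ) (ξ : V → V → ℝ) (z : V → Bool) : ℝ :=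
  ∑ e : V × V, (s / Real.sqrt 2) * (if e.1 = e.2 then 0 else
    ξ e.1 e.2 * (spin (z e.1) * spin (z e.2))) * J e

/-- linear form coefficients -/
noncomputable def cf (γ : ℕ → ℝ) (p : ℕ) (s : ℝ) (ξ : V → V → ℝ) (X : V → CP p) (e : V × V) : ℝ :=
  (s / Real.sqrt 2) * (if e.1 = e.2 then 0 else
    (qq γ p (X e.1) (X e.2) + ξ e.1 e.2 * (lst (X e.1) * lst (X e.2))))

lemma half_sum_cf (γ : ℕ → ℝ) (p : ℕ) (s : ℝ) (ξ : V → V → ℝ) (X : V → CP p) :
    1 / 2 * ∑ e, cf γ p s ξ X e ^ 2 = s ^ 2 / 4 * QI γ p ξ X := by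
  unfold cf QI
  rw [Fintype.sum_prod_type, mul_sum, mul_sum]
  refine sum_congr rfl fun i _ => ?_
  rw [mul_sum, mul_sum]
  refine sum_congr rfl fun j _ => ?_
  simp only
  by_cases h : i = j
  · simp [h]
  · simp only [if_neg h]
    rw [mul_pow, div_pow, Real.sq_sqrt (by norm_num)]
    ring

lemma sum_cf_mul (γ : ℕ → ℝ) (p : ℕ) (s : ℝ) (ξ : V → V → ℝ) (X : V → CP p) (J : V × V → ℝ) :
    ∑ e, cf γ p s ξ X e * J e
      = ∑ k : Fin p, γ k * EJ s J (fun _ _ => 1) (fun j => (X j).1 k.castSucc)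
        + EJ s J ξ (fun j => (X j).1 (Fin.last p))
        - ∑ k : Fin p, γ k * EJ s J (fun _ _ => 1) (fun j => (X j).2 k.castSucc) := by
  unfold EJ cf
  simp_rw [mul_sum]
  rw [sum_comm, sum_comm (s := (univ : Finset (Fin p)))
    (f := fun k e => γ ↑k * (s / Real.sqrt 2 * (if e.1 = e.2 then 0 else
      1 * (spin ((X e.1).2 k.castSucc) * spin ((X e.2).2 k.castSucc))) * J e))]
  rw [← sum_add_distrib, ← sum_sub_distrib]
  refine sum_congr rfl fun e _ => ?_
  by_cases h : e.1 = e.2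
  · simp [h]
  · simp only [if_neg h, lst, qq]
    rw [mul_add, add_mul, mul_sum, sum_mul, add_sub_right_comm, ← sum_sub_distrib]
    congr 1
    · refine sum_congr rfl fun k _ => ?_
      ring

lemma norm_exp_neg_I (x : ℝ) : ‖Complex.exp (-(Complex.I * (x : ℂ)))‖ = 1 := by
  rw [show -(Complex.I * (x : ℂ)) = ((-x : ℝ) : ℂ) * Complex.I by push_cast; ring]
  exact Complex.norm_exp_ofReal_mul_I _

/-- for each coupling realisation the path sum is bounded by one -/
lemma norm_inner_le (γ β : ℕ → ℝ) (p : ℕ) (s : ℝ) (ξ : V → V → ℝ) (φ : V → CP p → ℂ)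
    (U W : V → Fin (p + 1) → Bool → ℂ) (hU : ∀ j k b, ‖U j k b‖ ≤ 1) (hW : ∀ j k b, ‖W j k b‖ ≤ 1)
    (hφ : ∀ j x, φ j x = (∏ k, U j k (x.1 k)) * ∏ k, W j k (x.2 k)) (J : V × V → ℝ) :
    ‖∑ X : V → CP p, (∏ j, wgt β p (X j) * φ j (X j)) *
      Complex.exp (-(Complex.I * ((∑ e, cf γ p s ξ X e * J e : ℝ) : ℂ)))‖ ≤ 1 := by
  classical
  let θ : ℕ → (V → Bool) → ℝ := fun k z =>
    if k < p then γ k * EJ s J (fun _ _ => 1) z else EJ s J ξ z
  let θ' : ℕ → (V → Bool) → ℝ := fun k z =>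
    if k < p then γ k * EJ s J (fun _ _ => 1) z else 0
  let u : ℕ → (V → Bool) → ℂ := fun k z =>
    (if h : k < p + 1 then ∏ j, U j ⟨k, h⟩ (z j) else 1) * Complex.exp (-(Complex.I * (θ k z : ℂ)))
  let v : ℕ → (V → Bool) → ℂ := fun k z =>
    (if h : k < p + 1 then ∏ j, conj (W j ⟨k, h⟩ (z j)) else 1)
      * Complex.exp (-(Complex.I * (θ' k z : ℂ)))
  have hu : ∀ k z, ‖u k z‖ ≤ 1 := by
    intro k z
    simp only [u, norm_mul, norm_exp_neg_I, mul_one]
    split_ifs
    · rw [norm_prod]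
      exact prod_le_one (fun _ _ => norm_nonneg _) fun j _ => hU _ _ _
    · simp
  have hv : ∀ k z, ‖v k z‖ ≤ 1 := by
    intro k z
    simp only [v, norm_mul, norm_exp_neg_I, mul_one]
    split_ifs
    · rw [norm_prod]
      refine prod_le_one (fun _ _ => norm_nonneg _) fun j _ => ?_
      rw [RCLike.norm_conj]
      exact hW _ _ _
    · simp
  have key := norm_sum_paths_le (V := V) β p u v hu hv
  convert key using 3 with X
  rw [prod_mul_distrib, mul_assoc]
  congr 1
  have e1 : ∏ k : Fin (p + 1), u k (fun j => (X j).1 k)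
      = (∏ j, ∏ k, U j k ((X j).1 k)) * Complex.exp (-(Complex.I *
        ((∑ k : Fin p, γ k * EJ s J (fun _ _ => 1) (fun j => (X j).1 k.castSucc)
          + EJ s J ξ (fun j => (X j).1 (Fin.last p)) : ℝ) : ℂ))) := by
    simp only [u]
    rw [prod_mul_distrib, ← Complex.exp_sum]
    congr 1
    · rw [prod_comm]
      refine prod_congr rfl fun k _ => ?_
      rw [dif_pos k.2]
    · congr 1
      rw [sum_neg_distrib, ← mul_sum]
      congr 2
      rw [← Complex.ofReal_sum]
      congr 1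
      rw [Fin.sum_univ_castSucc]
      congr 1
      · refine sum_congr rfl fun k _ => ?_
        simp [θ]
      · simp [θ]
  have e2 : ∏ k : Fin (p + 1), conj (v k (fun j => (X j).2 k))
      = (∏ j, ∏ k, W j k ((X j).2 k)) * Complex.exp ((Complex.I *
        ((∑ k : Fin p, γ k * EJ s J (fun _ _ => 1) (fun j => (X j).2 k.castSucc) : ℝ) : ℂ))) := by
    simp only [v, map_mul]
    rw [prod_mul_distrib]
    congr 1
    · rw [prod_comm]
      refine prod_congr rfl fun k _ => ?_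
      rw [dif_pos k.2, map_prod]
      simp
    · have : ∀ k : Fin (p + 1), conj (Complex.exp (-(Complex.I * (θ' k (fun j => (X j).2 k) : ℂ))))
          = Complex.exp (Complex.I * (θ' k (fun j => (X j).2 k) : ℂ)) := by
        intro k
        rw [← Complex.exp_conj, map_neg, map_mul, Complex.conj_I, Complex.conj_ofReal]
        congr 1; ring
      simp_rw [this]
      rw [← Complex.exp_sum, ← mul_sum]
      congr 2
      rw [← Complex.ofReal_sum]
      congr 1
      rw [Fin.sum_univ_castSucc]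
      simp [θ']
  rw [e1, e2]
  have e3 : ∏ j, φ j (X j) = (∏ j, ∏ k, U j k ((X j).1 k)) * ∏ j, ∏ k, W j k ((X j).2 k) := by
    rw [← prod_mul_distrib]
    exact prod_congr rfl fun j _ => hφ j (X j)
  rw [e3, sum_cf_mul]
  rw [mul_mul_mul_comm, ← Complex.exp_add]
  congr 2
  push_cast
  ring

lemma integrable_exp_lin {ι : Type*} [Fintype ι] (c : ι → ℝ) :
    Integrable (fun J : ι → ℝ => Complex.exp (-(Complex.I * ((∑ e, c e * J e : ℝ) : ℂ))))
      (Measure.pi fun _ => gaussianReal 0 1) := by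
  refine (integrable_const (1 : ℝ)).mono' ?_ ?_
  · refine Continuous.aestronglyMeasurable ?_
    fun_prop
  · exact Filter.Eventually.of_forall fun J => (norm_exp_neg_I _).le

/-- Gaussian representation of `FF` -/
lemma FF_eq_integral (γ β : ℕ → ℝ) (p : ℕ) (s : ℝ) (ξ : V → V → ℝ) (φ : V → CP p → ℂ) :
    FF γ β p s ξ φ = ∫ J : V × V → ℝ, (∑ X : V → CP p, (∏ j, wgt β p (X j) * φ j (X j)) *
      Complex.exp (-(Complex.I * ((∑ e, cf γ p s ξ X e * J e : ℝ) : ℂ))))
        ∂(Measure.pi fun _ => gaussianReal 0 1) := by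
  rw [integral_finsetSum]
  · unfold FF
    refine sum_congr rfl fun X _ => ?_
    rw [integral_const_mul, gauss_char, half_sum_cf]
  · intro X _
    exact (integrable_exp_lin _).const_mul _

/-- unitarity bound for product-form one-site factors -/
theorem norm_FF_le (γ β : ℕ → ℝ) (p : ℕ) (s : ℝ) (ξ : V → V → ℝ) (φ : V → CP p → ℂ)
    (U W : V → Fin (p + 1) → Bool → ℂ) (hU : ∀ j k b, ‖U j k b‖ ≤ 1) (hW : ∀ j k b, ‖W j k b‖ ≤ 1)
    (hφ : ∀ j x, φ j x = (∏ k, U j k (x.1 k)) * ∏ k, W j k (x.2 k)) :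
    ‖FF γ β p s ξ φ‖ ≤ 1 := by
  rw [FF_eq_integral]
  have := norm_integral_le_of_norm_le_const (μ := Measure.pi fun _ : V × V => gaussianReal 0 1)
    (Filter.Eventually.of_forall fun J => norm_inner_le γ β p s ξ φ U W hU hW hφ J)
  simpa using this

end Vale.Agent.P367.Lim
end

section

namespace Vale.Agent.P367.Lim

open Finset ComplexConjugate MeasureTheory ProbabilityTheory Vale.Agent.P367.Gap

variable {V : Type} [Fintype V] [DecidableEq V] {V' : Type} [Fintype V'] [DecidableEq V']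

lemma FF_equiv (γ β : ℕ → ℝ) (p : ℕ) (s : ℝ) (e : V ≃ V') (ξ : V' → V' → ℝ)
    (φ : V' → CP p → ℂ) :
    FF γ β p s ξ φ = FF γ β p s (fun i j => ξ (e i) (e j)) (fun j => φ (e j)) := by
  unfold FF
  rw [← (Equiv.arrowCongr e (Equiv.refl (CP p))).sum_comp]
  refine sum_congr rfl fun X _ => ?_
  have h0 : ∀ i, (Equiv.arrowCongr e (Equiv.refl (CP p))) X (e i) = X i := by
    intro i; simp [Equiv.arrowCongr]
  congr 1
  · rw [← e.prod_comp]
    refine prod_congr rfl fun i _ => ?_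
    rw [h0]
  · congr 4
    unfold QI
    rw [← e.sum_comp]
    refine sum_congr rfl fun i _ => ?_
    rw [← e.sum_comp]
    refine sum_congr rfl fun j _ => ?_
    rw [h0, h0]
    simp only [EmbeddingLike.apply_eq_iff_eq]

lemma qq_comm (γ : ℕ → ℝ) (p : ℕ) (x y : CP p) : qq γ p x y = qq γ p y x := by
  unfold qq
  refine sum_congr rfl fun k _ => ?_
  ring

/-- split-off of a group of sites -/
lemma FF_sum (γ β : ℕ → ℝ) (p : ℕ) (s : ℝ) (ξ : V ⊕ V' → V ⊕ V' → ℝ)
    (hξ : ∀ i j, ξ (Sum.inl i) (Sum.inr j) = ξ (Sum.inr j) (Sum.inl i))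
    (φ : V ⊕ V' → CP p → ℂ) :
    FF γ β p s ξ φ = ∑ X : V → CP p, (∏ i, wgt β p (X i) * φ (Sum.inl i) (X i)) *
      (Complex.exp (-((s ^ 2 / 4 * QI γ p (fun i j => ξ (Sum.inl i) (Sum.inl j)) X : ℝ) : ℂ)) *
      FF γ β p s (fun i j => ξ (Sum.inr i) (Sum.inr j)) (fun j y => φ (Sum.inr j) y *
        Complex.exp (-((s ^ 2 / 2 * ∑ i, (qq γ p (X i) y
          + ξ (Sum.inl i) (Sum.inr j) * (lst (X i) * lst y)) ^ 2 : ℝ) : ℂ)))) := by
  unfold FF
  rw [← (Equiv.sumArrowEquivProdArrow V V' (CP p)).symm.sum_comp, Fintype.sum_prod_type]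
  refine sum_congr rfl fun X _ => ?_
  rw [mul_sum, mul_sum]
  refine sum_congr rfl fun Y _ => ?_
  have hl : ∀ i, (Equiv.sumArrowEquivProdArrow V V' (CP p)).symm (X, Y) (Sum.inl i) = X i :=
    fun i => rfl
  have hr : ∀ j, (Equiv.sumArrowEquivProdArrow V V' (CP p)).symm (X, Y) (Sum.inr j) = Y j :=
    fun j => rfl
  rw [Fintype.prod_sum_type]
  simp_rw [hl, hr]
  have hq : QI γ p ξ ((Equiv.sumArrowEquivProdArrow V V' (CP p)).symm (X, Y))
      = QI γ p (fun i j => ξ (Sum.inl i) (Sum.inl j)) X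
        + QI γ p (fun i j => ξ (Sum.inr i) (Sum.inr j)) Y
        + 2 * ∑ j, ∑ i, (qq γ p (X i) (Y j)
          + ξ (Sum.inl i) (Sum.inr j) * (lst (X i) * lst (Y j))) ^ 2 := by
    unfold QI
    simp only [Fintype.sum_sum_type, hl, hr, Sum.inl.injEq, Sum.inr.injEq, reduceCtorEq, if_false,
      sum_add_distrib]
    have h1 : ∑ x : V', ∑ x_1 : V, (qq γ p (Y x) (X x_1)
          + ξ (Sum.inr x) (Sum.inl x_1) * (lst (Y x) * lst (X x_1))) ^ 2
        = ∑ j, ∑ i, (qq γ p (X i) (Y j)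
          + ξ (Sum.inl i) (Sum.inr j) * (lst (X i) * lst (Y j))) ^ 2 := by
      refine sum_congr rfl fun j _ => sum_congr rfl fun i _ => ?_
      rw [qq_comm, hξ, mul_comm (lst (Y j))]
    have h2 : ∑ x : V, ∑ x_1 : V', (qq γ p (X x) (Y x_1)
          + ξ (Sum.inl x) (Sum.inr x_1) * (lst (X x) * lst (Y x_1))) ^ 2
        = ∑ j, ∑ i, (qq γ p (X i) (Y j)
          + ξ (Sum.inl i) (Sum.inr j) * (lst (X i) * lst (Y j))) ^ 2 := by
      rw [sum_comm]
    rw [h1, h2]
    ring
  have hp : ∏ j, wgt β p (Y j) * (φ (Sum.inr j) (Y j) *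
        Complex.exp (-((s ^ 2 / 2 * ∑ i, (qq γ p (X i) (Y j)
          + ξ (Sum.inl i) (Sum.inr j) * (lst (X i) * lst (Y j))) ^ 2 : ℝ) : ℂ)))
      = (∏ j, wgt β p (Y j) * φ (Sum.inr j) (Y j)) *
        Complex.exp (-((s ^ 2 / 2 * ∑ j, ∑ i, (qq γ p (X i) (Y j)
          + ξ (Sum.inl i) (Sum.inr j) * (lst (X i) * lst (Y j))) ^ 2 : ℝ) : ℂ)) := by
    have : ∀ j, wgt β p (Y j) * (φ (Sum.inr j) (Y j) *
        Complex.exp (-((s ^ 2 / 2 * ∑ i, (qq γ p (X i) (Y j)
          + ξ (Sum.inl i) (Sum.inr j) * (lst (X i) * lst (Y j))) ^ 2 : ℝ) : ℂ)))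
        = (wgt β p (Y j) * φ (Sum.inr j) (Y j)) *
        Complex.exp (-((s ^ 2 / 2 * ∑ i, (qq γ p (X i) (Y j)
          + ξ (Sum.inl i) (Sum.inr j) * (lst (X i) * lst (Y j))) ^ 2 : ℝ) : ℂ)) := fun j => by ring
    simp_rw [this]
    rw [prod_mul_distrib, ← Complex.exp_sum]
    congr 2
    rw [sum_neg_distrib, ← Complex.ofReal_sum, mul_sum]
  rw [hp, hq]
  have he : Complex.exp (-((s ^ 2 / 4 * (QI γ p (fun i j => ξ (Sum.inl i) (Sum.inl j)) X
        + QI γ p (fun i j => ξ (Sum.inr i) (Sum.inr j)) Y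
        + 2 * ∑ j, ∑ i, (qq γ p (X i) (Y j)
          + ξ (Sum.inl i) (Sum.inr j) * (lst (X i) * lst (Y j))) ^ 2) : ℝ) : ℂ))
      = Complex.exp (-((s ^ 2 / 4 * QI γ p (fun i j => ξ (Sum.inl i) (Sum.inl j)) X : ℝ) : ℂ)) *
        Complex.exp (-((s ^ 2 / 4 * QI γ p (fun i j => ξ (Sum.inr i) (Sum.inr j)) Y : ℝ) : ℂ)) *
        Complex.exp (-((s ^ 2 / 2 * ∑ j, ∑ i, (qq γ p (X i) (Y j)
          + ξ (Sum.inl i) (Sum.inr j) * (lst (X i) * lst (Y j))) ^ 2 : ℝ) : ℂ)) := by
    rw [← Complex.exp_add, ← Complex.exp_add]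
    congr 1
    push_cast
    ring
  rw [he]
  ring

/-- closed-path restriction: `qh = qq` when both paths are closed -/
lemma qh_eq_of_closed (γ : ℕ → ℝ) (p : ℕ) (x y : CP p)
    (hx : x.1 (Fin.last p) = x.2 (Fin.last p)) (hy : y.1 (Fin.last p) = y.2 (Fin.last p)) :
    qh γ p x y = qq γ p x y := by
  rw [qh_eq, hx, hy]
  ring

lemma sum_last (β : ℕ → ℝ) (p : ℕ) (x : CP p) :
    ∑ c : Bool × Bool, wgt β (p + 1)
      ((Fin.snoc (α := fun _ => Bool) x.1 c.1, Fin.snoc (α := fun _ => Bool) x.2 c.2) : CP (p + 1))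
      = wgt β p x := by
  have h1 : ∀ c : Bool × Bool, wgt β (p + 1)
      ((Fin.snoc (α := fun _ => Bool) x.1 c.1, Fin.snoc (α := fun _ => Bool) x.2 c.2) : CP (p + 1))
      = (mix (β p) c.1 (x.1 (Fin.last p)) * conj (mix (β p) c.2 (x.2 (Fin.last p)))
        * (if c.1 = c.2 then 1 else 0)) * (kap β p x.1 * conj (kap β p x.2)) := by
    intro c
    simp only [wgt, kap, Fin.snoc_last, Fin.snoc_castSucc, Fin.init_snoc, map_mul]
    ring
  simp_rw [h1]
  rw [← sum_mul, Fintype.sum_prod_type]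
  have h2 : ∀ c : Bool, ∑ d : Bool, (mix (β p) c (x.1 (Fin.last p))
      * conj (mix (β p) d (x.2 (Fin.last p))) * (if c = d then (1 : ℂ) else 0))
      = mix (β p) c (x.1 (Fin.last p)) * conj (mix (β p) c (x.2 (Fin.last p))) := by
    intro c
    rw [sum_eq_single c]
    · simp
    · intro d _ hd; simp [Ne.symm hd]
    · intro h; exact absurd (mem_univ c) h
  simp only [h2, mix_unitary]
  unfold wgt
  ring

/-- split off the last time of contour paths -/
def splitC (V : Type) (p : ℕ) : (V → CP (p + 1)) ≃ (V → CP p) × (V → Bool × Bool) where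
  toFun X := (fun j => ini (X j), fun j => ((X j).1 (Fin.last (p + 1)), (X j).2 (Fin.last (p + 1))))
  invFun B := fun j => (Fin.snoc (α := fun _ => Bool) (B.1 j).1 (B.2 j).1,
    Fin.snoc (α := fun _ => Bool) (B.1 j).2 (B.2 j).2)
  left_inv X := by
    funext j
    refine Prod.ext ?_ ?_
    · exact Fin.snoc_init_self (X j).1
    · exact Fin.snoc_init_self (X j).2
  right_inv B := by
    refine Prod.ext ?_ ?_
    · funext j
      simp only [ini, Fin.init_snoc]
    · funext j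
      simp only [Fin.snoc_last]

/-- causality -/
theorem FF_succ (γ β : ℕ → ℝ) (p : ℕ) (s : ℝ) (φ : V → CP p → ℂ) :
    FF γ β (p + 1) s (fun _ _ => 0) (fun j x => φ j (ini x)) = FF γ β p s (fun _ _ => 0) φ := by
  unfold FF
  rw [← (splitC V p).symm.sum_comp, Fintype.sum_prod_type]
  refine sum_congr rfl fun X _ => ?_
  have hini : ∀ c j, ini ((splitC V p).symm (X, c) j) = X j := by
    intro c j
    simp only [splitC, Equiv.coe_fn_symm_mk, ini, Fin.init_snoc]
  have hQ : ∀ c, QI γ (p + 1) (fun _ _ => 0) ((splitC V p).symm (X, c))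
      = ∑ i, ∑ j, if i = j then 0 else (qh γ p (X i) (X j)) ^ 2 := by
    intro c
    unfold QI
    refine sum_congr rfl fun i _ => sum_congr rfl fun j _ => ?_
    rw [qq_succ, hini, hini]
    simp
  simp_rw [hQ, hini]
  rw [← sum_mul]
  have h3 : ∑ c : V → Bool × Bool, ∏ j, wgt β (p + 1) ((splitC V p).symm (X, c) j) * φ j (X j)
      = ∏ j, wgt β p (X j) * φ j (X j) := by
    simp_rw [prod_mul_distrib]
    rw [← sum_mul]
    congr 1
    have h4 := (Finset.prod_univ_sum (fun _ : V => (univ : Finset (Bool × Bool)))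
      (fun j c => wgt β (p + 1) ((Fin.snoc (α := fun _ => Bool) (X j).1 c.1,
        Fin.snoc (α := fun _ => Bool) (X j).2 c.2) : CP (p + 1))))
    rw [Fintype.piFinset_univ] at h4
    have h5 : ∀ c : V → Bool × Bool, ∀ j, (splitC V p).symm (X, c) j
        = ((Fin.snoc (α := fun _ => Bool) (X j).1 (c j).1,
          Fin.snoc (α := fun _ => Bool) (X j).2 (c j).2) : CP (p + 1)) := fun c j => rfl
    simp_rw [h5]
    rw [← h4]
    refine prod_congr rfl fun j _ => ?_
    exact sum_last β p (X j)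
  rw [h3]
  by_cases hcl : ∀ j, (X j).1 (Fin.last p) = (X j).2 (Fin.last p)
  · congr 5
    unfold QI
    refine sum_congr rfl fun i _ => sum_congr rfl fun j _ => ?_
    rw [qh_eq_of_closed γ p _ _ (hcl i) (hcl j)]
    simp
  · push Not at hcl
    obtain ⟨j, hj⟩ := hcl
    have h0 : ∏ j, wgt β p (X j) * φ j (X j) = 0 := by
      refine prod_eq_zero (mem_univ j) ?_
      unfold wgt
      rw [if_neg hj]
      ring
    rw [h0]
    ring

end Vale.Agent.P367.Lim
end

section

namespace Vale.Agent.P367.Gap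

open Finset

lemma spin_sq (b : Bool) : spin b * spin b = 1 := by cases b <;> simp [spin]

lemma abs_spin (b : Bool) : |spin b| = 1 := by cases b <;> simp [spin]

/-- The Hilbert space of `n` qubits. -/
abbrev Hil (n : ℕ) : Type := EuclideanSpace ℂ (Conf n)

variable {n : ℕ}

/-- diagonal multiplication -/
noncomputable def diagL (d : Conf n → ℂ) : Hil n →ₗ[ℂ] Hil n where
  toFun v := WithLp.toLp 2 fun σ => d σ * v σ
  map_add' u v := by ext σ; simp [mul_add]
  map_smul' c v := by ext σ; simp [mul_left_comm]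

@[simp] lemma diagL_apply (d : Conf n → ℂ) (v : Hil n) (σ : Conf n) :
    diagL d v σ = d σ * v σ := rfl

lemma norm_diagL_le {d : Conf n → ℂ} {M : ℝ} (hM : 0 ≤ M) (hd : ∀ σ, ‖d σ‖ ≤ M) (v : Hil n) :
    ‖diagL d v‖ ≤ M * ‖v‖ := by
  rw [EuclideanSpace.norm_eq, EuclideanSpace.norm_eq, ← Real.sqrt_sq hM,
    ← Real.sqrt_mul (sq_nonneg M)]
  refine Real.sqrt_le_sqrt ?_
  rw [mul_sum]
  refine sum_le_sum fun σ _ => ?_
  rw [diagL_apply, norm_mul, mul_pow]
  have := hd σ
  gcongr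

lemma norm_diagL_eq {d : Conf n → ℂ} (hd : ∀ σ, ‖d σ‖ = 1) (v : Hil n) :
    ‖diagL d v‖ = ‖v‖ := by
  rw [EuclideanSpace.norm_eq, EuclideanSpace.norm_eq]
  congr 1
  refine sum_congr rfl fun σ _ => ?_
  rw [diagL_apply, norm_mul, hd, one_mul]

/-- The phase separator `exp(-iγE)` with a (possibly complex) energy function `E`. -/
noncomputable def phaseL (γ : ℝ) (E : Conf n → ℂ) : Hil n →ₗ[ℂ] Hil n :=
  diagL fun σ => Complex.exp (-(Complex.I * γ * E σ))

/-- The state after `k` layers: `D k ∘ exp(-i γ_k E)`. -/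
noncomputable def circ (D : ℕ → Hil n →ₗ[ℂ] Hil n) (γ : ℕ → ℝ) (E : Conf n → ℂ) (v : Hil n) :
    ℕ → Hil n
  | 0 => v
  | k + 1 => D k (phaseL (γ k) E (circ D γ E v k))

/-- Atomic norm bound for configuration-dependent vectors. -/
def WB (K : ℝ) (Φ : Conf n → Hil n) : Prop :=
  ∃ (ι : Type) (_ : Fintype ι) (χ : ι → Conf n → ℂ) (c : ι → Hil n),
    (∀ a σ, ‖χ a σ‖ ≤ 1) ∧ (∀ σ, Φ σ = ∑ a, χ a σ • c a) ∧ ∑ a, ‖c a‖ ≤ K

lemma WB.const (v : Hil n) : WB ‖v‖ (fun _ => v) :=
  ⟨Unit, inferInstance, fun _ _ => 1, fun _ => v, by simp, by simp, by simp⟩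

lemma WB.mono {K K' : ℝ} {Φ : Conf n → Hil n} (h : WB K Φ) (hK : K ≤ K') : WB K' Φ := by
  obtain ⟨ι, hι, χ, c, h1, h2, h3⟩ := h
  exact ⟨ι, hι, χ, c, h1, h2, h3.trans hK⟩

lemma WB.congr {K : ℝ} {Φ Ψ : Conf n → Hil n} (h : WB K Φ) (hK : ∀ σ, Ψ σ = Φ σ) : WB K Ψ := by
  obtain ⟨ι, hι, χ, c, h1, h2, h3⟩ := h
  exact ⟨ι, hι, χ, c, h1, fun σ => (hK σ).trans (h2 σ), h3⟩

lemma WB.nonneg {K : ℝ} {Φ : Conf n → Hil n} (h : WB K Φ) : 0 ≤ K := by
  obtain ⟨ι, hι, χ, c, h1, h2, h3⟩ := h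
  exact (sum_nonneg fun _ _ => norm_nonneg _).trans h3

lemma WB.add {K K' : ℝ} {Φ Ψ : Conf n → Hil n} (h : WB K Φ) (h' : WB K' Ψ) :
    WB (K + K') (fun σ => Φ σ + Ψ σ) := by
  obtain ⟨ι, hι, χ, c, h1, h2, h3⟩ := h
  obtain ⟨ι', hι', χ', c', h1', h2', h3'⟩ := h'
  refine ⟨ι ⊕ ι', inferInstance, Sum.elim χ χ', Sum.elim c c', ?_, ?_, ?_⟩
  · rintro (a | a) σ
    · exact h1 a σ
    · exact h1' a σ
  · intro σ
    simp only [Fintype.sum_sum_type, Sum.elim_inl, Sum.elim_inr]
    rw [h2, h2']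
  · simp only [Fintype.sum_sum_type, Sum.elim_inl, Sum.elim_inr]
    exact add_le_add h3 h3'

lemma WB.smul {K : ℝ} {Φ : Conf n → Hil n} (h : WB K Φ) (c₀ : ℂ) (χ₀ : Conf n → ℂ)
    (hχ : ∀ σ, ‖χ₀ σ‖ ≤ 1) : WB (‖c₀‖ * K) (fun σ => (c₀ * χ₀ σ) • Φ σ) := by
  obtain ⟨ι, hι, χ, c, h1, h2, h3⟩ := h
  refine ⟨ι, hι, fun a σ => χ₀ σ * χ a σ, fun a => c₀ • c a, ?_, ?_, ?_⟩
  · intro a σ
    simp only [norm_mul]
    exact mul_le_one₀ (hχ σ) (norm_nonneg _) (h1 a σ)
  · intro σ
    simp only [h2, smul_sum, smul_smul]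
    refine sum_congr rfl fun a _ => ?_
    congr 1
    ring
  · simp only [norm_smul, ← mul_sum]
    exact mul_le_mul_of_nonneg_left h3 (norm_nonneg _)

lemma WB.map {K : ℝ} {Φ : Conf n → Hil n} (h : WB K Φ) (T : Hil n →ₗ[ℂ] Hil n)
    (hT : ∀ v, ‖T v‖ ≤ ‖v‖) : WB K (fun σ => T (Φ σ)) := by
  obtain ⟨ι, hι, χ, c, h1, h2, h3⟩ := h
  refine ⟨ι, hι, χ, fun a => T (c a), h1, ?_, ?_⟩
  · intro σ
    simp only [h2, map_sum, map_smul]
  · exact (sum_le_sum fun a _ => hT (c a)).trans h3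

lemma WB.eval {K : ℝ} {Φ : Conf n → Hil n} (h : WB K Φ) :
    ‖(WithLp.toLp 2 fun σ => Φ σ σ : Hil n)‖ ≤ K := by
  obtain ⟨ι, hι, χ, c, h1, h2, h3⟩ := h
  refine le_trans ?_ h3
  have : (WithLp.toLp 2 fun σ => Φ σ σ : Hil n) = ∑ a, diagL (χ a) (c a) := by
    ext σ
    rw [PiLp.toLp_apply, h2]
    simp
  rw [this]
  refine (norm_sum_le _ _).trans (sum_le_sum fun a _ => ?_)
  have := norm_diagL_le (zero_le_one) (h1 a) (c a)
  simpa using this

lemma norm_cosh_add_norm_sinh_le (w : ℂ) :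
    ‖Complex.cosh w‖ + ‖Complex.sinh w‖ ≤ Real.exp ‖w‖ := by
  rw [← Real.cosh_add_sinh]
  refine add_le_add ?_ ?_
  · rw [← (Complex.hasSum_cosh w).tsum_eq]
    refine tsum_of_norm_bounded (Real.hasSum_cosh ‖w‖) fun k => ?_
    simp
  · rw [← (Complex.hasSum_sinh w).tsum_eq]
    refine tsum_of_norm_bounded (Real.hasSum_sinh ‖w‖) fun k => ?_
    simp

lemma exp_mul_sign (w : ℂ) (ε : ℝ) (hε : ε * ε = 1) :
    Complex.exp (w * ε) = Complex.cosh w + ε * Complex.sinh w := by
  have h : ε = 1 ∨ ε = -1 := mul_self_eq_one_iff.1 hε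
  rcases h with rfl | rfl
  · simp [Complex.cosh_add_sinh]
  · simp only [Complex.ofReal_neg, Complex.ofReal_one, mul_neg, mul_one, neg_mul, one_mul,
      ← sub_eq_add_neg, Complex.cosh_sub_sinh]

/-- one elementary gate `exp(w r(σ) s)` -/
lemma WB.gate {K : ℝ} {Φ : Conf n → Hil n} (h : WB K Φ) (w : ℂ) (r s : Conf n → ℝ)
    (hr : ∀ σ, r σ * r σ = 1) (hs : ∀ σ, s σ * s σ = 1) :
    WB (Real.exp ‖w‖ * K) (fun σ => diagL (fun z => Complex.exp (w * (r σ * s z : ℝ))) (Φ σ)) := by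
  have hr1 : ∀ σ, ‖((r σ : ℝ) : ℂ)‖ ≤ 1 := fun σ => by
    rw [Complex.norm_real, Real.norm_eq_abs]
    rcases mul_self_eq_one_iff.1 (hr σ) with h | h <;> simp [h]
  have hs1 : ∀ σ, ‖((s σ : ℝ) : ℂ)‖ ≤ 1 := fun σ => by
    rw [Complex.norm_real, Real.norm_eq_abs]
    rcases mul_self_eq_one_iff.1 (hs σ) with h | h <;> simp [h]
  have hS : ∀ v : Hil n, ‖diagL (fun z => ((s z : ℝ) : ℂ)) v‖ ≤ ‖v‖ := fun v => by
    simpa using norm_diagL_le zero_le_one hs1 v
  have h1 := (h.smul (Complex.cosh w) (fun _ => 1) (by simp)).add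
    ((h.map _ hS).smul (Complex.sinh w) (fun σ => ((r σ : ℝ) : ℂ)) hr1)
  have h2 : ‖Complex.cosh w‖ * K + ‖Complex.sinh w‖ * K ≤ Real.exp ‖w‖ * K := by
    rw [← add_mul]
    exact mul_le_mul_of_nonneg_right (norm_cosh_add_norm_sinh_le w) h.nonneg
  refine (h1.mono h2).congr fun σ => ?_
  ext z
  have h3 := exp_mul_sign w (r σ * s z) (by
    rw [mul_mul_mul_comm, hr, hs, one_mul])
  simp only [diagL_apply, PiLp.add_apply, PiLp.smul_apply, smul_eq_mul, h3]
  push_cast
  ring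

/-- many elementary gates -/
lemma WB.gates {K : ℝ} {Φ : Conf n → Hil n} (h : WB K Φ) (w : ℂ) {ι : Type*} (S : Finset ι)
    (r s : ι → Conf n → ℝ)
    (hr : ∀ j σ, r j σ * r j σ = 1) (hs : ∀ j σ, s j σ * s j σ = 1) :
    WB (Real.exp (S.card * ‖w‖) * K)
      (fun σ => diagL (fun z => Complex.exp (w * (∑ j ∈ S, r j σ * s j z : ℝ))) (Φ σ)) := by
  classical
  induction S using Finset.induction_on with
  | empty =>
    refine (h.mono ?_).congr fun σ => ?_
    · simp
    · ext z; simp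
  | insert j S hj ih =>
    refine ((ih.gate w (r j) (s j) (hr j) (hs j)).mono (le_of_eq ?_)).congr fun σ => ?_
    · rw [card_insert_of_notMem hj, ← mul_assoc, ← Real.exp_add]
      push_cast
      ring_nf
    · ext z
      simp only [diagL_apply]
      rw [← mul_assoc, ← Complex.exp_add, sum_insert hj]
      push_cast
      ring_nf

/-- The overlap-type function `R_σ(z) = (1/n) ∑_{j ≠ i} σ_i σ_j z_i z_j`. -/
noncomputable def Rov (i : Fin n) (σ z : Conf n) : ℝ :=
  (n : ℝ)⁻¹ * ∑ j ∈ univ.erase i, (spin (σ i) * spin (σ j)) * (spin (z i) * spin (z j))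

lemma spin2_sq (i j : Fin n) (σ : Conf n) :
    (spin (σ i) * spin (σ j)) * (spin (σ i) * spin (σ j)) = 1 := by
  rw [mul_mul_mul_comm, spin_sq, spin_sq, one_mul]

lemma norm_exp_I_real (x : ℝ) : ‖Complex.exp (-(Complex.I * x))‖ = 1 := by
  rw [show -(Complex.I * (x : ℂ)) = ((-x : ℝ) : ℂ) * Complex.I by push_cast; ring]
  exact Complex.norm_exp_ofReal_mul_I _

theorem WB_circ (D : ℕ → Hil n →ₗ[ℂ] Hil n) (hD : ∀ k v, ‖D k v‖ ≤ ‖v‖) (γ : ℕ → ℝ)
    (E0 : Conf n → ℝ) (i : Fin n) (ζ : ℂ) (v : Hil n) (k : ℕ) :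
    WB (Real.exp ((∑ l ∈ range k, |γ l|) * ‖ζ‖) * ‖v‖)
      (fun σ => circ D γ (fun z => (E0 z : ℂ) - ζ * (Rov i σ z : ℝ)) v k) := by
  have hn : 0 < n := i.pos
  have hn' : (0 : ℝ) < n := by exact_mod_cast hn
  induction k with
  | zero => simpa [circ] using WB.const v
  | succ k ih =>
    have h1 := ih.gates (Complex.I * γ k * ζ / n) (univ.erase i)
      (fun j σ => spin (σ i) * spin (σ j)) (fun j z => spin (z i) * spin (z j))
      (fun j σ => spin2_sq i j σ) (fun j z => spin2_sq i j z)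
    have hph : ∀ v : Hil n, ‖diagL (fun z => Complex.exp (-(Complex.I * (γ k * E0 z : ℝ)))) v‖
        ≤ ‖v‖ := fun v =>
      (norm_diagL_eq (fun z => norm_exp_I_real _) v).le
    have h2 := (h1.map _ hph).map (D k) (hD k)
    refine (h2.mono ?_).congr fun σ => ?_
    · rw [← mul_assoc, ← Real.exp_add, sum_range_succ]
      refine mul_le_mul_of_nonneg_right (Real.exp_le_exp.2 ?_) (norm_nonneg _)
      have h3 : ((univ.erase i).card : ℝ) * ‖Complex.I * γ k * ζ / n‖ ≤ |γ k| * ‖ζ‖ := by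
        have h4 : ((univ.erase i).card : ℝ) ≤ n := by
          have : (univ.erase i).card ≤ n := by
            refine (card_le_univ _).trans ?_
            simp
          exact_mod_cast this
        have h5 : ‖Complex.I * γ k * ζ / n‖ = |γ k| * ‖ζ‖ / n := by
          simp
        rw [h5]
        calc ((univ.erase i).card : ℝ) * (|γ k| * ‖ζ‖ / n) ≤ n * (|γ k| * ‖ζ‖ / n) := by
              gcongr
          _ = |γ k| * ‖ζ‖ := by field_simp
      linarith
    · simp only [circ]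
      congr 1
      ext z
      simp only [phaseL, diagL_apply]
      rw [← mul_assoc, ← Complex.exp_add]
      congr 2
      simp only [Rov]
      generalize (∑ j ∈ univ.erase i, spin (σ i) * spin (σ j) * (spin (z i) * spin (z j)) : ℝ) = S
      push_cast
      have : (n : ℂ) ≠ 0 := by exact_mod_cast hn.ne'
      field_simp
      ring

/-- The measured-direction shifted amplitude, as an entire function. -/
noncomputable def Fsh (D : ℕ → Hil n →ₗ[ℂ] Hil n) (γ : ℕ → ℝ) (E0 : Conf n → ℝ) (i : Fin n)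
    (v : Hil n) (p : ℕ) (ζ : ℂ) : Hil n :=
  WithLp.toLp 2 fun σ => circ D γ (fun z => (E0 z : ℂ) - ζ * (Rov i σ z : ℝ)) v p σ

theorem norm_Fsh_le (D : ℕ → Hil n →ₗ[ℂ] Hil n) (hD : ∀ k v, ‖D k v‖ ≤ ‖v‖) (γ : ℕ → ℝ)
    (E0 : Conf n → ℝ) (i : Fin n) (v : Hil n) (p : ℕ) (ζ : ℂ) :
    ‖Fsh D γ E0 i v p ζ‖ ≤ Real.exp ((∑ l ∈ range p, |γ l|) * ‖ζ‖) * ‖v‖ :=
  (WB_circ D hD γ E0 i ζ v p).eval

lemma differentiable_circ (D : ℕ → Hil n →ₗ[ℂ] Hil n) (γ : ℕ → ℝ)
    (E0 R : Conf n → ℝ) (v : Hil n) (k : ℕ) :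
    Differentiable ℂ (fun ζ : ℂ => circ D γ (fun z => (E0 z : ℂ) - ζ * (R z : ℝ)) v k) := by
  induction k with
  | zero => simp only [circ]; exact differentiable_const v
  | succ k ih =>
    simp only [circ]
    have h1 : Differentiable ℂ (fun ζ : ℂ => phaseL (γ k) (fun z => (E0 z : ℂ) - ζ * (R z : ℝ))
        (circ D γ (fun z => (E0 z : ℂ) - ζ * (R z : ℝ)) v k)) := by
      rw [differentiable_euclidean]
      intro z
      simp only [phaseL, diagL_apply]
      have h2 := (differentiable_euclidean.1 ih) z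
      fun_prop
    exact (LinearMap.toContinuousLinearMap (D k)).differentiable.comp h1

theorem differentiable_Fsh (D : ℕ → Hil n →ₗ[ℂ] Hil n) (γ : ℕ → ℝ)
    (E0 : Conf n → ℝ) (i : Fin n) (v : Hil n) (p : ℕ) :
    Differentiable ℂ (Fsh D γ E0 i v p) := by
  rw [differentiable_euclidean]
  intro σ
  exact (differentiable_euclidean.1 (differentiable_circ D γ E0 (Rov i σ) v p)) σ

end Vale.Agent.P367.Gap
end

section

namespace Vale.Agent.P367.Gap

open Finset

variable {n : ℕ}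

/-- symmetric coupling matrix with zero diagonal -/
noncomputable def Ksym (J : Fin n × Fin n → ℝ) (i j : Fin n) : ℝ :=
  (√(n : ℝ))⁻¹ * (if i < j then J (i, j) else if j < i then J (j, i) else 0)

lemma Ksym_symm (J : Fin n × Fin n → ℝ) (i j : Fin n) : Ksym J i j = Ksym J j i := by
  unfold Ksym
  rcases lt_trichotomy i j with h | h | h
  · simp [h, h.not_gt]
  · simp [h]
  · simp [h, h.not_gt]

lemma Ksym_diag (J : Fin n × Fin n → ℝ) (i : Fin n) : Ksym J i i = 0 := by
  simp [Ksym]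

/-- quadratic form -/
noncomputable def Hq (J : Fin n × Fin n → ℝ) (x : Fin n → ℝ) : ℝ :=
  (√(n : ℝ))⁻¹ * ∑ i, ∑ j, if i < j then J (i, j) * x i * x j else 0

/-- local field -/
noncomputable def fld (J : Fin n × Fin n → ℝ) (x : Fin n → ℝ) (i : Fin n) : ℝ :=
  ∑ j, Ksym J i j * x j

lemma Hq_eq (J : Fin n × Fin n → ℝ) (x : Fin n → ℝ) :
    Hq J x = 1 / 2 * ∑ i, ∑ j, Ksym J i j * x i * x j := by
  have h1 : ∑ i, ∑ j, Ksym J i j * x i * x j
      = (√(n : ℝ))⁻¹ * ∑ i, ∑ j, (if i < j then J (i, j) * x i * x j else 0)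
      + (√(n : ℝ))⁻¹ * ∑ i, ∑ j, (if j < i then J (j, i) * x i * x j else 0) := by
    rw [mul_sum, mul_sum, ← sum_add_distrib]
    refine sum_congr rfl fun i _ => ?_
    rw [mul_sum, mul_sum, ← sum_add_distrib]
    refine sum_congr rfl fun j _ => ?_
    unfold Ksym
    rcases lt_trichotomy i j with h | h | h
    · simp [h, h.not_gt]; ring
    · simp [h]
    · simp [h, h.not_gt]; ring
  have h2 : ∑ i, ∑ j, (if j < i then J (j, i) * x i * x j else 0)
      = ∑ i, ∑ j, (if i < j then J (i, j) * x i * x j else 0) := by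
    rw [sum_comm]
    refine sum_congr rfl fun i _ => sum_congr rfl fun j _ => ?_
    split_ifs
    · ring
    · rfl
  rw [h1, h2, Hq]
  ring

lemma sum_mul_fld (J : Fin n × Fin n → ℝ) (x d : Fin n → ℝ) :
    ∑ i, d i * fld J x i = ∑ i, ∑ j, Ksym J i j * d i * x j := by
  refine sum_congr rfl fun i _ => ?_
  rw [fld, mul_sum]
  refine sum_congr rfl fun j _ => ?_
  ring

lemma Hq_half_fld (J : Fin n × Fin n → ℝ) (x : Fin n → ℝ) :
    Hq J x = 1 / 2 * ∑ i, x i * fld J x i := by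
  rw [Hq_eq, sum_mul_fld]

lemma Hq_add (J : Fin n × Fin n → ℝ) (x d : Fin n → ℝ) :
    Hq J (fun i => x i + d i) = Hq J x + ∑ i, d i * fld J x i + Hq J d := by
  rw [Hq_eq, Hq_eq, Hq_eq, sum_mul_fld]
  have h1 : ∑ i, ∑ j, Ksym J i j * (x i + d i) * (x j + d j)
      = ∑ i, ∑ j, Ksym J i j * x i * x j + ∑ i, ∑ j, Ksym J i j * d i * x j
        + ∑ i, ∑ j, Ksym J i j * x i * d j + ∑ i, ∑ j, Ksym J i j * d i * d j := by
    simp only [← sum_add_distrib]
    refine sum_congr rfl fun i _ => sum_congr rfl fun j _ => ?_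
    ring
  have h2 : ∑ i, ∑ j, Ksym J i j * x i * d j = ∑ i, ∑ j, Ksym J i j * d i * x j := by
    rw [sum_comm]
    refine sum_congr rfl fun i _ => sum_congr rfl fun j _ => ?_
    rw [Ksym_symm]
    ring
  rw [h1, h2]
  ring

lemma Hq_update (J : Fin n × Fin n → ℝ) (x : Fin n → ℝ) (i : Fin n) (t : ℝ) :
    Hq J (Function.update x i t) = Hq J x + (t - x i) * fld J x i := by
  have h0 : Function.update x i t = fun k => x k + Function.update (fun _ => (0 : ℝ)) i (t - x i) k := by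
    ext k
    by_cases h : k = i
    · subst h; simp
    · simp [h]
  rw [h0, Hq_add]
  have h1 : ∑ k, Function.update (fun _ => (0 : ℝ)) i (t - x i) k * fld J x k
      = (t - x i) * fld J x i := by
    rw [sum_eq_single i]
    · simp
    · intro k _ hk; simp [hk]
    · intro h; exact absurd (mem_univ i) h
  have h2 : Hq J (Function.update (fun _ => (0 : ℝ)) i (t - x i)) = 0 := by
    rw [Hq_eq]
    have : ∑ a, ∑ b, Ksym J a b * Function.update (fun _ => (0 : ℝ)) i (t - x i) a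
        * Function.update (fun _ => (0 : ℝ)) i (t - x i) b = 0 := by
      refine sum_eq_zero fun a _ => sum_eq_zero fun b _ => ?_
      by_cases ha : a = i
      · by_cases hb : b = i
        · subst ha; subst hb; rw [Ksym_diag]; ring
        · simp [hb]
      · simp [ha]
    rw [this, mul_zero]
  rw [h1, h2, add_zero]

/-- a multi-affine form on the cube is at most its value at some vertex -/
lemma exists_vertex (J : Fin n × Fin n → ℝ) (x : Fin n → ℝ) (hx : ∀ i, |x i| ≤ 1) :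
    ∃ σ : Conf n, Hq J x ≤ Hq J (fun i => spin (σ i)) := by
  have key : ∀ S : Finset (Fin n), ∃ y : Fin n → ℝ, (∀ i, |y i| ≤ 1) ∧
      (∀ i ∈ S, y i = 1 ∨ y i = -1) ∧ Hq J x ≤ Hq J y := by
    intro S
    induction S using Finset.induction_on with
    | empty => exact ⟨x, hx, by simp, le_rfl⟩
    | insert i S hi ih =>
      obtain ⟨y, hy1, hy2, hy3⟩ := ih
      have hyi := abs_le.1 (hy1 i)
      rcases le_total 0 (fld J y i) with hf | hf
      · refine ⟨Function.update y i 1, ?_, ?_, ?_⟩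
        · intro k
          by_cases hk : k = i
          · subst hk; simp
          · simpa [hk] using hy1 k
        · intro k hk
          by_cases hk' : k = i
          · subst hk'; simp
          · simpa [hk'] using hy2 k ((mem_insert.1 hk).resolve_left hk')
        · rw [Hq_update]
          have : 0 ≤ (1 - y i) * fld J y i := mul_nonneg (by linarith) hf
          linarith
      · refine ⟨Function.update y i (-1), ?_, ?_, ?_⟩
        · intro k
          by_cases hk : k = i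
          · subst hk; simp
          · simpa [hk] using hy1 k
        · intro k hk
          by_cases hk' : k = i
          · subst hk'; simp
          · simpa [hk'] using hy2 k ((mem_insert.1 hk).resolve_left hk')
        · rw [Hq_update]
          have : 0 ≤ (-1 - y i) * fld J y i := mul_nonneg_of_nonpos_of_nonpos (by linarith) hf
          linarith
  obtain ⟨y, _, hy2, hy3⟩ := key univ
  refine ⟨fun i => decide (y i = -1), ?_⟩
  have : (fun i => spin (decide (y i = -1))) = y := by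
    ext i
    rcases hy2 i (mem_univ i) with h | h
    · rw [h]; norm_num [spin]
    · rw [h]; norm_num [spin]
  rw [this]
  exact hy3

/-- The SK energy of a configuration. -/
noncomputable def skEq (J : Fin n × Fin n → ℝ) (σ : Conf n) : ℝ :=
  (√(n : ℝ))⁻¹ * ∑ i, ∑ j, if i < j then J (i, j) * spin (σ i) * spin (σ j) else 0

lemma skEq_eq (J : Fin n × Fin n → ℝ) (σ : Conf n) :
    skEq J σ = Hq J (fun i => spin (σ i)) := rfl

lemma Hq_neg (J : Fin n × Fin n → ℝ) (x : Fin n → ℝ) :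
    Hq (fun e => - J e) x = - Hq J x := by
  unfold Hq
  rw [← mul_neg, ← sum_neg_distrib]
  congr 1
  refine sum_congr rfl fun i _ => ?_
  rw [← sum_neg_distrib]
  refine sum_congr rfl fun j _ => ?_
  split_ifs <;> ring

/-- aligned local field -/
noncomputable def afld (J : Fin n × Fin n → ℝ) (σ : Conf n) (i : Fin n) : ℝ :=
  spin (σ i) * fld J (fun j => spin (σ j)) i

/-- flip lemma -/
theorem flip_gain (J : Fin n × Fin n → ℝ) (σ : Conf n) (δ q : ℝ) (hδ : 0 ≤ δ) (hq0 : 0 ≤ q)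
    (hq1 : q ≤ 1) :
    skEq J σ + 2 * q * δ * (univ.filter fun i => afld J σ i < -δ).card
      ≤ (⨆ τ : Conf n, skEq J τ) + 4 * q ^ 2 * ⨆ τ : Conf n, skEq (fun e => - J e) τ := by
  classical
  set S := univ.filter fun i => afld J σ i < -δ with hS
  set x : Fin n → ℝ := fun i => spin (σ i) with hx
  have hx1 : ∀ i, |x i| = 1 := fun i => abs_spin _
  set m : Fin n → ℝ := fun i => if i ∈ S then x i else 0 with hm
  have hm1 : ∀ i, |m i| ≤ 1 := by
    intro i
    simp only [hm]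
    split_ifs
    · exact (hx1 i).le
    · simp
  -- scaling
  have hscale : Hq J (fun i => (-(2 * q)) * m i) = 4 * q ^ 2 * Hq J m := by
    rw [Hq_eq, Hq_eq]
    have : ∑ i, ∑ j, Ksym J i j * (-(2 * q) * m i) * (-(2 * q) * m j)
        = 4 * q ^ 2 * ∑ i, ∑ j, Ksym J i j * m i * m j := by
      rw [mul_sum]
      refine sum_congr rfl fun i _ => ?_
      rw [mul_sum]
      refine sum_congr rfl fun j _ => ?_
      ring
    rw [this]; ring
  have hadd := Hq_add J x (fun i => (-(2 * q)) * m i)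
  rw [hscale] at hadd
  have hlin : ∑ i, (-(2 * q)) * m i * fld J x i ≥ 2 * q * δ * S.card := by
    have h1 : ∑ i, (-(2 * q)) * m i * fld J x i = ∑ i ∈ S, (-(2 * q)) * afld J σ i := by
      rw [← sum_subset (subset_univ S)]
      · refine sum_congr rfl fun i hi => ?_
        simp only [hm, hi, if_true, afld, hx]
        ring
      · intro i _ hi
        simp [hm, hi]
    rw [h1]
    have h2 : ∑ i ∈ S, (-(2 * q)) * afld J σ i ≥ ∑ _i ∈ S, 2 * q * δ := by
      refine sum_le_sum fun i hi => ?_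
      have : afld J σ i < -δ := (mem_filter.1 hi).2
      nlinarith
    rw [sum_const, nsmul_eq_mul] at h2
    linarith
  have hcube : ∀ i, |x i + (-(2 * q)) * m i| ≤ 1 := by
    intro i
    simp only [hm]
    split_ifs
    · have : x i + -(2 * q) * x i = x i * (1 - 2 * q) := by ring
      rw [this, abs_mul, hx1, one_mul, abs_le]
      constructor <;> linarith
    · simp [hx1]
  obtain ⟨τ, hτ⟩ := exists_vertex J _ hcube
  obtain ⟨τ', hτ'⟩ := exists_vertex (fun e => - J e) m hm1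
  have hM : Hq J (fun i => spin (τ i)) ≤ ⨆ τ : Conf n, skEq J τ :=
    le_ciSup (f := fun τ : Conf n => skEq J τ) (Set.finite_range _).bddAbove τ
  have hM' : Hq (fun e => - J e) (fun i => spin (τ' i)) ≤ ⨆ τ : Conf n, skEq (fun e => - J e) τ :=
    le_ciSup (f := fun τ : Conf n => skEq (fun e => - J e) τ) (Set.finite_range _).bddAbove τ'
  rw [Hq_neg] at hτ'
  have h5 : - Hq J m ≤ ⨆ τ : Conf n, skEq (fun e => - J e) τ := hτ'.trans hM'
  have h6 : -(4 * q ^ 2 * Hq J m) ≤ 4 * q ^ 2 * ⨆ τ : Conf n, skEq (fun e => - J e) τ := by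
    have := mul_le_mul_of_nonneg_left h5 (show (0 : ℝ) ≤ 4 * q ^ 2 by positivity)
    linarith
  have h7 : skEq J σ = Hq J x := rfl
  have h8 := hτ.trans hM
  rw [hadd] at h8
  rw [h7]
  linarith

end Vale.Agent.P367.Gap
end

section

open Finset Polynomial

namespace Vale.Agent.P367.Gap

lemma poly_extrap (N : ℕ) (Q : Polynomial ℂ) (hQ : Q.natDegree ≤ N) (M : ℝ)
    (hM : ∀ j ≤ N, ‖Q.eval (j : ℂ)‖ ≤ M) : ‖Q.eval ((2 * N : ℕ) : ℂ)‖ ≤ 8 ^ N * M := by
  have hM0 : 0 ≤ M := le_trans (norm_nonneg _) (hM 0 (Nat.zero_le _))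
  have h1 := shift_eq_sum_fwdDiff_iter (1 : ℂ) (fun x => Q.eval x) (2 * N) 0
  have h2 : (0 : ℂ) + (2 * N) • (1 : ℂ) = ((2 * N : ℕ) : ℂ) := by simp
  rw [h2] at h1
  have h3 : ∀ k ∈ range (2 * N + 1),
      ‖(2 * N).choose k • (fwdDiff (1 : ℂ))^[k] (fun x => Q.eval x) 0‖
        ≤ ((2 * N).choose k : ℝ) * (2 ^ N * M) := by
    intro k _
    rw [nsmul_eq_mul, norm_mul, Complex.norm_natCast]
    apply mul_le_mul_of_nonneg_left _ (Nat.cast_nonneg _)
    rcases lt_or_ge N k with hk | hk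
    · have : (fwdDiff (1 : ℂ))^[k] (fun x => Q.eval x) = 0 :=
        Polynomial.fwdDiff_iter_eq_zero_of_degree_lt (lt_of_le_of_lt hQ hk)
      rw [this]
      simp only [Pi.zero_apply, norm_zero]
      positivity
    · rw [fwdDiff_iter_eq_sum_shift]
      calc ‖∑ j ∈ range (k + 1), ((-1 : ℤ) ^ (k - j) * k.choose j) • Q.eval (0 + j • (1 : ℂ))‖
          ≤ ∑ j ∈ range (k + 1), ‖((-1 : ℤ) ^ (k - j) * k.choose j) • Q.eval (0 + j • (1 : ℂ))‖ :=
            norm_sum_le _ _
        _ ≤ ∑ j ∈ range (k + 1), (k.choose j : ℝ) * M := by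
            apply Finset.sum_le_sum
            intro j hj
            have hj' : j ≤ N := le_trans (Nat.lt_succ_iff.mp (mem_range.mp hj)) hk
            rw [zsmul_eq_mul, norm_mul]
            have e1 : ‖(((-1 : ℤ) ^ (k - j) * (k.choose j : ℤ) : ℤ) : ℂ)‖ = (k.choose j : ℝ) := by
              push_cast
              rw [norm_mul, norm_pow, norm_neg, norm_one, one_pow, one_mul, Complex.norm_natCast]
            rw [e1]
            apply mul_le_mul_of_nonneg_left _ (Nat.cast_nonneg _)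
            have := hM j hj'
            simpa using this
        _ = 2 ^ k * M := by
            rw [← Finset.sum_mul]
            congr 1
            exact_mod_cast Nat.sum_range_choose k
        _ ≤ 2 ^ N * M := by
            apply mul_le_mul_of_nonneg_right _ hM0
            exact pow_le_pow_right₀ (by norm_num) hk
  rw [h1]
  calc ‖∑ k ∈ range (2 * N + 1), (2 * N).choose k • (fwdDiff (1 : ℂ))^[k] (fun x => Q.eval x) 0‖
      ≤ ∑ k ∈ range (2 * N + 1),
        ‖(2 * N).choose k • (fwdDiff (1 : ℂ))^[k] (fun x => Q.eval x) 0‖ := norm_sum_le _ _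
    _ ≤ ∑ k ∈ range (2 * N + 1), ((2 * N).choose k : ℝ) * (2 ^ N * M) := Finset.sum_le_sum h3
    _ = 2 ^ (2 * N) * (2 ^ N * M) := by
        rw [← Finset.sum_mul]
        congr 1
        exact_mod_cast Nat.sum_range_choose (2 * N)
    _ = 8 ^ N * M := by
        rw [pow_mul, ← mul_assoc, ← mul_pow]
        norm_num

lemma entire_extrap (T S : ℝ) (hT : 0 ≤ T) (hS : 0 < S) (N : ℕ) (hN : 0 < N)
    (hN' : 50 * T * S ≤ N) (F : ℂ → ℂ) (hF : Differentiable ℂ F)
    (hb : ∀ z, ‖F z‖ ≤ Real.exp (T * ‖z‖)) (h0 : F 0 = 1) :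
    1 / 2 ≤ 8 ^ N * ∑ k ∈ range (N + 1), ‖F ((2 * S - k * (S / N) : ℝ) : ℂ)‖ := by
  have hNr : (0 : ℝ) < N := by exact_mod_cast hN
  set R : ℝ := 32 * S with hR
  have hR0 : 0 < R := by positivity
  set E : ℝ := Real.exp (T * R) with hE
  have hE0 : 0 < E := Real.exp_pos _
  set c : ℕ → ℂ := fun m => ((m.factorial : ℂ))⁻¹ * iteratedDeriv m F 0 with hc
  have hcb : ∀ m, ‖c m‖ ≤ E / R ^ m := by
    intro m
    have h := Complex.norm_iteratedDeriv_le_of_forall_mem_sphere_norm_le (c := 0) (R := R)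
      (C := E) m hR0 hF.diffContOnCl (by
        intro z hz
        have hz' : ‖z‖ = R := by simpa using hz
        have := hb z
        rwa [hz'] at this)
    have hm : (0 : ℝ) < m.factorial := by exact_mod_cast m.factorial_pos
    simp only [hc, norm_mul, norm_inv, Complex.norm_natCast]
    rw [inv_mul_le_iff₀ hm]
    calc ‖iteratedDeriv m F 0‖ ≤ m.factorial * E / R ^ m := h
      _ = m.factorial * (E / R ^ m) := by ring
  have hsum : ∀ z : ℂ, HasSum (fun m => c m * z ^ m) (F z) := by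
    intro z
    have h := Complex.hasSum_taylorSeries_of_entire hF 0 z
    have e : (fun m => c m * z ^ m)
        = fun n : ℕ => ((n.factorial : ℂ))⁻¹ • (z - 0) ^ n • iteratedDeriv n F 0 := by
      funext m
      simp only [hc, sub_zero, smul_eq_mul]
      ring
    rw [e]
    exact h
  set P : Polynomial ℂ := ∑ m ∈ range (N + 1), Polynomial.monomial m (c m) with hP
  have hPdeg : P.natDegree ≤ N := by
    apply Polynomial.natDegree_sum_le_of_forall_le
    intro m hm
    exact le_trans (Polynomial.natDegree_monomial_le _) (Nat.lt_succ_iff.mp (mem_range.mp hm))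
  have hPeval : ∀ z, P.eval z = ∑ m ∈ range (N + 1), c m * z ^ m := by
    intro z
    simp [hP, Polynomial.eval_finsetSum, Polynomial.eval_monomial]
  set tl : ℝ := E * (1 / 16) ^ (N + 1) * 2 with htl
  have htl0 : 0 ≤ tl := by positivity
  have htail : ∀ z : ℂ, ‖z‖ ≤ 2 * S → ‖P.eval z‖ ≤ ‖F z‖ + tl := by
    intro z hz
    have hs := hsum z
    have h1 : HasSum (fun m => c (m + (N + 1)) * z ^ (m + (N + 1)))
        (F z - ∑ m ∈ range (N + 1), c m * z ^ m) := by
      exact (hasSum_nat_add_iff' (N + 1)).mpr hs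
    have hterm : ∀ m, ‖c (m + (N + 1)) * z ^ (m + (N + 1))‖
        ≤ E * (1 / 16) ^ (N + 1) * (1 / 16) ^ m := by
      intro m
      rw [norm_mul, norm_pow]
      calc ‖c (m + (N + 1))‖ * ‖z‖ ^ (m + (N + 1))
          ≤ E / R ^ (m + (N + 1)) * (2 * S) ^ (m + (N + 1)) := by
            apply mul_le_mul (hcb _) (pow_le_pow_left₀ (norm_nonneg _) hz _) (by positivity)
              (by positivity)
        _ = E * ((2 * S) / R) ^ (m + (N + 1)) := by
            rw [div_pow]; ring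
        _ = E * (1 / 16) ^ (m + (N + 1)) := by
            congr 2
            rw [hR]
            field_simp
            norm_num
        _ = E * (1 / 16) ^ (N + 1) * (1 / 16) ^ m := by
            rw [pow_add]; ring
    have hgeo : HasSum (fun m : ℕ => E * (1 / 16 : ℝ) ^ (N + 1) * (1 / 16) ^ m)
        (E * (1 / 16) ^ (N + 1) * (1 - 1 / 16)⁻¹) :=
      (hasSum_geometric_of_lt_one (by norm_num) (by norm_num)).mul_left _
    have h2 : ‖F z - ∑ m ∈ range (N + 1), c m * z ^ m‖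
        ≤ E * (1 / 16) ^ (N + 1) * (1 - 1 / 16)⁻¹ := by
      rw [← h1.tsum_eq]
      exact tsum_of_norm_bounded hgeo hterm
    have h3 : E * (1 / 16 : ℝ) ^ (N + 1) * (1 - 1 / 16)⁻¹ ≤ tl := by
      rw [htl]
      apply mul_le_mul_of_nonneg_left _ (by positivity)
      norm_num
    rw [← hPeval] at h2
    calc ‖P.eval z‖ = ‖F z - (F z - P.eval z)‖ := by ring_nf
      _ ≤ ‖F z‖ + ‖F z - P.eval z‖ := norm_sub_le _ _
      _ ≤ ‖F z‖ + tl := by linarith
  -- the polynomial in the node variable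
  set Q : Polynomial ℂ :=
    P.comp (Polynomial.C ((2 * S : ℝ) : ℂ) - Polynomial.C ((S / N : ℝ) : ℂ) * Polynomial.X) with hQ
  have hQeval : ∀ y : ℂ, Q.eval y = P.eval (((2 * S : ℝ) : ℂ) - ((S / N : ℝ) : ℂ) * y) := by
    intro y
    simp [hQ, Polynomial.eval_comp]
  have hQdeg : Q.natDegree ≤ N := by
    have h1 : (Polynomial.C ((2 * S : ℝ) : ℂ)
        - Polynomial.C ((S / N : ℝ) : ℂ) * Polynomial.X).natDegree ≤ 1 := by
      apply le_trans (Polynomial.natDegree_sub_le _ _)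
      apply max_le
      · rw [Polynomial.natDegree_C]; exact Nat.zero_le _
      · refine le_trans (Polynomial.natDegree_C_mul_le _ _) ?_
        exact Polynomial.natDegree_X_le
    calc Q.natDegree ≤ P.natDegree * _ := Polynomial.natDegree_comp_le
      _ ≤ N * 1 := Nat.mul_le_mul hPdeg h1
      _ = N := by ring
  set M : ℝ := (∑ k ∈ range (N + 1), ‖F ((2 * S - k * (S / N) : ℝ) : ℂ)‖) + tl with hM
  have hnode : ∀ j ≤ N, ‖Q.eval (j : ℂ)‖ ≤ M := by
    intro j hj
    have hjr : (j : ℝ) ≤ N := by exact_mod_cast hj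
    have e1 : ((2 * S : ℝ) : ℂ) - ((S / N : ℝ) : ℂ) * (j : ℂ)
        = ((2 * S - j * (S / N) : ℝ) : ℂ) := by push_cast; ring
    rw [hQeval, e1]
    have hfrac : (j : ℝ) * (S / N) ≤ S := by
      rw [mul_div_assoc', div_le_iff₀ hNr, mul_comm]
      exact mul_le_mul_of_nonneg_left hjr hS.le
    have hnn : 0 ≤ (j : ℝ) * (S / N) := by positivity
    have hz : ‖((2 * S - j * (S / N) : ℝ) : ℂ)‖ ≤ 2 * S := by
      rw [Complex.norm_real, Real.norm_eq_abs, abs_of_nonneg (by linarith)]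
      linarith
    refine le_trans (htail _ hz) ?_
    rw [hM]
    have : ‖F ((2 * S - j * (S / N) : ℝ) : ℂ)‖
        ≤ ∑ k ∈ range (N + 1), ‖F ((2 * S - k * (S / N) : ℝ) : ℂ)‖ := by
      apply Finset.single_le_sum (f := fun k : ℕ => ‖F ((2 * S - k * (S / N) : ℝ) : ℂ)‖)
        (fun i _ => norm_nonneg _) (mem_range.mpr (Nat.lt_succ_of_le hj))
    linarith
  have hmain := poly_extrap N Q hQdeg M hnode
  have hQ0 : Q.eval ((2 * N : ℕ) : ℂ) = 1 := by
    rw [hQeval]
    have e1 : ((2 * S : ℝ) : ℂ) - ((S / N : ℝ) : ℂ) * ((2 * N : ℕ) : ℂ) = 0 := by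
      push_cast
      have : (N : ℂ) ≠ 0 := by exact_mod_cast hN.ne'
      field_simp
      ring
    rw [e1, hPeval]
    have h2 := hsum 0
    have h3 : F 0 = c 0 := by
      have h4 : HasSum (fun m => c m * (0 : ℂ) ^ m) (c 0 * (0 : ℂ) ^ 0) := by
        apply hasSum_single 0
        intro m hm
        simp [hm]
      have h5 := h2.unique h4
      simpa using h5
    rw [Finset.sum_eq_single 0]
    · simp [← h3, h0]
    · intro m _ hm
      simp [hm]
    · intro h
      simp at h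
  rw [hQ0, norm_one, hM, mul_add] at hmain
  have htailsmall : (8 : ℝ) ^ N * tl ≤ 1 / 8 := by
    rw [htl, hE]
    have hexp : Real.exp (T * R) ≤ 2 ^ N := by
      have h1 : T * R ≤ N * Real.log 2 := by
        have hlog : (0.64 : ℝ) ≤ Real.log 2 := by
          have := Real.log_two_gt_d9
          linarith
        have h2 : T * R = 50 * T * S * 0.64 := by rw [hR]; ring
        rw [h2]
        have hTS : 0 ≤ 50 * T * S := by positivity
        nlinarith
      calc Real.exp (T * R) ≤ Real.exp (N * Real.log 2) := Real.exp_le_exp.mpr h1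
        _ = 2 ^ N := by
          rw [mul_comm, Real.exp_mul, Real.exp_log (by norm_num)]
          norm_num
    have e : (8 : ℝ) ^ N * (2 ^ N * (1 / 16) ^ (N + 1) * 2) = 1 / 8 := by
      have h16 : (8 : ℝ) ^ N * 2 ^ N = 16 ^ N := by
        rw [← mul_pow]; norm_num
      calc (8 : ℝ) ^ N * (2 ^ N * (1 / 16) ^ (N + 1) * 2)
          = (8 ^ N * 2 ^ N) * ((1 / 16) ^ N) * (2 / 16) := by rw [pow_succ]; ring
        _ = (16 * (1 / 16)) ^ N * (2 / 16) := by rw [h16, ← mul_pow]
        _ = 1 / 8 := by norm_num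
    calc (8 : ℝ) ^ N * (Real.exp (T * R) * (1 / 16) ^ (N + 1) * 2)
        ≤ 8 ^ N * (2 ^ N * (1 / 16) ^ (N + 1) * 2) := by
          apply mul_le_mul_of_nonneg_left _ (by positivity)
          apply mul_le_mul_of_nonneg_right _ (by norm_num)
          apply mul_le_mul_of_nonneg_right hexp (by positivity)
      _ = 1 / 8 := e
  linarith

end Vale.Agent.P367.Gap
end

section

open MeasureTheory ProbabilityTheory Finset

namespace Vale.Agent.P367.Gap

variable {ι S : Type*} [Fintype ι] [Fintype S]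

/-- The standard Gaussian law on `ℝ^ι`. -/
noncomputable abbrev gLaw (ι : Type*) [Fintype ι] : Measure (ι → ℝ) :=
  Measure.pi fun _ => gaussianReal 0 1

lemma sum_norm_sq_le_of_pairing (f : S → ℂ) (c : ℝ)
    (h : ∀ y : S → ℂ, ∑ σ, ‖y σ‖ ^ 2 ≤ 1 → ‖∑ σ, y σ * f σ‖ ≤ c) :
    ∑ σ, ‖f σ‖ ^ 2 ≤ c ^ 2 := by
  set m : ℝ := ∑ σ, ‖f σ‖ ^ 2 with hm
  have hm0 : 0 ≤ m := Finset.sum_nonneg fun σ _ => by positivity
  rcases hm0.eq_or_lt with h0 | h0
  · rw [← h0]; positivity
  have hsq : 0 < Real.sqrt m := Real.sqrt_pos.mpr h0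
  have h1 := h (fun σ => ((Real.sqrt m)⁻¹ : ℝ) * (starRingEnd ℂ) (f σ)) (by
    have : ∀ σ, ‖(((Real.sqrt m)⁻¹ : ℝ) : ℂ) * (starRingEnd ℂ) (f σ)‖ ^ 2
        = m⁻¹ * ‖f σ‖ ^ 2 := by
      intro σ
      rw [norm_mul, mul_pow, Complex.norm_real, Real.norm_eq_abs, sq_abs, inv_pow,
        Real.sq_sqrt hm0, RCLike.norm_conj]
    simp only [this]
    rw [← Finset.mul_sum, ← hm, inv_mul_cancel₀ h0.ne'])
  have h2 : ∑ σ, (((Real.sqrt m)⁻¹ : ℝ) : ℂ) * (starRingEnd ℂ) (f σ) * f σ
      = ((Real.sqrt m : ℝ) : ℂ) := by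
    have : ∀ σ, (((Real.sqrt m)⁻¹ : ℝ) : ℂ) * (starRingEnd ℂ) (f σ) * f σ
        = (((Real.sqrt m)⁻¹ * ‖f σ‖ ^ 2 : ℝ) : ℂ) := by
      intro σ
      rw [mul_assoc, mul_comm ((starRingEnd ℂ) (f σ)), Complex.mul_conj, Complex.normSq_eq_norm_sq]
      push_cast
      ring
    simp only [this]
    rw [← Complex.ofReal_sum, ← Finset.mul_sum, ← hm]
    congr 1
    rw [inv_mul_eq_div, Real.div_sqrt]
  rw [h2, Complex.norm_real, Real.norm_eq_abs, abs_of_pos hsq] at h1
  calc m = Real.sqrt m ^ 2 := (Real.sq_sqrt hm0).symm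
    _ ≤ c ^ 2 := pow_le_pow_left₀ hsq.le h1 2

lemma cs_pairing (y f : S → ℂ) (hy : ∑ σ, ‖y σ‖ ^ 2 ≤ 1) :
    ‖∑ σ, y σ * f σ‖ ≤ Real.sqrt (∑ σ, ‖f σ‖ ^ 2) := by
  calc ‖∑ σ, y σ * f σ‖ ≤ ∑ σ, ‖y σ‖ * ‖f σ‖ := by
        refine le_trans (norm_sum_le _ _) (le_of_eq ?_)
        simp only [norm_mul]
    _ ≤ Real.sqrt (∑ σ, ‖y σ‖ ^ 2) * Real.sqrt (∑ σ, ‖f σ‖ ^ 2) :=
        Real.sum_mul_le_sqrt_mul_sqrt _ _ _
    _ ≤ 1 * Real.sqrt (∑ σ, ‖f σ‖ ^ 2) := by
        apply mul_le_mul_of_nonneg_right _ (Real.sqrt_nonneg _)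
        rw [← Real.sqrt_one]
        exact Real.sqrt_le_sqrt hy
    _ = _ := one_mul _

/-- Scalar inequality used for the exponential moment. -/
lemma exp_split (s t A : ℝ) (hs : 0 < s) (hA : 0 < A) :
    Real.exp (-(s * t)) ≤ 1 + A * max (-t) 0 + s / (4 * A) * (1 + Real.exp (-(3 * s * t))) := by
  set x : ℝ := max (-t) 0 with hx
  have hx0 : 0 ≤ x := le_max_right _ _
  have h1 : Real.exp (-(s * t)) ≤ Real.exp (s * x) := by
    apply Real.exp_le_exp.mpr
    have : -t ≤ x := le_max_left _ _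
    nlinarith
  have h2 : Real.exp (s * x) ≤ 1 + s * x * Real.exp (s * x) := by
    have h := Real.add_one_le_exp (-(s * x))
    have h3 : Real.exp (-(s * x)) * Real.exp (s * x) = 1 := by
      rw [← Real.exp_add]; simp
    have h4 := Real.exp_pos (s * x)
    nlinarith
  have h3 : s * x * Real.exp (s * x)
      ≤ A * x + s / (4 * A) * Real.exp (3 * (s * x)) := by
    set q : ℝ := s * Real.exp (s * x) with hq
    have hq0 : 0 < q := by positivity
    have e1 : q ≤ A + q ^ 2 / (4 * A) := by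
      have : 0 ≤ (A - q / 2) ^ 2 / A := by positivity
      have e2 : (A - q / 2) ^ 2 / A = A + q ^ 2 / (4 * A) - q := by
        field_simp
        ring
      linarith
    have e3 : s * x ≤ Real.exp (s * x) := by
      have := Real.add_one_le_exp (s * x)
      linarith
    have e4 : Real.exp (3 * (s * x)) = Real.exp (s * x) ^ 3 := by
      rw [← Real.exp_nat_mul]; norm_num
    have e5 : x * (q ^ 2 / (4 * A)) ≤ s / (4 * A) * Real.exp (3 * (s * x)) := by
      rw [e4]
      have e6 : x * (q ^ 2 / (4 * A)) = s / (4 * A) * ((s * x) * Real.exp (s * x) ^ 2) := by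
        rw [hq]; ring
      rw [e6]
      apply mul_le_mul_of_nonneg_left _ (by positivity)
      calc (s * x) * Real.exp (s * x) ^ 2 ≤ Real.exp (s * x) * Real.exp (s * x) ^ 2 := by
            apply mul_le_mul_of_nonneg_right e3 (by positivity)
        _ = Real.exp (s * x) ^ 3 := by ring
    calc s * x * Real.exp (s * x) = x * q := by rw [hq]; ring
      _ ≤ x * (A + q ^ 2 / (4 * A)) := mul_le_mul_of_nonneg_left e1 hx0
      _ = A * x + x * (q ^ 2 / (4 * A)) := by ring
      _ ≤ _ := by linarith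
  have h4 : Real.exp (3 * (s * x)) ≤ 1 + Real.exp (-(3 * s * t)) := by
    rcases le_total (-t) 0 with h | h
    · have : x = 0 := max_eq_right h
      rw [this]
      simp only [mul_zero, Real.exp_zero]
      linarith [Real.exp_pos (-(3 * s * t))]
    · have : x = -t := max_eq_left h
      rw [this]
      have e : 3 * (s * -t) = -(3 * s * t) := by ring
      rw [e]
      linarith [Real.exp_pos (-(3 * s * t))]
  have h5 : s / (4 * A) * Real.exp (3 * (s * x))
      ≤ s / (4 * A) * (1 + Real.exp (-(3 * s * t))) :=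
    mul_le_mul_of_nonneg_left h4 (by positivity)
  linarith

/-- The linear functional `t_σ(J) = ∑_e u_σ(e) J_e`. -/
noncomputable def tt (u : S → ι → ℝ) (σ : S) (J : ι → ℝ) : ℝ := ∑ e, u σ e * J e

lemma measurable_tt (u : S → ι → ℝ) (σ : S) : Measurable (tt u σ) := by
  unfold tt
  fun_prop

lemma norm_sq_le_one {ψ : S → ℂ} (hnorm : ∑ σ, ‖ψ σ‖ ^ 2 = 1) (σ : S) : ‖ψ σ‖ ^ 2 ≤ 1 := by
  rw [← hnorm]
  exact Finset.single_le_sum (f := fun σ => ‖ψ σ‖ ^ 2) (fun i _ => by positivity) (mem_univ σ)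

section main

variable (ψ : (ι → ℝ) → S → ℂ) (u : S → ι → ℝ)

lemma integrable_exp_tt (r : ℝ) (σ : S) :
    Integrable (fun J => Real.exp (-(r * tt u σ J))) (gLaw ι) := by
  have h := integrable_exp_linear (ι := ι) (fun e => -(r * u σ e))
  refine h.congr (Filter.Eventually.of_forall fun J => ?_)
  simp only [tt, Finset.mul_sum, ← Finset.sum_neg_distrib]
  congr 1
  apply Finset.sum_congr rfl
  intro e _
  ring

lemma integrable_weight (hmeas : ∀ σ, Measurable fun J => ψ J σ)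
    (hnorm : ∀ J, ∑ σ, ‖ψ J σ‖ ^ 2 = 1) (r : ℝ) (σ : S) :
    Integrable (fun J => ‖ψ J σ‖ ^ 2 * Real.exp (-(r * tt u σ J))) (gLaw ι) := by
  refine (integrable_exp_tt u r σ).mono' ?_ (Filter.Eventually.of_forall fun J => ?_)
  · apply Measurable.aestronglyMeasurable
    have h1 := measurable_tt u σ
    have h2 := hmeas σ
    fun_prop
  · rw [norm_mul, Real.norm_eq_abs, Real.norm_eq_abs, abs_of_nonneg (by positivity),
      abs_of_pos (Real.exp_pos _)]
    calc ‖ψ J σ‖ ^ 2 * Real.exp (-(r * tt u σ J))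
        ≤ 1 * Real.exp (-(r * tt u σ J)) :=
          mul_le_mul_of_nonneg_right (norm_sq_le_one (hnorm J) σ) (Real.exp_pos _).le
      _ = _ := one_mul _

lemma integrable_mis (hmeas : ∀ σ, Measurable fun J => ψ J σ)
    (hnorm : ∀ J, ∑ σ, ‖ψ J σ‖ ^ 2 = 1) (σ : S) :
    Integrable (fun J => ‖ψ J σ‖ ^ 2 * max (-(tt u σ J)) 0) (gLaw ι) := by
  refine (integrable_exp_tt u 1 σ).mono' ?_ (Filter.Eventually.of_forall fun J => ?_)
  · apply Measurable.aestronglyMeasurable
    have h1 := measurable_tt u σ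
    have h2 := hmeas σ
    fun_prop
  · have h0 : 0 ≤ max (-(tt u σ J)) 0 := le_max_right _ _
    rw [norm_mul, Real.norm_eq_abs, Real.norm_eq_abs, abs_of_nonneg (by positivity),
      abs_of_nonneg h0]
    have h1 : max (-(tt u σ J)) 0 ≤ Real.exp (-(1 * tt u σ J)) := by
      apply max_le
      · have := Real.add_one_le_exp (-(1 * tt u σ J))
        linarith
      · exact (Real.exp_pos _).le
    calc ‖ψ J σ‖ ^ 2 * max (-(tt u σ J)) 0 ≤ 1 * max (-(tt u σ J)) 0 :=
          mul_le_mul_of_nonneg_right (norm_sq_le_one (hnorm J) σ) h0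
      _ ≤ _ := by rw [one_mul]; exact h1

/-- Weighted exponential moment. -/
noncomputable def Emom (r : ℝ) : ℝ :=
  ∫ J, ∑ σ, ‖ψ J σ‖ ^ 2 * Real.exp (-(r * tt u σ J)) ∂(gLaw ι)

/-- Squared norm of the shifted amplitudes. -/
noncomputable def Nsh (r : ℝ) : ℝ :=
  ∫ J, ∑ σ, ‖ψ (J - r • u σ) σ‖ ^ 2 ∂(gLaw ι)

/-- Mean misalignment. -/
noncomputable def Dmis : ℝ :=
  ∫ J, ∑ σ, ‖ψ J σ‖ ^ 2 * max (-(tt u σ J)) 0 ∂(gLaw ι)

variable {ψ u}

lemma Nsh_eq {κ : ℝ} (hu : ∀ σ, ∑ e, (u σ e) ^ 2 = κ) (hmeas : ∀ σ, Measurable fun J => ψ J σ)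
    (hnorm : ∀ J, ∑ σ, ‖ψ J σ‖ ^ 2 = 1) (r : ℝ) :
    Nsh ψ u r = Real.exp (-(κ * r ^ 2 / 2)) * Emom ψ u r := by
  unfold Nsh Emom
  rw [integral_finsetSum, integral_finsetSum, Finset.mul_sum]
  · apply Finset.sum_congr rfl
    intro σ _
    have h := integral_shift (r • u σ) (fun J => ‖ψ J σ‖ ^ 2)
    rw [h, ← integral_const_mul]
    apply integral_congr_ae
    refine Filter.Eventually.of_forall fun J => ?_
    have e1 : ∑ i, (r • u σ) i * J i = r * tt u σ J := by
      simp only [tt, Finset.mul_sum, Pi.smul_apply, smul_eq_mul]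
      apply Finset.sum_congr rfl
      intro e _
      ring
    have e2 : ∑ i, (r • u σ) i ^ 2 = κ * r ^ 2 := by
      rw [← hu σ, Finset.sum_mul]
      apply Finset.sum_congr rfl
      intro e _
      simp only [Pi.smul_apply, smul_eq_mul]
      ring
    simp only [e1, e2]
    rw [show -(r * tt u σ J) - κ * r ^ 2 / 2 = -(κ * r ^ 2 / 2) + -(r * tt u σ J) by ring,
      Real.exp_add]
    ring
  · intro σ _
    exact integrable_weight ψ u hmeas hnorm r σ
  · intro σ _
    refine (integrable_const (1 : ℝ)).mono' ?_ (Filter.Eventually.of_forall fun J => ?_)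
    · apply Measurable.aestronglyMeasurable
      have h2 : Measurable fun J : ι → ℝ => ψ (J - r • u σ) σ := by
        exact (hmeas σ).comp (measurable_id.sub_const _)
      exact h2.norm.pow_const 2
    · rw [Real.norm_eq_abs, abs_of_nonneg (by positivity)]
      exact norm_sq_le_one (hnorm _) σ

lemma Nsh_le {T : ℝ} (hmeas : ∀ σ, Measurable fun J => ψ J σ)
    (hsh : ∀ (J : ι → ℝ) (r : ℝ), ∑ σ, ‖ψ (J - r • u σ) σ‖ ^ 2 ≤ Real.exp (T * |r|) ^ 2)
    (r : ℝ) : Nsh ψ u r ≤ Real.exp (2 * T * |r|) := by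
  unfold Nsh
  have e : Real.exp (2 * T * |r|) = Real.exp (T * |r|) ^ 2 := by
    rw [← Real.exp_nat_mul]
    congr 1
    push_cast
    ring
  rw [e]
  have h1 : ∫ J, ∑ σ, ‖ψ (J - r • u σ) σ‖ ^ 2 ∂(gLaw ι)
      ≤ ∫ _, Real.exp (T * |r|) ^ 2 ∂(gLaw ι) := by
    apply integral_mono
    · refine (integrable_const (Real.exp (T * |r|) ^ 2)).mono' ?_
        (Filter.Eventually.of_forall fun J => ?_)
      · apply Measurable.aestronglyMeasurable
        apply Finset.measurable_fun_sum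
        intro σ _
        have h2 : Measurable fun J : ι → ℝ => ψ (J - r • u σ) σ := by
          exact (hmeas σ).comp (measurable_id.sub_const _)
        exact h2.norm.pow_const 2
      · rw [Real.norm_eq_abs, abs_of_nonneg (Finset.sum_nonneg fun σ _ => by positivity)]
        exact hsh J r
    · exact integrable_const _
    · intro J
      exact hsh J r
  simpa using h1

lemma Emom_le {κ T : ℝ} (hκ1 : κ ≤ 1) (hu : ∀ σ, ∑ e, (u σ e) ^ 2 = κ)
    (hmeas : ∀ σ, Measurable fun J => ψ J σ)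
    (hnorm : ∀ J, ∑ σ, ‖ψ J σ‖ ^ 2 = 1)
    (hsh : ∀ (J : ι → ℝ) (r : ℝ), ∑ σ, ‖ψ (J - r • u σ) σ‖ ^ 2 ≤ Real.exp (T * |r|) ^ 2)
    (r : ℝ) : Emom ψ u r ≤ Real.exp (r ^ 2 / 2 + 2 * T * |r|) := by
  have h1 := Nsh_eq hu hmeas hnorm r
  have h2 := Nsh_le hmeas hsh r
  have h3 : Emom ψ u r = Real.exp (κ * r ^ 2 / 2) * Nsh ψ u r := by
    rw [h1, ← mul_assoc, ← Real.exp_add]
    simp
  rw [h3, Real.exp_add]
  apply mul_le_mul _ h2 _ (Real.exp_pos _).le
  · apply Real.exp_le_exp.mpr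
    have : 0 ≤ r ^ 2 := sq_nonneg r
    nlinarith
  · unfold Nsh
    exact integral_nonneg fun J => Finset.sum_nonneg fun σ _ => by positivity

lemma Emom_small {κ T : ℝ} (hκ1 : κ ≤ 1) (hu : ∀ σ, ∑ e, (u σ e) ^ 2 = κ)
    (hmeas : ∀ σ, Measurable fun J => ψ J σ)
    (hnorm : ∀ J, ∑ σ, ‖ψ J σ‖ ^ 2 = 1)
    (hT : 0 ≤ T)
    (hsh : ∀ (J : ι → ℝ) (r : ℝ), ∑ σ, ‖ψ (J - r • u σ) σ‖ ^ 2 ≤ Real.exp (T * |r|) ^ 2)
    (s : ℝ) (hs : 0 < s)
    (hD : s * Real.exp (9 * s ^ 2 / 2 + 6 * T * s) * Dmis ψ u ≤ 1 / 2) :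
    Emom ψ u s ≤ 2 := by
  set Y : ℝ := Real.exp (9 * s ^ 2 / 2 + 6 * T * s) with hY
  have hY1 : 1 ≤ Y := by
    rw [hY]
    apply Real.one_le_exp
    positivity
  set A : ℝ := s * Y with hA
  have hA0 : 0 < A := by positivity
  have h3 : Emom ψ u (3 * s) ≤ Y := by
    have h := Emom_le hκ1 hu hmeas hnorm hsh (3 * s)
    have e : (3 * s) ^ 2 / 2 + 2 * T * |3 * s| = 9 * s ^ 2 / 2 + 6 * T * s := by
      rw [abs_of_pos (by positivity)]
      ring
    rwa [e] at h
  have h4 : Emom ψ u s ≤ 1 + A * Dmis ψ u + s / (4 * A) * (1 + Emom ψ u (3 * s)) := by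
    have i1 : Integrable (fun J => ∑ σ, ‖ψ J σ‖ ^ 2 * max (-(tt u σ J)) 0) (gLaw ι) :=
      integrable_finsetSum _ fun σ _ => integrable_mis ψ u hmeas hnorm σ
    have i2 : Integrable (fun J => ∑ σ, ‖ψ J σ‖ ^ 2 * Real.exp (-(3 * s * tt u σ J)))
        (gLaw ι) := integrable_finsetSum _ fun σ _ => integrable_weight ψ u hmeas hnorm _ σ
    have e : 1 + A * Dmis ψ u + s / (4 * A) * (1 + Emom ψ u (3 * s))
        = ∫ J, (1 + A * (∑ σ, ‖ψ J σ‖ ^ 2 * max (-(tt u σ J)) 0)
          + s / (4 * A) * (1 + ∑ σ, ‖ψ J σ‖ ^ 2 * Real.exp (-(3 * s * tt u σ J)))) ∂(gLaw ι) := by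
      unfold Dmis Emom
      rw [integral_add, integral_add, integral_const_mul, integral_const_mul, integral_add]
      · simp
      · exact integrable_const _
      · exact i2
      · exact integrable_const _
      · exact i1.const_mul _
      · exact (integrable_const _).add (i1.const_mul _)
      · exact ((integrable_const _).add i2).const_mul _
    rw [e]
    unfold Emom
    apply integral_mono
    · exact integrable_finsetSum _ fun σ _ => integrable_weight ψ u hmeas hnorm _ σ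
    · exact ((integrable_const _).add (i1.const_mul _)).add
        (((integrable_const _).add i2).const_mul _)
    · intro J
      have h1 : ∀ σ, ‖ψ J σ‖ ^ 2 * Real.exp (-(s * tt u σ J))
          ≤ ‖ψ J σ‖ ^ 2 + A * (‖ψ J σ‖ ^ 2 * max (-(tt u σ J)) 0)
            + s / (4 * A) * (‖ψ J σ‖ ^ 2 + ‖ψ J σ‖ ^ 2 * Real.exp (-(3 * s * tt u σ J))) := by
        intro σ
        have := mul_le_mul_of_nonneg_left (exp_split s (tt u σ J) A hs hA0)
          (show 0 ≤ ‖ψ J σ‖ ^ 2 by positivity)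
        linarith
      calc ∑ σ, ‖ψ J σ‖ ^ 2 * Real.exp (-(s * tt u σ J))
          ≤ ∑ σ, (‖ψ J σ‖ ^ 2 + A * (‖ψ J σ‖ ^ 2 * max (-(tt u σ J)) 0)
            + s / (4 * A) * (‖ψ J σ‖ ^ 2 + ‖ψ J σ‖ ^ 2 * Real.exp (-(3 * s * tt u σ J)))) :=
            Finset.sum_le_sum fun σ _ => h1 σ
        _ = 1 + A * (∑ σ, ‖ψ J σ‖ ^ 2 * max (-(tt u σ J)) 0)
          + s / (4 * A) * (1 + ∑ σ, ‖ψ J σ‖ ^ 2 * Real.exp (-(3 * s * tt u σ J))) := by
            rw [Finset.sum_add_distrib, Finset.sum_add_distrib, ← Finset.mul_sum,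
              ← Finset.mul_sum, Finset.sum_add_distrib, hnorm J]
  have h5 : s / (4 * A) * (1 + Emom ψ u (3 * s)) ≤ 1 / 2 := by
    have e1 : s / (4 * A) = 1 / (4 * Y) := by
      rw [hA]; field_simp
    rw [e1]
    calc 1 / (4 * Y) * (1 + Emom ψ u (3 * s)) ≤ 1 / (4 * Y) * (Y + Y) := by
          apply mul_le_mul_of_nonneg_left _ (by positivity)
          linarith
      _ = 1 / 2 := by field_simp; ring
  linarith

/-- **Misalignment lemma.** -/
theorem Dmis_lower {κ T : ℝ} (hκ : 1 / 2 ≤ κ) (hκ1 : κ ≤ 1)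
    (hu : ∀ σ, ∑ e, (u σ e) ^ 2 = κ)
    (hmeas : ∀ σ, Measurable fun J => ψ J σ)
    (hnorm : ∀ J, ∑ σ, ‖ψ J σ‖ ^ 2 = 1) (hT : 0 ≤ T)
    (hG : ∀ J : ι → ℝ, ∃ G : ℂ → S → ℂ, (∀ σ, Differentiable ℂ fun z => G z σ) ∧
      (∀ (r : ℝ) (σ : S), G (r : ℂ) σ = ψ (J - r • u σ) σ) ∧
      (∀ (z : ℂ) (y : S → ℂ), ∑ σ, ‖y σ‖ ^ 2 ≤ 1 → ‖∑ σ, y σ * G z σ‖ ≤ Real.exp (T * ‖z‖))) :
    Real.exp (-(18 * (1200 * (1 + T)) ^ 2 + 12 * T * (1200 * (1 + T)))) / (4 * (1200 * (1 + T)))
      ≤ Dmis ψ u := by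
  by_contra hcon
  rw [not_le] at hcon
  set B : ℝ := 1200 * (1 + T) with hB
  have hB0 : 0 < B := by positivity
  have hB1 : 1200 ≤ B := by rw [hB]; linarith
  have hD0 : 0 ≤ Dmis ψ u := by
    unfold Dmis
    exact integral_nonneg fun J => Finset.sum_nonneg fun σ _ =>
      mul_nonneg (by positivity) (le_max_right _ _)
  have hsh : ∀ (J : ι → ℝ) (r : ℝ),
      ∑ σ, ‖ψ (J - r • u σ) σ‖ ^ 2 ≤ Real.exp (T * |r|) ^ 2 := by
    intro J r
    obtain ⟨G, _, hG2, hG3⟩ := hG J
    have := sum_norm_sq_le_of_pairing (G (r : ℂ)) (Real.exp (T * |r|)) (by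
      intro y hy
      have := hG3 (r : ℂ) y hy
      rwa [Complex.norm_real, Real.norm_eq_abs] at this)
    simpa only [hG2] using this
  -- exponential decay of the shifted norm
  have hdecay : ∀ s : ℝ, B ≤ s → s ≤ 2 * B → Nsh ψ u s ≤ 2 * Real.exp (-(B ^ 2 / 4)) := by
    intro s hs1 hs2
    have hs0 : 0 < s := lt_of_lt_of_le hB0 hs1
    have hE : Emom ψ u s ≤ 2 := by
      apply Emom_small hκ1 hu hmeas hnorm hT hsh s hs0
      have h1 : s * Real.exp (9 * s ^ 2 / 2 + 6 * T * s)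
          ≤ (2 * B) * Real.exp (18 * B ^ 2 + 12 * T * B) := by
        apply mul_le_mul hs2 _ (Real.exp_pos _).le (by positivity)
        apply Real.exp_le_exp.mpr
        have : s ^ 2 ≤ (2 * B) ^ 2 := pow_le_pow_left₀ hs0.le hs2 2
        nlinarith
      calc s * Real.exp (9 * s ^ 2 / 2 + 6 * T * s) * Dmis ψ u
          ≤ (2 * B) * Real.exp (18 * B ^ 2 + 12 * T * B)
            * (Real.exp (-(18 * B ^ 2 + 12 * T * B)) / (4 * B)) := by
            apply mul_le_mul h1 hcon.le hD0 (by positivity)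
        _ = (Real.exp (18 * B ^ 2 + 12 * T * B) * Real.exp (-(18 * B ^ 2 + 12 * T * B))) / 2 := by
            field_simp
            ring
        _ = 1 / 2 := by rw [← Real.exp_add]; simp
    rw [Nsh_eq hu hmeas hnorm s]
    calc Real.exp (-(κ * s ^ 2 / 2)) * Emom ψ u s
        ≤ Real.exp (-(B ^ 2 / 4)) * 2 := by
          apply mul_le_mul _ hE _ (Real.exp_pos _).le
          · apply Real.exp_le_exp.mpr
            have : B ^ 2 ≤ s ^ 2 := pow_le_pow_left₀ hB0.le hs1 2
            nlinarith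
          · unfold Emom
            exact integral_nonneg fun J => Finset.sum_nonneg fun σ _ => by positivity
      _ = _ := by ring
  -- number of nodes
  obtain ⟨N, hN1, hN2, hN0⟩ : ∃ N : ℕ, 50 * T * B ≤ N ∧ (N : ℝ) ≤ 50 * T * B + 2 ∧ 0 < N := by
    refine ⟨⌈50 * T * B⌉₊ + 1, ?_, ?_, Nat.succ_pos _⟩
    · push_cast
      have := Nat.le_ceil (50 * T * B)
      linarith
    · push_cast
      have := Nat.ceil_lt_add_one (show 0 ≤ 50 * T * B by positivity)
      linarith
  have hNr : (0 : ℝ) < N := by exact_mod_cast hN0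
  set x : ℕ → ℝ := fun k => 2 * B - k * (B / N) with hx
  have hxr : ∀ k ∈ range (N + 1), B ≤ x k ∧ x k ≤ 2 * B := by
    intro k hk
    have hkN : (k : ℝ) ≤ N := by exact_mod_cast Nat.lt_succ_iff.mp (mem_range.mp hk)
    have h1 : (k : ℝ) * (B / N) ≤ B := by
      rw [mul_div_assoc', div_le_iff₀ hNr, mul_comm]
      exact mul_le_mul_of_nonneg_left hkN hB0.le
    have h2 : 0 ≤ (k : ℝ) * (B / N) := by positivity
    constructor
    · simp only [hx]; linarith
    · simp only [hx]; linarith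
  have hpt : ∀ J : ι → ℝ, (1 / 2 : ℝ) ≤ 8 ^ N *
      ∑ k ∈ range (N + 1), Real.sqrt (∑ σ, ‖ψ (J - x k • u σ) σ‖ ^ 2) := by
    intro J
    obtain ⟨G, hG1, hG2, hG3⟩ := hG J
    have hy : ∑ σ, ‖(starRingEnd ℂ) (ψ J σ)‖ ^ 2 ≤ 1 := by
      simp only [RCLike.norm_conj]
      exact (hnorm J).le
    have h1 := entire_extrap T B hT hB0 N hN0 hN1
      (fun z => ∑ σ, (starRingEnd ℂ) (ψ J σ) * G z σ)
      (by
        apply Differentiable.fun_sum
        intro σ _
        exact (hG1 σ).const_mul _)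
      (by
        intro z
        exact hG3 z _ hy)
      (by
        have : ∀ σ, G 0 σ = ψ J σ := by
          intro σ
          have := hG2 0 σ
          simpa using this
        simp only [this]
        have e : ∀ σ, (starRingEnd ℂ) (ψ J σ) * ψ J σ = ((‖ψ J σ‖ ^ 2 : ℝ) : ℂ) := by
          intro σ
          rw [mul_comm, Complex.mul_conj, Complex.normSq_eq_norm_sq]
        simp only [e]
        rw [← Complex.ofReal_sum, hnorm J]
        simp)
    refine le_trans h1 ?_
    apply mul_le_mul_of_nonneg_left _ (by positivity)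
    apply Finset.sum_le_sum
    intro k _
    have h2 := cs_pairing (fun σ => (starRingEnd ℂ) (ψ J σ)) (G ((x k : ℝ) : ℂ)) hy
    simpa only [hG2] using h2
  set θ : ℝ := 2 * Real.exp (-(B ^ 2 / 8)) with hθ
  have hθ0 : 0 < θ := by positivity
  have hθ2 : θ ^ 2 = 4 * Real.exp (-(B ^ 2 / 4)) := by
    rw [hθ, mul_pow, ← Real.exp_nat_mul]
    norm_num
    ring_nf
  have hpt2 : ∀ J : ι → ℝ, (1 / 2 : ℝ) ≤ 8 ^ N *
      ∑ k ∈ range (N + 1), ((∑ σ, ‖ψ (J - x k • u σ) σ‖ ^ 2) / (2 * θ) + θ / 2) := by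
    intro J
    refine le_trans (hpt J) ?_
    apply mul_le_mul_of_nonneg_left _ (by positivity)
    apply Finset.sum_le_sum
    intro k _
    set m := ∑ σ, ‖ψ (J - x k • u σ) σ‖ ^ 2 with hm
    have hm0 : 0 ≤ m := Finset.sum_nonneg fun σ _ => by positivity
    have e1 : Real.sqrt m ^ 2 = m := Real.sq_sqrt hm0
    have e2 : 0 ≤ (Real.sqrt m - θ) ^ 2 / (2 * θ) := by positivity
    have e3 : (Real.sqrt m - θ) ^ 2 / (2 * θ) = m / (2 * θ) + θ / 2 - Real.sqrt m := by
      have : (Real.sqrt m - θ) ^ 2 = m - 2 * θ * Real.sqrt m + θ ^ 2 := by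
        rw [sub_sq, e1]; ring
      rw [this]
      field_simp
      ring
    linarith
  have hNi : ∀ k, Integrable (fun J => ∑ σ, ‖ψ (J - x k • u σ) σ‖ ^ 2) (gLaw ι) := by
    intro k
    refine (integrable_const (Real.exp (T * |x k|) ^ 2)).mono' ?_
      (Filter.Eventually.of_forall fun J => ?_)
    · apply Measurable.aestronglyMeasurable
      apply Finset.measurable_fun_sum
      intro σ _
      have h2 : Measurable fun J : ι → ℝ => ψ (J - x k • u σ) σ := by
        exact (hmeas σ).comp (measurable_id.sub_const _)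
      exact h2.norm.pow_const 2
    · rw [Real.norm_eq_abs, abs_of_nonneg (Finset.sum_nonneg fun σ _ => by positivity)]
      exact hsh J _
  have hint : (1 / 2 : ℝ) ≤ 8 ^ N * ∑ k ∈ range (N + 1), (Nsh ψ u (x k) / (2 * θ) + θ / 2) := by
    have h1 : ∫ _ : ι → ℝ, (1 / 2 : ℝ) ∂(gLaw ι) ≤ ∫ J, (8 ^ N *
      ∑ k ∈ range (N + 1), ((∑ σ, ‖ψ (J - x k • u σ) σ‖ ^ 2) / (2 * θ) + θ / 2)) ∂(gLaw ι) := by
      apply integral_mono (integrable_const _)
      · apply Integrable.const_mul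
        apply integrable_finsetSum
        intro k _
        exact ((hNi k).div_const _).add (integrable_const _)
      · intro J
        exact hpt2 J
    rw [integral_const_mul, integral_finsetSum] at h1
    · have h2 : ∀ k, ∫ J, ((∑ σ, ‖ψ (J - x k • u σ) σ‖ ^ 2) / (2 * θ) + θ / 2) ∂(gLaw ι)
          = Nsh ψ u (x k) / (2 * θ) + θ / 2 := by
        intro k
        rw [integral_add ((hNi k).div_const _) (integrable_const _), integral_div]
        simp [Nsh]
      simp only [h2] at h1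
      simpa using h1
    · intro k _
      exact ((hNi k).div_const _).add (integrable_const _)
  have hfin : ∀ k ∈ range (N + 1), Nsh ψ u (x k) / (2 * θ) + θ / 2 ≤ θ := by
    intro k hk
    have h1 := hdecay (x k) (hxr k hk).1 (hxr k hk).2
    have h2 : Nsh ψ u (x k) ≤ θ ^ 2 := by
      rw [hθ2]
      have := Real.exp_pos (-(B ^ 2 / 4))
      linarith
    have h3 : Nsh ψ u (x k) / (2 * θ) ≤ θ / 2 := by
      rw [div_le_iff₀ (by positivity)]
      calc Nsh ψ u (x k) ≤ θ ^ 2 := h2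
        _ = θ / 2 * (2 * θ) := by ring
    linarith
  have h6 : (1 / 2 : ℝ) ≤ 8 ^ N * ((N + 1) * θ) := by
    refine le_trans hint ?_
    apply mul_le_mul_of_nonneg_left _ (by positivity)
    calc ∑ k ∈ range (N + 1), (Nsh ψ u (x k) / (2 * θ) + θ / 2)
        ≤ ∑ k ∈ range (N + 1), θ := Finset.sum_le_sum hfin
      _ = (N + 1) * θ := by simp
  have h7 : (N : ℝ) + 1 ≤ 2 ^ N := by
    have := Nat.lt_two_pow_self (n := N)
    exact_mod_cast this
  have h8 : (1 / 2 : ℝ) ≤ 16 ^ N * θ := by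
    refine le_trans h6 ?_
    calc (8 : ℝ) ^ N * ((N + 1) * θ) ≤ 8 ^ N * (2 ^ N * θ) := by
          apply mul_le_mul_of_nonneg_left _ (by positivity)
          exact mul_le_mul_of_nonneg_right h7 hθ0.le
      _ = 16 ^ N * θ := by rw [← mul_assoc, ← mul_pow]; norm_num
  have h9 : (16 : ℝ) ^ N ≤ Real.exp (B ^ 2 / 8 - 2) := by
    have hl : Real.log 16 ≤ 2.8 := by
      have : Real.log 16 = 4 * Real.log 2 := by
        rw [show (16 : ℝ) = 2 ^ 4 by norm_num, Real.log_pow]
        norm_num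
      rw [this]
      have := Real.log_two_lt_d9
      linarith
    have e1 : (16 : ℝ) ^ N = Real.exp (N * Real.log 16) := by
      rw [mul_comm, Real.exp_mul, Real.exp_log (by norm_num)]
      norm_num
    rw [e1]
    apply Real.exp_le_exp.mpr
    have e2 : (N : ℝ) * Real.log 16 ≤ (50 * T * B + 2) * 2.8 := by
      apply mul_le_mul hN2 hl (Real.log_nonneg (by norm_num)) (by positivity)
    have e3 : B ^ 2 / 8 = 150 * T * B + 150 * B := by
      rw [hB]; ring
    have e4 : 0 ≤ T * B := by positivity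
    rw [e3]
    nlinarith
  have h10 : (16 : ℝ) ^ N * θ ≤ 2 * Real.exp (-2) := by
    calc (16 : ℝ) ^ N * θ ≤ Real.exp (B ^ 2 / 8 - 2) * θ :=
          mul_le_mul_of_nonneg_right h9 hθ0.le
      _ = 2 * (Real.exp (B ^ 2 / 8 - 2) * Real.exp (-(B ^ 2 / 8))) := by rw [hθ]; ring
      _ = 2 * Real.exp (-2) := by
          rw [← Real.exp_add]
          congr 2
          ring
  have h11 : Real.exp (-2) ≤ 1 / 5 := by
    have h1 : Real.exp (-2) = (Real.exp 1)⁻¹ ^ 2 := by
      rw [← Real.exp_neg, ← Real.exp_nat_mul]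
      norm_num
    rw [h1]
    have h2 := Real.exp_one_gt_d9
    have h3 : (Real.exp 1)⁻¹ ≤ (2.7)⁻¹ := by
      apply inv_anti₀ (by norm_num)
      linarith
    calc (Real.exp 1)⁻¹ ^ 2 ≤ ((2.7 : ℝ)⁻¹) ^ 2 := by
          apply pow_le_pow_left₀ (by positivity) h3
      _ ≤ 1 / 5 := by norm_num
  linarith

end main

end Vale.Agent.P367.Gap
end

section

open MeasureTheory ProbabilityTheory Finset Matrix

namespace Vale.Agent.P367.Gap

variable {n : ℕ}

/-- Pair character. -/
noncomputable def chi (s : Conf n) (e : Pair n) : ℝ := spin (s e.1.1) * spin (s e.1.2)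

/-- Incidence indicator. -/
noncomputable def inc (i : Fin n) (e : Pair n) : ℝ := if e.1.1 = i ∨ e.1.2 = i then 1 else 0

lemma sum_pair (f : Fin n → Fin n → ℝ) :
    ∑ e : Pair n, f e.1.1 e.1.2 = ∑ a, ∑ b, if a < b then f a b else 0 := by
  rw [← Fintype.sum_prod_type' (f := fun a b => if a < b then f a b else 0), ← Finset.sum_filter]
  exact (Finset.sum_subtype (univ.filter (fun e : Fin n × Fin n => e.1 < e.2)) (by simp)
    (fun e => f e.1 e.2)).symm

lemma sum_inc (g : Fin n → Fin n → ℝ) (hg : ∀ a b, g a b = g b a) (i : Fin n) :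
    ∑ e : Pair n, inc i e * g e.1.1 e.1.2 = ∑ j ∈ univ.erase i, g i j := by
  have h1 := sum_pair (n := n) (fun a b => (if a = i ∨ b = i then (1 : ℝ) else 0) * g a b)
  simp only [inc]
  rw [h1]
  have h2 : ∀ a b : Fin n, (if a < b then (if a = i ∨ b = i then (1 : ℝ) else 0) * g a b else 0)
      = (if a = i then (if i < b then g i b else 0) else 0)
        + (if b = i then (if a < i then g i a else 0) else 0) := by
    intro a b
    by_cases ha : a = i
    · subst ha
      by_cases hb : b = a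
      · subst hb; simp
      · simp [hb]
    · by_cases hb : b = i
      · subst hb
        simp [ha, hg a b]
      · simp [ha, hb]
  simp only [h2, Finset.sum_add_distrib]
  have h3 : ∑ a, ∑ b, (if a = i then (if i < b then g i b else 0) else 0)
      = ∑ b, (if i < b then g i b else 0) := by
    rw [Finset.sum_eq_single i]
    · simp
    · intro a _ ha; simp [ha]
    · intro h; exact absurd (mem_univ i) h
  have h4 : ∑ a, ∑ b, (if b = i then (if a < i then g i a else 0) else 0)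
      = ∑ a, (if a < i then g i a else 0) := by
    apply Finset.sum_congr rfl
    intro a _
    simp
  rw [h3, h4, ← Finset.sum_add_distrib]
  rw [← Finset.sum_filter_add_sum_filter_not univ (fun j => j ≠ i)]
  have h5 : ∑ x ∈ univ.filter (fun j => ¬ j ≠ i), ((if i < x then g i x else 0)
      + (if x < i then g i x else 0)) = 0 := by
    apply Finset.sum_eq_zero
    intro x hx
    have : x = i := by simpa using hx
    subst this
    simp
  rw [h5, add_zero]
  have h6 : univ.filter (fun j : Fin n => j ≠ i) = univ.erase i := by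
    ext j; simp
  rw [h6]
  apply Finset.sum_congr rfl
  intro j hj
  have hj' : j ≠ i := (Finset.mem_erase.mp hj).1
  rcases lt_or_gt_of_ne hj' with h | h
  · simp [h, h.not_gt]
  · simp [h, h.not_gt]

/-- The row direction attached to a configuration. -/
noncomputable def uvec (i : Fin n) (s : Conf n) (e : Pair n) : ℝ :=
  (Real.sqrt n)⁻¹ * (inc i e * chi s e)

lemma inv_sqrt_mul (n : ℕ) : (Real.sqrt n)⁻¹ * (Real.sqrt n)⁻¹ = ((n : ℝ))⁻¹ := by
  rw [← mul_inv, Real.mul_self_sqrt (Nat.cast_nonneg n)]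

lemma chi_sq (s : Conf n) (e : Pair n) : chi s e * chi s e = 1 := by
  unfold chi
  rw [mul_mul_mul_comm, spin_sq, spin_sq, one_mul]

lemma inc_sq (i : Fin n) (e : Pair n) : inc i e * inc i e = inc i e := by
  unfold inc
  split_ifs <;> simp

lemma skEnergy_shift (J : Pair n → ℝ) (r : ℝ) (i : Fin n) (s z : Conf n) :
    skEnergy (J - r • uvec i s) z = skEnergy J z - r * Rov i s z := by
  have h := sum_inc (n := n)
    (fun a b => (spin (s a) * spin (s b)) * (spin (z a) * spin (z b)))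
    (fun a b => by ring) i
  unfold Rov
  rw [← h]
  unfold skEnergy uvec
  simp only [Pi.sub_apply, Pi.smul_apply, smul_eq_mul, sub_mul, Finset.sum_sub_distrib, mul_sub]
  congr 1
  rw [← inv_sqrt_mul, mul_assoc, Finset.mul_sum, Finset.mul_sum, Finset.mul_sum, Finset.mul_sum]
  apply Finset.sum_congr rfl
  intro e _
  unfold chi
  ring

lemma uvec_sq (hn : 0 < n) (i : Fin n) (s : Conf n) :
    ∑ e, (uvec i s e) ^ 2 = 1 - (n : ℝ)⁻¹ := by
  have h := sum_inc (n := n) (fun _ _ => (1 : ℝ)) (fun a b => rfl) i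
  have h1 : ∀ e : Pair n, (uvec i s e) ^ 2 = (n : ℝ)⁻¹ * (inc i e * 1) := by
    intro e
    unfold uvec
    calc ((Real.sqrt n)⁻¹ * (inc i e * chi s e)) ^ 2
        = ((Real.sqrt n)⁻¹ * (Real.sqrt n)⁻¹) * ((inc i e * inc i e) * (chi s e * chi s e)) := by
          ring
      _ = _ := by rw [inv_sqrt_mul, inc_sq, chi_sq]
  simp only [h1]
  rw [← Finset.mul_sum, h]
  have hn' : (n : ℝ) ≠ 0 := by exact_mod_cast hn.ne'
  rw [Finset.sum_const, Finset.card_erase_of_mem (mem_univ i), Finset.card_univ, Fintype.card_fin,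
    nsmul_eq_mul, mul_one, Nat.cast_sub hn]
  push_cast
  field_simp

/-- Couplings on pairs extended to a full array. -/
noncomputable def ext (J : Pair n → ℝ) : Fin n × Fin n → ℝ :=
  fun e => if h : e.1 < e.2 then J ⟨e, h⟩ else 0

lemma ext_pair (J : Pair n → ℝ) (e : Pair n) : ext J (e.1.1, e.1.2) = J e := by
  unfold ext
  have : (e.1.1, e.1.2).1 < (e.1.1, e.1.2).2 := e.2
  rw [dif_pos this]

lemma skEq_ext (J : Pair n → ℝ) (s : Conf n) : skEq (ext J) s = skEnergy J s := by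
  unfold skEq skEnergy
  congr 1
  have h := sum_pair (n := n) (fun a b => ext J (a, b) * spin (s a) * spin (s b))
  rw [← h]
  apply Finset.sum_congr rfl
  intro e _
  rw [ext_pair]
  ring

lemma tt_eq (J : Pair n → ℝ) (i : Fin n) (s : Conf n) :
    tt (uvec i) s J = afld (ext J) s i := by
  unfold tt afld fld
  have h := sum_inc (n := n)
    (fun a b => Ksym (ext J) a b * (spin (s a) * spin (s b)))
    (fun a b => by rw [Ksym_symm]; ring) i
  have h2 : ∑ j ∈ univ.erase i, Ksym (ext J) i j * (spin (s i) * spin (s j))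
      = ∑ j, Ksym (ext J) i j * (spin (s i) * spin (s j)) := by
    rw [← Finset.add_sum_erase univ _ (mem_univ i), Ksym_diag]
    simp
  rw [h2] at h
  rw [Finset.mul_sum]
  have h3 : ∑ j, spin (s i) * (Ksym (ext J) i j * spin (s j))
      = ∑ j, Ksym (ext J) i j * (spin (s i) * spin (s j)) := by
    apply Finset.sum_congr rfl
    intro j _
    ring
  rw [h3, ← h]
  apply Finset.sum_congr rfl
  intro e _
  unfold uvec Ksym chi
  rw [if_pos e.2, ext_pair]
  ring

lemma costOp_eq (J : Pair n → ℝ) :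
    costOp J = Matrix.diagonal fun s => ((skEnergy J s : ℝ) : ℂ) := by
  unfold costOp pauliZ skEnergy
  ext s t
  by_cases hst : s = t
  · subst hst
    simp only [Matrix.smul_apply, Matrix.sum_apply, Matrix.diagonal_mul_diagonal,
      Matrix.diagonal_apply_eq, smul_eq_mul]
    push_cast
    rfl
  · simp [Matrix.smul_apply, Matrix.sum_apply, Matrix.diagonal_mul_diagonal,
      Matrix.diagonal_apply_ne _ hst]

lemma exp_cost (J : Pair n → ℝ) (g : ℝ) (v : Conf n → ℂ) :
    NormedSpace.exp ((-(Complex.I * (g : ℂ))) • costOp J) *ᵥ v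
      = fun s => Complex.exp (-(Complex.I * g * ((skEnergy J s : ℝ) : ℂ))) * v s := by
  rw [costOp_eq, ← Matrix.diagonal_smul, Matrix.exp_diagonal]
  funext s
  rw [Matrix.mulVec_diagonal]
  congr 1
  rw [Pi.coe_exp, ← Complex.exp_eq_exp_ℂ]
  congr 1
  simp only [Pi.smul_apply, smul_eq_mul]
  ring

lemma pauliX_herm (i : Fin n) : (pauliX i : Matrix (Conf n) (Conf n) ℂ).IsHermitian := by
  ext s t
  simp only [Matrix.conjTranspose_apply, pauliX, Matrix.of_apply]
  have h : (t = Function.update s i (!(s i))) ↔ (s = Function.update t i (!(t i))) := by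
    constructor
    · intro h
      subst h
      simp
    · intro h
      subst h
      simp
  by_cases h1 : s = Function.update t i (!(t i))
  · rw [if_pos h1, if_pos (h.mpr h1)]; simp
  · rw [if_neg h1, if_neg (fun h2 => h1 (h.mp h2))]; simp

lemma mixer_herm (n : ℕ) : (mixer n).IsHermitian := by
  unfold mixer Matrix.IsHermitian
  rw [Matrix.conjTranspose_sum]
  apply Finset.sum_congr rfl
  intro i _
  exact pauliX_herm i

/-- The mixing unitary. -/
noncomputable def mixU (n : ℕ) (b : ℝ) : Matrix (Conf n) (Conf n) ℂ :=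
  NormedSpace.exp ((-(Complex.I * (b : ℂ))) • mixer n)

lemma mixU_unitary (b : ℝ) : (mixU n b)ᴴ * mixU n b = 1 := by
  unfold mixU
  rw [← Matrix.exp_conjTranspose, Matrix.conjTranspose_smul, (mixer_herm n).eq]
  have h1 : star (-(Complex.I * (b : ℂ))) = Complex.I * b := by
    simp
  rw [h1, ← Matrix.exp_add_of_commute]
  · rw [neg_smul, add_neg_cancel, NormedSpace.exp_zero]
  · exact (Commute.refl (mixer n)).smul_left _ |>.smul_right _

lemma sum_norm_sq_eq (v : Conf n → ℂ) :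
    ((∑ s, ‖v s‖ ^ 2 : ℝ) : ℂ) = star v ⬝ᵥ v := by
  rw [dotProduct]
  push_cast
  apply Finset.sum_congr rfl
  intro s _
  simp only [Pi.star_apply, RCLike.star_def]
  rw [mul_comm, Complex.mul_conj, Complex.normSq_eq_norm_sq]
  push_cast
  rfl

lemma sum_norm_sq_mulVec (U : Matrix (Conf n) (Conf n) ℂ) (hU : Uᴴ * U = 1) (v : Conf n → ℂ) :
    ∑ s, ‖(U *ᵥ v) s‖ ^ 2 = ∑ s, ‖v s‖ ^ 2 := by
  have h : ((∑ s, ‖(U *ᵥ v) s‖ ^ 2 : ℝ) : ℂ) = ((∑ s, ‖v s‖ ^ 2 : ℝ) : ℂ) := by
    rw [sum_norm_sq_eq, sum_norm_sq_eq, Matrix.star_mulVec, Matrix.dotProduct_mulVec,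
      Matrix.vecMul_vecMul, hU, Matrix.vecMul_one]
  exact_mod_cast h

/-- Matrix action on the Hilbert space. -/
noncomputable def matL (U : Matrix (Conf n) (Conf n) ℂ) : Hil n →ₗ[ℂ] Hil n where
  toFun v := WithLp.toLp 2 (U *ᵥ (WithLp.ofLp v))
  map_add' u v := by
    simp [Matrix.mulVec_add]
  map_smul' c v := by
    simp [Matrix.mulVec_smul]

lemma norm_matL (U : Matrix (Conf n) (Conf n) ℂ) (hU : Uᴴ * U = 1) (v : Hil n) :
    ‖matL U v‖ = ‖v‖ := by
  rw [EuclideanSpace.norm_eq, EuclideanSpace.norm_eq]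
  congr 1
  exact sum_norm_sq_mulVec U hU (WithLp.ofLp v)

/-- Initial state in the Hilbert space. -/
noncomputable def plusH (n : ℕ) : Hil n := WithLp.toLp 2 (plusState n)

lemma norm_plusH (n : ℕ) : ‖plusH n‖ = 1 := by
  rw [EuclideanSpace.norm_eq]
  have h : ∑ s : Conf n, ‖plusH n s‖ ^ 2 = 1 := by
    have h1 : ∀ s : Conf n, ‖plusH n s‖ ^ 2 = (1 / 2 : ℝ) ^ n := by
      intro s
      have : plusH n s = (((Real.sqrt 2)⁻¹ ^ n : ℝ) : ℂ) := rfl
      rw [this, Complex.norm_real, Real.norm_eq_abs, sq_abs, ← pow_mul, mul_comm n 2, pow_mul,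
        inv_pow, Real.sq_sqrt (by norm_num)]
      norm_num
    simp only [h1, Finset.sum_const, Finset.card_univ, nsmul_eq_mul]
    rw [Fintype.card_fun, Fintype.card_bool, Fintype.card_fin]
    push_cast
    rw [← mul_pow]
    norm_num
  rw [h, Real.sqrt_one]

/-- Real energies as complex ones. -/
noncomputable def cE (J : Pair n → ℝ) : Conf n → ℂ := fun s => ((skEnergy J s : ℝ) : ℂ)

lemma norm_circ_real (D : ℕ → Hil n →ₗ[ℂ] Hil n) (hD : ∀ k v, ‖D k v‖ = ‖v‖) (γ : ℕ → ℝ)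
    (J : Pair n → ℝ) (v : Hil n) (k : ℕ) : ‖circ D γ (cE J) v k‖ = ‖v‖ := by
  induction k with
  | zero => rfl
  | succ k ih =>
    rw [circ, hD, phaseL, norm_diagL_eq, ih]
    intro s
    unfold cE
    rw [show -(Complex.I * (γ k : ℂ) * ((skEnergy J s : ℝ) : ℂ))
      = -(Complex.I * ((γ k * skEnergy J s : ℝ) : ℂ)) by push_cast; ring]
    exact norm_exp_I_real _

lemma continuous_skEnergy (s : Conf n) : Continuous fun J : Pair n → ℝ => skEnergy J s := by
  unfold skEnergy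
  fun_prop

lemma continuous_circ (D : ℕ → Hil n →ₗ[ℂ] Hil n) (γ : ℕ → ℝ) (v : Hil n) (k : ℕ) :
    Continuous fun J : Pair n → ℝ => circ D γ (cE J) v k := by
  induction k with
  | zero => exact continuous_const
  | succ k ih =>
    simp only [circ]
    have h1 : Continuous fun J : Pair n → ℝ => phaseL (γ k) (cE J) (circ D γ (cE J) v k) := by
      have h2 : ∀ s, Continuous fun J : Pair n → ℝ =>
          Complex.exp (-(Complex.I * (γ k : ℂ) * cE J s)) * (circ D γ (cE J) v k) s := by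
        intro s
        have h3 := continuous_skEnergy (n := n) s
        have h4 : Continuous fun J : Pair n → ℝ => (circ D γ (cE J) v k) s :=
          (PiLp.continuous_apply 2 _ s).comp ih
        unfold cE at *
        fun_prop
      have h5 : Continuous fun J : Pair n → ℝ =>
          (fun s => Complex.exp (-(Complex.I * (γ k : ℂ) * cE J s)) * (circ D γ (cE J) v k) s) :=
        continuous_pi h2
      exact (PiLp.continuous_toLp 2 _).comp h5
    exact (LinearMap.continuous_of_finiteDimensional (D k)).comp h1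

/-- The QAOA state is a circuit. -/
lemma circ_eq_qaoa (J : Pair n → ℝ) (p : ℕ) : ∀ (γ β : Fin p → ℝ) (γ' β' : ℕ → ℝ),
    (∀ k : Fin p, γ' k = γ k) → (∀ k : Fin p, β' k = β k) →
    circ (fun k => matL (mixU n (β' k))) γ' (cE J) (plusH n) p
      = WithLp.toLp 2 (qaoaState J p γ β) := by
  induction p with
  | zero =>
    intro γ β γ' β' _ _
    rfl
  | succ p ih =>
    intro γ β γ' β' hγ hβ
    rw [circ, ih (fun k => γ k.castSucc) (fun k => β k.castSucc) γ' β'
      (fun k => by have := hγ k.castSucc; simpa using this)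
      (fun k => by have := hβ k.castSucc; simpa using this)]
    rw [qaoaState, exp_cost]
    have h1 : γ' p = γ (Fin.last p) := by have := hγ (Fin.last p); simpa using this
    have h2 : β' p = β (Fin.last p) := by have := hβ (Fin.last p); simpa using this
    rw [← h1, ← h2]
    rfl

end Vale.Agent.P367.Gap
end

section

namespace Vale.Agent.P367.Lim

open Finset ComplexConjugate Matrix Nat Vale.Agent.P367.Gap

/-- exponential of a multiple of an involution -/
lemma exp_invol {m : Type} [Fintype m] [DecidableEq m] (A : Matrix m m ℂ) (hA : A * A = 1) (c : ℂ) :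
    NormedSpace.exp (c • A) = Complex.cosh c • (1 : Matrix m m ℂ) + Complex.sinh c • A := by
  have hp : ∀ k : ℕ, A ^ (2 * k) = 1 := by
    intro k
    rw [pow_mul, pow_two, hA, one_pow]
  have hp' : ∀ k : ℕ, A ^ (2 * k + 1) = A := by
    intro k
    rw [pow_succ, hp, one_mul]
  have h1 : HasSum (fun k : ℕ => (((2 * k)! : ℂ)⁻¹) • (c • A) ^ (2 * k))
      (Complex.cosh c • (1 : Matrix m m ℂ)) := by
    have h := (Complex.hasSum_cosh c).smul_const (1 : Matrix m m ℂ)
    refine h.congr_fun ?_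
    intro k
    rw [smul_pow, hp, smul_smul, div_eq_mul_inv, mul_comm]
  have h2 : HasSum (fun k : ℕ => (((2 * k + 1)! : ℂ)⁻¹) • (c • A) ^ (2 * k + 1))
      (Complex.sinh c • A) := by
    have h := (Complex.hasSum_sinh c).smul_const A
    refine h.congr_fun ?_
    intro k
    rw [smul_pow, hp', smul_smul, div_eq_mul_inv, mul_comm]
  have h3 := HasSum.even_add_odd (f := fun k : ℕ => ((k ! : ℂ)⁻¹) • (c • A) ^ k) h1 h2
  rw [NormedSpace.exp_eq_tsum (𝕂 := ℂ)]
  exact h3.tsum_eq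

variable {n : ℕ}

/-- flip one spin -/
def flp (i : Fin n) (s : Conf n) : Conf n := Function.update s i (!(s i))

lemma flp_flp (i : Fin n) (s : Conf n) : flp i (flp i s) = s := by
  unfold flp
  simp

lemma eq_flp_iff (i : Fin n) (s t : Conf n) : s = flp i t ↔ t = flp i s := by
  constructor
  · intro h; rw [h, flp_flp]
  · intro h; rw [h, flp_flp]

lemma pauliX_mul (i : Fin n) (M : Matrix (Conf n) (Conf n) ℂ) (s t : Conf n) :
    (pauliX i * M) s t = M (flp i s) t := by
  rw [Matrix.mul_apply]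
  have h : ∀ r, (pauliX i : Matrix (Conf n) (Conf n) ℂ) s r * M r t
      = if r = flp i s then M r t else 0 := by
    intro r
    have : (pauliX i : Matrix (Conf n) (Conf n) ℂ) s r = if s = flp i r then 1 else 0 := rfl
    rw [this]
    by_cases hr : r = flp i s
    · rw [if_pos hr, if_pos ((eq_flp_iff i s r).2 hr), one_mul]
    · rw [if_neg hr, if_neg (fun h => hr ((eq_flp_iff i s r).1 h)), zero_mul]
  simp_rw [h]
  simp

lemma pauliX_apply (i : Fin n) (s t : Conf n) :
    (pauliX i : Matrix (Conf n) (Conf n) ℂ) s t = if s = flp i t then 1 else 0 := rfl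

lemma flp_comm (i j : Fin n) (s : Conf n) : flp i (flp j s) = flp j (flp i s) := by
  by_cases h : i = j
  · subst h; rfl
  · unfold flp
    rw [Function.update_of_ne h, Function.update_of_ne (Ne.symm h), Function.update_comm h]

lemma pauliX_sq (i : Fin n) : (pauliX i : Matrix (Conf n) (Conf n) ℂ) * pauliX i = 1 := by
  ext s t
  rw [pauliX_mul, pauliX_apply, Matrix.one_apply]
  by_cases h : s = t
  · subst h; simp
  · rw [if_neg h, if_neg]
    intro h'
    apply h
    rw [← flp_flp i s, h', flp_flp]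

lemma pauliX_commute (i j : Fin n) :
    Commute (pauliX i : Matrix (Conf n) (Conf n) ℂ) (pauliX j) := by
  ext s t
  rw [pauliX_mul, pauliX_mul, pauliX_apply, pauliX_apply]
  by_cases h : flp i s = flp j t
  · rw [if_pos h, if_pos]
    rw [eq_flp_iff, flp_comm, h, flp_flp]
  · rw [if_neg h, if_neg]
    intro h'
    apply h
    rw [eq_flp_iff, flp_comm, h', flp_flp]

/-- one-site factor with complex parameter -/
noncomputable def mixc (c : ℂ) (b b' : Bool) : ℂ := if b = b' then Complex.cosh c else Complex.sinh c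

lemma mixc_eq (b : ℝ) (x y : Bool) : mixc (-(Complex.I * (b : ℂ))) x y = mix b x y := by
  unfold mixc mix
  have h1 : -(Complex.I * (b : ℂ)) = -(b * Complex.I) := by ring
  rw [h1, Complex.cosh_neg, Complex.sinh_neg, Complex.cosh_mul_I, Complex.sinh_mul_I]
  push_cast
  split_ifs
  · rfl
  · ring

lemma exp_sum_pauliX (c : ℂ) (S : Finset (Fin n)) (s t : Conf n) :
    NormedSpace.exp (c • ∑ i ∈ S, (pauliX i : Matrix (Conf n) (Conf n) ℂ)) s t
      = ∏ j, if j ∈ S then mixc c (s j) (t j) else if s j = t j then 1 else 0 := by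
  induction S using Finset.induction_on generalizing s with
  | empty =>
    simp only [sum_empty, smul_zero, NormedSpace.exp_zero, notMem_empty, if_false]
    rw [Matrix.one_apply]
    by_cases h : s = t
    · subst h; simp
    · rw [if_neg h]
      obtain ⟨j, hj⟩ := Function.ne_iff.1 h
      exact (prod_eq_zero (mem_univ j) (if_neg hj)).symm
  | insert a S ha ih =>
    rw [sum_insert ha, smul_add, Matrix.exp_add_of_commute, exp_invol _ (pauliX_sq a), add_mul,
      Matrix.add_apply, Matrix.smul_mul, Matrix.smul_mul, Matrix.smul_apply, Matrix.smul_apply,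
      one_mul, pauliX_mul, ih, ih, smul_eq_mul, smul_eq_mul]
    · rw [← mul_prod_erase univ _ (mem_univ a), ← mul_prod_erase univ _ (mem_univ a),
        ← mul_prod_erase univ _ (mem_univ a)]
      have h1 : ∏ x ∈ univ.erase a, (if x ∈ S then mixc c (flp a s x) (t x)
            else if flp a s x = t x then 1 else 0)
          = ∏ x ∈ univ.erase a, (if x ∈ S then mixc c (s x) (t x)
            else if s x = t x then 1 else 0) := by
        refine prod_congr rfl fun x hx => ?_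
        have : flp a s x = s x := Function.update_of_ne (ne_of_mem_erase hx) _ _
        rw [this]
      have h2 : ∏ x ∈ univ.erase a, (if x ∈ insert a S then mixc c (s x) (t x)
            else if s x = t x then 1 else 0)
          = ∏ x ∈ univ.erase a, (if x ∈ S then mixc c (s x) (t x)
            else if s x = t x then 1 else 0) := by
        refine prod_congr rfl fun x hx => ?_
        have : x ∈ insert a S ↔ x ∈ S := by
          rw [mem_insert]
          exact or_iff_right (ne_of_mem_erase hx)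
        simp only [this]
      rw [h1, h2, if_neg ha, if_neg ha, if_pos (mem_insert_self a S)]
      have h3 : flp a s a = !(s a) := Function.update_self _ _ _
      rw [h3]
      unfold mixc
      cases s a <;> cases t a <;> simp
    · have h : Commute (pauliX a : Matrix (Conf n) (Conf n) ℂ) (∑ i ∈ S, pauliX i) :=
        Commute.sum_right _ _ _ fun i _ => pauliX_commute a i
      exact (h.smul_left c).smul_right c

theorem mixU_apply (b : ℝ) (s t : Conf n) : mixU n b s t = ∏ j, mix b (s j) (t j) := by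
  unfold mixU mixer
  rw [exp_sum_pauliX]
  refine prod_congr rfl fun j _ => ?_
  rw [if_pos (mem_univ j), mixc_eq]

end Vale.Agent.P367.Lim
end

section

/-! P367 block B: density of trigonometric polynomials in `L^2` of a finite measure; a.e.
approximation of even (odd) functions by even (odd) trigonometric polynomials. -/

namespace Vale.Agent.P367.B

open MeasureTheory Filter Topology RealInnerProductSpace

section basic

variable {E : Type*} [NormedAddCommGroup E] [InnerProductSpace ℝ E]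

/-- cosine of a linear form -/
noncomputable def cosB (k : E) : BoundedContinuousFunction E ℝ :=
  BoundedContinuousFunction.ofNormedAddCommGroup (fun z => Real.cos (inner ℝ z k)) (by fun_prop) 1
    (fun z => by simpa using Real.abs_cos_le_one _)

/-- sine of a linear form -/
noncomputable def sinB (k : E) : BoundedContinuousFunction E ℝ :=
  BoundedContinuousFunction.ofNormedAddCommGroup (fun z => Real.sin (inner ℝ z k)) (by fun_prop) 1
    (fun z => by simpa using Real.abs_sin_le_one _)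

@[simp] lemma cosB_apply (k z : E) : cosB k z = Real.cos (inner ℝ z k) := rfl
@[simp] lemma sinB_apply (k z : E) : sinB k z = Real.sin (inner ℝ z k) := rfl

/-- even trigonometric polynomials -/
def trigE (E : Type*) [NormedAddCommGroup E] [InnerProductSpace ℝ E] :
    Submodule ℝ (BoundedContinuousFunction E ℝ) := Submodule.span ℝ (Set.range cosB)

/-- odd trigonometric polynomials -/
def trigO (E : Type*) [NormedAddCommGroup E] [InnerProductSpace ℝ E] :
    Submodule ℝ (BoundedContinuousFunction E ℝ) := Submodule.span ℝ (Set.range sinB)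

lemma trigE_even {p : BoundedContinuousFunction E ℝ} (hp : p ∈ trigE E) (z : E) : p (-z) = p z := by
  unfold trigE at hp
  induction hp using Submodule.span_induction with
  | mem x hx => obtain ⟨k, rfl⟩ := hx; simp
  | zero => simp
  | add x y _ _ hx hy => simp [hx, hy]
  | smul c x _ hx => simp [hx]

lemma trigO_odd {p : BoundedContinuousFunction E ℝ} (hp : p ∈ trigO E) (z : E) : p (-z) = -p z := by
  unfold trigO at hp
  induction hp using Submodule.span_induction with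
  | mem x hx => obtain ⟨k, rfl⟩ := hx; simp
  | zero => simp
  | add x y _ _ hx hy => simp [hx, hy]; ring
  | smul c x _ hx => simp [hx]

end basic

variable {E : Type*} [NormedAddCommGroup E] [InnerProductSpace ℝ E] [CompleteSpace E]
  [SecondCountableTopology E] [MeasurableSpace E] [BorelSpace E]

variable (μ : Measure E) [IsFiniteMeasure μ]

/-- a function orthogonal to all sines and cosines vanishes -/
lemma ae_zero_of_orth (g : Lp ℝ 2 μ) (hc : ∀ k : E, ∫ z, Real.cos (inner ℝ z k) * g z ∂μ = 0)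
    (hs : ∀ k : E, ∫ z, Real.sin (inner ℝ z k) * g z ∂μ = 0) : g = 0 := by
  have hgm : AEStronglyMeasurable g μ := Lp.aestronglyMeasurable g
  have hgi : Integrable g μ := (Lp.memLp g).integrable (by norm_num)
  obtain ⟨g0, hg0m, hg0⟩ := hgm
  have hg0i : Integrable g0 μ := hgi.congr hg0
  have hm : Measurable g0 := hg0m.measurable
  have hc0 : ∀ k : E, ∫ z, Real.cos (inner ℝ z k) * g0 z ∂μ = 0 := by
    intro k
    rw [← hc k]
    refine integral_congr_ae ?_
    filter_upwards [hg0] with z hz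
    rw [hz]
  have hs0 : ∀ k : E, ∫ z, Real.sin (inner ℝ z k) * g0 z ∂μ = 0 := by
    intro k
    rw [← hs k]
    refine integral_congr_ae ?_
    filter_upwards [hg0] with z hz
    rw [hz]
  let μ1 := μ.withDensity fun z => ENNReal.ofReal (g0 z)
  let μ2 := μ.withDensity fun z => ENNReal.ofReal (-g0 z)
  have f1 : IsFiniteMeasure μ1 := isFiniteMeasure_withDensity_ofReal hg0i.2
  have f2 : IsFiniteMeasure μ2 := isFiniteMeasure_withDensity_ofReal hg0i.neg.2
  have key : μ1 = μ2 := by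
    apply Measure.ext_of_charFun
    ext t
    rw [charFun_apply, charFun_apply, integral_withDensity_eq_integral_toReal_smul (by fun_prop)
      (by simp), integral_withDensity_eq_integral_toReal_smul (by fun_prop) (by simp)]
    have hb : ∀ z : E, ‖Complex.exp ((inner ℝ z t : ℝ) * Complex.I)‖ = 1 := by
      intro z
      rw [Complex.norm_exp_ofReal_mul_I]
    have hi1 : Integrable (fun z => (ENNReal.ofReal (g0 z)).toReal •
        Complex.exp ((inner ℝ z t : ℝ) * Complex.I)) μ := by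
      refine Integrable.mono' hg0i.abs (by fun_prop) (Eventually.of_forall fun z => ?_)
      rw [norm_smul, hb, mul_one, ENNReal.toReal_ofReal', Real.norm_eq_abs]
      rcases le_total 0 (g0 z) with h | h
      · rw [max_eq_left h]
      · rw [max_eq_right h, abs_zero]; exact abs_nonneg _
    have hi2 : Integrable (fun z => (ENNReal.ofReal (-g0 z)).toReal •
        Complex.exp ((inner ℝ z t : ℝ) * Complex.I)) μ := by
      refine Integrable.mono' hg0i.abs (by fun_prop) (Eventually.of_forall fun z => ?_)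
      rw [norm_smul, hb, mul_one, ENNReal.toReal_ofReal', Real.norm_eq_abs]
      rcases le_total 0 (g0 z) with h | h
      · rw [max_eq_right (by linarith), abs_zero]; exact abs_nonneg _
      · rw [max_eq_left (by linarith), abs_neg]
    rw [← sub_eq_zero, ← integral_sub hi1 hi2]
    have e : ∀ z, ((ENNReal.ofReal (g0 z)).toReal • Complex.exp ((inner ℝ z t : ℝ) * Complex.I)
        - (ENNReal.ofReal (-g0 z)).toReal • Complex.exp ((inner ℝ z t : ℝ) * Complex.I))
        = ((Real.cos (inner ℝ z t) * g0 z : ℝ) : ℂ)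
          + ((Real.sin (inner ℝ z t) * g0 z : ℝ) : ℂ) * Complex.I := by
      intro z
      rw [← sub_smul, Complex.exp_mul_I, ENNReal.toReal_ofReal', ENNReal.toReal_ofReal']
      have : max (g0 z) 0 - max (-g0 z) 0 = g0 z := by
        rcases le_total 0 (g0 z) with h | h
        · rw [max_eq_left h, max_eq_right (by linarith)]; ring
        · rw [max_eq_right h, max_eq_left (by linarith)]; ring
      rw [this, Complex.real_smul]
      push_cast
      ring
    simp_rw [e]
    have i1 : Integrable (fun z => Real.cos (inner ℝ z t) * g0 z) μ := by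
      refine Integrable.mono' hg0i.abs (by fun_prop) (Eventually.of_forall fun z => ?_)
      rw [norm_mul]
      have := Real.abs_cos_le_one (inner ℝ z t)
      simp only [Real.norm_eq_abs]
      nlinarith [abs_nonneg (g0 z)]
    have i2 : Integrable (fun z => Real.sin (inner ℝ z t) * g0 z) μ := by
      refine Integrable.mono' hg0i.abs (by fun_prop) (Eventually.of_forall fun z => ?_)
      rw [norm_mul]
      have := Real.abs_sin_le_one (inner ℝ z t)
      simp only [Real.norm_eq_abs]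
      nlinarith [abs_nonneg (g0 z)]
    rw [integral_add i1.ofReal (i2.ofReal.mul_const _), integral_mul_const]
    rw [integral_complex_ofReal, integral_complex_ofReal, hc0, hs0]
    simp
  have h3 : (fun z => ENNReal.ofReal (g0 z)) =ᵐ[μ] fun z => ENNReal.ofReal (-g0 z) :=
    (withDensity_eq_iff_of_sigmaFinite (by fun_prop) (by fun_prop)).1 key
  have h4 : g0 =ᵐ[μ] 0 := by
    filter_upwards [h3] with z hz
    by_contra hne
    rcases lt_or_gt_of_ne hne with h | h
    · have h5 : ENNReal.ofReal (g0 z) = 0 := ENNReal.ofReal_eq_zero.2 h.le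
      rw [h5] at hz
      have h6 := ENNReal.ofReal_eq_zero.1 hz.symm
      simp only [Pi.zero_apply] at h
      linarith
    · have h5 : ENNReal.ofReal (-g0 z) = 0 := ENNReal.ofReal_eq_zero.2 (by
        simp only [Pi.zero_apply] at h; linarith)
      rw [h5] at hz
      have h6 := ENNReal.ofReal_eq_zero.1 hz
      simp only [Pi.zero_apply] at h
      linarith
  exact Lp.ext ((hg0.trans h4).trans (Lp.coeFn_zero _ _ _).symm)


/-- trigonometric polynomials are dense in real `L^2` -/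
lemma trig_dense : ((trigE E ⊔ trigO E).map
    (BoundedContinuousFunction.toLp (E := ℝ) 2 μ ℝ).toLinearMap).topologicalClosure = ⊤ := by
  rw [Submodule.topologicalClosure_eq_top_iff, Submodule.eq_bot_iff]
  intro g hg
  rw [Submodule.mem_orthogonal] at hg
  have h1 : ∀ p ∈ trigE E ⊔ trigO E, ∫ z, p z * g z ∂μ = 0 := by
    intro p hp
    have h2 := hg (BoundedContinuousFunction.toLp (E := ℝ) 2 μ ℝ p)
      (Submodule.mem_map_of_mem (f := (BoundedContinuousFunction.toLp (E := ℝ) 2 μ ℝ).toLinearMap) hp)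
    rw [L2.inner_def] at h2
    rw [← h2]
    refine integral_congr_ae ?_
    filter_upwards [BoundedContinuousFunction.coeFn_toLp (p := 2) (𝕜 := ℝ) (μ := μ) (f := p)] with z hz
    rw [hz]
    simp [mul_comm]
  refine ae_zero_of_orth μ g (fun k => ?_) fun k => ?_
  · exact h1 (cosB k) (Submodule.mem_sup_left (Submodule.subset_span ⟨k, rfl⟩))
  · exact h1 (sinB k) (Submodule.mem_sup_right (Submodule.subset_span ⟨k, rfl⟩))

/-- approximation of bounded functions in the mean square -/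
lemma exists_trig (f : E → ℝ) (hf : Measurable f) {C : ℝ} (hC : ∀ z, |f z| ≤ C) {ε : ℝ} (hε : 0 < ε) :
    ∃ p ∈ trigE E, ∃ q ∈ trigO E, ∫ z, (f z - (p z + q z)) ^ 2 ∂μ < ε := by
  have hfm : MemLp f 2 μ := MemLp.of_bound hf.aestronglyMeasurable C
    (Eventually.of_forall fun z => by simpa using hC z)
  have h1 : hfm.toLp f ∈ closure (((trigE E ⊔ trigO E).map
    (BoundedContinuousFunction.toLp (E := ℝ) 2 μ ℝ).toLinearMap : Submodule ℝ (Lp ℝ 2 μ)) :
      Set (Lp ℝ 2 μ)) := by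
    rw [← Submodule.topologicalClosure_coe, trig_dense]
    trivial
  obtain ⟨y, hy, hd⟩ := Metric.mem_closure_iff.1 h1 (Real.sqrt ε) (Real.sqrt_pos.2 hε)
  obtain ⟨r, hr, rfl⟩ := hy
  obtain ⟨p, hp, q, hq, rfl⟩ := Submodule.mem_sup.1 hr
  refine ⟨p, hp, q, hq, ?_⟩
  rw [dist_eq_norm] at hd
  have h2 : ‖hfm.toLp f - (BoundedContinuousFunction.toLp (E := ℝ) 2 μ ℝ) (p + q)‖ ^ 2
      = ∫ z, (f z - (p z + q z)) ^ 2 ∂μ := by
    rw [← real_inner_self_eq_norm_sq, L2.inner_def]
    refine integral_congr_ae ?_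
    filter_upwards [BoundedContinuousFunction.coeFn_toLp (p := 2) (𝕜 := ℝ) (μ := μ) (f := p + q),
      hfm.coeFn_toLp, Lp.coeFn_sub (hfm.toLp f)
        ((BoundedContinuousFunction.toLp (E := ℝ) 2 μ ℝ) (p + q))] with z h3 h4 h5
    rw [h5, Pi.sub_apply, h3, h4]
    simp
  rw [← h2]
  have h3 : ‖hfm.toLp f - (BoundedContinuousFunction.toLp (E := ℝ) 2 μ ℝ) (p + q)‖ ^ 2
      < Real.sqrt ε ^ 2 := by
    have h4 := norm_nonneg (hfm.toLp f - (BoundedContinuousFunction.toLp (E := ℝ) 2 μ ℝ) (p + q))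
    exact pow_lt_pow_left₀ hd h4 (by norm_num)
  rwa [Real.sq_sqrt hε.le] at h3

omit [CompleteSpace E] [SecondCountableTopology E] [InnerProductSpace ℝ E] in
lemma sym_le (a b : E → ℝ) (ha : Measurable a) (hb : Measurable b) {C : ℝ}
    (hC : ∀ z, |a z| ≤ C ∧ |b z| ≤ C) (hae : ∀ z, a (-z) = a z) (hbo : ∀ z, b (-z) = -b z) :
    ∫ z, (a z) ^ 2 ∂μ + ∫ z, (b z) ^ 2 ∂μ ≤ ∫ z, (a z + b z) ^ 2 ∂(μ + μ.map (fun z => -z)) := by
  have hbd : ∀ g : E → ℝ, Measurable g → ∀ D : ℝ, (∀ z, |g z| ≤ D) → Integrable g μ := fun g hg D hD =>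
    (MemLp.of_bound (p := 1) hg.aestronglyMeasurable D
      (Eventually.of_forall fun z => by simpa using hD z)).integrable le_rfl
  have hsq : ∀ x : ℝ, ∀ D : ℝ, |x| ≤ D → |x ^ 2| ≤ D ^ 2 := by
    intro x D h
    rw [abs_pow]
    exact pow_le_pow_left₀ (abs_nonneg _) h 2
  have ia : Integrable (fun z => (a z) ^ 2) μ := hbd _ (ha.pow_const 2) (C ^ 2) fun z => hsq _ _ (hC z).1
  have ib : Integrable (fun z => (b z) ^ 2) μ := hbd _ (hb.pow_const 2) (C ^ 2) fun z => hsq _ _ (hC z).2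
  have hm : Measurable (fun z : E => (a z + b z) ^ 2) := (ha.add hb).pow_const 2
  have hab : ∀ z, |(a z + b z) ^ 2| ≤ (C + C) ^ 2 := fun z => hsq _ _ ((abs_add_le _ _).trans
    (add_le_add (hC z).1 (hC z).2))
  have i1 : Integrable (fun z => (a z + b z) ^ 2) μ := hbd _ hm _ hab
  have i2 : Integrable (fun z => (a z + b z) ^ 2) (μ.map fun z => -z) := by
    rw [integrable_map_measure hm.aestronglyMeasurable measurable_neg.aemeasurable]
    exact hbd _ (hm.comp measurable_neg) ((C + C) ^ 2) fun z => hab _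
  have i3 : Integrable (fun z => (a z - b z) ^ 2) μ := by
    refine hbd _ ((ha.sub hb).pow_const 2) ((C + C) ^ 2) fun z => hsq _ _ ?_
    exact (abs_sub _ _).trans (add_le_add (hC z).1 (hC z).2)
  rw [integral_add_measure i1 i2, integral_map measurable_neg.aemeasurable hm.aestronglyMeasurable]
  have e1 : ∫ z, (a (-z) + b (-z)) ^ 2 ∂μ = ∫ z, (a z - b z) ^ 2 ∂μ := by
    refine integral_congr_ae (Eventually.of_forall fun z => ?_)
    simp only [hae, hbo]
    ring
  rw [e1, ← integral_add i1 i3, ← integral_add ia ib]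
  refine integral_mono (ia.add ib) (i1.add i3) fun z => ?_
  simp only
  nlinarith [sq_nonneg (a z), sq_nonneg (b z)]

/-- even version -/
lemma exists_trig_even (f : E → ℝ) (hf : Measurable f) {C : ℝ} (hC : ∀ z, |f z| ≤ C)
    (he : ∀ z, f (-z) = f z) {ε : ℝ} (hε : 0 < ε) :
    ∃ p ∈ trigE E, ∫ z, (f z - p z) ^ 2 ∂μ < ε := by
  obtain ⟨p, hp, q, hq, h⟩ := exists_trig (μ + μ.map (fun z => -z)) f hf hC hε
  refine ⟨p, hp, lt_of_le_of_lt ?_ h⟩
  have h1 := sym_le μ (fun z => f z - p z) (fun z => -q z) (hf.sub p.continuous.measurable)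
    q.continuous.measurable.neg (C := C + ‖p‖ + ‖q‖) (fun z => ⟨?_, ?_⟩)
    (fun z => by simp [he, trigE_even hp]) (fun z => by simp [trigO_odd hq])
  · have h2 : 0 ≤ ∫ z, (-q z) ^ 2 ∂μ := integral_nonneg fun z => sq_nonneg _
    have h3 : ∫ z, (f z - p z + -q z) ^ 2 ∂(μ + μ.map (fun z => -z))
        = ∫ z, (f z - (p z + q z)) ^ 2 ∂(μ + μ.map (fun z => -z)) := by
      refine integral_congr_ae (Eventually.of_forall fun z => ?_)
      simp only
      ring
    linarith
  · have h2 := p.norm_coe_le_norm z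
    rw [Real.norm_eq_abs] at h2
    exact (abs_sub _ _).trans (by linarith [hC z, norm_nonneg q])
  · have h2 := q.norm_coe_le_norm z
    rw [Real.norm_eq_abs] at h2
    have h3 : 0 ≤ C := (abs_nonneg _).trans (hC 0)
    rw [abs_neg]
    linarith [norm_nonneg p]

/-- odd version -/
lemma exists_trig_odd (f : E → ℝ) (hf : Measurable f) {C : ℝ} (hC : ∀ z, |f z| ≤ C)
    (he : ∀ z, f (-z) = -f z) {ε : ℝ} (hε : 0 < ε) :
    ∃ p ∈ trigO E, ∫ z, (f z - p z) ^ 2 ∂μ < ε := by
  obtain ⟨p, hp, q, hq, h⟩ := exists_trig (μ + μ.map (fun z => -z)) f hf hC hε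
  refine ⟨q, hq, lt_of_le_of_lt ?_ h⟩
  have h1 := sym_le μ (fun z => -p z) (fun z => f z - q z) p.continuous.measurable.neg
    (hf.sub q.continuous.measurable) (C := C + ‖p‖ + ‖q‖) (fun z => ⟨?_, ?_⟩)
    (fun z => by simp [trigE_even hp]) (fun z => by simp [he, trigO_odd hq]; ring)
  · have h2 : 0 ≤ ∫ z, (-p z) ^ 2 ∂μ := integral_nonneg fun z => sq_nonneg _
    have h3 : ∫ z, (-p z + (f z - q z)) ^ 2 ∂(μ + μ.map (fun z => -z))
        = ∫ z, (f z - (p z + q z)) ^ 2 ∂(μ + μ.map (fun z => -z)) := by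
      refine integral_congr_ae (Eventually.of_forall fun z => ?_)
      simp only
      ring
    linarith
  · have h2 := p.norm_coe_le_norm z
    rw [Real.norm_eq_abs] at h2
    have h3 : 0 ≤ C := (abs_nonneg _).trans (hC 0)
    rw [abs_neg]
    linarith [norm_nonneg q]
  · have h2 := q.norm_coe_le_norm z
    rw [Real.norm_eq_abs] at h2
    exact (abs_sub _ _).trans (by linarith [hC z, norm_nonneg p])

omit [InnerProductSpace ℝ E] [CompleteSpace E] [SecondCountableTopology E] in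
/-- mean square approximation implies a.e. approximation along a sequence -/
lemma ae_seq (f : E → ℝ) (hf : Measurable f) {C : ℝ} (hC : ∀ z, |f z| ≤ C)
    (S : Submodule ℝ (BoundedContinuousFunction E ℝ))
    (h : ∀ ε > 0, ∃ p ∈ S, ∫ z, (f z - p z) ^ 2 ∂μ < ε) :
    ∃ p : ℕ → BoundedContinuousFunction E ℝ, (∀ n, p n ∈ S) ∧
      ∀ᵐ z ∂μ, Tendsto (fun n => p n z) atTop (𝓝 (f z)) := by
  choose p hp hi using fun n : ℕ => h ((1 / 2) ^ n) (by positivity)
  refine ⟨p, hp, ?_⟩
  have hm : ∀ n, Measurable fun z => (f z - p n z) ^ 2 := fun n =>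
    (hf.sub (p n).continuous.measurable).pow_const 2
  have hint : ∀ n, Integrable (fun z => (f z - p n z) ^ 2) μ := by
    intro n
    refine (MemLp.of_bound (p := 1) (hm n).aestronglyMeasurable ((C + ‖p n‖) ^ 2)
      (Eventually.of_forall fun z => ?_)).integrable le_rfl
    have h2 := (p n).norm_coe_le_norm z
    rw [Real.norm_eq_abs] at h2
    rw [Real.norm_eq_abs, abs_pow]
    exact pow_le_pow_left₀ (abs_nonneg _) ((abs_sub _ _).trans (add_le_add (hC z) h2)) 2
  have h1 : ∫⁻ z, ∑' n, ENNReal.ofReal ((f z - p n z) ^ 2) ∂μ < ⊤ := by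
    rw [lintegral_tsum fun n => (hm n).ennreal_ofReal.aemeasurable]
    have h2 : ∀ n, ∫⁻ z, ENNReal.ofReal ((f z - p n z) ^ 2) ∂μ ≤ ENNReal.ofReal ((1 / 2) ^ n) := by
      intro n
      rw [← ofReal_integral_eq_lintegral_ofReal (hint n)
        (Eventually.of_forall fun z => sq_nonneg _)]
      exact ENNReal.ofReal_le_ofReal (hi n).le
    refine lt_of_le_of_lt (ENNReal.tsum_le_tsum h2) ?_
    rw [← ENNReal.ofReal_tsum_of_nonneg (fun n => by positivity)
      (summable_geometric_of_lt_one (by norm_num) (by norm_num))]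
    exact ENNReal.ofReal_lt_top
  filter_upwards [ae_lt_top (Measurable.tsum fun n => (hm n).ennreal_ofReal) h1.ne] with z hz
  have h3 := ENNReal.tendsto_atTop_zero_of_tsum_ne_top hz.ne
  have h4 : Tendsto (fun n => (f z - p n z) ^ 2) atTop (𝓝 0) := by
    have h5 := (ENNReal.tendsto_toReal ENNReal.zero_ne_top).comp h3
    simp only [ENNReal.toReal_zero] at h5
    refine h5.congr fun n => ?_
    simp only [Function.comp]
    rw [ENNReal.toReal_ofReal (sq_nonneg _)]
  have h5 : Tendsto (fun n => |f z - p n z|) atTop (𝓝 0) := by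
    have h6 := h4.sqrt
    simp only [Real.sqrt_sq_eq_abs, Real.sqrt_zero] at h6
    exact h6
  have h6 := (tendsto_zero_iff_abs_tendsto_zero _).2 h5
  have h7 := (tendsto_const_nhds (x := f z)).sub h6
  simpa using h7

lemma ae_seq_even (f : E → ℝ) (hf : Measurable f) {C : ℝ} (hC : ∀ z, |f z| ≤ C)
    (he : ∀ z, f (-z) = f z) :
    ∃ p : ℕ → BoundedContinuousFunction E ℝ, (∀ n, p n ∈ trigE E) ∧
      ∀ᵐ z ∂μ, Tendsto (fun n => p n z) atTop (𝓝 (f z)) :=
  ae_seq μ f hf hC _ fun _ hε => exists_trig_even μ f hf hC he hε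

lemma ae_seq_odd (f : E → ℝ) (hf : Measurable f) {C : ℝ} (hC : ∀ z, |f z| ≤ C)
    (he : ∀ z, f (-z) = -f z) :
    ∃ p : ℕ → BoundedContinuousFunction E ℝ, (∀ n, p n ∈ trigO E) ∧
      ∀ᵐ z ∂μ, Tendsto (fun n => p n z) atTop (𝓝 (f z)) :=
  ae_seq μ f hf hC _ fun _ hε => exists_trig_odd μ f hf hC he hε

end Vale.Agent.P367.B
end

section

/-!
# P367, classical half: the control form of Theorem C

`G 0, G 1, …` i.i.d. standard Gaussians (`G 0` = the labels, `G (k+1)` = the field of the increment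
`v k`, normalised). State `X`, increments `v k = g k (X k) * G k`, magnetisation `M = ∑ v k`,
energy `∑ ‖v k‖₂ · E g (k+1) (X (k+1))`.
-/

open MeasureTheory ProbabilityTheory Filter Topology Set

namespace Vale.Agent.P367.Cl

open Vale.Agent.P146.Gap (SmB)

/-- The law of `N` independent standard Gaussians. -/
noncomputable abbrev γN (N : ℕ) : Measure (Fin N → ℝ) := Measure.pi fun _ => gaussianReal 0 1

/-- A finite sequence as a sequence. -/
noncomputable def ext {N : ℕ} (G : Fin N → ℝ) (k : ℕ) : ℝ := if h : k < N then G ⟨k, h⟩ else 0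

/-- The state before the step `k`; it depends on `G 0, …, G (k - 1)`. -/
noncomputable def cX (f : ℕ → ℝ → ℝ) (c : ℕ → ℝ) (G : ℕ → ℝ) : ℕ → ℝ
  | 0 => 0
  | k + 1 => cX f c G k + f k (cX f c G k) + c k * G k

/-- The increment of the step `k`. -/
noncomputable def cv (f : ℕ → ℝ → ℝ) (c : ℕ → ℝ) (g : ℕ → ℝ → ℝ) (G : ℕ → ℝ) (k : ℕ) : ℝ :=
  g k (cX f c G k) * G k

/-- The sum of the first `k` increments. -/
noncomputable def cM (f : ℕ → ℝ → ℝ) (c : ℕ → ℝ) (g : ℕ → ℝ → ℝ) (G : ℕ → ℝ) (k : ℕ) : ℝ :=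
  ∑ j ∈ Finset.range k, cv f c g G j

/-- The `L²` norm of `v k`. -/
noncomputable def cs (N : ℕ) (f : ℕ → ℝ → ℝ) (c : ℕ → ℝ) (g : ℕ → ℝ → ℝ) (k : ℕ) : ℝ :=
  √(∫ G, g k (cX f c (ext G) k) ^ 2 ∂(γN N))

/-- The mean of `g k (X k)`. -/
noncomputable def ca (N : ℕ) (f : ℕ → ℝ → ℝ) (c : ℕ → ℝ) (g : ℕ → ℝ → ℝ) (k : ℕ) : ℝ :=
  ∫ G, g k (cX f c (ext G) k) ∂(γN N)

/-- The admissible controls with `N` steps. -/
structure Ctl (N : ℕ) (f : ℕ → ℝ → ℝ) (c : ℕ → ℝ) (g : ℕ → ℝ → ℝ) : Prop where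
  fb : ∀ k, ∃ C, ∀ x, |f k x| ≤ C
  gb : ∀ k, ∃ C, ∀ x, |g k x| ≤ C
  fs : ∀ k, SmB (f k)
  gs : ∀ k, SmB (g k)
  fo : ∀ k x, f k (-x) = -f k x
  ge : ∀ k x, g k (-x) = g k x
  gp : ∀ k x, 0 < g k x
  c0 : ∀ k, 0 ≤ c k

/-- **Theorem C** (control form): the martingale algorithms reach the ground state energy. -/
def ThmC : Prop := ∀ P : ℝ, Tendsto Gap.groundValue atTop (𝓝 P) → ∀ ε : ℝ, 0 < ε →
  ∃ (N : ℕ) (f : ℕ → ℝ → ℝ) (c : ℕ → ℝ) (g : ℕ → ℝ → ℝ), 2 ≤ N ∧ Ctl N f c g ∧
    (∫ G, (max (|cM f c g (ext G) N| - 1) 0) ^ 2 ∂(γN N)) ≤ ε ∧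
    P - ε ≤ ∑ k ∈ Finset.range (N - 1), cs N f c g k * ca N f c g (k + 1)

end Vale.Agent.P367.Cl

theorem Vale.Agent.P367.Cl.eqforce_cX : True := by
  first
  | exact (fun _ => trivial) @Vale.Agent.P367.Cl.cX.eq_1
  | exact (fun _ => trivial) @Vale.Agent.P367.Cl.cX.eq_1.{0}
end

section

/-!
# P367, classical half: the value of the clipped magnetisation

The increments `v k` are orthogonal, the Gaussians `G k` are orthonormal, and the energy of the
clipped magnetisation is `∑ E[m v_k / s_k] E[m G_(k+1)]`.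
-/

open MeasureTheory ProbabilityTheory Filter Topology Set

namespace Vale.Agent.P367.Cl

open Vale.Agent.P146.Gap (SmB)

/-- clipping to `[-1, 1]` -/
noncomputable def clip (x : ℝ) : ℝ := max (-1) (min 1 x)

lemma clip_le (x : ℝ) : |clip x| ≤ 1 := by
  unfold clip
  rw [abs_le]
  exact ⟨le_max_left _ _, max_le (by norm_num) (min_le_left _ _)⟩

lemma clip_sub (x : ℝ) : (clip x - x) ^ 2 = (max (|x| - 1) 0) ^ 2 := by
  unfold clip
  rcases le_total x (-1) with h | h
  · rw [min_eq_right (by linarith), max_eq_left (by linarith), abs_of_nonpos (by linarith),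
      max_eq_left (by linarith)]
    ring
  · rcases le_total x 1 with h1 | h1
    · rw [min_eq_right h1, max_eq_right h, sub_self]
      rw [max_eq_right (by linarith [abs_le.2 ⟨h, h1⟩])]
    · rw [min_eq_left h1, max_eq_right (by norm_num), abs_of_nonneg (by linarith),
        max_eq_left (by linarith)]
      ring

lemma clip_cont : Continuous clip := by
  unfold clip
  fun_prop

/-! ### Independence of a coordinate -/

/-- the function does not depend on the coordinate `k` -/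
def Ind {N : ℕ} (k : Fin N) (F : (Fin N → ℝ) → ℝ) : Prop :=
  ∀ G x, F (Function.update G k x) = F G

lemma Ind.mul {N : ℕ} {k : Fin N} {F F' : (Fin N → ℝ) → ℝ} (h : Ind k F) (h' : Ind k F') :
    Ind k (fun G => F G * F' G) := fun G x => by
  change F _ * F' _ = _
  rw [h, h']

lemma pi_split {N : ℕ} (k : Fin N) {F : (Fin N → ℝ) → ℝ} (hF : Ind k F) (φ : ℝ → ℝ) :
    ∫ G, F G * φ (G k) ∂(γN N) = (∫ G, F G ∂(γN N)) * ∫ x, φ x ∂(gaussianReal 0 1) := by
  obtain ⟨n, rfl⟩ : ∃ n, N = n + 1 := ⟨N - 1, by have := k.2; omega⟩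
  have hmp := measurePreserving_piFinSuccAbove (α := fun _ : Fin (n + 1) => ℝ)
    (fun _ => gaussianReal 0 1) k
  set e := MeasurableEquiv.piFinSuccAbove (fun _ : Fin (n + 1) => ℝ) k with he
  have hFG : ∀ G, F G = F (k.insertNth 0 (e G).2) := by
    intro G
    rw [← hF (k.insertNth 0 (e G).2) (G k)]
    congr 1
    funext j
    rcases eq_or_ne j k with rfl | hj
    · rw [Function.update_self]
    · rw [Function.update_of_ne hj]
      obtain ⟨i, rfl⟩ := Fin.exists_succAbove_eq hj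
      rw [Fin.insertNth_apply_succAbove]
      rfl
  have h1 : ∫ G, F G * φ (G k) ∂(γN (n + 1)) =
      ∫ z, φ z.1 * F (k.insertNth 0 z.2) ∂((gaussianReal 0 1).prod (γN n)) := by
    rw [← hmp.integral_comp' (f := e)]
    refine integral_congr_ae (Filter.Eventually.of_forall fun G => ?_)
    change F G * φ (G k) = φ (e G).1 * F (k.insertNth 0 (e G).2)
    rw [hFG G, mul_comm]
    rfl
  have h2 : ∫ G, F G ∂(γN (n + 1)) =
      ∫ z, (fun _ : ℝ => (1 : ℝ)) z.1 * F (k.insertNth 0 z.2) ∂((gaussianReal 0 1).prod (γN n)) := by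
    rw [← hmp.integral_comp' (f := e)]
    refine integral_congr_ae (Filter.Eventually.of_forall fun G => ?_)
    change F G = 1 * F (k.insertNth 0 (e G).2)
    rw [hFG G, one_mul]
  rw [h1, h2, integral_prod_mul φ (fun y => F (k.insertNth 0 y)),
    integral_prod_mul (fun _ : ℝ => (1 : ℝ)) (fun y => F (k.insertNth 0 y))]
  simp only [integral_const, probReal_univ, smul_eq_mul, one_mul]
  ring

lemma eX_congr (f : ℕ → ℝ → ℝ) (c : ℕ → ℝ) {G G' : ℕ → ℝ} {k : ℕ} (h : ∀ j < k, G j = G' j) :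
    cX f c G k = cX f c G' k := by
  induction k with
  | zero => rfl
  | succ k ih =>
    rw [cX, cX, ih fun j hj => h j (by omega), h k (by omega)]

lemma ext_update {N : ℕ} (G : Fin N → ℝ) (k : Fin N) (x : ℝ) {j : ℕ} (hj : j ≠ k) :
    ext (Function.update G k x) j = ext G j := by
  unfold ext
  split_ifs with h
  · rw [Function.update_of_ne]
    intro e
    exact hj (by rw [← e])
  · rfl

lemma ext_fin {N : ℕ} (G : Fin N → ℝ) (k : Fin N) : ext G (k : ℕ) = G k := by
  unfold ext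
  rw [dif_pos k.2]

variable {N : ℕ} {f : ℕ → ℝ → ℝ} {c : ℕ → ℝ} {g : ℕ → ℝ → ℝ}

lemma ind_gX (k : Fin N) {j : ℕ} (hj : j ≤ k) (φ : ℝ → ℝ) :
    Ind k (fun G => φ (cX f c (ext G) j)) := by
  intro G x
  change φ _ = φ _
  rw [eX_congr f c fun i hi => ext_update G k x (by omega)]

lemma ind_v (k : Fin N) {j : ℕ} (hj : j < k) : Ind k (fun G => cv f c g (ext G) j) := by
  intro G x
  change g j _ * _ = g j _ * _
  rw [eX_congr f c fun i hi => ext_update G k x (by omega), ext_update G k x (by omega)]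

lemma ind_ext (k : Fin N) {j : ℕ} (hj : j ≠ k) : Ind k (fun G => ext G j) := fun G x =>
  ext_update G k x hj

lemma int_id : ∫ x, x ∂(gaussianReal 0 1) = 0 := integral_id_gaussianReal

lemma int_sq : ∫ x : ℝ, x ^ 2 ∂(gaussianReal 0 1) = 1 := by
  have h := variance_id_gaussianReal (μ := 0) (v := 1)
  rw [variance_eq_integral (by fun_prop)] at h
  simpa [integral_id_gaussianReal] using h

/-- the increments are orthogonal -/
lemma int_vv_lt {j k : ℕ} (hk : k < N) (hj : j < k) :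
    ∫ G, cv f c g (ext G) j * cv f c g (ext G) k ∂(γN N) = 0 := by
  have h := pi_split (⟨k, hk⟩ : Fin N) ((ind_v (f := f) (c := c) (g := g) ⟨k, hk⟩ hj).mul
    (ind_gX (f := f) (c := c) ⟨k, hk⟩ le_rfl (g k))) id
  rw [show (∫ x, id x ∂(gaussianReal 0 1)) = 0 from int_id, mul_zero] at h
  rw [← h]
  refine integral_congr_ae (Filter.Eventually.of_forall fun G => ?_)
  change cv f c g (ext G) j * (g k _ * ext G k) = _
  rw [show ext G k = G ⟨k, hk⟩ from ext_fin G ⟨k, hk⟩]
  simp only [id]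
  ring

lemma int_vv_self {k : ℕ} (hk : k < N) :
    ∫ G, cv f c g (ext G) k * cv f c g (ext G) k ∂(γN N) =
      ∫ G, g k (cX f c (ext G) k) ^ 2 ∂(γN N) := by
  have h := pi_split (⟨k, hk⟩ : Fin N) (ind_gX (f := f) (c := c) ⟨k, hk⟩ le_rfl
    (fun x => g k x ^ 2)) (fun x => x ^ 2)
  rw [int_sq, mul_one] at h
  rw [← h]
  refine integral_congr_ae (Filter.Eventually.of_forall fun G => ?_)
  change (g k _ * ext G k) * (g k _ * ext G k) = _
  rw [show ext G k = G ⟨k, hk⟩ from ext_fin G ⟨k, hk⟩]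
  ring

lemma int_GG_lt {j k : ℕ} (hk : k < N) (hj : j < k) :
    ∫ G, ext G j * ext G k ∂(γN N) = 0 := by
  have h := pi_split (⟨k, hk⟩ : Fin N) (ind_ext ⟨k, hk⟩ (show j ≠ k by omega)) id
  rw [show (∫ x, id x ∂(gaussianReal 0 1)) = 0 from int_id, mul_zero] at h
  rw [← h]
  refine integral_congr_ae (Filter.Eventually.of_forall fun G => ?_)
  change ext G j * ext G k = _
  rw [show ext G k = G ⟨k, hk⟩ from ext_fin G ⟨k, hk⟩]
  rfl

lemma int_GG_self {k : ℕ} (hk : k < N) : ∫ G, ext G k * ext G k ∂(γN N) = 1 := by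
  have h := pi_split (⟨k, hk⟩ : Fin N) (F := fun _ => 1) (fun _ _ => rfl) (fun x => x ^ 2)
  rw [int_sq, mul_one] at h
  simp only [integral_const, probReal_univ, smul_eq_mul, one_mul] at h
  rw [← h]
  refine integral_congr_ae (Filter.Eventually.of_forall fun G => ?_)
  change ext G k * ext G k = _
  rw [show ext G k = G ⟨k, hk⟩ from ext_fin G ⟨k, hk⟩]
  ring

/-- `E[v_j G_k]` -/
lemma int_vG_ne {j k : ℕ} (hj : j < N) (hk : k < N) (hjk : j ≠ k) :
    ∫ G, cv f c g (ext G) j * ext G k ∂(γN N) = 0 := by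
  rcases lt_or_gt_of_ne hjk with h1 | h1
  · have h := pi_split (⟨k, hk⟩ : Fin N) (ind_v (f := f) (c := c) (g := g) ⟨k, hk⟩ h1) id
    rw [show (∫ x, id x ∂(gaussianReal 0 1)) = 0 from int_id, mul_zero] at h
    rw [← h]
    refine integral_congr_ae (Filter.Eventually.of_forall fun G => ?_)
    change cv f c g (ext G) j * ext G k = _
    rw [show ext G k = G ⟨k, hk⟩ from ext_fin G ⟨k, hk⟩]
    rfl
  · have h := pi_split (⟨j, hj⟩ : Fin N) ((ind_gX (f := f) (c := c) ⟨j, hj⟩ le_rfl (g j)).mul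
      (ind_ext ⟨j, hj⟩ (show k ≠ j by omega))) id
    rw [show (∫ x, id x ∂(gaussianReal 0 1)) = 0 from int_id, mul_zero] at h
    rw [← h]
    refine integral_congr_ae (Filter.Eventually.of_forall fun G => ?_)
    change g j _ * ext G j * ext G k = _
    rw [show ext G j = G ⟨j, hj⟩ from ext_fin G ⟨j, hj⟩]
    simp only [id]
    ring

lemma int_vG_self {k : ℕ} (hk : k < N) :
    ∫ G, cv f c g (ext G) k * ext G k ∂(γN N) = ca N f c g k := by
  have h := pi_split (⟨k, hk⟩ : Fin N) (ind_gX (f := f) (c := c) ⟨k, hk⟩ le_rfl (g k))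
    (fun x => x ^ 2)
  rw [int_sq, mul_one] at h
  unfold ca
  rw [← h]
  refine integral_congr_ae (Filter.Eventually.of_forall fun G => ?_)
  change (g k _ * ext G k) * ext G k = _
  rw [show ext G k = G ⟨k, hk⟩ from ext_fin G ⟨k, hk⟩]
  ring

/-! ### Square integrability -/

lemma ext_meas (k : ℕ) : Measurable (fun G : Fin N → ℝ => ext G k) := by
  unfold ext
  split_ifs with h
  · exact measurable_pi_apply _
  · exact measurable_const

lemma cX_meas (hf : ∀ k, Continuous (f k)) (k : ℕ) :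
    Measurable (fun G : Fin N → ℝ => cX f c (ext G) k) := by
  induction k with
  | zero => exact measurable_const
  | succ k ih =>
    change Measurable (fun G : Fin N → ℝ => cX f c (ext G) k + f k (cX f c (ext G) k) +
      c k * ext G k)
    exact (ih.add ((hf k).measurable.comp ih)).add ((ext_meas k).const_mul _)

lemma ext_memLp (k : ℕ) : MemLp (fun G : Fin N → ℝ => ext G k) 2 (γN N) := by
  unfold ext
  split_ifs with h
  · have h1 : MemLp (id : ℝ → ℝ) 2 (gaussianReal 0 1) := memLp_id_gaussianReal 2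
    exact h1.comp_measurePreserving
      (measurePreserving_eval (μ := fun _ : Fin N => gaussianReal 0 1) ⟨k, h⟩)
  · exact memLp_const 0

lemma cv_memLp (h : Ctl N f c g) (k : ℕ) :
    MemLp (fun G : Fin N → ℝ => cv f c g (ext G) k) 2 (γN N) := by
  obtain ⟨C, hC⟩ := h.gb k
  have hm : Measurable (fun G : Fin N → ℝ => cv f c g (ext G) k) :=
    (((h.gs k).smooth.continuous.measurable.comp
      (cX_meas (fun j => (h.fs j).smooth.continuous) k))).mul (ext_meas k)
  refine MemLp.of_le_mul (c := C) (ext_memLp (N := N) k) hm.aestronglyMeasurable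
    (Filter.Eventually.of_forall fun G => ?_)
  change ‖g k _ * ext G k‖ ≤ _
  rw [norm_mul, Real.norm_eq_abs]
  exact mul_le_mul_of_nonneg_right (hC _) (norm_nonneg _)

lemma cM_memLp (h : Ctl N f c g) (k : ℕ) :
    MemLp (fun G : Fin N → ℝ => cM f c g (ext G) k) 2 (γN N) :=
  memLp_finsetSum _ fun j _ => cv_memLp h j

lemma clip_memLp (h : Ctl N f c g) (k : ℕ) :
    MemLp (fun G : Fin N → ℝ => clip (cM f c g (ext G) k)) 2 (γN N) := by
  refine MemLp.of_bound (C := 1) ?_ (Filter.Eventually.of_forall fun G => clip_le _)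
  exact clip_cont.comp_aestronglyMeasurable (cM_memLp h k).1

lemma cs_pos (h : Ctl N f c g) (k : ℕ) : 0 < cs N f c g k := by
  obtain ⟨C, hC⟩ := h.gb k
  have hm : Measurable (fun G : Fin N → ℝ => g k (cX f c (ext G) k)) :=
    (h.gs k).smooth.continuous.measurable.comp (cX_meas (fun j => (h.fs j).smooth.continuous) k)
  have hb : MemLp (fun G : Fin N → ℝ => g k (cX f c (ext G) k)) 2 (γN N) :=
    MemLp.of_bound hm.aestronglyMeasurable C (Filter.Eventually.of_forall fun G => hC _)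
  unfold cs
  refine Real.sqrt_pos.2 ?_
  rw [integral_pos_iff_support_of_nonneg (fun G => sq_nonneg _) hb.integrable_sq]
  have hs : Function.support (fun G : Fin N → ℝ => g k (cX f c (ext G) k) ^ 2) = univ := by
    ext G
    simp only [Function.mem_support, mem_univ, iff_true]
    exact pow_ne_zero _ (h.gp k _).ne'
  rw [hs, measure_univ]
  exact one_pos

/-! ### Orthonormal families and the quadratic form -/

section hilb

variable {E ι : Type*} [NormedAddCommGroup E] [InnerProductSpace ℝ E]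

lemma bilin_le {a b : ι → E} (ha : Orthonormal ℝ a) (hb : Orthonormal ℝ b) (s : Finset ι)
    (u v : E) : |∑ k ∈ s, inner ℝ (a k) u * inner ℝ (b k) v| ≤ ‖u‖ * ‖v‖ := by
  have h1 := ha.sum_inner_products_le u (s := s)
  have h2 := hb.sum_inner_products_le v (s := s)
  simp only [Real.norm_eq_abs, sq_abs] at h1 h2
  have h3 := Finset.sum_mul_sq_le_sq_mul_sq s (fun k => (inner ℝ (a k) u : ℝ))
    (fun k => (inner ℝ (b k) v : ℝ))
  refine abs_le_of_sq_le_sq ?_ (by positivity)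
  rw [mul_pow]
  exact h3.trans (mul_le_mul h1 h2 (Finset.sum_nonneg fun _ _ => sq_nonneg _) (sq_nonneg _))

lemma quad_diff {a b : ι → E} (ha : Orthonormal ℝ a) (hb : Orthonormal ℝ b) (s : Finset ι)
    (u v : E) : |∑ k ∈ s, inner ℝ (a k) u * inner ℝ (b k) u -
      ∑ k ∈ s, inner ℝ (a k) v * inner ℝ (b k) v| ≤ ‖u - v‖ * (‖u‖ + ‖v‖) := by
  have h1 := bilin_le ha hb s (u - v) u
  have h2 := bilin_le ha hb s v (u - v)
  have e : ∑ k ∈ s, inner ℝ (a k) u * inner ℝ (b k) u -
      ∑ k ∈ s, inner ℝ (a k) v * inner ℝ (b k) v =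
      ∑ k ∈ s, inner ℝ (a k) (u - v) * inner ℝ (b k) u +
      ∑ k ∈ s, inner ℝ (a k) v * inner ℝ (b k) (u - v) := by
    rw [← Finset.sum_sub_distrib, ← Finset.sum_add_distrib]
    refine Finset.sum_congr rfl fun k _ => ?_
    rw [inner_sub_right, inner_sub_right]
    ring
  rw [e]
  refine (abs_add_le _ _).trans ?_
  linarith

end hilb

lemma inner_toLp {u v : (Fin N → ℝ) → ℝ} (hu : MemLp u 2 (γN N)) (hv : MemLp v 2 (γN N)) :
    (inner ℝ (hu.toLp u) (hv.toLp v) : ℝ) = ∫ G, u G * v G ∂(γN N) := by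
  rw [MeasureTheory.L2.inner_def]
  refine integral_congr_ae ?_
  filter_upwards [hu.coeFn_toLp, hv.coeFn_toLp] with G h1 h2
  rw [h1, h2]
  simp [mul_comm]

/-- the normalised increments -/
noncomputable def psi (N : ℕ) (f : ℕ → ℝ → ℝ) (c : ℕ → ℝ) (g : ℕ → ℝ → ℝ) (G : ℕ → ℝ)
    (k : ℕ) : ℝ := cv f c g G k / cs N f c g k

lemma psi_memLp (h : Ctl N f c g) (k : ℕ) :
    MemLp (fun G : Fin N → ℝ => psi N f c g (ext G) k) 2 (γN N) := by
  have := (cv_memLp h k).const_mul (cs N f c g k)⁻¹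
  refine this.congr_norm ?_ ?_
  · have h1 := this.1
    refine h1.congr (Filter.Eventually.of_forall fun G => ?_)
    change (cs N f c g k)⁻¹ * cv f c g (ext G) k = cv f c g (ext G) k / cs N f c g k
    rw [div_eq_inv_mul]
  · refine Filter.Eventually.of_forall fun G => ?_
    change ‖(cs N f c g k)⁻¹ * cv f c g (ext G) k‖ = ‖cv f c g (ext G) k / cs N f c g k‖
    rw [div_eq_inv_mul]

lemma int_psi_psi (h : Ctl N f c g) {j k : ℕ} (hj : j < N) (hk : k < N) :
    ∫ G, psi N f c g (ext G) j * psi N f c g (ext G) k ∂(γN N) = if j = k then 1 else 0 := by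
  have e : ∀ G : Fin N → ℝ, psi N f c g (ext G) j * psi N f c g (ext G) k =
      (cs N f c g j * cs N f c g k)⁻¹ * (cv f c g (ext G) j * cv f c g (ext G) k) := by
    intro G
    unfold psi
    rw [mul_inv]
    ring
  simp only [e]
  rw [integral_const_mul]
  split_ifs with hjk
  · subst hjk
    rw [int_vv_self hj]
    have h1 := cs_pos h j
    have h2 : cs N f c g j * cs N f c g j = ∫ G, g j (cX f c (ext G) j) ^ 2 ∂(γN N) := by
      unfold cs
      exact Real.mul_self_sqrt (integral_nonneg fun G => sq_nonneg _)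
    rw [← h2]
    exact inv_mul_cancel₀ (by positivity)
  · rcases lt_or_gt_of_ne hjk with h1 | h1
    · rw [int_vv_lt hk h1, mul_zero]
    · have h2 := int_vv_lt (f := f) (c := c) (g := g) hj h1
      have h3 : ∀ G : Fin N → ℝ, cv f c g (ext G) j * cv f c g (ext G) k =
          cv f c g (ext G) k * cv f c g (ext G) j := fun G => mul_comm _ _
      simp only [h3]
      rw [h2, mul_zero]

lemma int_GG {j k : ℕ} (hj : j < N) (hk : k < N) :
    ∫ G, ext G j * ext G k ∂(γN N) = if j = k then 1 else 0 := by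
  split_ifs with hjk
  · subst hjk
    exact int_GG_self hj
  · rcases lt_or_gt_of_ne hjk with h1 | h1
    · exact int_GG_lt hk h1
    · have h3 : ∀ G : Fin N → ℝ, ext G j * ext G k = ext G k * ext G j := fun G => mul_comm _ _
      simp only [h3]
      exact int_GG_lt hj h1

lemma int_psi_M (h : Ctl N f c g) {k : ℕ} (hk : k < N) :
    ∫ G, psi N f c g (ext G) k * cM f c g (ext G) N ∂(γN N) = cs N f c g k := by
  have hi : ∀ j ∈ Finset.range N, Integrable
      (fun G : Fin N → ℝ => psi N f c g (ext G) k * cv f c g (ext G) j) (γN N) := fun j _ =>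
    (psi_memLp h k).integrable_mul (cv_memLp h j)
  have e : ∀ G : Fin N → ℝ, psi N f c g (ext G) k * cM f c g (ext G) N =
      ∑ j ∈ Finset.range N, psi N f c g (ext G) k * cv f c g (ext G) j := fun G => by
    unfold cM
    rw [Finset.mul_sum]
  simp only [e]
  rw [integral_finsetSum _ hi, Finset.sum_eq_single_of_mem k (Finset.mem_range.2 hk)]
  · have e2 : ∀ G : Fin N → ℝ, psi N f c g (ext G) k * cv f c g (ext G) k =
        (cs N f c g k)⁻¹ * (cv f c g (ext G) k * cv f c g (ext G) k) := fun G => by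
      unfold psi; rw [div_eq_inv_mul]; ring
    simp only [e2]
    rw [integral_const_mul, int_vv_self hk]
    have h1 := cs_pos h k
    have h2 : cs N f c g k * cs N f c g k = ∫ G, g k (cX f c (ext G) k) ^ 2 ∂(γN N) := by
      unfold cs
      exact Real.mul_self_sqrt (integral_nonneg fun G => sq_nonneg _)
    rw [← h2, ← mul_assoc, inv_mul_cancel₀ h1.ne', one_mul]
  · intro j hj hjk
    have e2 : ∀ G : Fin N → ℝ, psi N f c g (ext G) k * cv f c g (ext G) j =
        (cs N f c g k)⁻¹ * (cv f c g (ext G) k * cv f c g (ext G) j) := fun G => by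
      unfold psi; rw [div_eq_inv_mul]; ring
    simp only [e2]
    rw [integral_const_mul]
    rcases lt_or_gt_of_ne hjk with h1 | h1
    · have h3 : ∀ G : Fin N → ℝ, cv f c g (ext G) k * cv f c g (ext G) j =
          cv f c g (ext G) j * cv f c g (ext G) k := fun G => mul_comm _ _
      simp only [h3]
      rw [int_vv_lt hk h1, mul_zero]
    · rw [int_vv_lt (Finset.mem_range.1 hj) h1, mul_zero]

lemma int_G_M (h : Ctl N f c g) {k : ℕ} (hk : k < N) :
    ∫ G, ext G k * cM f c g (ext G) N ∂(γN N) = ca N f c g k := by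
  have hi : ∀ j ∈ Finset.range N, Integrable
      (fun G : Fin N → ℝ => ext G k * cv f c g (ext G) j) (γN N) := fun j _ =>
    (ext_memLp k).integrable_mul (cv_memLp h j)
  have e : ∀ G : Fin N → ℝ, ext G k * cM f c g (ext G) N =
      ∑ j ∈ Finset.range N, ext G k * cv f c g (ext G) j := fun G => by
    unfold cM
    rw [Finset.mul_sum]
  simp only [e]
  rw [integral_finsetSum _ hi, Finset.sum_eq_single_of_mem k (Finset.mem_range.2 hk)]
  · have e2 : ∀ G : Fin N → ℝ, ext G k * cv f c g (ext G) k =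
        cv f c g (ext G) k * ext G k := fun G => mul_comm _ _
    simp only [e2]
    exact int_vG_self hk
  · intro j hj hjk
    have e2 : ∀ G : Fin N → ℝ, ext G k * cv f c g (ext G) j =
        cv f c g (ext G) j * ext G k := fun G => mul_comm _ _
    simp only [e2]
    exact int_vG_ne (Finset.mem_range.1 hj) hk hjk

/-- **Theorem C for the clipped magnetisation.** -/
theorem clip_value (hC : ThmC) {P : ℝ} (hP : Tendsto Gap.groundValue atTop (𝓝 P)) {ε : ℝ}
    (hε : 0 < ε) : ∃ (n : ℕ) (f : ℕ → ℝ → ℝ) (c : ℕ → ℝ) (g : ℕ → ℝ → ℝ), 1 ≤ n ∧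
      Ctl (n + 1) f c g ∧ P - ε ≤ ∑ k ∈ Finset.range n,
        (∫ G, psi (n + 1) f c g (ext G) k * clip (cM f c g (ext G) (n + 1)) ∂(γN (n + 1))) *
        (∫ G, ext G (k + 1) * clip (cM f c g (ext G) (n + 1)) ∂(γN (n + 1))) := by
  obtain ⟨δ, hδ⟩ : ∃ δ, δ = min 1 (ε / 4) := ⟨_, rfl⟩
  have hδ0 : 0 < δ := by rw [hδ]; exact lt_min one_pos (by positivity)
  have hδ1 : δ ≤ 1 := by rw [hδ]; exact min_le_left _ _
  have hδ2 : δ ≤ ε / 4 := by rw [hδ]; exact min_le_right _ _
  obtain ⟨N, f, c, g, hN, h, h2, h3⟩ := hC P hP (δ ^ 2) (by positivity)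
  obtain ⟨n, rfl⟩ : ∃ n, N = n + 1 := ⟨N - 1, by omega⟩
  refine ⟨n, f, c, g, by omega, h, ?_⟩
  rw [Nat.add_sub_cancel] at h3
  -- the vectors
  obtain ⟨u, hu⟩ : ∃ u, u = (clip_memLp (N := n + 1) h (n + 1)).toLp _ := ⟨_, rfl⟩
  obtain ⟨v, hv⟩ : ∃ v, v = (cM_memLp (N := n + 1) h (n + 1)).toLp _ := ⟨_, rfl⟩
  obtain ⟨a, ha⟩ : ∃ a : Fin n → Lp ℝ 2 (γN (n + 1)), a = fun k : Fin n =>
    (psi_memLp (N := n + 1) h k).toLp _ := ⟨_, rfl⟩
  obtain ⟨b, hb⟩ : ∃ b : Fin n → Lp ℝ 2 (γN (n + 1)), b = fun k : Fin n =>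
    (ext_memLp (N := n + 1) (k + 1)).toLp _ := ⟨_, rfl⟩
  have hao : Orthonormal ℝ a := by
    rw [orthonormal_iff_ite]
    intro i j
    rw [ha, inner_toLp, int_psi_psi h (by omega) (by omega)]
    simp only [Fin.ext_iff]
  have hbo : Orthonormal ℝ b := by
    rw [orthonormal_iff_ite]
    intro i j
    rw [hb, inner_toLp, int_GG (by omega) (by omega)]
    simp only [Fin.ext_iff, Nat.add_right_cancel_iff]
  have hq := quad_diff hao hbo Finset.univ u v
  have hun : ‖u‖ ≤ 1 := by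
    have h1 : ‖u‖ ^ 2 ≤ 1 := by
      rw [← real_inner_self_eq_norm_sq, hu, inner_toLp]
      calc _ ≤ ∫ _ : Fin (n + 1) → ℝ, (1 : ℝ) ∂(γN (n + 1)) := by
            refine integral_mono ((clip_memLp h _).integrable_mul (clip_memLp h _))
              (integrable_const _) fun G => ?_
            change clip _ * clip _ ≤ 1
            have := clip_le (cM f c g (ext G) (n + 1))
            rw [← abs_mul_abs_self]
            nlinarith [abs_nonneg (clip (cM f c g (ext G) (n + 1)))]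
        _ = 1 := by simp
    nlinarith [norm_nonneg u]
  have huv : ‖u - v‖ ≤ δ := by
    have h1 : ‖u - v‖ ^ 2 ≤ δ ^ 2 := by
      rw [← real_inner_self_eq_norm_sq, hu, hv, ← MemLp.toLp_sub, inner_toLp]
      refine le_trans (le_of_eq ?_) h2
      refine integral_congr_ae (Filter.Eventually.of_forall fun G => ?_)
      change (clip (cM f c g (ext G) (n + 1)) - cM f c g (ext G) (n + 1)) *
        (clip (cM f c g (ext G) (n + 1)) - cM f c g (ext G) (n + 1)) = _
      rw [← pow_two, clip_sub]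
    exact abs_le_of_sq_le_sq h1 hδ0.le |>.trans' (le_abs_self _)
  have hvn : ‖v‖ ≤ 1 + δ := by
    have h1 : ‖v‖ ≤ ‖u‖ + ‖u - v‖ := by
      have := norm_sub_le u (u - v)
      rwa [sub_sub_cancel] at this
    linarith
  have hqv : ∑ k, inner ℝ (a k) v * inner ℝ (b k) v =
      ∑ k ∈ Finset.range n, cs (n + 1) f c g k * ca (n + 1) f c g (k + 1) := by
    rw [← Fin.sum_univ_eq_sum_range fun k => cs (n + 1) f c g k * ca (n + 1) f c g (k + 1)]
    refine Finset.sum_congr rfl fun k _ => ?_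
    rw [ha, hb, hv, inner_toLp, inner_toLp, int_psi_M h (by omega), int_G_M h (by omega)]
  have hqu : ∑ k, inner ℝ (a k) u * inner ℝ (b k) u = ∑ k ∈ Finset.range n,
        (∫ G, psi (n + 1) f c g (ext G) k * clip (cM f c g (ext G) (n + 1)) ∂(γN (n + 1))) *
        (∫ G, ext G (k + 1) * clip (cM f c g (ext G) (n + 1)) ∂(γN (n + 1))) := by
    rw [← Fin.sum_univ_eq_sum_range fun k =>
        (∫ G, psi (n + 1) f c g (ext G) k * clip (cM f c g (ext G) (n + 1)) ∂(γN (n + 1))) *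
        (∫ G, ext G (k + 1) * clip (cM f c g (ext G) (n + 1)) ∂(γN (n + 1)))]
    refine Finset.sum_congr rfl fun k _ => ?_
    rw [ha, hb, hu, inner_toLp, inner_toLp]
  rw [← hqu]
  rw [hqv] at hq
  have h5 : ‖u - v‖ * (‖u‖ + ‖v‖) ≤ δ * (2 + δ) :=
    mul_le_mul huv (by linarith) (by positivity) hδ0.le
  have h6 := (abs_le.1 hq).1
  nlinarith

end Vale.Agent.P367.Cl
end

section

/-!
# P367, classical half: bounded schemes

The form of Theorem C consumed by the quantum side: bounded continuous orthonormal `ψ k`, where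
`ψ k` depends on the first `k + 1` fields, and a bounded magnetisation `m`.
-/

open MeasureTheory ProbabilityTheory Filter Topology Set

namespace Vale.Agent.P367.Cl

/-- the data of a bounded scheme with the fields `z 0, …, z n` -/
structure Scheme (n : ℕ) (ψ : Fin n → (Fin (n + 1) → ℝ) → ℝ) (m : (Fin (n + 1) → ℝ) → ℝ) :
    Prop where
  cont : ∀ k, Continuous (ψ k)
  bdd : ∀ k, ∃ C, ∀ z, |ψ k z| ≤ C
  dep : ∀ (k : Fin n) z z', (∀ j : Fin (n + 1), (j : ℕ) ≤ (k : ℕ) → z j = z' j) → ψ k z = ψ k z'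
  odd : ∀ k z, ψ k (-z) = -ψ k z
  orth : ∀ j k, ∫ z, ψ j z * ψ k z ∂(γN (n + 1)) = if j = k then 1 else 0
  mcont : Continuous m
  mbd : ∀ z, |m z| ≤ 1
  modd : ∀ z, m (-z) = -m z

/-- the value of a scheme -/
noncomputable def sval (n : ℕ) (ψ : Fin n → (Fin (n + 1) → ℝ) → ℝ) (m : (Fin (n + 1) → ℝ) → ℝ) :
    ℝ :=
  ∑ k : Fin n, (∫ z, ψ k z * m z ∂(γN (n + 1))) * (∫ z, z k.succ * m z ∂(γN (n + 1)))

/-- truncation -/
noncomputable def trn (R x : ℝ) : ℝ := max (-R) (min R x)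

lemma trn_cont (R : ℝ) : Continuous (trn R) := by
  unfold trn
  fun_prop

lemma trn_le {R : ℝ} (hR : 0 ≤ R) (x : ℝ) : |trn R x| ≤ R := by
  unfold trn
  rw [abs_le]
  exact ⟨le_max_left _ _, max_le (by linarith) (min_le_left _ _)⟩

lemma trn_le_abs {R : ℝ} (hR : 0 ≤ R) (x : ℝ) : |trn R x| ≤ |x| := by
  unfold trn
  rcases le_total x (-R) with h | h
  · rw [min_eq_right (by linarith), max_eq_left h, abs_neg, abs_of_nonneg hR,
      abs_of_nonpos (by linarith)]
    linarith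
  · rcases le_total x R with h1 | h1
    · rw [min_eq_right h1, max_eq_right h]
    · rw [min_eq_left h1, max_eq_right (by linarith), abs_of_nonneg hR, abs_of_nonneg (by linarith)]
      exact h1

lemma trn_neg {R : ℝ} (hR : 0 ≤ R) (x : ℝ) : trn R (-x) = -trn R x := by
  unfold trn
  rcases le_total x (-R) with h | h
  · rw [min_eq_left (by linarith), max_eq_right (by linarith), min_eq_right (by linarith),
      max_eq_left h, neg_neg]
  · rcases le_total x R with h1 | h1
    · rw [min_eq_right (by linarith), max_eq_right (by linarith), min_eq_right h1,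
        max_eq_right h]
    · rw [min_eq_right (by linarith), max_eq_left (by linarith), min_eq_left h1,
        max_eq_right (by linarith)]

lemma trn_eq {R x : ℝ} (h : |x| ≤ R) : trn R x = x := by
  unfold trn
  rw [abs_le] at h
  rw [min_eq_right h.2, max_eq_right h.1]

lemma int_trn {R : ℝ} (hR : 0 ≤ R) : ∫ x, trn R x ∂(gaussianReal 0 1) = 0 := by
  have h : ∫ x, trn R x ∂(gaussianReal 0 1) = ∫ x, trn R (-x) ∂(gaussianReal 0 1) := by
    have hmp : MeasurePreserving (MeasurableEquiv.neg ℝ) (gaussianReal 0 1) (gaussianReal 0 1) := by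
      refine ⟨(MeasurableEquiv.neg ℝ).measurable, ?_⟩
      have := gaussianReal_map_neg (μ := 0) (v := 1)
      rw [neg_zero] at this
      exact this
    exact (hmp.integral_comp' (fun x => trn R x)).symm
  simp only [trn_neg hR, integral_neg] at h
  linarith

/-- the norm of the truncated Gaussian -/
noncomputable def tR (R : ℝ) : ℝ := √(∫ x, trn R x ^ 2 ∂(gaussianReal 0 1))

lemma tendsto_trn (x : ℝ) : Tendsto (fun R : ℕ => trn R x) atTop (𝓝 x) := by
  refine tendsto_const_nhds.congr' ?_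
  obtain ⟨k, hk⟩ := exists_nat_ge |x|
  filter_upwards [eventually_ge_atTop k] with R hR
  rw [trn_eq]
  exact hk.trans (by exact_mod_cast hR)

lemma tendsto_tR : Tendsto (fun R : ℕ => tR R) atTop (𝓝 1) := by
  have h : Tendsto (fun R : ℕ => ∫ x, trn R x ^ 2 ∂(gaussianReal 0 1)) atTop
      (𝓝 (∫ x : ℝ, x ^ 2 ∂(gaussianReal 0 1))) := by
    refine tendsto_integral_of_dominated_convergence (fun x => x ^ 2) ?_ ?_ ?_ ?_
    · intro R
      exact ((trn_cont R).pow 2).aestronglyMeasurable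
    · have := memLp_id_gaussianReal (μ := 0) (v := 1) 2
      exact this.integrable_sq
    · intro R
      refine Filter.Eventually.of_forall fun x => ?_
      rw [Real.norm_eq_abs, abs_of_nonneg (sq_nonneg _)]
      exact sq_le_sq.2 (trn_le_abs (Nat.cast_nonneg R) x)
    · exact Filter.Eventually.of_forall fun x => (tendsto_trn x).pow 2
  rw [int_sq] at h
  have h2 := (Real.continuous_sqrt.tendsto 1).comp h
  rw [Real.sqrt_one] at h2
  exact h2

variable {n : ℕ} {f : ℕ → ℝ → ℝ} {c : ℕ → ℝ} {g : ℕ → ℝ → ℝ}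

/-- the truncated increments -/
noncomputable def psR (n : ℕ) (f : ℕ → ℝ → ℝ) (c : ℕ → ℝ) (g : ℕ → ℝ → ℝ) (R : ℝ) (k : Fin n)
    (z : Fin (n + 1) → ℝ) : ℝ :=
  g k (cX f c (ext z) k) * trn R (z k.castSucc) / (cs (n + 1) f c g k * tR R)

/-- the clipped magnetisation -/
noncomputable def mcl (n : ℕ) (f : ℕ → ℝ → ℝ) (c : ℕ → ℝ) (g : ℕ → ℝ → ℝ)
    (z : Fin (n + 1) → ℝ) : ℝ := clip (cM f c g (ext z) (n + 1))

lemma ext_cont {N : ℕ} (k : ℕ) : Continuous (fun z : Fin N → ℝ => ext z k) := by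
  unfold ext
  split_ifs with h
  · exact continuous_apply _
  · exact continuous_const

lemma cX_cont {N : ℕ} (hf : ∀ k, Continuous (f k)) (k : ℕ) :
    Continuous (fun z : Fin N → ℝ => cX f c (ext z) k) := by
  induction k with
  | zero => exact continuous_const
  | succ k ih =>
    change Continuous (fun z : Fin N → ℝ => cX f c (ext z) k + f k (cX f c (ext z) k) +
      c k * ext z k)
    exact (ih.add ((hf k).comp ih)).add (continuous_const.mul (ext_cont k))

lemma cv_cont {N : ℕ} (h : Ctl N f c g) (k : ℕ) :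
    Continuous (fun z : Fin N → ℝ => cv f c g (ext z) k) :=
  ((h.gs k).smooth.continuous.comp (cX_cont (fun j => (h.fs j).smooth.continuous) k)).mul
    (ext_cont k)

lemma cM_cont {N : ℕ} (h : Ctl N f c g) (k : ℕ) :
    Continuous (fun z : Fin N → ℝ => cM f c g (ext z) k) :=
  continuous_finsetSum _ fun j _ => cv_cont h j

lemma ext_neg {N : ℕ} (z : Fin N → ℝ) (k : ℕ) : ext (-z) k = -ext z k := by
  unfold ext
  split_ifs
  · rfl
  · simp

lemma cX_neg {N : ℕ} (h : Ctl N f c g) (z : Fin N → ℝ) (k : ℕ) :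
    cX f c (ext (-z)) k = -cX f c (ext z) k := by
  induction k with
  | zero => exact neg_zero.symm
  | succ k ih =>
    change cX f c (ext (-z)) k + f k (cX f c (ext (-z)) k) + c k * ext (-z) k = _
    rw [ih, h.fo, ext_neg]
    change _ = -(cX f c (ext z) k + f k (cX f c (ext z) k) + c k * ext z k)
    ring

lemma cM_neg {N : ℕ} (h : Ctl N f c g) (z : Fin N → ℝ) (k : ℕ) :
    cM f c g (ext (-z)) k = -cM f c g (ext z) k := by
  unfold cM cv
  rw [← Finset.sum_neg_distrib]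
  refine Finset.sum_congr rfl fun j _ => ?_
  rw [cX_neg h, h.ge, ext_neg]
  ring

lemma clip_neg (x : ℝ) : clip (-x) = -clip x := trn_neg zero_le_one x

lemma ext_castSucc (z : Fin (n + 1) → ℝ) (k : Fin n) : ext z (k : ℕ) = z k.castSucc :=
  ext_fin z k.castSucc

lemma ext_succ (z : Fin (n + 1) → ℝ) (k : Fin n) : ext z ((k : ℕ) + 1) = z k.succ :=
  ext_fin z k.succ

lemma ind_psR (R : ℝ) {j k : Fin n} (hjk : j < k) : Ind k.castSucc (psR n f c g R j) := by
  intro z x
  unfold psR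
  have e1 : cX f c (ext (Function.update z k.castSucc x)) j = cX f c (ext z) j :=
    eX_congr f c fun i hi => ext_update z k.castSucc x (by
      have h1 : (j : ℕ) < k := hjk
      have h2 : ((k.castSucc : Fin (n + 1)) : ℕ) = k := rfl
      omega)
  have e2 : Function.update z k.castSucc x j.castSucc = z j.castSucc :=
    Function.update_of_ne (fun e => hjk.ne (Fin.castSucc_injective _ e)) _ _
  rw [e1, e2]

lemma psR_lt {R : ℝ} (hR : 0 ≤ R) {j k : Fin n} (hjk : j < k) :
    ∫ z, psR n f c g R j z * psR n f c g R k z ∂(γN (n + 1)) = 0 := by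
  have h1 : Ind k.castSucc (fun z => psR n f c g R j z *
      (fun z => g k (cX f c (ext z) k) / (cs (n + 1) f c g k * tR R)) z) :=
    (ind_psR (f := f) (c := c) (g := g) R hjk).mul (ind_gX (f := f) (c := c) k.castSucc
      (show (k : ℕ) ≤ k.castSucc from le_rfl) (fun x => g k x / (cs (n + 1) f c g k * tR R)))
  have h := pi_split k.castSucc h1 (trn R)
  rw [int_trn hR, mul_zero] at h
  rw [← h]
  refine integral_congr_ae (Filter.Eventually.of_forall fun z => ?_)
  change psR n f c g R j z * (g k (cX f c (ext z) k) * trn R (z k.castSucc) /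
    (cs (n + 1) f c g k * tR R)) = psR n f c g R j z *
      (g k (cX f c (ext z) k) / (cs (n + 1) f c g k * tR R)) * trn R (z k.castSucc)
  ring

lemma cs_sq (k : ℕ) : ∫ z, g k (cX f c (ext z) k) ^ 2 ∂(γN n) = cs n f c g k ^ 2 := by
  unfold cs
  exact (Real.sq_sqrt (integral_nonneg fun G => sq_nonneg _)).symm

lemma tR_sq (R : ℝ) : ∫ x, trn R x ^ 2 ∂(gaussianReal 0 1) = tR R ^ 2 := by
  unfold tR
  exact (Real.sq_sqrt (integral_nonneg fun G => sq_nonneg _)).symm

lemma psR_self {R : ℝ} (h : Ctl (n + 1) f c g) (ht : 0 < tR R) (k : Fin n) :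
    ∫ z, psR n f c g R k z * psR n f c g R k z ∂(γN (n + 1)) = 1 := by
  have hs := cs_pos h k
  have h1 := pi_split k.castSucc (ind_gX (f := f) (c := c) k.castSucc
      (show (k : ℕ) ≤ k.castSucc from le_rfl) (fun x => g k x ^ 2)) (fun x => trn R x ^ 2)
  rw [tR_sq, cs_sq (n := n + 1) (k : ℕ)] at h1
  have h2 : ∫ z, psR n f c g R k z * psR n f c g R k z ∂(γN (n + 1)) =
      ∫ z, (cs (n + 1) f c g k * tR R)⁻¹ ^ 2 * (g k (cX f c (ext z) k) ^ 2 *
        trn R (z k.castSucc) ^ 2) ∂(γN (n + 1)) := by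
    refine integral_congr_ae (Filter.Eventually.of_forall fun z => ?_)
    change g k (cX f c (ext z) k) * trn R (z k.castSucc) / (cs (n + 1) f c g k * tR R) *
      (g k (cX f c (ext z) k) * trn R (z k.castSucc) / (cs (n + 1) f c g k * tR R)) = _
    rw [div_eq_mul_inv]
    ring
  rw [h2, integral_const_mul, h1]
  field_simp

lemma psR_scheme (h : Ctl (n + 1) f c g) {R : ℝ} (hR : 0 ≤ R) (ht : 0 < tR R) :
    Scheme n (psR n f c g R) (mcl n f c g) := by
  have hs : ∀ k, 0 < cs (n + 1) f c g k := cs_pos h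
  refine ⟨?_, ?_, ?_, ?_, ?_, ?_, ?_, ?_⟩
  · intro k
    refine Continuous.div_const (Continuous.mul ?_ ?_) _
    · exact (h.gs k).smooth.continuous.comp (cX_cont (fun j => (h.fs j).smooth.continuous) k)
    · exact (trn_cont R).comp (continuous_apply _)
  · intro k
    obtain ⟨C, hC⟩ := h.gb k
    refine ⟨C * R / (cs (n + 1) f c g k * tR R), fun z => ?_⟩
    unfold psR
    rw [abs_div, abs_mul, abs_of_pos (mul_pos (hs k) ht)]
    have h1 := hC (cX f c (ext z) k)
    have h2 := trn_le hR (z k.castSucc)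
    have h3 := hs k
    gcongr
    exact (abs_nonneg _).trans h1
  · intro k z z' hz
    unfold psR
    have e1 : cX f c (ext z) k = cX f c (ext z') k := by
      refine eX_congr f c fun j hj => ?_
      have hj' : j < n + 1 := by have := k.2; omega
      have := hz ⟨j, hj'⟩ hj.le
      unfold ext
      rw [dif_pos hj', dif_pos hj', this]
    rw [e1, hz k.castSucc le_rfl]
  · intro k z
    unfold psR
    rw [cX_neg h, h.ge]
    change g k _ * trn R (-z k.castSucc) / _ = _
    rw [trn_neg hR]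
    ring
  · intro j k
    split_ifs with hjk
    · rw [hjk]
      exact psR_self h ht k
    · rcases lt_or_gt_of_ne hjk with h1 | h1
      · exact psR_lt hR h1
      · rw [← psR_lt (f := f) (c := c) (g := g) hR h1]
        exact integral_congr_ae (Filter.Eventually.of_forall fun z => mul_comm _ _)
  · exact clip_cont.comp (cM_cont h _)
  · exact fun z => clip_le _
  · intro z
    unfold mcl
    rw [cM_neg h, clip_neg]

lemma tendsto_psR (h : Ctl (n + 1) f c g) (k : Fin n) :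
    Tendsto (fun R : ℕ => ∫ z, psR n f c g R k z * mcl n f c g z ∂(γN (n + 1))) atTop
      (𝓝 (∫ z, psi (n + 1) f c g (ext z) k * clip (cM f c g (ext z) (n + 1)) ∂(γN (n + 1)))) := by
  obtain ⟨C, hC⟩ := h.gb k
  have hs := cs_pos h k
  have hC0 : 0 ≤ C := (abs_nonneg _).trans (hC 0)
  have hev : ∀ᶠ R : ℕ in atTop, (1 / 2 : ℝ) ≤ tR R :=
    tendsto_tR.eventually (eventually_ge_nhds (by norm_num))
  refine tendsto_integral_filter_of_dominated_convergence
    (fun z => C * |z k.castSucc| / (cs (n + 1) f c g k * (1 / 2))) ?_ ?_ ?_ ?_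
  · refine Filter.Eventually.of_forall fun R => ?_
    have h1 : Continuous (psR n f c g R k) := by
      refine Continuous.div_const (Continuous.mul ?_ ?_) _
      · exact (h.gs k).smooth.continuous.comp (cX_cont (fun j => (h.fs j).smooth.continuous) k)
      · exact (trn_cont R).comp (continuous_apply _)
    exact (h1.mul (clip_cont.comp (cM_cont h _))).aestronglyMeasurable
  · filter_upwards [hev] with R hR
    refine Filter.Eventually.of_forall fun z => ?_
    rw [norm_mul, Real.norm_eq_abs, Real.norm_eq_abs]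
    have h1 : |mcl n f c g z| ≤ 1 := clip_le _
    have h2 : |psR n f c g R k z| ≤ C * |z k.castSucc| / (cs (n + 1) f c g k * (1 / 2)) := by
      unfold psR
      have ht : 0 < tR R := by linarith
      rw [abs_div, abs_mul, abs_of_pos (mul_pos hs ht)]
      have h3 := hC (cX f c (ext z) k)
      have h4 := trn_le_abs (Nat.cast_nonneg R) (z k.castSucc)
      gcongr
    calc _ ≤ |psR n f c g R k z| * 1 := mul_le_mul_of_nonneg_left h1 (abs_nonneg _)
      _ ≤ _ := by rw [mul_one]; exact h2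
  · have h1 : Integrable (fun z : Fin (n + 1) → ℝ => ext z k) (γN (n + 1)) :=
      (ext_memLp (N := n + 1) (k : ℕ)).integrable (by norm_num)
    have h2 := (h1.abs.const_mul C).div_const (cs (n + 1) f c g k * (1 / 2))
    refine h2.congr (Filter.Eventually.of_forall fun z => ?_)
    change C * |ext z k| / _ = _
    rw [ext_castSucc]
  · refine Filter.Eventually.of_forall fun z => ?_
    refine Tendsto.mul ?_ tendsto_const_nhds
    unfold psR psi cv
    rw [ext_castSucc]
    have h1 := (tendsto_trn (z k.castSucc)).const_mul (g k (cX f c (ext z) k))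
    have h2 := tendsto_tR.const_mul (cs (n + 1) f c g k)
    rw [mul_one] at h2
    exact h1.div h2 hs.ne'

/-- **Theorem C for bounded schemes.** -/
theorem bd_value (hC : ThmC) {P : ℝ} (hP : Tendsto Gap.groundValue atTop (𝓝 P)) {ε : ℝ}
    (hε : 0 < ε) : ∃ (n : ℕ) (ψ : Fin n → (Fin (n + 1) → ℝ) → ℝ) (m : (Fin (n + 1) → ℝ) → ℝ),
      1 ≤ n ∧ Scheme n ψ m ∧ P - ε ≤ sval n ψ m := by
  obtain ⟨n, f, c, g, hn, h, h1⟩ := clip_value hC hP (half_pos hε)
  have hev : ∀ᶠ R : ℕ in atTop, (1 / 2 : ℝ) ≤ tR R :=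
    tendsto_tR.eventually (eventually_ge_nhds (by norm_num))
  have hlim : Tendsto (fun R : ℕ => sval n (psR n f c g R) (mcl n f c g)) atTop
      (𝓝 (∑ k : Fin n,
        (∫ z, psi (n + 1) f c g (ext z) k * clip (cM f c g (ext z) (n + 1)) ∂(γN (n + 1))) *
        (∫ z, z k.succ * mcl n f c g z ∂(γN (n + 1))))) :=
    tendsto_finsetSum _ fun k _ => (tendsto_psR h k).mul_const _
  have he : ∑ k : Fin n,
        (∫ z, psi (n + 1) f c g (ext z) k * clip (cM f c g (ext z) (n + 1)) ∂(γN (n + 1))) *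
        (∫ z, z k.succ * mcl n f c g z ∂(γN (n + 1))) = ∑ k ∈ Finset.range n,
        (∫ G, psi (n + 1) f c g (ext G) k * clip (cM f c g (ext G) (n + 1)) ∂(γN (n + 1))) *
        (∫ G, ext G (k + 1) * clip (cM f c g (ext G) (n + 1)) ∂(γN (n + 1))) := by
    rw [← Fin.sum_univ_eq_sum_range fun k =>
        (∫ G, psi (n + 1) f c g (ext G) k * clip (cM f c g (ext G) (n + 1)) ∂(γN (n + 1))) *
        (∫ G, ext G (k + 1) * clip (cM f c g (ext G) (n + 1)) ∂(γN (n + 1)))]
    refine Finset.sum_congr rfl fun k _ => ?_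
    simp only [ext_succ]
    rfl
  rw [he] at hlim
  have hlt : P - ε < ∑ k ∈ Finset.range n,
        (∫ G, psi (n + 1) f c g (ext G) k * clip (cM f c g (ext G) (n + 1)) ∂(γN (n + 1))) *
        (∫ G, ext G (k + 1) * clip (cM f c g (ext G) (n + 1)) ∂(γN (n + 1))) := by linarith
  obtain ⟨R, h2, h3⟩ := (hev.and (hlim.eventually (lt_mem_nhds hlt))).exists
  exact ⟨n, _, _, hn, psR_scheme h (Nat.cast_nonneg R) (by linarith), h3.le⟩

end Vale.Agent.P367.Cl
end

section

/-!
# P367, classical half, Euler scheme: definitions for one step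
-/

open MeasureTheory ProbabilityTheory Filter Topology Set

namespace Vale.Agent.P367.Cl

open Vale.Agent.P157.Par
open Vale.Agent.P146.Gap
open Vale.Agent.P146.Pw2

/-- One step of the recursion, with uniform regularity. -/
structure St (B m δ : ℝ) (H H' : ℝ → ℝ) : Prop where
  B1 : 1 ≤ B
  m0 : 0 < m
  m1 : m ≤ 1
  d0 : 0 ≤ δ
  d1 : δ ≤ 1
  adm : Adm B H
  adm' : Adm B H'
  eq : H = gstep m δ H'
  df0 : ∀ x, |H' x - H x| ≤ B * δ
  df1 : ∀ x, |iteratedDeriv 1 H' x - iteratedDeriv 1 H x| ≤ B * δ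

/-- The Euler step. -/
noncomputable def eX (m δ : ℝ) (H : ℝ → ℝ) (x z : ℝ) : ℝ :=
  x + δ * (m * iteratedDeriv 1 H x) + √δ * z

/-- The density of the tilted step with respect to the Euler step. -/
noncomputable def ell (m δ : ℝ) (H H' : ℝ → ℝ) (x z : ℝ) : ℝ :=
  Real.exp (m * (H' (eX m δ H x z) - H x) - √δ * (m * iteratedDeriv 1 H x) * z
    - δ * (m * iteratedDeriv 1 H x) ^ 2 / 2)

/-- The remainder of the martingale increment. -/
noncomputable def rh (m δ : ℝ) (H H' : ℝ → ℝ) (x z : ℝ) : ℝ :=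
  iteratedDeriv 1 H' (eX m δ H x z) - iteratedDeriv 1 H x - √δ * iteratedDeriv 2 H x * z

/-- The tilted chain. -/
noncomputable def tE (μ δ : ℕ → ℝ) (H : ℕ → ℝ → ℝ) : ℕ → (ℝ → ℝ) → ℝ
  | 0, ψ => ψ 0
  | k + 1, ψ => tE μ δ H k (tlt (μ k) (δ k) (H (k + 1)) ψ)

/-- The drift of the Euler chain. -/
noncomputable def eF (μ δ : ℕ → ℝ) (H : ℕ → ℝ → ℝ) (k : ℕ) (x : ℝ) : ℝ :=
  δ k * (μ k * iteratedDeriv 1 (H k) x)

/-- The function before the step `k`, `J` steps per block. -/
noncomputable def eH (n : ℕ) (m r : ℕ → ℝ) (J k : ℕ) : ℝ → ℝ :=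
  if k < n * J then Gb n m r (k / J) ((k % J : ℕ) * ((r (k / J + 1) - r (k / J)) / J)) else lc

/-- The exponent of the step `k`. -/
noncomputable def eμ (m : ℕ → ℝ) (J k : ℕ) : ℝ := m (k / J + 1)

/-- The variance of the step `k`. -/
noncomputable def eδ (n : ℕ) (r : ℕ → ℝ) (J k : ℕ) : ℝ :=
  if k < n * J then (r (k / J + 1) - r (k / J)) / J else 0

end Vale.Agent.P367.Cl
end

section

/-!
# P367, classical half, Euler scheme: independence of the coordinates, integrable functions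
-/

open MeasureTheory ProbabilityTheory Filter Topology Set

namespace Vale.Agent.P367.Cl

/-! ### Integration over one coordinate -/

theorem upd_mp {N : ℕ} (k : Fin N) :
    MeasurePreserving (fun p : (Fin N → ℝ) × ℝ => Function.update p.1 k p.2)
      ((γN N).prod (gaussianReal 0 1)) (γN N) := by
  refine ⟨measurable_update', ?_⟩
  refine (Measure.pi_eq fun s hs => ?_).symm
  have hm : MeasurableSet (univ.pi s) := MeasurableSet.univ_pi hs
  rw [Measure.map_apply measurable_update' hm]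
  have h1 : (fun p : (Fin N → ℝ) × ℝ => Function.update p.1 k p.2) ⁻¹' (univ.pi s) =
      (univ.pi (Function.update s k univ)) ×ˢ (s k) := by
    ext p
    simp only [mem_preimage, Set.mem_pi, mem_univ, true_implies, mem_prod]
    constructor
    · intro h
      refine ⟨fun i => ?_, by simpa using h k⟩
      by_cases hi : i = k
      · subst hi; simp
      · simpa [Function.update_of_ne hi] using h i
    · rintro ⟨h2, h3⟩ i
      by_cases hi : i = k
      · subst hi; simpa using h3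
      · simpa [Function.update_of_ne hi] using h2 i
  rw [h1, Measure.prod_prod, Measure.pi_pi, ← Finset.mul_prod_erase _ _ (Finset.mem_univ k),
    ← Finset.mul_prod_erase Finset.univ (fun i => (gaussianReal 0 1) (s i)) (Finset.mem_univ k)]
  have h2 : ∏ i ∈ Finset.univ.erase k, (gaussianReal 0 1) (Function.update s k univ i) =
      ∏ i ∈ Finset.univ.erase k, (gaussianReal 0 1) (s i) := by
    refine Finset.prod_congr rfl fun i hi => ?_
    rw [Function.update_of_ne (Finset.ne_of_mem_erase hi)]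
  rw [h2]
  simp [mul_comm]

theorem int_upd {N : ℕ} (k : Fin N) {F : (Fin N → ℝ) → ℝ} (hF : Integrable F (γN N)) :
    ∫ G, F G ∂(γN N) =
      ∫ G, ∫ z, F (Function.update G k z) ∂(gaussianReal 0 1) ∂(γN N) := by
  have h := upd_mp k
  have h1 : ∫ G, F G ∂(γN N) = ∫ p, F (Function.update p.1 k p.2)
      ∂((γN N).prod (gaussianReal 0 1)) := by
    conv_lhs => rw [← h.map_eq]
    exact integral_map h.measurable.aemeasurable (by rw [h.map_eq]; exact hF.1)
  have h2 : Integrable (fun p : (Fin N → ℝ) × ℝ => F (Function.update p.1 k p.2))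
      ((γN N).prod (gaussianReal 0 1)) := h.integrable_comp_of_integrable hF
  rw [h1, integral_prod _ h2]

theorem int_upd_integrable {N : ℕ} (k : Fin N) {F : (Fin N → ℝ) → ℝ}
    (hF : Integrable F (γN N)) :
    Integrable (fun G => ∫ z, F (Function.update G k z) ∂(gaussianReal 0 1)) (γN N) :=
  ((upd_mp k).integrable_comp_of_integrable hF).integral_prod_left

/-! ### Sequences -/

theorem ext_lt {N : ℕ} (G : Fin N → ℝ) {k : ℕ} (h : k < N) : ext G k = G ⟨k, h⟩ := dif_pos h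

theorem ext_upd_same {N : ℕ} (G : Fin N → ℝ) (k : Fin N) (z : ℝ) :
    ext (Function.update G k z) k = z := by
  rw [ext_lt _ k.2]
  simp

theorem ext_upd_ne {N : ℕ} (G : Fin N → ℝ) (k : Fin N) (z : ℝ) {j : ℕ} (h : j ≠ k) :
    ext (Function.update G k z) j = ext G j := by
  unfold ext
  split_ifs with h1
  · rw [Function.update_of_ne]
    intro h2
    exact h (by rw [← h2])
  · rfl

theorem cX_congr_chn {f : ℕ → ℝ → ℝ} {c : ℕ → ℝ} {G G' : ℕ → ℝ} : ∀ {k : ℕ},
    (∀ j < k, G j = G' j) → cX f c G k = cX f c G' k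
  | 0, _ => rfl
  | k + 1, h => by
    have h1 : cX f c G k = cX f c G' k := cX_congr_chn fun j hj => h j (by omega)
    show cX f c G k + f k (cX f c G k) + c k * G k = cX f c G' k + f k (cX f c G' k) + c k * G' k
    rw [h1, h k (Nat.lt_succ_self k)]

theorem cX_upd {N : ℕ} (f : ℕ → ℝ → ℝ) (c : ℕ → ℝ) (G : Fin N → ℝ) (k : Fin N) (z : ℝ) {j : ℕ}
    (h : j ≤ k) : cX f c (ext (Function.update G k z)) j = cX f c (ext G) j :=
  cX_congr_chn fun i hi => ext_upd_ne G k z (by omega)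

theorem measurable_ext {N : ℕ} (k : ℕ) : Measurable (fun G : Fin N → ℝ => ext G k) := by
  unfold ext
  split_ifs with h
  · exact measurable_pi_apply _
  · exact measurable_const

theorem measurable_cX {N : ℕ} {f : ℕ → ℝ → ℝ} (c : ℕ → ℝ) :
    ∀ k : ℕ, (∀ j < k, Measurable (f j)) → Measurable (fun G : Fin N → ℝ => cX f c (ext G) k)
  | 0, _ => measurable_const
  | k + 1, hf => by
    have h := measurable_cX (N := N) c k fun j hj => hf j (by omega)
    exact (h.add ((hf k (Nat.lt_succ_self k)).comp h)).add ((measurable_ext k).const_mul _)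

/-! ### Functions of exponential growth -/

/-- Measurable functions of exponential growth. -/
def EG (N : ℕ) (F : (Fin N → ℝ) → ℝ) : Prop :=
  Measurable F ∧ ∃ C : ℝ, 0 ≤ C ∧ ∀ G, |F G| ≤ Real.exp (C * (1 + ∑ i, |G i|))

variable {N : ℕ} {F F' : (Fin N → ℝ) → ℝ}

theorem eg_base (G : Fin N → ℝ) : 1 ≤ 1 + ∑ i, |G i| :=
  le_add_of_nonneg_right (Finset.sum_nonneg fun _ _ => abs_nonneg _)

theorem EG.const (c : ℝ) : EG N (fun _ => c) := by
  refine ⟨measurable_const, |c|, abs_nonneg _, fun G => ?_⟩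
  have h1 := eg_base G
  have h2 : |c| ≤ |c| * (1 + ∑ i, |G i|) := le_mul_of_one_le_right (abs_nonneg _) h1
  have h3 := Real.add_one_le_exp (|c| * (1 + ∑ i, |G i|))
  linarith

theorem EG.of_bdd (hF : Measurable F) {C : ℝ} (h : ∀ G, |F G| ≤ C) : EG N F := by
  refine ⟨hF, |C|, abs_nonneg _, fun G => (h G).trans ?_⟩
  have h1 := eg_base G
  have h2 : |C| ≤ |C| * (1 + ∑ i, |G i|) := le_mul_of_one_le_right (abs_nonneg _) h1
  have h3 := Real.add_one_le_exp (|C| * (1 + ∑ i, |G i|))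
  have h4 := le_abs_self C
  linarith

theorem EG.mul (h : EG N F) (h' : EG N F') : EG N (fun G => F G * F' G) := by
  obtain ⟨hm, C, hC, hb⟩ := h
  obtain ⟨hm', C', hC', hb'⟩ := h'
  refine ⟨hm.mul hm', C + C', by positivity, fun G => ?_⟩
  rw [abs_mul, add_mul, Real.exp_add]
  exact mul_le_mul (hb G) (hb' G) (abs_nonneg _) (Real.exp_pos _).le

theorem EG.add (h : EG N F) (h' : EG N F') : EG N (fun G => F G + F' G) := by
  obtain ⟨hm, C, hC, hb⟩ := h
  obtain ⟨hm', C', hC', hb'⟩ := h'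
  refine ⟨hm.add hm', C + C' + 1, by positivity, fun G => ?_⟩
  have h1 := eg_base G
  have h2 : |F G + F' G| ≤ Real.exp ((C + C') * (1 + ∑ i, |G i|)) * 2 := by
    refine (abs_add_le _ _).trans ?_
    have e1 : Real.exp (C * (1 + ∑ i, |G i|)) ≤ Real.exp ((C + C') * (1 + ∑ i, |G i|)) :=
      Real.exp_le_exp.2 (by nlinarith)
    have e2 : Real.exp (C' * (1 + ∑ i, |G i|)) ≤ Real.exp ((C + C') * (1 + ∑ i, |G i|)) :=
      Real.exp_le_exp.2 (by nlinarith)
    linarith [hb G, hb' G]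
  refine h2.trans ?_
  rw [show (C + C' + 1) * (1 + ∑ i, |G i|) = (C + C') * (1 + ∑ i, |G i|) + (1 + ∑ i, |G i|) by ring,
    Real.exp_add]
  refine mul_le_mul_of_nonneg_left ?_ (Real.exp_pos _).le
  have := Real.add_one_le_exp (1 + ∑ i, |G i|)
  linarith

theorem EG.const_mul (h : EG N F) (c : ℝ) : EG N (fun G => c * F G) := (EG.const c).mul h

theorem EG.sub (h : EG N F) (h' : EG N F') : EG N (fun G => F G - F' G) := by
  have := h.add (h'.const_mul (-1))
  simpa [sub_eq_add_neg] using this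

theorem EG.pow_two (h : EG N F) : EG N (fun G => F G ^ 2) := by
  simpa [sq] using h.mul h

theorem EG.sum {ι : Type*} (s : Finset ι) {F : ι → (Fin N → ℝ) → ℝ} (h : ∀ i ∈ s, EG N (F i)) :
    EG N (fun G => ∑ i ∈ s, F i G) := by
  classical
  induction s using Finset.induction_on with
  | empty => simpa using EG.const (N := N) 0
  | insert a s ha ih =>
    have := (h a (Finset.mem_insert_self _ _)).add (ih fun i hi => h i (Finset.mem_insert_of_mem hi))
    simpa [Finset.sum_insert ha] using this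

theorem EG.ext (k : ℕ) : EG N (fun G => Cl.ext G k) := by
  refine ⟨measurable_ext k, 1, zero_le_one, fun G => ?_⟩
  rw [one_mul]
  have h3 := Real.add_one_le_exp (1 + ∑ i, |G i|)
  have h4 : |Cl.ext G k| ≤ ∑ i, |G i| := by
    by_cases h : k < N
    · rw [ext_lt _ h]
      exact Finset.single_le_sum (f := fun i => |G i|) (fun _ _ => abs_nonneg _)
        (Finset.mem_univ (⟨k, h⟩ : Fin N))
    · rw [Cl.ext, dif_neg h, abs_zero]
      exact Finset.sum_nonneg fun _ _ => abs_nonneg _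
  linarith

theorem EG.mono (hF : Measurable F) (h' : EG N F') (h : ∀ G, |F G| ≤ |F' G|) : EG N F := by
  obtain ⟨hm', C', hC', hb'⟩ := h'
  exact ⟨hF, C', hC', fun G => (h G).trans (hb' G)⟩

/-- `exp (C (1 + |G k|))` -/
theorem EG.exp_ext (C : ℝ) (k : ℕ) : EG N (fun G => Real.exp (C * (1 + |Cl.ext G k|))) := by
  refine ⟨by have := measurable_ext (N := N) k; fun_prop, |C|, abs_nonneg _, fun G => ?_⟩
  rw [abs_of_pos (Real.exp_pos _)]
  refine Real.exp_le_exp.2 ?_
  have h4 : |Cl.ext G k| ≤ ∑ i, |G i| := by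
    by_cases h : k < N
    · rw [ext_lt _ h]
      exact Finset.single_le_sum (f := fun i => |G i|) (fun _ _ => abs_nonneg _)
        (Finset.mem_univ (⟨k, h⟩ : Fin N))
    · rw [Cl.ext, dif_neg h, abs_zero]
      exact Finset.sum_nonneg fun _ _ => abs_nonneg _
  have h5 : C * (1 + |Cl.ext G k|) ≤ |C| * (1 + |Cl.ext G k|) :=
    mul_le_mul_of_nonneg_right (le_abs_self C) (by positivity)
  have h6 : |C| * (1 + |Cl.ext G k|) ≤ |C| * (1 + ∑ i, |G i|) :=
    mul_le_mul_of_nonneg_left (by linarith) (abs_nonneg _)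
  linarith

theorem int_exp_abs (C : ℝ) : Integrable (fun z : ℝ => Real.exp (C * |z|)) (gaussianReal 0 1) :=
  Vale.Agent.P146.Gap.heat_int_exp C

theorem EG.integrable (h : EG N F) : Integrable F (γN N) := by
  obtain ⟨hm, C, hC, hb⟩ := h
  have h1 : Integrable (fun G : Fin N → ℝ => ∏ i, Real.exp (C * |G i|)) (γN N) :=
    Integrable.fintype_prod (μ := fun _ : Fin N => gaussianReal 0 1)
      (f := fun _ z => Real.exp (C * |z|)) fun _ => int_exp_abs C
  refine (h1.const_mul (Real.exp C)).mono' hm.aestronglyMeasurable (ae_of_all _ fun G => ?_)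
  rw [Real.norm_eq_abs]
  refine (hb G).trans (le_of_eq ?_)
  rw [← Real.exp_sum, ← Real.exp_add, mul_add, mul_one, Finset.mul_sum]

instance (N : ℕ) : IsProbabilityMeasure (γN N) := by
  unfold γN
  infer_instance

/-- Cauchy-Schwarz for a probability measure. -/
theorem abs_int_le_sqrt (h : EG N F) : ∫ G, |F G| ∂(γN N) ≤ √(∫ G, F G ^ 2 ∂(γN N)) := by
  have ha : EG N (fun G => |F G|) := EG.mono h.1.abs h fun G => by rw [abs_abs]
  set a := ∫ G, |F G| ∂(γN N) with hadef
  have h0 : 0 ≤ a := integral_nonneg fun _ => abs_nonneg _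
  refine Real.le_sqrt_of_sq_le ?_
  have h1 : 0 ≤ ∫ G, (|F G| - a) ^ 2 ∂(γN N) := integral_nonneg fun _ => sq_nonneg _
  have h2 : ∫ G, (|F G| - a) ^ 2 ∂(γN N) = (∫ G, F G ^ 2 ∂(γN N)) - a ^ 2 := by
    have e : ∀ G, (|F G| - a) ^ 2 = F G ^ 2 - (2 * a) * |F G| + a ^ 2 := fun G => by
      rw [← sq_abs (F G)]; ring
    simp only [e]
    have i1 : Integrable (fun G => F G ^ 2) (γN N) := h.pow_two.integrable
    have i2 : Integrable (fun G => (2 * a) * |F G|) (γN N) := ha.integrable.const_mul _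
    have i3 : Integrable (fun G => F G ^ 2 - (2 * a) * |F G|) (γN N) := i1.sub i2
    rw [integral_add i3 (integrable_const _), integral_sub i1 i2, integral_const_mul,
      integral_const, ← hadef]
    simp
    ring
  linarith

end Vale.Agent.P367.Cl
end

section

/-!
# P367, classical half, Euler scheme: the one-step density `ell`

Cameron-Martin formula for one Euler step, the density has mean `1`, crude bound, distance to `1`
and second moment.
-/

open MeasureTheory ProbabilityTheory Filter Topology Set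

namespace Vale.Agent.P367.Cl

open Vale.Agent.P157.Par
open Vale.Agent.P146.Gap
open Vale.Agent.P146.Pw2

/-! ### elementary bounds -/

theorem e1_lip {f f' : ℝ → ℝ} (h : ∀ x, HasDerivAt f (f' x) x) {K : ℝ} (hK : ∀ x, |f' x| ≤ K)
    (x y : ℝ) : |f y - f x| ≤ K * |y - x| := by
  have h1 := convex_univ.norm_image_sub_le_of_norm_hasDerivWithin_le (f := f) (f' := f') (C := K)
    (fun z _ => (h z).hasDerivWithinAt) (fun z _ => by rw [Real.norm_eq_abs]; exact hK z)
    (mem_univ x) (mem_univ y)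
  simpa [Real.norm_eq_abs] using h1

theorem e1_tay {f f' : ℝ → ℝ} (h : ∀ x, HasDerivAt f (f' x) x)
    (h2 : ∀ x y, |f' y - f' x| ≤ |y - x|) (x d : ℝ) :
    |f (x + d) - f x - f' x * d| ≤ d ^ 2 := by
  have h1 := (convex_uIcc x (x + d)).norm_image_sub_le_of_norm_hasDerivWithin_le
    (f := fun y => f y - f' x * y) (f' := fun y => f' y - f' x) (C := |d|)
    (fun z _ => by
      have h3 := (h z).sub ((hasDerivAt_id z).const_mul (f' x))
      simp only [id_eq, mul_one] at h3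
      exact h3.hasDerivWithinAt)
    (fun z hz => by
      rw [Real.norm_eq_abs]
      refine (h2 x z).trans ?_
      have h4 := abs_sub_left_of_mem_uIcc hz
      simpa using h4)
    left_mem_uIcc right_mem_uIcc
  rw [Real.norm_eq_abs, Real.norm_eq_abs, add_sub_cancel_left, abs_mul_abs_self] at h1
  have e : f (x + d) - f' x * (x + d) - (f x - f' x * x) = f (x + d) - f x - f' x * d := by ring
  rw [e] at h1
  nlinarith [h1]

theorem e1_adm1 {C : ℝ} {F : ℝ → ℝ} (h : Adm C F) (x : ℝ) : |iteratedDeriv 1 F x| ≤ 1 := by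
  have h1 := h.le1 x
  have h2 := h.pos x
  rw [← sq_le_one_iff_abs_le_one]
  linarith

theorem e1_adm2 {C : ℝ} {F : ℝ → ℝ} (h : Adm C F) (x : ℝ) : |iteratedDeriv 2 F x| ≤ 1 := by
  have h1 := h.le1 x
  have h2 := h.pos x
  rw [abs_of_pos h2]
  nlinarith [sq_nonneg (iteratedDeriv 1 F x)]

theorem e1_d0 {C : ℝ} {F : ℝ → ℝ} (h : Adm C F) (x : ℝ) :
    HasDerivAt F (iteratedDeriv 1 F x) x := by
  have := adm_hasD h.smb.smooth 0 x
  rwa [iteratedDeriv_zero] at this

theorem e1_F {C : ℝ} {F : ℝ → ℝ} (h : Adm C F) (x y : ℝ) : |F y - F x| ≤ |y - x| := by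
  have := e1_lip (e1_d0 h) (e1_adm1 h) x y
  rwa [one_mul] at this

theorem e1_F1 {C : ℝ} {F : ℝ → ℝ} (h : Adm C F) (x y : ℝ) :
    |iteratedDeriv 1 F y - iteratedDeriv 1 F x| ≤ |y - x| := by
  have := e1_lip (adm_hasD h.smb.smooth 1) (e1_adm2 h) x y
  rwa [one_mul] at this

theorem e1_contF {C : ℝ} {F : ℝ → ℝ} (h : Adm C F) : Continuous F := h.smb.smooth.continuous

/-! ### the exponent -/

/-- The exponent of `ell`. -/
noncomputable def e1_rho (m δ : ℝ) (H H' : ℝ → ℝ) (x z : ℝ) : ℝ :=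
  m * (H' (eX m δ H x z) - H x) - √δ * (m * iteratedDeriv 1 H x) * z
    - δ * (m * iteratedDeriv 1 H x) ^ 2 / 2

theorem e1_ell (m δ : ℝ) (H H' : ℝ → ℝ) (x z : ℝ) :
    ell m δ H H' x z = Real.exp (e1_rho m δ H H' x z) := rfl

variable {B m δ : ℝ} {H H' ψ : ℝ → ℝ}

theorem e1_ma (h : St B m δ H H') (x : ℝ) : |m * iteratedDeriv 1 H x| ≤ 1 := by
  rw [abs_mul, abs_of_pos h.m0]
  exact mul_le_one₀ h.m1 (abs_nonneg _) (e1_adm1 h.adm x)

theorem e1_sqrt (h : St B m δ H H') : √δ ≤ 1 := by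
  have := Real.sqrt_le_sqrt h.d1
  rwa [Real.sqrt_one] at this

theorem e1_d (h : St B m δ H H') (x z : ℝ) :
    |eX m δ H x z - x| ≤ √δ * (1 + |z|) := by
  have h1 := e1_ma h x
  have h2 := e1_sqrt h
  have h3 := Real.sqrt_nonneg δ
  have h4 : √δ * √δ = δ := Real.mul_self_sqrt h.d0
  have h5 : eX m δ H x z - x = δ * (m * iteratedDeriv 1 H x) + √δ * z := by
    unfold eX
    ring
  rw [h5]
  refine (abs_add_le _ _).trans ?_
  have h6 : |δ * (m * iteratedDeriv 1 H x)| ≤ √δ := by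
    rw [abs_mul, abs_of_nonneg h.d0]
    have e1 : δ * |m * iteratedDeriv 1 H x| ≤ δ * 1 := mul_le_mul_of_nonneg_left h1 h.d0
    have e2 : √δ * √δ ≤ √δ * 1 := mul_le_mul_of_nonneg_left h2 h3
    linarith
  have h7 : |√δ * z| = √δ * |z| := by rw [abs_mul, abs_of_nonneg h3]
  rw [h7]
  linarith

theorem e1_rho_crude (h : St B m δ H H') (x z : ℝ) :
    |e1_rho m δ H H' x z| ≤ (B + 2) * (1 + |z|) := by
  have h1 := e1_ma h x
  have h2 := e1_sqrt h
  have h3 := Real.sqrt_nonneg δ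
  have hz := abs_nonneg z
  have h4 := e1_d h x z
  have h5 : |H' (eX m δ H x z) - H x| ≤ 1 + |z| + B := by
    have e : H' (eX m δ H x z) - H x = (H' (eX m δ H x z) - H' x) + (H' x - H x) := by ring
    rw [e]
    refine (abs_add_le _ _).trans (add_le_add ?_ ?_)
    · refine (e1_F h.adm' x _).trans (h4.trans ?_)
      nlinarith
    · refine (h.df0 x).trans ?_
      nlinarith [h.B1, h.d1, h.d0]
  have h6 : |m * (H' (eX m δ H x z) - H x)| ≤ 1 + |z| + B := by
    rw [abs_mul, abs_of_pos h.m0]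
    nlinarith [h.m0, h.m1, abs_nonneg (H' (eX m δ H x z) - H x)]
  have h7 : |√δ * (m * iteratedDeriv 1 H x) * z| ≤ |z| := by
    rw [abs_mul, abs_mul, abs_of_nonneg h3]
    have : √δ * |m * iteratedDeriv 1 H x| ≤ 1 := mul_le_one₀ h2 (abs_nonneg _) h1
    nlinarith
  have h8 : |δ * (m * iteratedDeriv 1 H x) ^ 2 / 2| ≤ 1 / 2 := by
    have e1 : (m * iteratedDeriv 1 H x) ^ 2 ≤ 1 := by
      rw [sq_le_one_iff_abs_le_one]
      exact h1
    rw [abs_of_nonneg (by have := h.d0; positivity)]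
    nlinarith [h.d0, h.d1, sq_nonneg (m * iteratedDeriv 1 H x)]
  unfold e1_rho
  refine (abs_sub _ _).trans ?_
  refine (add_le_add_left (abs_sub _ _) _).trans ?_
  nlinarith [h.B1]

theorem e1_arith {m δ B a T E0 E1 d z : ℝ} (hm0 : 0 < m) (hm1 : m ≤ 1) (h0 : 0 ≤ δ)
    (hB : 1 ≤ B) (ha : |a| ≤ 1) (hT : |T| ≤ d ^ 2) (hE0 : |E0| ≤ B * δ) (hE1 : |E1| ≤ B * δ)
    (h5 : d ^ 2 ≤ 2 * δ * (1 + z ^ 2)) (h6 : |d| ≤ 2 * (1 + z ^ 2)) :
    |m * T + m * (E1 * d) + m * E0 + δ * a ^ 2 / 2| ≤ (3 * B + 3) * δ * (1 + z ^ 2) := by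
  have hz : 0 ≤ z ^ 2 := sq_nonneg z
  have hBδ : 0 ≤ B * δ := by positivity
  have hmul : ∀ y : ℝ, |m * y| ≤ |y| := fun y => by
    rw [abs_mul, abs_of_pos hm0]
    exact mul_le_of_le_one_left (abs_nonneg y) hm1
  have b1 : |m * T| ≤ 2 * δ * (1 + z ^ 2) := (hmul T).trans (hT.trans h5)
  have b2 : |m * (E1 * d)| ≤ B * δ * (2 * (1 + z ^ 2)) := by
    refine (hmul _).trans ?_
    rw [abs_mul]
    exact mul_le_mul hE1 h6 (abs_nonneg _) hBδ
  have b3 : |m * E0| ≤ B * δ * (1 + z ^ 2) := by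
    refine (hmul _).trans (hE0.trans ?_)
    have := mul_nonneg hBδ hz
    linarith
  have b4 : |δ * a ^ 2 / 2| ≤ δ * (1 + z ^ 2) := by
    have e1 : a ^ 2 ≤ 1 := by
      rw [sq_le_one_iff_abs_le_one]
      exact ha
    rw [abs_of_nonneg (by positivity)]
    have e2 : δ * a ^ 2 ≤ δ * 1 := mul_le_mul_of_nonneg_left e1 h0
    have e3 := mul_nonneg h0 hz
    linarith
  have t1 := abs_add_le (m * T + m * (E1 * d) + m * E0) (δ * a ^ 2 / 2)
  have t2 := abs_add_le (m * T + m * (E1 * d)) (m * E0)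
  have t3 := abs_add_le (m * T) (m * (E1 * d))
  have e : (3 * B + 3) * δ * (1 + z ^ 2) = 2 * δ * (1 + z ^ 2) + B * δ * (2 * (1 + z ^ 2)) +
      B * δ * (1 + z ^ 2) + δ * (1 + z ^ 2) := by ring
  rw [e]
  linarith

theorem e1_rho_fine (h : St B m δ H H') (x z : ℝ) :
    |e1_rho m δ H H' x z| ≤ (3 * B + 3) * δ * (1 + z ^ 2) := by
  have h1 := e1_ma h x
  have h2 := e1_sqrt h
  have h3 := Real.sqrt_nonneg δ
  have hz := abs_nonneg z
  have hz2 := sq_abs z
  have h0 := h.d0
  have hs : √δ ^ 2 = δ := Real.sq_sqrt h.d0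
  obtain ⟨d, hd⟩ : ∃ d, d = eX m δ H x z - x := ⟨_, rfl⟩
  have h4 : |d| ≤ √δ * (1 + |z|) := by
    rw [hd]
    exact e1_d h x z
  have hd2 : d = δ * (m * iteratedDeriv 1 H x) + √δ * z := by
    rw [hd]
    unfold eX
    ring
  have hx : eX m δ H x z = x + d := by rw [hd]; ring
  have h5 : d ^ 2 ≤ 2 * δ * (1 + z ^ 2) := by
    have e1 : d ^ 2 ≤ (√δ * (1 + |z|)) ^ 2 := by
      rw [← sq_abs d]
      exact pow_le_pow_left₀ (abs_nonneg _) h4 2
    rw [mul_pow, hs] at e1
    have e2 : (1 + |z|) ^ 2 ≤ 2 * (1 + z ^ 2) := by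
      nlinarith [sq_nonneg (1 - |z|)]
    have e3 := mul_le_mul_of_nonneg_left e2 h0
    linarith
  have h6 : |d| ≤ 2 * (1 + z ^ 2) := by
    have e1 : √δ * (1 + |z|) ≤ 1 * (1 + |z|) := mul_le_mul_of_nonneg_right h2 (by linarith)
    have e2 : 1 + |z| ≤ 2 * (1 + z ^ 2) := by nlinarith [sq_nonneg (1 - |z|)]
    linarith
  have hT := e1_tay (e1_d0 h.adm') (e1_F1 h.adm') x d
  have key : e1_rho m δ H H' x z = m * (H' (x + d) - H' x - iteratedDeriv 1 H' x * d) +
      m * ((iteratedDeriv 1 H' x - iteratedDeriv 1 H x) * d) + m * (H' x - H x) +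
      δ * (m * iteratedDeriv 1 H x) ^ 2 / 2 := by
    unfold e1_rho
    rw [hx]
    linear_combination (m * iteratedDeriv 1 H x) * hd2
  rw [key]
  exact e1_arith h.m0 h.m1 h0 h.B1 h1 hT (h.df0 x) (h.df1 x) h5 h6

theorem e1_exp_sub (r : ℝ) : |Real.exp r - 1| ≤ |r| * Real.exp |r| := by
  rcases le_or_gt 0 r with hr | hr
  · have h1 : 1 ≤ Real.exp r := Real.one_le_exp hr
    rw [abs_of_nonneg hr, abs_of_nonneg (by linarith)]
    have h2 := Real.add_one_le_exp (-r)
    have h3 : Real.exp (-r) * Real.exp r = 1 := by rw [← Real.exp_add]; simp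
    nlinarith [Real.exp_pos r]
  · have h1 : Real.exp r ≤ 1 := Real.exp_le_one_iff.2 hr.le
    rw [abs_of_neg hr, abs_of_nonpos (by linarith)]
    have h2 := Real.add_one_le_exp r
    have h3 : 1 ≤ Real.exp (-r) := Real.one_le_exp (by linarith)
    nlinarith

/-! ### the estimates -/

theorem ell_pos (x z : ℝ) : 0 < ell m δ H H' x z := Real.exp_pos _

/-- joint continuity (for measurability) -/
theorem ell_cont (h : St B m δ H H') : Continuous (fun p : ℝ × ℝ => ell m δ H H' p.1 p.2) := by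
  have c1 := e1_contF h.adm
  have c2 := e1_contF h.adm'
  have c3 := adm_cont h.adm.smb.smooth 1
  unfold ell eX
  fun_prop

theorem rh_cont (h : St B m δ H H') : Continuous (fun p : ℝ × ℝ => rh m δ H H' p.1 p.2) := by
  have c1 := adm_cont h.adm'.smb.smooth 1
  have c3 := adm_cont h.adm.smb.smooth 1
  have c4 := adm_cont h.adm.smb.smooth 2
  unfold rh eX
  fun_prop

theorem e1_cont_z (h : St B m δ H H') (x : ℝ) : Continuous (fun z => ell m δ H H' x z) :=
  (ell_cont h).comp (by fun_prop : Continuous fun z : ℝ => (x, z))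

/-- Cameron-Martin -/
theorem ell_tlt (h : St B m δ H H') (hψ : Sp7Cb ψ) (x : ℝ) :
    ∫ z, ell m δ H H' x z * ψ (eX m δ H x z) ∂(gaussianReal 0 1) = tlt m δ H' ψ x := by
  have hs : √δ * √δ = δ := Real.mul_self_sqrt h.d0
  set a := m * iteratedDeriv 1 H x with ha
  set θ := √δ * a with hθ
  have hX : ∀ z, eX m δ H x z = x + √δ * (z + θ) := by
    intro z
    unfold eX
    rw [← ha, hθ]
    linear_combination (-a) * hs
  set f : ℝ → ℝ := fun y => Real.exp (m * (H' (x + √δ * y) - H x)) * ψ (x + √δ * y) *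
    Real.exp (-θ * y + θ ^ 2 / 2) with hf
  have h1 : ∀ z, ell m δ H H' x z * ψ (eX m δ H x z) = f (z + θ) := by
    intro z
    rw [hf]
    simp only
    unfold ell
    rw [hX z, ← ha]
    have e : Real.exp (m * (H' (x + √δ * (z + θ)) - H x) - √δ * a * z - δ * a ^ 2 / 2) =
        Real.exp (m * (H' (x + √δ * (z + θ)) - H x)) *
          Real.exp (-θ * (z + θ) + θ ^ 2 / 2) := by
      rw [← Real.exp_add]
      congr 1
      rw [← hθ]
      have : θ ^ 2 = δ * a ^ 2 := by
        rw [hθ, mul_pow, Real.sq_sqrt h.d0]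
      linear_combination (-1 / 2 : ℝ) * this + this
    rw [e]
    ring
  have h2 : ∫ z, ell m δ H H' x z * ψ (eX m δ H x z) ∂(gaussianReal 0 1) =
      ∫ z, f (z + θ) ∂(gaussianReal 0 1) := integral_congr_ae (ae_of_all _ h1)
  rw [h2, sp3_shift]
  have hpos : 0 < ∫ z, Real.exp (m * H' (x + √δ * z)) ∂(gaussianReal 0 1) := by
    have h3 := U_pos (posF_exp h.adm'.smb m) δ x
    simpa [U] using h3
  have hH : Real.exp (m * H x) = ∫ z, Real.exp (m * H' (x + √δ * z)) ∂(gaussianReal 0 1) := by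
    rw [h.eq]
    unfold gstep
    rw [← mul_assoc, mul_one_div_cancel h.m0.ne', one_mul, Real.exp_log hpos]
  have h4 : (fun z => f z * Real.exp (θ * z)) = fun z => (Real.exp (θ ^ 2 / 2) *
      Real.exp (-(m * H x))) * (ψ (x + √δ * z) * Real.exp (m * H' (x + √δ * z))) := by
    funext z
    rw [hf]
    simp only
    rw [mul_sub, sub_eq_add_neg, Real.exp_add, Real.exp_add]
    have e : Real.exp (-θ * z) * Real.exp (θ * z) = 1 := by
      rw [← Real.exp_add]
      simp
    linear_combination (Real.exp (m * H' (x + √δ * z)) * Real.exp (-(m * H x)) *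
      ψ (x + √δ * z) * Real.exp (θ ^ 2 / 2)) * e
  rw [h4, integral_const_mul]
  unfold tlt
  rw [← hH]
  have e1 : Real.exp (-θ ^ 2 / 2) * Real.exp (θ ^ 2 / 2) = 1 := by
    rw [← Real.exp_add, show -θ ^ 2 / 2 + θ ^ 2 / 2 = 0 by ring, Real.exp_zero]
  rw [← mul_assoc, ← mul_assoc, e1, one_mul, div_eq_inv_mul, Real.exp_neg]

theorem ell_one (h : St B m δ H H') (x : ℝ) :
    ∫ z, ell m δ H H' x z ∂(gaussianReal 0 1) = 1 := by
  have h1 := ell_tlt h (ψ := fun _ => (1 : ℝ)) (sp7_cb_const 1) x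
  simp only [mul_one] at h1
  rw [h1]
  unfold tlt
  simp only [one_mul]
  have hpos : 0 < ∫ z, Real.exp (m * H' (x + √δ * z)) ∂(gaussianReal 0 1) := by
    have h3 := U_pos (posF_exp h.adm'.smb m) δ x
    simpa [U] using h3
  exact div_self hpos.ne'

/-- crude bound -/
theorem ell_bd (B : ℝ) : ∃ C : ℝ, 1 ≤ C ∧ ∀ (m δ : ℝ) (H H' : ℝ → ℝ), St B m δ H H' →
    ∀ x z, ell m δ H H' x z ≤ Real.exp (C * (1 + |z|)) := by
  refine ⟨|B| + 2, by linarith [abs_nonneg B], fun m δ H H' h x z => ?_⟩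
  rw [e1_ell]
  refine Real.exp_le_exp.2 ((le_abs_self _).trans ((e1_rho_crude h x z).trans ?_))
  exact mul_le_mul_of_nonneg_right (by linarith [le_abs_self B]) (by positivity)

/-- `|ℓ - 1| ≤ |ρ| exp |ρ|`, `|ρ| ≤ C δ (1 + z²)` -/
theorem ell_sub (B : ℝ) : ∃ C : ℝ, 1 ≤ C ∧ ∀ (m δ : ℝ) (H H' : ℝ → ℝ), St B m δ H H' →
    ∀ x z, |ell m δ H H' x z - 1| ≤ C * δ * (1 + z ^ 2) * Real.exp (C * (1 + |z|)) := by
  refine ⟨3 * |B| + 3, by linarith [abs_nonneg B], fun m δ H H' h x z => ?_⟩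
  rw [e1_ell]
  have hB := le_abs_self B
  have h0 := h.d0
  refine (e1_exp_sub _).trans (mul_le_mul ?_ (Real.exp_le_exp.2 ?_) (Real.exp_pos _).le
    (by have := abs_nonneg B; positivity))
  · refine (e1_rho_fine h x z).trans ?_
    have : (3 * B + 3) * δ ≤ (3 * |B| + 3) * δ :=
      mul_le_mul_of_nonneg_right (by linarith) h0
    exact mul_le_mul_of_nonneg_right this (by positivity)
  · refine (e1_rho_crude h x z).trans ?_
    exact mul_le_mul_of_nonneg_right (by linarith [abs_nonneg B]) (by positivity)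

theorem e1_poly_exp (t : ℝ) :
    Integrable (fun z : ℝ => (1 + z ^ 2) ^ 2 * Real.exp (t * (1 + |z|))) (gaussianReal 0 1) := by
  refine ((sp7_int_exp_abs (t + 4)).const_mul (9 * Real.exp t)).mono' (by fun_prop)
    (ae_of_all _ fun z => ?_)
  rw [Real.norm_eq_abs, abs_of_nonneg (by positivity)]
  have h1 := Real.quadratic_le_exp_of_nonneg (abs_nonneg z)
  rw [sq_abs] at h1
  have h2 : 1 + z ^ 2 ≤ 3 * Real.exp |z| := by
    have := abs_nonneg z
    nlinarith [Real.one_le_exp (abs_nonneg z)]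
  have h3 : (1 + z ^ 2) ^ 2 ≤ 9 * Real.exp (4 * |z|) := by
    have e1 : (1 + z ^ 2) ^ 2 ≤ (3 * Real.exp |z|) ^ 2 :=
      pow_le_pow_left₀ (by positivity) h2 2
    have e2 : (3 * Real.exp |z|) ^ 2 = 9 * Real.exp (2 * |z|) := by
      rw [mul_pow, ← Real.exp_nat_mul]
      norm_num
    have e3 : Real.exp (2 * |z|) ≤ Real.exp (4 * |z|) :=
      Real.exp_le_exp.2 (by nlinarith [abs_nonneg z])
    linarith
  calc (1 + z ^ 2) ^ 2 * Real.exp (t * (1 + |z|))
      ≤ 9 * Real.exp (4 * |z|) * Real.exp (t * (1 + |z|)) :=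
        mul_le_mul_of_nonneg_right h3 (Real.exp_pos _).le
    _ = 9 * Real.exp t * Real.exp ((t + 4) * |z|) := by
        rw [mul_assoc, ← Real.exp_add, mul_assoc, ← Real.exp_add]
        ring_nf

theorem e1_exp_one (t : ℝ) :
    Integrable (fun z : ℝ => Real.exp (t * (1 + |z|))) (gaussianReal 0 1) := by
  refine ((sp7_int_exp_abs t).const_mul (Real.exp t)).congr (ae_of_all _ fun z => ?_)
  simp only
  rw [← Real.exp_add]
  ring_nf

theorem e1_int (h : St B m δ H H') (x : ℝ) :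
    Integrable (fun z => ell m δ H H' x z) (gaussianReal 0 1) := by
  obtain ⟨C, -, hC⟩ := ell_bd B
  refine (e1_exp_one C).mono' (e1_cont_z h x).aestronglyMeasurable (ae_of_all _ fun z => ?_)
  rw [Real.norm_eq_abs, abs_of_pos (ell_pos x z)]
  exact hC m δ H H' h x z

theorem e1_int_sub (h : St B m δ H H') (x : ℝ) :
    Integrable (fun z => (ell m δ H H' x z - 1) ^ 2) (gaussianReal 0 1) := by
  obtain ⟨C, hC1, hC⟩ := ell_sub B
  refine ((e1_poly_exp (2 * C)).const_mul ((C * δ) ^ 2)).mono'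
    (((e1_cont_z h x).sub continuous_const).pow 2).aestronglyMeasurable (ae_of_all _ fun z => ?_)
  rw [Real.norm_eq_abs, abs_of_nonneg (sq_nonneg _), ← sq_abs]
  have h1 := pow_le_pow_left₀ (abs_nonneg _) (hC m δ H H' h x z) 2
  refine h1.trans (le_of_eq ?_)
  rw [mul_pow, mul_pow, ← Real.exp_nat_mul]
  push_cast
  ring_nf

theorem ell_sq (B : ℝ) : ∃ C : ℝ, 1 ≤ C ∧ ∀ (m δ : ℝ) (H H' : ℝ → ℝ), St B m δ H H' →
    ∀ x, ∫ z, ell m δ H H' x z ^ 2 ∂(gaussianReal 0 1) ≤ 1 + C * δ ^ 2 := by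
  obtain ⟨C, hC1, hC⟩ := ell_sub B
  set K := ∫ z : ℝ, (1 + z ^ 2) ^ 2 * Real.exp (2 * C * (1 + |z|)) ∂(gaussianReal 0 1) with hK
  have hK0 : 0 ≤ K := integral_nonneg fun z => by positivity
  refine ⟨1 + C ^ 2 * K, by nlinarith [mul_nonneg (sq_nonneg C) hK0], fun m δ H H' h x => ?_⟩
  have h1 : (fun z => ell m δ H H' x z ^ 2) = fun z =>
      (ell m δ H H' x z - 1) ^ 2 + (2 * ell m δ H H' x z - 1) := by
    funext z
    ring
  have h2 : ∫ z, (2 * ell m δ H H' x z - 1) ∂(gaussianReal 0 1) = 1 := by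
    rw [integral_sub ((e1_int h x).const_mul 2) (integrable_const _), integral_const_mul,
      ell_one h x]
    simp
    norm_num
  have hA : Integrable (fun z => 2 * ell m δ H H' x z - 1) (gaussianReal 0 1) :=
    ((e1_int h x).const_mul 2).sub (integrable_const _)
  rw [h1, integral_add (e1_int_sub h x) hA, h2]
  have h3 : ∫ z, (ell m δ H H' x z - 1) ^ 2 ∂(gaussianReal 0 1) ≤ (C * δ) ^ 2 * K := by
    rw [hK, ← integral_const_mul]
    refine integral_mono (e1_int_sub h x) ((e1_poly_exp (2 * C)).const_mul _) fun z => ?_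
    have h4 := pow_le_pow_left₀ (abs_nonneg _) (hC m δ H H' h x z) 2
    rw [sq_abs] at h4
    refine h4.trans (le_of_eq ?_)
    rw [mul_pow, mul_pow, ← Real.exp_nat_mul]
    push_cast
    ring_nf
  nlinarith [sq_nonneg δ]

end Vale.Agent.P367.Cl
end

section

/-!
# P367, classical half, Theorem C: the remainder of the martingale increment
-/

open MeasureTheory ProbabilityTheory Filter Topology Set

namespace Vale.Agent.P367.Cl

open Vale.Agent.P157.Par
open Vale.Agent.P146.Gap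
open Vale.Agent.P146.Pw2

variable {B m δ : ℝ} {H H' ψ : ℝ → ℝ}

theorem e1b_adm3 {C : ℝ} (hC : 1 ≤ C) {F : ℝ → ℝ} (h : Adm C F) (x : ℝ) :
    |iteratedDeriv 3 F x| ≤ C := by
  have h1 := h.r3 x
  have h2 := e1_adm2 h x
  have h3 := h.pos x
  rw [abs_of_pos h3] at h2
  refine h1.trans ?_
  calc C * iteratedDeriv 2 F x ≤ C * 1 := mul_le_mul_of_nonneg_left h2 (by linarith)
    _ = C := mul_one C

theorem e1b_F2 {C : ℝ} (hC : 1 ≤ C) {F : ℝ → ℝ} (h : Adm C F) (x y : ℝ) :
    |iteratedDeriv 2 F y - iteratedDeriv 2 F x| ≤ C * |y - x| :=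
  e1_lip (adm_hasD h.smb.smooth 2) (e1b_adm3 hC h) x y

theorem e1b_tay {C : ℝ} (hC : 1 ≤ C) {F : ℝ → ℝ} (h : Adm C F) (x d : ℝ) :
    |iteratedDeriv 1 F (x + d) - iteratedDeriv 1 F x - iteratedDeriv 2 F x * d| ≤ C * d ^ 2 := by
  have hC0 : 0 < C := by linarith
  have h1 := e1_tay (f := fun y => iteratedDeriv 1 F y / C) (f' := fun y => iteratedDeriv 2 F y / C)
    (fun y => (adm_hasD h.smb.smooth 1 y).div_const C)
    (fun y z => by
      rw [← sub_div, abs_div, abs_of_pos hC0, div_le_iff₀ hC0, mul_comm |z - y| C]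
      exact e1b_F2 hC h y z) x d
  have h2 : iteratedDeriv 1 F (x + d) / C - iteratedDeriv 1 F x / C - iteratedDeriv 2 F x / C * d =
      (iteratedDeriv 1 F (x + d) - iteratedDeriv 1 F x - iteratedDeriv 2 F x * d) / C := by
    field_simp
  rw [h2, abs_div, abs_of_pos hC0, div_le_iff₀ hC0] at h1
  linarith

theorem e1b_dsq (h : St B m δ H H') (x z : ℝ) :
    (eX m δ H x z - x) ^ 2 ≤ 2 * (δ * (1 + z ^ 2)) := by
  have h1 := e1_d h x z
  have h2 := pow_le_pow_left₀ (abs_nonneg _) h1 2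
  rw [sq_abs, mul_pow, Real.sq_sqrt h.d0] at h2
  refine h2.trans ?_
  have h3 : (1 + |z|) ^ 2 ≤ 2 * (1 + z ^ 2) := by
    have := sq_abs z
    nlinarith [sq_nonneg (1 - |z|)]
  calc δ * (1 + |z|) ^ 2 ≤ δ * (2 * (1 + z ^ 2)) := mul_le_mul_of_nonneg_left h3 h.d0
    _ = 2 * (δ * (1 + z ^ 2)) := by ring

theorem e1b_rh (h : St B m δ H H') (x z : ℝ) : |rh m δ H H' x z| ≤ (3 * B + 1) * δ * (1 + z ^ 2) := by
  have hB := h.B1
  have hd0 := h.d0
  set d := eX m δ H x z - x with hd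
  have e0 : x + d = eX m δ H x z := by rw [hd]; ring
  have h1 := h.df1 (eX m δ H x z)
  have h2 := e1b_tay hB h.adm x d
  have h3 := e1b_dsq h x z
  have h4 : |iteratedDeriv 2 H x * (δ * (m * iteratedDeriv 1 H x))| ≤ δ := by
    rw [abs_mul, abs_mul, abs_of_nonneg hd0]
    have e1 := e1_adm2 h.adm x
    have e2 := e1_ma h x
    have e3 : δ * |m * iteratedDeriv 1 H x| ≤ δ * 1 := mul_le_mul_of_nonneg_left e2 hd0
    calc |iteratedDeriv 2 H x| * (δ * |m * iteratedDeriv 1 H x|) ≤ 1 * (δ * 1) :=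
          mul_le_mul e1 e3 (by positivity) (by norm_num)
      _ = δ := by ring
  have h5 : rh m δ H H' x z = (iteratedDeriv 1 H' (eX m δ H x z) - iteratedDeriv 1 H (eX m δ H x z)) +
      (iteratedDeriv 1 H (x + d) - iteratedDeriv 1 H x - iteratedDeriv 2 H x * d) +
      iteratedDeriv 2 H x * (δ * (m * iteratedDeriv 1 H x)) := by
    rw [e0]
    unfold rh
    have : d = δ * (m * iteratedDeriv 1 H x) + √δ * z := by
      rw [hd]; unfold eX; ring
    rw [this]
    ring
  rw [h5]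
  have h6 : B * d ^ 2 ≤ B * (2 * (δ * (1 + z ^ 2))) := mul_le_mul_of_nonneg_left h3 (by linarith)
  have h7 : 0 ≤ δ * z ^ 2 := by positivity
  have h8 : 0 ≤ B * (δ * z ^ 2) := by positivity
  refine (abs_add_le _ _).trans ?_
  have h9 := abs_add_le (iteratedDeriv 1 H' (eX m δ H x z) - iteratedDeriv 1 H (eX m δ H x z))
    (iteratedDeriv 1 H (x + d) - iteratedDeriv 1 H x - iteratedDeriv 2 H x * d)
  nlinarith

theorem rh_bd (B : ℝ) : ∃ C : ℝ, 1 ≤ C ∧ ∀ (m δ : ℝ) (H H' : ℝ → ℝ), St B m δ H H' →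
    ∀ x z, |rh m δ H H' x z| ≤ C * δ * (1 + z ^ 2) := by
  refine ⟨3 * |B| + 1, by linarith [abs_nonneg B], fun m δ H H' h x z => ?_⟩
  refine (e1b_rh h x z).trans ?_
  have hd := h.d0
  have : (3 * B + 1) * δ ≤ (3 * |B| + 1) * δ :=
    mul_le_mul_of_nonneg_right (by linarith [le_abs_self B]) hd
  exact mul_le_mul_of_nonneg_right this (by positivity)

/-- `|H₁'(y) - H₁(x)| ≤ √δ (B + 1 + |z|)`. -/
theorem e1b_inc (h : St B m δ H H') (x z : ℝ) :
    |iteratedDeriv 1 H' (eX m δ H x z) - iteratedDeriv 1 H x| ≤ √δ * ((B + 1) * (1 + |z|)) := by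
  have h1 := h.df1 (eX m δ H x z)
  have h2 := e1_F1 h.adm x (eX m δ H x z)
  have h3 := e1_d h x z
  have h4 := abs_sub_le (iteratedDeriv 1 H' (eX m δ H x z)) (iteratedDeriv 1 H (eX m δ H x z))
    (iteratedDeriv 1 H x)
  have h5 : δ ≤ √δ := by
    have e1 := e1_sqrt h
    have e2 := Real.sqrt_nonneg δ
    have e3 : √δ * √δ = δ := Real.mul_self_sqrt h.d0
    nlinarith
  have hB := h.B1
  have hz := abs_nonneg z
  have h6 : B * δ ≤ B * √δ := mul_le_mul_of_nonneg_left h5 (by linarith)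
  have h7 : 0 ≤ √δ * (B * |z|) := by positivity
  nlinarith

theorem e1b_cont (h : St B m δ H H') (x : ℝ) :
    Continuous (fun z => iteratedDeriv 1 H' (eX m δ H x z) - iteratedDeriv 1 H x) := by
  have c1 := adm_cont h.adm'.smb.smooth 1
  unfold eX
  fun_prop

theorem rh_mean (B : ℝ) : ∃ C : ℝ, 1 ≤ C ∧ ∀ (m δ : ℝ) (H H' : ℝ → ℝ), St B m δ H H' →
    ∀ x, |∫ z, rh m δ H H' x z ∂(gaussianReal 0 1)| ≤ C * (δ * √δ) := by
  obtain ⟨C, hC1, hC⟩ := ell_sub B
  set K := ∫ z : ℝ, (1 + z ^ 2) ^ 2 * Real.exp (C * (1 + |z|)) ∂(gaussianReal 0 1) with hK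
  have hK0 : 0 ≤ K := integral_nonneg fun z => by positivity
  have hB0 := abs_nonneg B
  refine ⟨1 + C * (2 * (|B| + 1)) * K, by
    have : 0 ≤ C * (2 * (|B| + 1)) * K := by positivity
    linarith, fun m δ H H' h x => ?_⟩
  have hδ := h.d0
  have hBB := h.B1
  set D : ℝ → ℝ := fun z => iteratedDeriv 1 H' (eX m δ H x z) - iteratedDeriv 1 H x with hD
  have hDc : Continuous D := e1b_cont h x
  -- integrability
  have hDi : Integrable D (gaussianReal 0 1) := by
    refine (integrable_const (2 : ℝ)).mono' hDc.aestronglyMeasurable (ae_of_all _ fun z => ?_)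
    rw [Real.norm_eq_abs]
    have h1 := e1_adm1 h.adm' (eX m δ H x z)
    have h2 := e1_adm1 h.adm x
    refine (abs_sub _ _).trans ?_
    linarith
  have hle : Integrable (fun z => ell m δ H H' x z * D z) (gaussianReal 0 1) := by
    refine ((e1_int h x).const_mul 2).mono' ((e1_cont_z h x).mul hDc).aestronglyMeasurable
      (ae_of_all _ fun z => ?_)
    rw [Real.norm_eq_abs, abs_mul, abs_of_pos (ell_pos x z), mul_comm]
    refine mul_le_mul_of_nonneg_right ?_ (ell_pos x z).le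
    have h1 := e1_adm1 h.adm' (eX m δ H x z)
    have h2 := e1_adm1 h.adm x
    refine (abs_sub _ _).trans ?_
    linarith
  -- `∫ ell D = 0`
  have hz : ∫ z, ell m δ H H' x z * D z ∂(gaussianReal 0 1) = 0 := by
    have hcb : Sp7Cb (iteratedDeriv 1 H') :=
      ⟨adm_cont h.adm'.smb.smooth 1, 1, fun y => e1_adm1 h.adm' y⟩
    have h1 := ell_tlt h hcb x
    have h2 : tlt m δ H' (iteratedDeriv 1 H') x = iteratedDeriv 1 H x := by
      have h3 := congrFun (ex_gstep_d1 h.adm' h.m0 δ) x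
      rw [← h3, ← h.eq]
    have h4 : Integrable (fun z => ell m δ H H' x z * iteratedDeriv 1 H' (eX m δ H x z))
        (gaussianReal 0 1) := by
      refine (hle.add ((e1_int h x).mul_const (iteratedDeriv 1 H x))).congr
        (ae_of_all _ fun z => ?_)
      simp only [hD, Pi.add_apply]
      ring
    have h5 : (fun z => ell m δ H H' x z * D z) = fun z =>
        ell m δ H H' x z * iteratedDeriv 1 H' (eX m δ H x z) -
          ell m δ H H' x z * iteratedDeriv 1 H x := by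
      funext z
      simp only [hD]
      ring
    rw [h5, integral_sub h4 ((e1_int h x).mul_const _), integral_mul_const, ell_one h x, h1, h2]
    ring
  -- `∫ rh = ∫ D`
  have hid : Integrable (fun z : ℝ => z) (gaussianReal 0 1) := by
    have := memLp_id_gaussianReal (μ := 0) (v := 1) 1
    exact memLp_one_iff_integrable.1 this
  have hmean : ∫ z, z ∂(gaussianReal 0 1) = 0 := integral_id_gaussianReal
  have hr : ∫ z, rh m δ H H' x z ∂(gaussianReal 0 1) = ∫ z, D z ∂(gaussianReal 0 1) := by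
    have h1 : (fun z => rh m δ H H' x z) = fun z => D z - √δ * iteratedDeriv 2 H x * z := by
      funext z
      rfl
    rw [h1, integral_sub hDi (hid.const_mul _), integral_const_mul, hmean]
    ring
  have hr2 : ∫ z, D z ∂(gaussianReal 0 1) =
      -∫ z, (ell m δ H H' x z - 1) * D z ∂(gaussianReal 0 1) := by
    have h1 : (fun z => (ell m δ H H' x z - 1) * D z) = fun z => ell m δ H H' x z * D z - D z := by
      funext z
      ring
    rw [h1, integral_sub hle hDi, hz]
    ring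
  rw [hr, hr2, abs_neg]
  have hb : ∀ z, |(ell m δ H H' x z - 1) * D z| ≤
      (C * δ * (√δ * (2 * (|B| + 1)))) * ((1 + z ^ 2) ^ 2 * Real.exp (C * (1 + |z|))) := by
    intro z
    have h1 := hC m δ H H' h x z
    have h2 := e1b_inc h x z
    have h3 : 1 + |z| ≤ 2 * (1 + z ^ 2) := by
      have := sq_abs z
      nlinarith [sq_nonneg (|z| - 1), abs_nonneg z]
    have h4 : |D z| ≤ √δ * (2 * (|B| + 1)) * (1 + z ^ 2) := by
      refine h2.trans ?_
      have e1 : (B + 1) * (1 + |z|) ≤ (|B| + 1) * (2 * (1 + z ^ 2)) :=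
        mul_le_mul (by linarith [le_abs_self B]) h3 (by positivity) (by positivity)
      have e2 := mul_le_mul_of_nonneg_left e1 (Real.sqrt_nonneg δ)
      refine e2.trans (le_of_eq ?_)
      ring
    rw [abs_mul]
    calc |ell m δ H H' x z - 1| * |D z| ≤
        (C * δ * (1 + z ^ 2) * Real.exp (C * (1 + |z|))) * (√δ * (2 * (|B| + 1)) * (1 + z ^ 2)) :=
          mul_le_mul h1 h4 (abs_nonneg _) (by positivity)
      _ = _ := by ring
  have hfin : |∫ z, (ell m δ H H' x z - 1) * D z ∂(gaussianReal 0 1)| ≤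
      (C * δ * (√δ * (2 * (|B| + 1)))) * K := by
    rw [hK, ← integral_const_mul, ← Real.norm_eq_abs]
    exact norm_integral_le_of_norm_le ((e1_poly_exp C).const_mul _)
      (ae_of_all _ fun z => by rw [Real.norm_eq_abs]; exact hb z)
  refine hfin.trans ?_
  have h9 : 0 ≤ δ * √δ := by positivity
  have h10 : C * δ * (√δ * (2 * (|B| + 1))) * K = (C * (2 * (|B| + 1)) * K) * (δ * √δ) := by ring
  rw [h10]
  nlinarith

end Vale.Agent.P367.Cl
end

section

/-!
# P367, classical half, Euler scheme: the Euler chain against the tilted chain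
-/

open MeasureTheory ProbabilityTheory Filter Topology Set

namespace Vale.Agent.P367.Cl

open Vale.Agent.P157.Par
open Vale.Agent.P146.Gap
open Vale.Agent.P146.Pw2

/-- The state of the Euler chain. -/
noncomputable def eS (μ δ : ℕ → ℝ) (H : ℕ → ℝ → ℝ) (G : ℕ → ℝ) (k : ℕ) : ℝ :=
  cX (eF μ δ H) (fun k => √(δ k)) G k

/-- The density of the tilted chain with respect to the Euler chain. -/
noncomputable def eZ (μ δ : ℕ → ℝ) (H : ℕ → ℝ → ℝ) (G : ℕ → ℝ) (k : ℕ) : ℝ :=
  ∏ j ∈ Finset.range k, ell (μ j) (δ j) (H j) (H (j + 1)) (eS μ δ H G j) (G j)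

/-- The sum of the remainders. -/
noncomputable def eR (μ δ : ℕ → ℝ) (H : ℕ → ℝ → ℝ) (G : ℕ → ℝ) (k : ℕ) : ℝ :=
  ∑ j ∈ Finset.range k, rh (μ j) (δ j) (H j) (H (j + 1)) (eS μ δ H G j) (G j)

variable {N : ℕ} {μ δ : ℕ → ℝ} {H : ℕ → ℝ → ℝ} {B : ℝ}

theorem eS_succ (G : ℕ → ℝ) (k : ℕ) :
    eS μ δ H G (k + 1) = eX (μ k) (δ k) (H k) (eS μ δ H G k) (G k) := rfl

theorem eS_upd (G : Fin N → ℝ) {k j : ℕ} (hk : k < N) (hj : j ≤ k) (z : ℝ) :
    eS μ δ H (ext (Function.update G ⟨k, hk⟩ z)) j = eS μ δ H (ext G) j :=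
  cX_upd _ _ G ⟨k, hk⟩ z hj

theorem ext_upd (G : Fin N → ℝ) {k : ℕ} (hk : k < N) (z : ℝ) :
    ext (Function.update G ⟨k, hk⟩ z) k = z := ext_upd_same G ⟨k, hk⟩ z

theorem ext_upd_lt (G : Fin N → ℝ) {k j : ℕ} (hk : k < N) (hj : j < k) (z : ℝ) :
    ext (Function.update G ⟨k, hk⟩ z) j = ext G j :=
  ext_upd_ne G ⟨k, hk⟩ z (Nat.ne_of_lt hj)

theorem eS_upd_succ (G : Fin N → ℝ) {k : ℕ} (hk : k < N) (z : ℝ) :
    eS μ δ H (ext (Function.update G ⟨k, hk⟩ z)) (k + 1) =
      eX (μ k) (δ k) (H k) (eS μ δ H (ext G) k) z := by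
  rw [eS_succ, eS_upd G hk le_rfl, ext_upd G hk]

theorem eZ_upd (G : Fin N → ℝ) {k : ℕ} (hk : k < N) (z : ℝ) :
    eZ μ δ H (ext (Function.update G ⟨k, hk⟩ z)) (k + 1) =
      eZ μ δ H (ext G) k * ell (μ k) (δ k) (H k) (H (k + 1)) (eS μ δ H (ext G) k) z := by
  unfold eZ
  rw [Finset.prod_range_succ, eS_upd G hk le_rfl, ext_upd G hk]
  congr 1
  refine Finset.prod_congr rfl fun j hj => ?_
  have hj' := Finset.mem_range.1 hj
  rw [eS_upd G hk hj'.le, ext_upd_lt G hk hj']

theorem eR_upd (G : Fin N → ℝ) {k : ℕ} (hk : k < N) (z : ℝ) :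
    eR μ δ H (ext (Function.update G ⟨k, hk⟩ z)) (k + 1) =
      eR μ δ H (ext G) k + rh (μ k) (δ k) (H k) (H (k + 1)) (eS μ δ H (ext G) k) z := by
  unfold eR
  rw [Finset.sum_range_succ, eS_upd G hk le_rfl, ext_upd G hk]
  congr 1
  refine Finset.sum_congr rfl fun j hj => ?_
  have hj' := Finset.mem_range.1 hj
  rw [eS_upd G hk hj'.le, ext_upd_lt G hk hj']

attribute [local irreducible] ell rh eS

theorem eF_meas (h : ∀ k < N, St B (μ k) (δ k) (H k) (H (k + 1))) {k : ℕ} (hk : k < N) :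
    Measurable (eF μ δ H k) := by
  have := (adm_cont (h k hk).adm.smb.smooth 1).measurable
  unfold eF
  fun_prop

theorem eS_meas (h : ∀ k < N, St B (μ k) (δ k) (H k) (H (k + 1))) {k : ℕ} (hk : k ≤ N) :
    Measurable (fun G : Fin N → ℝ => eS μ δ H (ext G) k) := by
  unfold eS
  exact measurable_cX _ k fun _ hj => eF_meas h (by omega)

theorem ell_meas (h : ∀ k < N, St B (μ k) (δ k) (H k) (H (k + 1))) {k : ℕ} (hk : k < N) :
    Measurable (fun G : Fin N → ℝ =>
      ell (μ k) (δ k) (H k) (H (k + 1)) (eS μ δ H (ext G) k) (ext G k)) := by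
  have h1 : Measurable (fun G : Fin N → ℝ => (eS μ δ H (ext G) k, ext G k)) :=
    (eS_meas h hk.le).prodMk (measurable_ext k)
  exact Measurable.comp (g := fun p : ℝ × ℝ => ell (μ k) (δ k) (H k) (H (k + 1)) p.1 p.2)
    (ell_cont (h k hk)).measurable h1

theorem rh_meas (h : ∀ k < N, St B (μ k) (δ k) (H k) (H (k + 1))) {k : ℕ} (hk : k < N) :
    Measurable (fun G : Fin N → ℝ =>
      rh (μ k) (δ k) (H k) (H (k + 1)) (eS μ δ H (ext G) k) (ext G k)) := by
  have h1 : Measurable (fun G : Fin N → ℝ => (eS μ δ H (ext G) k, ext G k)) :=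
    (eS_meas h hk.le).prodMk (measurable_ext k)
  exact Measurable.comp (g := fun p : ℝ × ℝ => rh (μ k) (δ k) (H k) (H (k + 1)) p.1 p.2)
    (rh_cont (h k hk)).measurable h1

theorem ell_eg (h : ∀ k < N, St B (μ k) (δ k) (H k) (H (k + 1))) {k : ℕ} (hk : k < N) :
    EG N (fun G => ell (μ k) (δ k) (H k) (H (k + 1)) (eS μ δ H (ext G) k) (ext G k)) := by
  obtain ⟨C, hC, hb⟩ := ell_bd B
  refine EG.mono (ell_meas h hk) (EG.exp_ext C k) fun G => ?_
  rw [abs_of_pos (ell_pos _ _), abs_of_pos (Real.exp_pos _)]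
  exact hb _ _ _ _ (h k hk) _ _

theorem rh_eg (h : ∀ k < N, St B (μ k) (δ k) (H k) (H (k + 1))) {k : ℕ} (hk : k < N) :
    EG N (fun G => rh (μ k) (δ k) (H k) (H (k + 1)) (eS μ δ H (ext G) k) (ext G k)) := by
  obtain ⟨C, hC, hb⟩ := rh_bd B
  have h1 : EG N (fun G => C * δ k * (1 + Cl.ext G k ^ 2)) :=
    ((EG.const 1).add (EG.ext k).pow_two).const_mul (C * δ k)
  refine EG.mono (rh_meas h hk) h1 fun G => ?_
  have h2 : 0 ≤ C * δ k * (1 + Cl.ext G k ^ 2) := by
    have := (h k hk).d0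
    positivity
  rw [abs_of_nonneg h2]
  exact hb _ _ _ _ (h k hk) _ _

theorem eZ_eg (h : ∀ k < N, St B (μ k) (δ k) (H k) (H (k + 1))) : ∀ k ≤ N,
    EG N (fun G => eZ μ δ H (ext G) k)
  | 0, _ => by simpa [eZ] using EG.const (N := N) 1
  | k + 1, hk => by
    have h1 := (eZ_eg h k (by omega)).mul (ell_eg h (k := k) (by omega))
    simpa only [eZ, Finset.prod_range_succ] using h1

theorem eR_eg (h : ∀ k < N, St B (μ k) (δ k) (H k) (H (k + 1))) : ∀ k ≤ N,
    EG N (fun G => eR μ δ H (ext G) k)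
  | 0, _ => by simpa [eR] using EG.const (N := N) 0
  | k + 1, hk => by
    have h1 := (eR_eg h k (by omega)).add (rh_eg h (k := k) (by omega))
    simpa only [eR, Finset.sum_range_succ] using h1

theorem eψ_eg (h : ∀ k < N, St B (μ k) (δ k) (H k) (H (k + 1))) {k : ℕ} (hk : k ≤ N)
    {ψ : ℝ → ℝ} (hψ : Sp7Cb ψ) : EG N (fun G => ψ (eS μ δ H (ext G) k)) := by
  obtain ⟨hc, K, hK⟩ := hψ
  exact EG.of_bdd (hc.measurable.comp (eS_meas h hk)) fun G => hK _

theorem eZ_repr (h : ∀ k < N, St B (μ k) (δ k) (H k) (H (k + 1))) : ∀ k ≤ N, ∀ ψ : ℝ → ℝ,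
    Sp7Cb ψ → tE μ δ H k ψ = ∫ G, eZ μ δ H (ext G) k * ψ (eS μ δ H (ext G) k) ∂(γN N)
  | 0, _, ψ, _ => by
    simp [tE, eZ, eS, cX]
  | k + 1, hk, ψ, hψ => by
    have hk' : k < N := by omega
    have hs := h k hk'
    have h1 : Sp7Cb (tlt (μ k) (δ k) (H (k + 1)) ψ) := sp7_cb_tlt (adm_ec hs.adm') hψ _ _
    have h2 : tE μ δ H (k + 1) ψ = tE μ δ H k (tlt (μ k) (δ k) (H (k + 1)) ψ) := rfl
    rw [h2, eZ_repr h k (by omega) _ h1,
      int_upd ⟨k, hk'⟩ ((eZ_eg h (k + 1) hk).mul (eψ_eg h hk hψ)).integrable]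
    refine integral_congr_ae (ae_of_all _ fun G => ?_)
    simp only [eZ_upd G hk', eS_upd_succ G hk', mul_assoc]
    rw [integral_const_mul, ell_tlt hs hψ]

theorem eZ_one (h : ∀ k < N, St B (μ k) (δ k) (H k) (H (k + 1))) : ∀ k ≤ N,
    ∫ G, eZ μ δ H (ext G) k ∂(γN N) = 1
  | 0, _ => by simp [eZ]
  | k + 1, hk => by
    have hk' : k < N := by omega
    rw [int_upd ⟨k, hk'⟩ (eZ_eg h (k + 1) hk).integrable, ← eZ_one h k (by omega)]
    refine integral_congr_ae (ae_of_all _ fun G => ?_)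
    simp only [eZ_upd G hk']
    rw [integral_const_mul, ell_one (h k hk'), mul_one]

theorem eZ_sq {C : ℝ} (hC : 1 ≤ C) (hq : ∀ (m δ : ℝ) (H H' : ℝ → ℝ), St B m δ H H' →
      ∀ x, ∫ z, ell m δ H H' x z ^ 2 ∂(gaussianReal 0 1) ≤ 1 + C * δ ^ 2)
    (h : ∀ k < N, St B (μ k) (δ k) (H k) (H (k + 1))) : ∀ k ≤ N,
    ∫ G, eZ μ δ H (ext G) k ^ 2 ∂(γN N) ≤ Real.exp (C * ∑ j ∈ Finset.range k, δ j ^ 2)
  | 0, _ => by simp [eZ]
  | k + 1, hk => by
    have hk' : k < N := by omega
    have ih := eZ_sq hC hq h k (by omega)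
    rw [int_upd ⟨k, hk'⟩ (eZ_eg h (k + 1) hk).pow_two.integrable]
    have h1 : ∀ G : Fin N → ℝ, ∫ z, eZ μ δ H (ext (Function.update G ⟨k, hk'⟩ z)) (k + 1) ^ 2
        ∂(gaussianReal 0 1) ≤ eZ μ δ H (ext G) k ^ 2 * (1 + C * δ k ^ 2) := fun G => by
      simp only [eZ_upd G hk', mul_pow]
      rw [integral_const_mul]
      exact mul_le_mul_of_nonneg_left (hq _ _ _ _ (h k hk') _) (sq_nonneg _)
    have h2 := integral_mono (int_upd_integrable ⟨k, hk'⟩
      (eZ_eg h (k + 1) hk).pow_two.integrable)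
      ((eZ_eg h k (by omega)).pow_two.integrable.mul_const (1 + C * δ k ^ 2)) h1
    refine h2.trans ?_
    have he : Real.exp (C * ∑ j ∈ Finset.range (k + 1), δ j ^ 2) =
        Real.exp (C * ∑ j ∈ Finset.range k, δ j ^ 2) * Real.exp (C * δ k ^ 2) := by
      rw [Finset.sum_range_succ, mul_add, Real.exp_add]
    rw [integral_mul_const, he]
    refine mul_le_mul ih ?_ (by positivity) (Real.exp_pos _).le
    have := Real.add_one_le_exp (C * δ k ^ 2)
    linarith

theorem euler_weak (B : ℝ) : ∃ C : ℝ, 1 ≤ C ∧ ∀ (N : ℕ) (μ δ : ℕ → ℝ) (H : ℕ → ℝ → ℝ),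
    (∀ k < N, St B (μ k) (δ k) (H k) (H (k + 1))) → ∀ k ≤ N, ∀ ψ : ℝ → ℝ, Continuous ψ →
    (∀ x, |ψ x| ≤ 1) →
    |tE μ δ H k ψ - ∫ G, ψ (cX (eF μ δ H) (fun k => √(δ k)) (ext G) k) ∂(γN N)| ≤
      √(Real.exp (C * ∑ j ∈ Finset.range N, δ j ^ 2) - 1) := by
  obtain ⟨C, hC, hq⟩ := ell_sq B
  refine ⟨C, hC, fun N μ δ H h k hk ψ hψ hψ1 => ?_⟩
  have hcb : Sp7Cb ψ := ⟨hψ, 1, hψ1⟩
  have hZ := eZ_eg h k hk
  have hP := eψ_eg h hk hcb
  have h1 : tE μ δ H k ψ - ∫ G, ψ (cX (eF μ δ H) (fun k => √(δ k)) (ext G) k) ∂(γN N) =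
      ∫ G, (eZ μ δ H (ext G) k - 1) * ψ (eS μ δ H (ext G) k) ∂(γN N) := by
    rw [eZ_repr h k hk ψ hcb]
    have h2 : ∫ G, ψ (cX (eF μ δ H) (fun k => √(δ k)) (ext G) k) ∂(γN N) =
      ∫ G, ψ (eS μ δ H (ext G) k) ∂(γN N) := by simp only [eS]
    rw [h2, ← integral_sub (hZ.mul hP).integrable hP.integrable]
    refine integral_congr_ae (ae_of_all _ fun G => ?_)
    simp only
    ring
  have hW : EG N (fun G => eZ μ δ H (ext G) k - 1) := hZ.sub (EG.const 1)
  rw [h1]
  have h3 : |∫ G, (eZ μ δ H (ext G) k - 1) * ψ (eS μ δ H (ext G) k) ∂(γN N)| ≤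
      ∫ G, |eZ μ δ H (ext G) k - 1| ∂(γN N) := by
    refine (abs_integral_le_integral_abs).trans ?_
    refine integral_mono (hW.mul hP).integrable.abs hW.integrable.abs fun G => ?_
    show |(eZ μ δ H (ext G) k - 1) * ψ (eS μ δ H (ext G) k)| ≤ |eZ μ δ H (ext G) k - 1|
    rw [abs_mul]
    exact mul_le_of_le_one_right (abs_nonneg _) (hψ1 _)
  refine h3.trans ((abs_int_le_sqrt hW).trans (Real.sqrt_le_sqrt ?_))
  have h4 : ∫ G, (eZ μ δ H (ext G) k - 1) ^ 2 ∂(γN N) =
      (∫ G, eZ μ δ H (ext G) k ^ 2 ∂(γN N)) - 1 := by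
    have e : ∀ G : Fin N → ℝ, (eZ μ δ H (ext G) k - 1) ^ 2 =
        eZ μ δ H (ext G) k ^ 2 - 2 * eZ μ δ H (ext G) k + 1 := fun G => by ring
    simp only [e]
    have i1 : Integrable (fun G => eZ μ δ H (ext G) k ^ 2) (γN N) := hZ.pow_two.integrable
    have i2 : Integrable (fun G => 2 * eZ μ δ H (ext G) k) (γN N) := hZ.integrable.const_mul _
    have i3 : Integrable (fun G => eZ μ δ H (ext G) k ^ 2 - 2 * eZ μ δ H (ext G) k) (γN N) :=
      i1.sub i2
    rw [integral_add i3 (integrable_const _), integral_sub i1 i2, integral_const_mul,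
      eZ_one h k hk, integral_const]
    simp
    ring
  rw [h4]
  have h5 := eZ_sq hC hq h k hk
  have h6 : Real.exp (C * ∑ j ∈ Finset.range k, δ j ^ 2) ≤
      Real.exp (C * ∑ j ∈ Finset.range N, δ j ^ 2) := by
    refine Real.exp_le_exp.2 (mul_le_mul_of_nonneg_left ?_ (by linarith))
    exact Finset.sum_le_sum_of_subset_of_nonneg (Finset.range_mono hk)
      fun _ _ _ => sq_nonneg _
  linarith

theorem gauss_poly : Integrable (fun z : ℝ => (1 + z ^ 2) ^ 2) (gaussianReal 0 1) := by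
  refine ((int_exp_abs 4).const_mul 1).mono' (by fun_prop) (ae_of_all _ fun z => ?_)
  rw [Real.norm_eq_abs, abs_of_nonneg (sq_nonneg _), one_mul]
  have h1 : 1 + z ^ 2 ≤ Real.exp (2 * |z|) := by
    have h2 := Real.quadratic_le_exp_of_nonneg (x := 2 * |z|) (by positivity)
    have h3 := abs_nonneg z
    have h4 := sq_abs z
    nlinarith
  calc (1 + z ^ 2) ^ 2 ≤ Real.exp (2 * |z|) ^ 2 := by
        exact pow_le_pow_left₀ (by positivity) h1 2
    _ = Real.exp (4 * |z|) := by rw [← Real.exp_nat_mul]; ring_nf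

/-- the conditional second moment -/
theorem rh_step {m' d C D s : ℝ} {K K' : ℝ → ℝ}
    (hD : D = ∫ z, (1 + z ^ 2) ^ 2 ∂(gaussianReal 0 1)) (hs : St B m' d K K') (x : ℝ)
    (hb : ∀ z, |rh m' d K K' x z| ≤ C * d * (1 + z ^ 2))
    (hm : |∫ z, rh m' d K K' x z ∂(gaussianReal 0 1)| ≤ C * (d * √d)) :
    ∫ z, (s + rh m' d K K' x z) ^ 2 ∂(gaussianReal 0 1) ≤
      (1 + d) * s ^ 2 + C ^ 2 * (1 + D) * d ^ 2 := by
  have hd := hs.d0
  have hcont : Continuous (fun z => rh m' d K K' x z) :=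
    Continuous.comp (g := fun p : ℝ × ℝ => rh m' d K K' p.1 p.2) (rh_cont hs)
      (by fun_prop : Continuous fun z : ℝ => (x, z))
  have hr2 : Integrable (fun z => rh m' d K K' x z ^ 2) (gaussianReal 0 1) := by
    refine (gauss_poly.const_mul ((C * d) ^ 2)).mono'
      (hcont.pow 2).aestronglyMeasurable (ae_of_all _ fun z => ?_)
    rw [Real.norm_eq_abs, abs_of_nonneg (sq_nonneg _), ← sq_abs, ← mul_pow]
    exact pow_le_pow_left₀ (abs_nonneg _) (hb _) 2
  have hr1 : Integrable (fun z => rh m' d K K' x z) (gaussianReal 0 1) := by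
    refine (hr2.add (integrable_const 1)).mono' hcont.aestronglyMeasurable
      (ae_of_all _ fun z => ?_)
    rw [Real.norm_eq_abs]
    show |rh m' d K K' x z| ≤ rh m' d K K' x z ^ 2 + 1
    have h1 := sq_nonneg (|rh m' d K K' x z| - 1)
    have h2 := sq_abs (rh m' d K K' x z)
    have h3 := abs_nonneg (rh m' d K K' x z)
    nlinarith
  have e : ∀ z, (s + rh m' d K K' x z) ^ 2 =
      s ^ 2 + (2 * s) * rh m' d K K' x z + rh m' d K K' x z ^ 2 := fun z => by ring
  simp only [e]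
  have i1 : Integrable (fun z => (2 * s) * rh m' d K K' x z) (gaussianReal 0 1) :=
    hr1.const_mul _
  have i2 : Integrable (fun z => s ^ 2 + (2 * s) * rh m' d K K' x z) (gaussianReal 0 1) :=
    (integrable_const _).add i1
  rw [integral_add i2 hr2, integral_add (integrable_const _) i1, integral_const_mul,
    integral_const]
  simp only [probReal_univ, one_smul]
  have h2 : ∫ z, rh m' d K K' x z ^ 2 ∂(gaussianReal 0 1) ≤ (C * d) ^ 2 * D := by
    rw [hD, ← integral_const_mul]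
    refine integral_mono hr2 (gauss_poly.const_mul _) fun z => ?_
    show rh m' d K K' x z ^ 2 ≤ (C * d) ^ 2 * (1 + z ^ 2) ^ 2
    rw [← sq_abs, ← mul_pow]
    exact pow_le_pow_left₀ (abs_nonneg _) (hb _) 2
  have h3 : 2 * s * ∫ z, rh m' d K K' x z ∂(gaussianReal 0 1) ≤
      d * s ^ 2 + C ^ 2 * d ^ 2 := by
    set I := ∫ z, rh m' d K K' x z ∂(gaussianReal 0 1) with hI
    have h5 : 2 * s * I ≤ 2 * |s| * (C * (d * √d)) := by
      refine (le_abs_self _).trans ?_
      rw [abs_mul, abs_mul, abs_two]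
      exact mul_le_mul_of_nonneg_left hm (by positivity)
    have h6 : √d ^ 2 = d := Real.sq_sqrt hd
    have h7 : 2 * |s| * (C * (d * √d)) = 2 * (√d * |s|) * (C * d) := by ring
    have h8 := two_mul_le_add_sq (√d * |s|) (C * d)
    have h9 : (√d * |s|) ^ 2 = d * s ^ 2 := by rw [mul_pow, h6, sq_abs]
    have h10 : (C * d) ^ 2 = C ^ 2 * d ^ 2 := by ring
    rw [h9, h10] at h8
    linarith
  have h11 : (C * d) ^ 2 * D = C ^ 2 * D * d ^ 2 := by ring
  have h12 : (1 + d) * s ^ 2 + C ^ 2 * (1 + D) * d ^ 2 =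
      s ^ 2 + (d * s ^ 2 + C ^ 2 * d ^ 2) + C ^ 2 * D * d ^ 2 := by ring
  linarith

/-- the recursion -/
theorem rec_step {A E S d I : ℝ} (hA : 0 ≤ A) (hE : 1 ≤ E) (hd : 0 ≤ d)
    (hI : 0 ≤ I) (ih : I ≤ A * E * S) :
    (1 + d) * I + A * d ^ 2 ≤ A * (E * Real.exp d) * (S + d ^ 2) := by
  have he : 1 + d ≤ Real.exp d := by
    have := Real.add_one_le_exp d
    linarith
  have h4 : (1 + d) * I ≤ Real.exp d * (A * E * S) :=
    mul_le_mul he ih hI (Real.exp_pos _).le
  have h6 : 1 ≤ E * Real.exp d := one_le_mul_of_one_le_of_one_le hE (by linarith)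
  have h7 : A * 1 ≤ A * (E * Real.exp d) := mul_le_mul_of_nonneg_left h6 hA
  have h8 := mul_le_mul_of_nonneg_right h7 (sq_nonneg d)
  have h9 : A * (E * Real.exp d) * (S + d ^ 2) =
      Real.exp d * (A * E * S) + A * (E * Real.exp d) * d ^ 2 := by ring
  rw [h9]
  linarith

theorem eR_sq {C D : ℝ} (hC : 1 ≤ C) (hD : D = ∫ z, (1 + z ^ 2) ^ 2 ∂(gaussianReal 0 1))
    (hb : ∀ (m δ : ℝ) (H H' : ℝ → ℝ), St B m δ H H' → ∀ x z,
      |rh m δ H H' x z| ≤ C * δ * (1 + z ^ 2))
    (hm : ∀ (m δ : ℝ) (H H' : ℝ → ℝ), St B m δ H H' → ∀ x,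
      |∫ z, rh m δ H H' x z ∂(gaussianReal 0 1)| ≤ C * (δ * √δ))
    (h : ∀ k < N, St B (μ k) (δ k) (H k) (H (k + 1))) : ∀ k ≤ N,
    ∫ G, eR μ δ H (ext G) k ^ 2 ∂(γN N) ≤
      (C ^ 2 * (1 + D)) * Real.exp (∑ j ∈ Finset.range k, δ j) * ∑ j ∈ Finset.range k, δ j ^ 2
  | 0, _ => by simp [eR]
  | k + 1, hk => by
    have hk' : k < N := by omega
    have ih := eR_sq hC hD hb hm h k (by omega)
    have hs := h k hk'
    have hD0 : 0 ≤ D := by rw [hD]; exact integral_nonneg fun _ => sq_nonneg _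
    rw [int_upd ⟨k, hk'⟩ (eR_eg h (k + 1) hk).pow_two.integrable]
    have h1 : ∀ G : Fin N → ℝ, ∫ z, eR μ δ H (ext (Function.update G ⟨k, hk'⟩ z)) (k + 1) ^ 2
        ∂(gaussianReal 0 1) ≤ (1 + δ k) * eR μ δ H (ext G) k ^ 2 +
          C ^ 2 * (1 + D) * δ k ^ 2 := fun G => by
      simp only [eR_upd G hk']
      exact rh_step hD hs _ (hb _ _ _ _ hs _) (hm _ _ _ _ hs _)
    have i1 : Integrable (fun G => (1 + δ k) * eR μ δ H (ext G) k ^ 2) (γN N) :=
      (eR_eg h k (by omega)).pow_two.integrable.const_mul _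
    have i2 : Integrable (fun G => (1 + δ k) * eR μ δ H (ext G) k ^ 2 +
      C ^ 2 * (1 + D) * δ k ^ 2) (γN N) := i1.add (integrable_const _)
    have h2 := integral_mono (int_upd_integrable ⟨k, hk'⟩
      (eR_eg h (k + 1) hk).pow_two.integrable) i2 h1
    refine h2.trans ?_
    have h3 : ∫ G, ((1 + δ k) * eR μ δ H (ext G) k ^ 2 + C ^ 2 * (1 + D) * δ k ^ 2) ∂(γN N) =
        (1 + δ k) * (∫ G, eR μ δ H (ext G) k ^ 2 ∂(γN N)) + C ^ 2 * (1 + D) * δ k ^ 2 := by
      rw [integral_add i1 (integrable_const _), integral_const_mul, integral_const]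
      simp
    refine (le_of_eq h3).trans ?_
    rw [Finset.sum_range_succ, Finset.sum_range_succ, Real.exp_add]
    exact rec_step (by positivity) (Real.one_le_exp (Finset.sum_nonneg fun j hj =>
      (h j (by have := Finset.mem_range.1 hj; omega)).d0))
      hs.d0 (integral_nonneg fun _ => sq_nonneg _) ih

theorem euler_strong (B : ℝ) : ∃ C : ℝ, 1 ≤ C ∧ ∀ (N : ℕ) (μ δ : ℕ → ℝ) (H : ℕ → ℝ → ℝ),
    1 ≤ N → (∀ k < N, St B (μ k) (δ k) (H k) (H (k + 1))) →
    ∫ G, (iteratedDeriv 1 (H N) (cX (eF μ δ H) (fun k => √(δ k)) (ext G) N) -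
      ∑ k ∈ Finset.range N, √(δ k) *
        iteratedDeriv 2 (H k) (cX (eF μ δ H) (fun k => √(δ k)) (ext G) k) * ext G k) ^ 2 ∂(γN N) ≤
      C * Real.exp (∑ j ∈ Finset.range N, δ j) * ∑ j ∈ Finset.range N, δ j ^ 2 := by
  obtain ⟨C₁, hC₁, hb⟩ := rh_bd B
  obtain ⟨C₂, hC₂, hm⟩ := rh_mean B
  set C := max C₁ C₂ with hCdef
  have hC : 1 ≤ C := hC₁.trans (le_max_left _ _)
  set D := ∫ z, (1 + z ^ 2) ^ 2 ∂(gaussianReal 0 1) with hD
  have hD0 : 0 ≤ D := integral_nonneg fun _ => sq_nonneg _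
  refine ⟨C ^ 2 * (1 + D), by nlinarith, fun N μ δ H hN h => ?_⟩
  have hb' : ∀ (m δ : ℝ) (H H' : ℝ → ℝ), St B m δ H H' → ∀ x z,
      |rh m δ H H' x z| ≤ C * δ * (1 + z ^ 2) := fun m δ H H' hs x z => by
    refine (hb m δ H H' hs x z).trans ?_
    have := hs.d0
    have h1 : C₁ ≤ C := le_max_left _ _
    gcongr
  have hm' : ∀ (m δ : ℝ) (H H' : ℝ → ℝ), St B m δ H H' → ∀ x,
      |∫ z, rh m δ H H' x z ∂(gaussianReal 0 1)| ≤ C * (δ * √δ) := fun m δ H H' hs x => by
    refine (hm m δ H H' hs x).trans ?_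
    have := hs.d0
    have h1 : C₂ ≤ C := le_max_right _ _
    gcongr
  have h1 := eR_sq hC hD hb' hm' h N le_rfl
  refine le_trans (le_of_eq ?_) h1
  refine integral_congr_ae (ae_of_all _ fun G => ?_)
  have h2 : ∀ k, iteratedDeriv 1 (H k) (eS μ δ H (ext G) k) - iteratedDeriv 1 (H 0) 0 -
      ∑ j ∈ Finset.range k, √(δ j) * iteratedDeriv 2 (H j) (eS μ δ H (ext G) j) * ext G j =
      eR μ δ H (ext G) k := by
    intro k
    induction k with
    | zero => simp [eR, eS, cX]
    | succ k ih =>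
      unfold eR at ih ⊢
      rw [Finset.sum_range_succ, Finset.sum_range_succ, ← ih, eS_succ]
      unfold rh
      ring
  have h3 : iteratedDeriv 1 (H 0) 0 = 0 := (cint_odd_zero (h 0 (by omega)).adm).1
  have h4 := h2 N
  rw [h3, sub_zero] at h4
  simp only [← h4]
  simp only [eS]

end Vale.Agent.P367.Cl
end

section

/-!
# P367, classical half, Euler scheme: the refined chain of the Parisi recursion
-/

open MeasureTheory ProbabilityTheory Filter Topology Set

namespace Vale.Agent.P367.Cl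

open Vale.Agent.P157.Par
open Vale.Agent.P146.Gap
open Vale.Agent.P146.Pw2

theorem lnk_tlt_zero (g : ℝ) (F ψ : ℝ → ℝ) : tlt g 0 F ψ = ψ := by
  funext x
  unfold tlt
  simp only [Real.sqrt_zero, zero_mul, add_zero, integral_const, probReal_univ, one_smul]
  exact mul_div_cancel_right₀ _ (Real.exp_pos _).ne'

/-- semigroup property of the tilts -/
theorem tlt_semi {C g s t : ℝ} {F ψ : ℝ → ℝ} (hF : Adm C F) (hg : 0 < g) (_hg1 : g ≤ 1)
    (hs : 0 ≤ s) (ht : 0 ≤ t) (hψ : Sp7Cb ψ) (x : ℝ) :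
    tlt g s (gstep g t F) (tlt g t F ψ) x = tlt g (s + t) F ψ x := by
  obtain ⟨hc, K, hK⟩ := hψ
  have hsm := (adm_ec hF).sm
  have hFc := hsm.cont
  have hpos : ∀ y, 0 < ∫ w, Real.exp (g * F (y + √t * w)) ∂(gaussianReal 0 1) :=
    hsm.int_exp_pos g t
  have hexp : ∀ y, Real.exp (g * gstep g t F y) =
      ∫ w, Real.exp (g * F (y + √t * w)) ∂(gaussianReal 0 1) := by
    intro y
    unfold gstep
    rw [← mul_assoc, mul_one_div_cancel hg.ne', one_mul, Real.exp_log (hpos y)]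
  have h1 : ∀ y, tlt g t F ψ y * (∫ w, Real.exp (g * F (y + √t * w)) ∂(gaussianReal 0 1)) =
      ∫ w, ψ (y + √t * w) * Real.exp (g * F (y + √t * w)) ∂(gaussianReal 0 1) := by
    intro y
    unfold tlt
    exact div_mul_cancel₀ _ (hpos y).ne'
  have h2 := comp_conv (h := fun u => ψ (x + u) * Real.exp (g * F (x + u)))
    (by fun_prop : Continuous fun u => ψ (x + u) * Real.exp (g * F (x + u))).measurable hs ht
    (hsm.integrable hc hK g (s + t) x)
  have h3 := comp_conv (h := fun u => Real.exp (g * F (x + u)))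
    (by fun_prop : Continuous fun u => Real.exp (g * F (x + u))).measurable hs ht
    (hsm.integrable_exp g (s + t) x)
  change (∫ z, tlt g t F ψ (x + √s * z) * Real.exp (g * gstep g t F (x + √s * z))
    ∂(gaussianReal 0 1)) / (∫ z, Real.exp (g * gstep g t F (x + √s * z)) ∂(gaussianReal 0 1)) =
    (∫ z, ψ (x + √(s + t) * z) * Real.exp (g * F (x + √(s + t) * z)) ∂(gaussianReal 0 1)) /
      ∫ z, Real.exp (g * F (x + √(s + t) * z)) ∂(gaussianReal 0 1)
  rw [← h2, ← h3]
  simp only [hexp, h1]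
  simp only [add_assoc]

section Blk

variable {n : ℕ} {m r : ℕ → ℝ} {J l j : ℕ}

theorem lnk_div (hj : j < J) : (l * J + j) / J = l := by
  rw [mul_comm, Nat.mul_add_div (by omega), Nat.div_eq_of_lt hj, add_zero]

theorem lnk_mod (hj : j < J) : (l * J + j) % J = j := by
  rw [mul_comm, Nat.mul_add_mod, Nat.mod_eq_of_lt hj]

theorem lnk_lt (hl : l < n) (hj : j < J) : l * J + j < n * J := by
  have h1 : (l + 1) * J ≤ n * J := Nat.mul_le_mul_right J hl
  have h2 : (l + 1) * J = l * J + J := by ring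
  omega

theorem lnk_eμ (hj : j < J) : eμ m J (l * J + j) = m (l + 1) := by
  unfold eμ
  rw [lnk_div hj]

theorem lnk_eδ (hl : l < n) (hj : j < J) :
    eδ n r J (l * J + j) = (r (l + 1) - r l) / J := by
  unfold eδ
  rw [if_pos (lnk_lt hl hj), lnk_div hj]

theorem lnk_eH (hJ : 0 < J) (hl : l < n) (hj : j ≤ J) (hm : m (l + 1) ≠ 0) :
    eH n m r J (l * J + j) =
      gstep (m (l + 1)) ((r (l + 1) - r l) - j * ((r (l + 1) - r l) / J)) (Fl n m r (l + 1)) := by
  rcases hj.lt_or_eq with h | h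
  · unfold eH
    rw [if_pos (lnk_lt hl h), lnk_div h, lnk_mod h]
    rfl
  · have hJ' : (J : ℝ) ≠ 0 := by positivity
    rw [h, mul_div_cancel₀ _ hJ', sub_self, Vale.Agent.P146.Gap.gstep_zero hm]
    have e : l * J + J = (l + 1) * J := by ring
    unfold eH
    rw [e]
    by_cases h1 : l + 1 < n
    · have h2 : (l + 1) * J < n * J := Nat.mul_lt_mul_of_pos_right h1 hJ
      rw [if_pos h2, Nat.mul_div_cancel _ hJ, Nat.mul_mod_left]
      unfold Gb
      rw [Nat.cast_zero, zero_mul, sub_zero, ← fl_succ h1]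
    · have h3 : l + 1 = n := by omega
      rw [h3, if_neg (lt_irrefl _), fl_last]

end Blk

/-- the derivative in the variance -/
theorem lnk_d1 {K g v a c : ℝ} {F : ℝ → ℝ} (hF : Adm K F) (hK : 1 ≤ K)
    (hB : BK K g v F) (hg : 0 < g) (hg1 : g ≤ 1) (ha : 0 ≤ a) (hac : a ≤ c) (hc : c ≤ v)
    (x : ℝ) : |iteratedDeriv 1 (gstep g a F) x - iteratedDeriv 1 (gstep g c F) x| ≤
      2 * K * (c - a) := by
  rcases hac.eq_or_lt with h | h
  · rw [h]
    simp
  have hcont : ContinuousOn (fun s => fj g F 1 s x) (Icc a c) := by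
    have h1 := fj_cont hF.smb hg 1
    exact (h1.comp (by fun_prop : Continuous fun s : ℝ => ((s, x) : ℝ × ℝ))).continuousOn
  have hder : ∀ s ∈ Ioo a c, HasDerivAt (fun s => fj g F 1 s x)
      (1 / 2 * fj g F 3 s x + g * (fj g F 1 s x * fj g F 2 s x)) s :=
    fun s hs => fj_s1 hF.smb hg (ha.trans_lt hs.1) x
  obtain ⟨s, hs, hseq⟩ := exists_hasDerivAt_eq_slope _ _ h hcont hder
  have hA := (hB s ⟨ha.trans hs.1.le, hs.2.le.trans hc⟩).adm
  have p2 := hA.pos x
  have p1 := hA.le1 x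
  have p3 := hA.r3 x
  have q1 : |fj g F 1 s x| ≤ 1 := by
    unfold fj
    refine abs_le_one_iff_mul_self_le_one.2 ?_
    nlinarith
  have q2 : |fj g F 2 s x| ≤ 1 := by
    unfold fj
    rw [abs_of_pos p2]
    nlinarith [sq_nonneg (iteratedDeriv 1 (gstep g s F) x)]
  have q2' : iteratedDeriv 2 (gstep g s F) x ≤ 1 := by
    nlinarith [sq_nonneg (iteratedDeriv 1 (gstep g s F) x)]
  have q3 : |fj g F 3 s x| ≤ K := by
    unfold fj
    refine p3.trans ?_
    nlinarith
  have q4 : |1 / 2 * fj g F 3 s x + g * (fj g F 1 s x * fj g F 2 s x)| ≤ 2 * K := by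
    refine (abs_add_le _ _).trans ?_
    rw [abs_mul, abs_mul, abs_mul, abs_of_pos hg, abs_of_pos (by norm_num : (0 : ℝ) < 1 / 2)]
    have h5 : |fj g F 1 s x| * |fj g F 2 s x| ≤ 1 := mul_le_one₀ q1 (abs_nonneg _) q2
    have h6 : g * (|fj g F 1 s x| * |fj g F 2 s x|) ≤ 1 :=
      mul_le_one₀ hg1 (by positivity) h5
    linarith
  rw [hseq, abs_div, abs_of_pos (sub_pos.2 h), div_le_iff₀ (sub_pos.2 h)] at q4
  rw [abs_sub_comm]
  exact q4

theorem eH_st (b : ℝ) : ∃ B : ℝ, 1 ≤ B ∧ ∀ (n : ℕ) (m r : ℕ → ℝ), Exponents n m → BPath b n r →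
    ∀ J : ℕ, b ^ 2 ≤ J → ∀ k < n * J,
      St B (eμ m J k) (eδ n r J k) (eH n m r J k) (eH n m r J (k + 1)) := by
  obtain ⟨K, hK1, hK⟩ := fl_bk b
  refine ⟨2 * K, by linarith, fun n m r hm hr J hJb k hk => ?_⟩
  obtain ⟨hA, hB⟩ := hK n m r hm hr
  have hJ : 0 < J := by
    rcases Nat.eq_zero_or_pos J with h | h
    · rw [h, Nat.mul_zero] at hk
      omega
    · exact h
  have hJ' : (0 : ℝ) < J := by exact_mod_cast hJ
  obtain ⟨l, j, hj, hl, rfl⟩ : ∃ l j, j < J ∧ l < n ∧ k = l * J + j := by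
    refine ⟨k / J, k % J, Nat.mod_lt _ hJ, Nat.div_lt_of_lt_mul (by rwa [mul_comm] at hk), ?_⟩
    rw [mul_comm]
    exact (Nat.div_add_mod k J).symm
  obtain ⟨g0, g1⟩ := sp7_exp_of hm l hl
  obtain ⟨h0, hp, hb⟩ := hr
  have hv : 0 ≤ r (l + 1) - r l := sub_nonneg.2 (hp.2 l hl)
  have hrl : 0 ≤ r l := by
    have := minb_mono hp.2 (Nat.zero_le l) hl.le
    rwa [h0] at this
  have hrl1 : r (l + 1) ≤ b ^ 2 := (minb_mono hp.2 hl le_rfl).trans hb
  set v := r (l + 1) - r l with hvdef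
  set w := v / J with hw
  have hw0 : 0 ≤ w := by positivity
  have hw1 : w ≤ 1 := by
    rw [hw, div_le_one hJ']
    linarith
  have hJw : (J : ℝ) * w = v := mul_div_cancel₀ _ hJ'.ne'
  have hjJ : (j : ℝ) + 1 ≤ J := by exact_mod_cast hj
  have hj0 : (0 : ℝ) ≤ j := by positivity
  have e1 : (j : ℝ) * w + w ≤ v := by
    have : ((j : ℝ) + 1) * w ≤ J * w := mul_le_mul_of_nonneg_right hjJ hw0
    linarith
  have e2 : 0 ≤ (j : ℝ) * w := by positivity
  have hF : Adm K (Fl n m r (l + 1)) := (hA (l + 1) hl).adm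
  have hBl := hB l hl
  rw [lnk_eμ hj, lnk_eδ hl hj, lnk_eH hJ hl hj.le g0.ne', add_assoc,
    lnk_eH (j := j + 1) hJ hl hj g0.ne', ← hvdef, ← hw]
  have e3 : ((j + 1 : ℕ) : ℝ) * w = j * w + w := by push_cast; ring
  rw [e3]
  have m1 : v - j * w ∈ Icc 0 v := ⟨by linarith, by linarith⟩
  have m2 : v - (j * w + w) ∈ Icc 0 v := ⟨by linarith, by linarith⟩
  have up : ∀ {H : ℝ → ℝ}, Adm K H → Adm (2 * K) H := fun {H} h =>
    { smb := h.smb, even := h.even, pos := h.pos, le1 := h.le1,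
      r3 := fun x => (h.r3 x).trans (by nlinarith [h.pos x]), r4 := h.r4 }
  exact
    { B1 := by linarith
      m0 := g0
      m1 := g1
      d0 := hw0
      d1 := hw1
      adm := up (hBl _ m1).adm
      adm' := up (hBl _ m2).adm
      eq := by
        rw [gstep_add hF g0 hw0 m2.1]
        congr 1
        ring
      df0 := fun x => by
        refine (gstep_var_lip hF g0 g1 m2.1 m1.1 x).trans ?_
        rw [abs_sub_comm, abs_of_nonneg (by linarith)]
        nlinarith
      df1 := fun x => by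
        refine (lnk_d1 hF hK1 hBl g0 g1 m2.1 (by linarith) m1.2 x).trans ?_
        have : v - j * w - (v - (j * w + w)) = w := by ring
        rw [this] }

/-- one step inside a block -/
theorem lnk_step {b : ℝ} {n : ℕ} {m r : ℕ → ℝ} (hm : Exponents n m) (hr : BPath b n r) {J : ℕ}
    (hJ : 0 < J) {l : ℕ} (hl : l < n) {j : ℕ} (hj : j < J)
    (ih : ∀ ψ : ℝ → ℝ, Sp7Cb ψ → tE (eμ m J) (eδ n r J) (eH n m r J) (l * J + j) ψ =
      Ee n m r l (tlt (m (l + 1)) (j * ((r (l + 1) - r l) / J))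
        (gstep (m (l + 1)) ((r (l + 1) - r l) - j * ((r (l + 1) - r l) / J))
          (Fl n m r (l + 1))) ψ)) (ψ : ℝ → ℝ) (hψ : Sp7Cb ψ) :
    tE (eμ m J) (eδ n r J) (eH n m r J) (l * J + (j + 1)) ψ =
      Ee n m r l (tlt (m (l + 1)) ((j + 1 : ℕ) * ((r (l + 1) - r l) / J))
        (gstep (m (l + 1)) ((r (l + 1) - r l) - (j + 1 : ℕ) * ((r (l + 1) - r l) / J))
          (Fl n m r (l + 1))) ψ) := by
  obtain ⟨K, hK1, hK⟩ := fl_bk b
  obtain ⟨hA, hB⟩ := hK n m r hm hr
  obtain ⟨g0, g1⟩ := sp7_exp_of hm l hl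
  obtain ⟨h0, hp, hb⟩ := hr
  have hJ' : (0 : ℝ) < J := by exact_mod_cast hJ
  have hv : 0 ≤ r (l + 1) - r l := sub_nonneg.2 (hp.2 l hl)
  set v := r (l + 1) - r l with hvdef
  set w := v / J with hw
  have hw0 : 0 ≤ w := by positivity
  have hJw : (J : ℝ) * w = v := mul_div_cancel₀ _ hJ'.ne'
  have hjJ : (j : ℝ) + 1 ≤ J := by exact_mod_cast hj
  have e1 : (j : ℝ) * w + w ≤ v := by
    have : ((j : ℝ) + 1) * w ≤ J * w := mul_le_mul_of_nonneg_right hjJ hw0
    linarith
  have e2 : 0 ≤ (j : ℝ) * w := by positivity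
  have e3 : ((j + 1 : ℕ) : ℝ) * w = j * w + w := by push_cast; ring
  have m2 : v - (j * w + w) ∈ Icc 0 v := ⟨by linarith, by linarith⟩
  have hF : Adm K (Fl n m r (l + 1)) := (hA (l + 1) hl).adm
  have hF' : Adm K (gstep (m (l + 1)) (v - (j * w + w)) (Fl n m r (l + 1))) := (hB l hl _ m2).adm
  have e4 : gstep (m (l + 1)) (v - j * w) (Fl n m r (l + 1)) =
      gstep (m (l + 1)) w (gstep (m (l + 1)) (v - (j * w + w)) (Fl n m r (l + 1))) := by
    rw [gstep_add hF g0 hw0 m2.1]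
    congr 1
    ring
  change tE (eμ m J) (eδ n r J) (eH n m r J) (l * J + j)
    (tlt (eμ m J (l * J + j)) (eδ n r J (l * J + j)) (eH n m r J (l * J + j + 1)) ψ) = _
  rw [lnk_eμ hj, lnk_eδ hl hj, add_assoc (l * J) j 1, lnk_eH (j := j + 1) hJ hl hj g0.ne',
    ← hvdef, ← hw, e3, ih _ (sp7_cb_tlt (adm_ec hF') hψ _ _), e4]
  congr 1
  funext x
  exact tlt_semi hF' g0 g1 e2 hw0 hψ x

theorem lnk_tE {b : ℝ} {n : ℕ} {m r : ℕ → ℝ} (hm : Exponents n m) (hr : BPath b n r) {J : ℕ}
    (hJ : 0 < J) {l : ℕ} (hl : l < n) : ∀ j ≤ J, ∀ ψ : ℝ → ℝ, Sp7Cb ψ →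
    tE (eμ m J) (eδ n r J) (eH n m r J) (l * J + j) ψ =
      Ee n m r l (tlt (m (l + 1)) (j * ((r (l + 1) - r l) / J))
        (gstep (m (l + 1)) ((r (l + 1) - r l) - j * ((r (l + 1) - r l) / J))
          (Fl n m r (l + 1))) ψ) := by
  have hJ' : (0 : ℝ) < J := by exact_mod_cast hJ
  induction l with
  | zero =>
    intro j
    induction j with
    | zero =>
      intro _ ψ _
      rw [Nat.cast_zero, zero_mul ((r (0 + 1) - r 0) / (J : ℝ)), sub_zero, lnk_tlt_zero,
        ee_zero hr.1, Nat.zero_mul]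
      rfl
    | succ j ih =>
      intro hj ψ hψ
      exact lnk_step hm hr hJ hl hj (ih (by omega)) ψ hψ
  | succ l ihl =>
    intro j
    induction j with
    | zero =>
      intro _ ψ hψ
      obtain ⟨g0, g1⟩ := sp7_exp_of hm l (by omega)
      have h := ihl (by omega) J le_rfl ψ hψ
      rw [mul_div_cancel₀ _ hJ'.ne', sub_self, Vale.Agent.P146.Gap.gstep_zero g0.ne',
        ← ee_succ (by omega)] at h
      rw [Nat.cast_zero, zero_mul, sub_zero, lnk_tlt_zero, ← h]
      congr 1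
      ring
    | succ j ih =>
      intro hj ψ hψ
      exact lnk_step hm hr hJ hl hj (ih (by omega)) ψ hψ

theorem eH_tE {b : ℝ} {n : ℕ} {m r : ℕ → ℝ} (hm : Exponents n m) (hr : BPath b n r) {J : ℕ}
    (hJ : 0 < J) {l j : ℕ} (hl : l < n) (hj : j < J) {ψ : ℝ → ℝ} (hψ : Sp7Cb ψ) :
    tE (eμ m J) (eδ n r J) (eH n m r J) (l * J + j) ψ =
      Bt n m r l (j * ((r (l + 1) - r l) / J)) ψ :=
  lnk_tE hm hr hJ hl j hj.le ψ hψ

end Vale.Agent.P367.Cl
end

section

/-!
# P367, classical half, Euler scheme: preparations for the assembly of Theorem C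
-/

open MeasureTheory ProbabilityTheory Filter Topology Set

namespace Vale.Agent.P367.Cl

open Vale.Agent.P157.Par
open Vale.Agent.P146.Gap
open Vale.Agent.P146.Pw2

/-! ### Regularity of the controls -/

theorem smb_deriv1 {F : ℝ → ℝ} (h : SmB F) : SmB (iteratedDeriv 1 F) := by
  have e : ∀ j, iteratedDeriv j (iteratedDeriv 1 F) = iteratedDeriv (j + 1) F := fun j => by
    rw [iteratedDeriv_one, ← iteratedDeriv_succ']
  refine ⟨?_, fun j => ?_⟩
  · rw [iteratedDeriv_one]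
    exact (contDiff_infty_iff_deriv.1 h.smooth).2
  · rw [e]
    exact h.bd (j + 1)

theorem smb_cmul {F : ℝ → ℝ} (h : SmB F) (c : ℝ) : SmB (fun x => c * F x) := by
  refine ⟨contDiff_const.mul h.smooth, fun j => ?_⟩
  obtain ⟨C, hC⟩ := h.bd j
  refine ⟨|c| * C, fun x => ?_⟩
  have e : iteratedDeriv (j + 1) (fun x => c * F x) x = c * iteratedDeriv (j + 1) F x := by
    simp
  rw [e, abs_mul]
  exact mul_le_mul_of_nonneg_left (hC x) (abs_nonneg _)

theorem smb_deriv2 {F : ℝ → ℝ} (h : SmB F) : SmB (iteratedDeriv 2 F) := by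
  have e : iteratedDeriv 2 F = iteratedDeriv 1 (iteratedDeriv 1 F) := by
    rw [iteratedDeriv_one (f := iteratedDeriv 1 F), iteratedDeriv_one, iteratedDeriv_succ,
      iteratedDeriv_one]
  rw [e]
  exact smb_deriv1 (smb_deriv1 h)

theorem adm_d1_le {C : ℝ} {F : ℝ → ℝ} (h : Adm C F) (x : ℝ) : |iteratedDeriv 1 F x| ≤ 1 := by
  have h1 := h.le1 x
  have h2 := h.pos x
  rw [← sq_le_one_iff_abs_le_one]
  linarith

theorem adm_d2_le {C : ℝ} {F : ℝ → ℝ} (h : Adm C F) (x : ℝ) : |iteratedDeriv 2 F x| ≤ 1 := by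
  rw [abs_of_pos (h.pos x)]
  have h1 := h.le1 x
  have h2 := sq_nonneg (iteratedDeriv 1 F x)
  linarith

theorem ctl_of {N : ℕ} {μ δ : ℕ → ℝ} {H : ℕ → ℝ → ℝ} {a : ℝ} (ha : 0 < a)
    (hH : ∀ k, ∃ C, Adm C (H k)) :
    Ctl N (eF μ δ H) (fun k => √(δ k)) (fun k x => (√(δ k) + a) * iteratedDeriv 2 (H k) x) := by
  have ha' : ∀ k, 0 < √(δ k) + a := fun k => by positivity
  refine ⟨fun k => ?_, fun k => ?_, fun k => ?_, fun k => ?_, fun k x => ?_, fun k x => ?_,
    fun k x => ?_, fun k => Real.sqrt_nonneg _⟩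
  · obtain ⟨C, hC⟩ := hH k
    refine ⟨|δ k| * |μ k|, fun x => ?_⟩
    unfold eF
    rw [abs_mul, abs_mul]
    exact mul_le_mul_of_nonneg_left (mul_le_of_le_one_right (abs_nonneg _) (adm_d1_le hC x))
      (abs_nonneg _)
  · obtain ⟨C, hC⟩ := hH k
    refine ⟨√(δ k) + a, fun x => ?_⟩
    rw [abs_mul, abs_of_pos (ha' k)]
    exact mul_le_of_le_one_right (ha' k).le (adm_d2_le hC x)
  · obtain ⟨C, hC⟩ := hH k
    unfold eF
    exact smb_cmul (smb_cmul (smb_deriv1 hC.smb) (μ k)) (δ k)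
  · obtain ⟨C, hC⟩ := hH k
    exact smb_cmul (smb_deriv2 hC.smb) _
  · obtain ⟨C, hC⟩ := hH k
    unfold eF
    rw [cint_parity hC 1 x]
    ring
  · obtain ⟨C, hC⟩ := hH k
    show (√(δ k) + a) * _ = (√(δ k) + a) * _
    rw [cint_parity hC 2 x]
    ring
  · obtain ⟨C, hC⟩ := hH k
    exact mul_pos (ha' k) (hC.pos x)

/-! ### The noise of the regularisation -/

variable {N : ℕ} {μ δ : ℕ → ℝ} {H : ℕ → ℝ → ℝ} {B : ℝ}

/-- The sum `∑ H_k''(X_k) G_k`. -/
noncomputable def eW (μ δ : ℕ → ℝ) (H : ℕ → ℝ → ℝ) (G : ℕ → ℝ) (k : ℕ) : ℝ :=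
  ∑ j ∈ Finset.range k, iteratedDeriv 2 (H j) (eS μ δ H G j) * G j

theorem eW_upd (G : Fin N → ℝ) {k : ℕ} (hk : k < N) (z : ℝ) :
    eW μ δ H (ext (Function.update G ⟨k, hk⟩ z)) (k + 1) =
      eW μ δ H (ext G) k + iteratedDeriv 2 (H k) (eS μ δ H (ext G) k) * z := by
  unfold eW
  rw [Finset.sum_range_succ, eS_upd G hk le_rfl, ext_upd G hk]
  congr 1
  refine Finset.sum_congr rfl fun j hj => ?_
  have hj' := Finset.mem_range.1 hj
  rw [eS_upd G hk hj'.le, ext_upd_lt G hk hj']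

theorem d2_eg (h : ∀ k < N, St B (μ k) (δ k) (H k) (H (k + 1))) {k : ℕ} (hk : k < N) :
    EG N (fun G => iteratedDeriv 2 (H k) (eS μ δ H (ext G) k)) :=
  EG.of_bdd ((adm_cont (h k hk).adm.smb.smooth 2).measurable.comp (eS_meas h hk.le))
    fun _ => adm_d2_le (h k hk).adm _

theorem eW_eg (h : ∀ k < N, St B (μ k) (δ k) (H k) (H (k + 1))) : ∀ k ≤ N,
    EG N (fun G => eW μ δ H (ext G) k)
  | 0, _ => by simpa [eW] using EG.const (N := N) 0
  | k + 1, hk => by
    have h1 := (eW_eg h k (by omega)).add ((d2_eg h (k := k) (by omega)).mul (EG.ext k))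
    simpa only [eW, Finset.sum_range_succ] using h1

theorem gauss_lin (s a : ℝ) : ∫ z, (s + a * z) ^ 2 ∂(gaussianReal 0 1) = s ^ 2 + a ^ 2 := by
  have hz2 : Integrable (fun z : ℝ => z ^ 2) (gaussianReal 0 1) := by
    refine gauss_poly.mono' (by fun_prop) (ae_of_all _ fun z => ?_)
    rw [Real.norm_eq_abs, abs_of_nonneg (sq_nonneg _)]
    nlinarith [sq_nonneg z]
  have hz1 : Integrable (fun z : ℝ => z) (gaussianReal 0 1) := by
    refine gauss_poly.mono' (by fun_prop) (ae_of_all _ fun z => ?_)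
    rw [Real.norm_eq_abs]
    nlinarith [sq_nonneg (|z| - 1), sq_abs z, sq_nonneg z, abs_nonneg z]
  have e : ∀ z : ℝ, (s + a * z) ^ 2 = s ^ 2 + (2 * s * a) * z + a ^ 2 * z ^ 2 := fun z => by ring
  simp only [e]
  have i1 : Integrable (fun z : ℝ => (2 * s * a) * z) (gaussianReal 0 1) := hz1.const_mul _
  have i2 : Integrable (fun z : ℝ => s ^ 2 + (2 * s * a) * z) (gaussianReal 0 1) :=
    (integrable_const _).add i1
  have i3 : Integrable (fun z : ℝ => a ^ 2 * z ^ 2) (gaussianReal 0 1) := hz2.const_mul _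
  rw [integral_add i2 i3, integral_add (integrable_const _) i1, integral_const_mul,
    integral_const_mul, integral_const]
  have h1 : ∫ z : ℝ, z ∂(gaussianReal 0 1) = 0 := by simp
  have h2 : ∫ z : ℝ, z ^ 2 ∂(gaussianReal 0 1) = 1 := by
    have h3 := variance_eq_sub (μ := gaussianReal 0 1) (X := id) (memLp_id_gaussianReal 2)
    simp only [variance_id_gaussianReal, NNReal.coe_one, id_eq, Pi.pow_apply] at h3
    rw [h1] at h3
    simpa using h3.symm
  rw [h1, h2]
  simp

theorem eW_sq (h : ∀ k < N, St B (μ k) (δ k) (H k) (H (k + 1))) : ∀ k ≤ N,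
    ∫ G, eW μ δ H (ext G) k ^ 2 ∂(γN N) ≤ k
  | 0, _ => by simp [eW]
  | k + 1, hk => by
    have hk' : k < N := by omega
    have ih := eW_sq h k (by omega)
    rw [int_upd ⟨k, hk'⟩ (eW_eg h (k + 1) hk).pow_two.integrable]
    have h1 : ∀ G : Fin N → ℝ, ∫ z, eW μ δ H (ext (Function.update G ⟨k, hk'⟩ z)) (k + 1) ^ 2
        ∂(gaussianReal 0 1) ≤ eW μ δ H (ext G) k ^ 2 + 1 := fun G => by
      simp only [eW_upd G hk']
      rw [gauss_lin]
      have h2 := adm_d2_le (h k hk').adm (eS μ δ H (ext G) k)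
      have h3 := (sq_le_one_iff_abs_le_one _).2 h2
      linarith
    have i1 : Integrable (fun G => eW μ δ H (ext G) k ^ 2 + 1) (γN N) :=
      (eW_eg h k (by omega)).pow_two.integrable.add (integrable_const _)
    have h2 := integral_mono (int_upd_integrable ⟨k, hk'⟩
      (eW_eg h (k + 1) hk).pow_two.integrable) i1 h1
    refine h2.trans ?_
    rw [integral_add (eW_eg h k (by omega)).pow_two.integrable (integrable_const _),
      integral_const]
    simp only [probReal_univ, one_smul]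
    push_cast
    linarith

/-! ### (C2) -/

theorem c2_of {a : ℝ} (hN : 1 ≤ N) (h : ∀ k < N, St B (μ k) (δ k) (H k) (H (k + 1)))
    {C : ℝ} (hS : ∫ G, (iteratedDeriv 1 (H N) (cX (eF μ δ H) (fun k => √(δ k)) (ext G) N) -
      ∑ k ∈ Finset.range N, √(δ k) *
        iteratedDeriv 2 (H k) (cX (eF μ δ H) (fun k => √(δ k)) (ext G) k) * ext G k) ^ 2 ∂(γN N)
      ≤ C) :
    ∫ G, (max (|cM (eF μ δ H) (fun k => √(δ k))
      (fun k x => (√(δ k) + a) * iteratedDeriv 2 (H k) x) (ext G) N| - 1) 0) ^ 2 ∂(γN N) ≤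
      2 * C + 2 * (a ^ 2 * N) := by
  have hN1 : N - 1 < N := by omega
  have hadm : Adm B (H N) := by
    have h1 := (h (N - 1) hN1).adm'
    rwa [Nat.sub_add_cancel hN] at h1
  -- the two functions
  have e1 : ∀ G : Fin N → ℝ, iteratedDeriv 1 (H N) (cX (eF μ δ H) (fun k => √(δ k)) (ext G) N) -
      ∑ k ∈ Finset.range N, √(δ k) *
        iteratedDeriv 2 (H k) (cX (eF μ δ H) (fun k => √(δ k)) (ext G) k) * ext G k =
      iteratedDeriv 1 (H N) (eS μ δ H (ext G) N) -
      ∑ k ∈ Finset.range N, √(δ k) *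
        iteratedDeriv 2 (H k) (eS μ δ H (ext G) k) * ext G k := fun G => by simp only [eS]
  have e2 : ∀ G : Fin N → ℝ, cM (eF μ δ H) (fun k => √(δ k))
      (fun k x => (√(δ k) + a) * iteratedDeriv 2 (H k) x) (ext G) N =
      (∑ k ∈ Finset.range N, √(δ k) * iteratedDeriv 2 (H k) (eS μ δ H (ext G) k) * ext G k) +
        a * eW μ δ H (ext G) N := fun G => by
    unfold cM cv eW
    rw [Finset.mul_sum, ← Finset.sum_add_distrib]
    refine Finset.sum_congr rfl fun k _ => ?_
    simp only [eS]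
    ring
  simp only [e1] at hS
  simp only [e2]
  have gT : EG N (fun G => ∑ k ∈ Finset.range N, √(δ k) *
      iteratedDeriv 2 (H k) (eS μ δ H (ext G) k) * ext G k) := by
    refine EG.sum _ fun k hk => ?_
    have hk' := Finset.mem_range.1 hk
    exact ((d2_eg h hk').const_mul _).mul (EG.ext k)
  have gH : EG N (fun G => iteratedDeriv 1 (H N) (eS μ δ H (ext G) N)) :=
    EG.of_bdd ((adm_cont hadm.smb.smooth 1).measurable.comp (eS_meas h le_rfl))
      fun _ => adm_d1_le hadm _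
  have gD := (gH.sub gT).pow_two
  have gW := (eW_eg h N le_rfl).pow_two
  have hpt : ∀ G : Fin N → ℝ, (max (|(∑ k ∈ Finset.range N, √(δ k) *
      iteratedDeriv 2 (H k) (eS μ δ H (ext G) k) * ext G k) + a * eW μ δ H (ext G) N| - 1) 0) ^ 2
      ≤ 2 * (iteratedDeriv 1 (H N) (eS μ δ H (ext G) N) -
      ∑ k ∈ Finset.range N, √(δ k) *
        iteratedDeriv 2 (H k) (eS μ δ H (ext G) k) * ext G k) ^ 2 +
        2 * a ^ 2 * eW μ δ H (ext G) N ^ 2 := fun G => by
    set T := ∑ k ∈ Finset.range N, √(δ k) *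
      iteratedDeriv 2 (H k) (eS μ δ H (ext G) k) * ext G k with hT
    set D := iteratedDeriv 1 (H N) (eS μ δ H (ext G) N) with hDdef
    set W := eW μ δ H (ext G) N with hW
    have hD1 : |D| ≤ 1 := adm_d1_le hadm _
    have h3 : max (|T + a * W| - 1) 0 ≤ |(D - T) - a * W| := by
      refine max_le ?_ (abs_nonneg _)
      have h4 : |T + a * W| ≤ |D| + |(D - T) - a * W| := by
        have h5 : T + a * W = D - ((D - T) - a * W) := by ring
        rw [h5]
        exact abs_sub _ _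
      linarith
    have h6 : 0 ≤ max (|T + a * W| - 1) 0 := le_max_right _ _
    have h7 := pow_le_pow_left₀ h6 h3 2
    rw [sq_abs] at h7
    nlinarith [sq_nonneg ((D - T) + a * W)]
  have i1 : Integrable (fun G => 2 * (iteratedDeriv 1 (H N) (eS μ δ H (ext G) N) -
      ∑ k ∈ Finset.range N, √(δ k) *
        iteratedDeriv 2 (H k) (eS μ δ H (ext G) k) * ext G k) ^ 2) (γN N) :=
    gD.integrable.const_mul 2
  have i2 : Integrable (fun G => 2 * a ^ 2 * eW μ δ H (ext G) N ^ 2) (γN N) :=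
    gW.integrable.const_mul _
  have hm : Integrable (fun G : Fin N → ℝ => (max (|(∑ k ∈ Finset.range N, √(δ k) *
      iteratedDeriv 2 (H k) (eS μ δ H (ext G) k) * ext G k) + a * eW μ δ H (ext G) N| - 1) 0) ^ 2)
      (γN N) := by
    refine (i1.add i2).mono' ?_ (ae_of_all _ fun G => ?_)
    · have m1 := gT.1
      have m2 := (eW_eg h N le_rfl).1
      exact (((m1.add (m2.const_mul a)).abs.sub_const 1).max measurable_const |>.pow_const
        2).aestronglyMeasurable
    · rw [Real.norm_eq_abs, abs_of_nonneg (sq_nonneg _)]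
      exact hpt G
  refine (integral_mono hm (i1.add i2) hpt).trans ?_
  have h8 := integral_add i1 i2
  have h9 : ∫ G, 2 * a ^ 2 * eW μ δ H (ext G) N ^ 2 ∂(γN N) ≤ 2 * a ^ 2 * N := by
    rw [integral_const_mul]
    exact mul_le_mul_of_nonneg_left (eW_sq h N le_rfl) (by positivity)
  have h10 : ∫ G, 2 * (iteratedDeriv 1 (H N) (eS μ δ H (ext G) N) -
      ∑ k ∈ Finset.range N, √(δ k) *
        iteratedDeriv 2 (H k) (eS μ δ H (ext G) k) * ext G k) ^ 2 ∂(γN N) ≤ 2 * C := by
    rw [integral_const_mul]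
    exact mul_le_mul_of_nonneg_left hS (by norm_num)
  refine (le_of_eq h8).trans ?_
  linarith

end Vale.Agent.P367.Cl
end

section

/-!
# P367, classical half: Guerra's bound for the ground state
-/

open MeasureTheory ProbabilityTheory Filter Topology Set

namespace Vale.Agent.P367.Cl

open Vale.Agent.P157.Par
open Vale.Agent.P157.Lv
open Vale.Agent.P146.Gap

/-- Spins `Bool` to spins `ℤˣ`. -/
def egueU (b : Bool) : ℤˣ := if b then -1 else 1

theorem egueU_spin (b : Bool) : ((egueU b : ℤ) : ℝ) = Gap.spin b := by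
  cases b <;> simp [egueU, Gap.spin]

theorem egue_energy {N : ℕ} (J : Gap.Pair N → ℝ) (s : Gap.Conf N) :
    Vale.Agent.P146.hamiltonian N J (fun i => egueU (s i)) = Gap.skEnergy J s := by
  unfold Vale.Agent.P146.hamiltonian Gap.skEnergy
  rw [one_div]
  congr 1
  refine Finset.sum_congr rfl fun e _ => ?_
  rw [egueU_spin, egueU_spin]
  ring

theorem egue_sup_le {b : ℝ} (hb : 0 < b) {N : ℕ} (J : Gap.Pair N → ℝ) :
    b * (⨆ s : Gap.Conf N, Gap.skEnergy J s) ≤ Vale.Agent.P146.freeEnergy N b J := by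
  have h1 : ∀ s : Gap.Conf N, Gap.skEnergy J s ≤ Vale.Agent.P146.freeEnergy N b J / b := by
    intro s
    rw [le_div_iff₀ hb, mul_comm, ← egue_energy, Vale.Agent.P146.freeEnergy]
    refine (Real.le_log_iff_exp_le ?_).mpr ?_
    · exact Finset.sum_pos (fun σ _ => Real.exp_pos _) Finset.univ_nonempty
    · exact Finset.single_le_sum (f := fun σ => Real.exp (b * Vale.Agent.P146.hamiltonian N J σ))
        (fun σ _ => (Real.exp_pos _).le) (Finset.mem_univ (fun i => egueU (s i)))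
  have h2 := ciSup_le h1
  rw [le_div_iff₀ hb] at h2
  linarith

theorem egue_lip {N : ℕ} (s : Gap.Conf N) : Lip (fun J : Gap.Pair N → ℝ => Gap.skEnergy J s) := by
  unfold Gap.skEnergy
  refine Lip.const_mul (Lip.sum _ fun p _ => ?_) _
  have h := (Lip.coord p).const_mul (Gap.spin (s p.1.1) * Gap.spin (s p.1.2))
  refine (?_ : (fun y : Gap.Pair N → ℝ => y p * (Gap.spin (s p.1.1) * Gap.spin (s p.1.2))) =
    fun y => (Gap.spin (s p.1.1) * Gap.spin (s p.1.2)) * y p) ▸ h
  funext y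
  ring

theorem egue_sup_eg (N : ℕ) : Vale.Agent.P157.Lv.EG (fun J : Gap.Pair N → ℝ => ⨆ s : Gap.Conf N,
    Gap.skEnergy J s) := by
  have hg : Vale.Agent.P157.Lv.EG (fun J : Gap.Pair N → ℝ => ∑ s : Gap.Conf N, |Gap.skEnergy J s|) :=
    Vale.Agent.P157.Lv.EG.sum _ fun s _ => (egue_lip s).eg.abs
  refine hg.mono (Measurable.iSup fun s => (egue_lip s).measurable) fun J => ?_
  have hb : BddAbove (Set.range fun s : Gap.Conf N => Gap.skEnergy J s) := Set.finite_range _ |>.bddAbove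
  have h0 : ∀ s : Gap.Conf N, |Gap.skEnergy J s| ≤ ∑ s : Gap.Conf N, |Gap.skEnergy J s| :=
    fun s => Finset.single_le_sum (f := fun s => |Gap.skEnergy J s|) (fun s _ => abs_nonneg _)
      (Finset.mem_univ s)
  refine le_trans ?_ (le_abs_self _)
  rw [abs_le]
  constructor
  · have h1 := le_ciSup hb (fun _ => false)
    have h2 := (abs_le.mp (h0 (fun _ => false))).1
    exact h2.trans h1
  · exact ciSup_le fun s => (le_abs_self _).trans (h0 s)

/-- Jensen's inequality. -/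
theorem egue_jensen {ι : Type} [Fintype ι] {F : (ι → ℝ) → ℝ} (hF : Lip F) (x : ℝ) :
    x * ∫ g, F g ∂(gI ι) ≤ Real.log (∫ g, Real.exp (x * F g) ∂(gI ι)) := by
  have hi : Integrable (fun g => x * F g) (gI ι) := hF.eg.integrable.const_mul x
  have he : Integrable (fun g => Real.exp (x * F g)) (gI ι) := (hF.exp_eg x).integrable
  have h1 : Real.exp (∫ g, x * F g ∂(gI ι)) ≤ ∫ g, Real.exp (x * F g) ∂(gI ι) := by
    have := convexOn_exp.map_integral_le (μ := gI ι) Real.continuous_exp.continuousOn isClosed_univ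
      (Filter.Eventually.of_forall fun _ => Set.mem_univ _) hi he
    exact this
  rw [← integral_const_mul]
  refine (Real.le_log_iff_exp_le ?_).mpr h1
  exact lt_of_lt_of_le (Real.exp_pos _) h1

/-- `Gap2`-type change of variables. -/
theorem egue_SKpar {b : ℝ} (hb : 0 < b) (K : ℕ) (m r : ℕ → ℝ) :
    SKpar b K m (fun l => r l / b ^ 2) = SKr b K m r := by
  have hb0 : b ≠ 0 := hb.ne'
  unfold SKpar SKr
  have h1 : (fun l => b ^ 2 * (r l / b ^ 2)) = r := by
    funext l
    field_simp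
  rw [h1]
  have h2 : ∑ l ∈ Finset.range (K + 1), (m (l + 1) - m l) * (r l / b ^ 2) ^ 2 =
      (∑ l ∈ Finset.range (K + 1), (m (l + 1) - m l) * r l ^ 2) / b ^ 4 := by
    rw [Finset.sum_div]
    refine Finset.sum_congr rfl fun l _ => ?_
    field_simp
  rw [h2]
  field_simp
  ring

theorem ground_le {b : ℝ} (hb : 0 < b) {N K : ℕ} (hN : 1 ≤ N) {m r : ℕ → ℝ}
    (hm : Exponents K m) (hr : BPath b K r) :
    Gap.groundValue N ≤ (SKr b K m r + Real.log 2) / b := by
  have hNR : (0 : ℝ) < N := by exact_mod_cast hN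
  have hb2 : 0 < b ^ 2 := by positivity
  have hx : 0 < m 1 := by
    have := hm.2.2 0 (Nat.zero_le _)
    rw [hm.1] at this
    exact this
  have hq : Path K (fun l => r l / b ^ 2) :=
    ⟨div_nonneg hr.2.1.1 hb2.le, fun l hl => div_le_div_of_nonneg_right (hr.2.1.2 l hl) hb2.le⟩
  have hq0 : (fun l => r l / b ^ 2) 0 = 0 := by
    show r 0 / b ^ 2 = 0
    rw [hr.1, zero_div]
  have hq1 : (fun l => r l / b ^ 2) K ≤ 1 := by
    show r K / b ^ 2 ≤ 1
    rw [div_le_one hb2]
    exact hr.2.2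
  have h1 := Vale.Agent.P146.Ub.guerra hb hN hm hq hq0 hq1 hx le_rfl
  rw [egue_SKpar hb K m r] at h1
  have h2 : m 1 * ∫ g, Vale.Agent.P146.freeEnergy N b g ∂(Vale.Agent.P146.disorder N) ≤
      m 1 * N * (Real.log 2 + SKr b K m r) :=
    (egue_jensen (Vale.Agent.P146.Ub.lip_free N b) (m 1)).trans h1
  have h3 : ∫ g, Vale.Agent.P146.freeEnergy N b g ∂(Vale.Agent.P146.disorder N) ≤
      N * (Real.log 2 + SKr b K m r) := by
    rw [mul_assoc] at h2
    exact le_of_mul_le_mul_left h2 hx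
  have h4 : ∫ J, b * (⨆ s : Gap.Conf N, Gap.skEnergy J s) ∂(Gap.couplingLaw N) ≤
      ∫ g, Vale.Agent.P146.freeEnergy N b g ∂(Vale.Agent.P146.disorder N) :=
    integral_mono ((egue_sup_eg N).integrable.const_mul b)
      (Vale.Agent.P146.Ub.lip_free N b).eg.integrable (fun J => egue_sup_le hb J)
  rw [integral_const_mul] at h4
  unfold Gap.groundValue
  rw [le_div_iff₀ hb, inv_mul_eq_div, div_mul_eq_mul_div, div_le_iff₀ hNR]
  linarith

end Vale.Agent.P367.Cl
end
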