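import Mathlib
import Vale.Agent.P367.GT.Stein
import Vale.Agent.P146.Bd3.B1

set_option linter.all false

section

namespace Vale.Agent.P367.Lim

open Finset Filter Topology MeasureTheory ProbabilityTheory

/-- coefficients of a product of linear factors -/
lemma exists_rec {ι : Type*} [DecidableEq ι] (G : Finset ι) (r : ι → ℂ) :
    ∃ e : ℕ → ℂ, e 0 = 1 ∧ (∀ ν, G.card < ν → e ν = 0) ∧
      ∑ ν ∈ range (G.card + 1), ‖e ν‖ ≤ ∏ j ∈ G, (1 + ‖r j‖) ∧
      ∀ z : ℂ, ∑ ν ∈ range (G.card + 1), e ν * z ^ ν = ∏ j ∈ G, (1 - r j * z) := by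
  induction G using Finset.induction_on with
  | empty =>
    refine ⟨fun ν => if ν = 0 then 1 else 0, by simp, ?_, by simp, by simp⟩
    intro ν hν
    simp at hν
    simp [hν.ne']
  | insert i G hi ih =>
    obtain ⟨e, h0, h1, h2, h3⟩ := ih
    let e' : ℕ → ℂ := fun ν => e ν - r i * (if ν = 0 then 0 else e (ν - 1))
    have hsplit : ∀ f : ℕ → ℂ, ∑ ν ∈ range (G.card + 1 + 1), f ν
        = ∑ ν ∈ range (G.card + 1), f ν + f (G.card + 1) := fun f => sum_range_succ _ _
    refine ⟨e', ?_, ?_, ?_, ?_⟩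
    · simp [e', h0]
    · intro ν hν
      rw [card_insert_of_notMem hi] at hν
      have : ν ≠ 0 := by omega
      simp only [e', this, if_false]
      rw [h1 ν (by omega), h1 (ν - 1) (by omega)]
      simp
    · rw [card_insert_of_notMem hi, prod_insert hi]
      calc ∑ ν ∈ range (G.card + 1 + 1), ‖e' ν‖
          ≤ ∑ ν ∈ range (G.card + 1 + 1), (‖e ν‖ + ‖r i‖ * ‖(if ν = 0 then 0 else e (ν - 1))‖) := by
            refine sum_le_sum fun ν _ => ?_
            refine (norm_sub_le _ _).trans ?_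
            rw [norm_mul]
        _ = (∑ ν ∈ range (G.card + 1), ‖e ν‖) + ‖r i‖ * ∑ ν ∈ range (G.card + 1), ‖e ν‖ := by
            rw [sum_add_distrib, ← mul_sum]
            congr 1
            · rw [sum_range_succ, h1 (G.card + 1) (by omega)]
              simp
            · rw [sum_range_succ']
              simp
        _ = (1 + ‖r i‖) * ∑ ν ∈ range (G.card + 1), ‖e ν‖ := by ring
        _ ≤ (1 + ‖r i‖) * ∏ j ∈ G, (1 + ‖r j‖) := by gcongr
    · intro z
      rw [card_insert_of_notMem hi, prod_insert hi, ← h3 z]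
      have h5 : ∀ ν, e' ν * z ^ ν = e ν * z ^ ν
          - r i * (if ν = 0 then 0 else e (ν - 1) * z ^ ν) := by
        intro ν
        simp only [e']
        split_ifs
        · ring
        · ring
      have h6 : ∑ ν ∈ range (G.card + 1 + 1), (if ν = 0 then 0 else e (ν - 1) * z ^ ν)
          = z * ∑ ν ∈ range (G.card + 1), e ν * z ^ ν := by
        rw [sum_range_succ', mul_sum]
        rw [if_pos rfl, add_zero]
        refine sum_congr rfl fun ν _ => ?_
        rw [if_neg (Nat.succ_ne_zero ν), Nat.add_sub_cancel, pow_succ]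
        ring
      simp_rw [h5]
      rw [sum_sub_distrib, ← mul_sum, h6, sum_range_succ, h1 (G.card + 1) (by omega)]
      ring

/-- Turan type extrapolation for exponential sums -/
lemma turan_extrap {ι : Type*} [DecidableEq ι] (G : Finset ι) (C w : ι → ℂ) (a R : ℝ)
    (hw : ∀ j ∈ G, (a * (w j).re : ℝ) ≤ R) (y : ℝ) (M : ℝ) (hM0 : 0 ≤ M)
    (hM : ∀ ν ∈ Ico 1 (G.card + 1), ‖∑ j ∈ G, C j * Complex.exp (w j * ((y - ν * a : ℝ) : ℂ))‖ ≤ M) :
    ‖∑ j ∈ G, C j * Complex.exp (w j * (y : ℂ))‖ ≤ (1 + Real.exp R) ^ G.card * M := by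
  obtain ⟨e, h0, h1, h2, h3⟩ := exists_rec G (fun j => Complex.exp (w j * (a : ℂ)))
  let f : ℕ → ℂ := fun ν => ∑ j ∈ G, C j * Complex.exp (w j * ((y - ν * a : ℝ) : ℂ))
  have hz : ∑ ν ∈ range (G.card + 1), e ν * f ν = 0 := by
    simp only [f, mul_sum]
    rw [sum_comm]
    refine sum_eq_zero fun j hj => ?_
    have h4 : ∀ ν : ℕ, e ν * (C j * Complex.exp (w j * ((y - ν * a : ℝ) : ℂ)))
        = (C j * Complex.exp (w j * y)) * (e ν * Complex.exp (-(w j * a)) ^ ν) := by
      intro ν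
      rw [← Complex.exp_nat_mul]
      have : Complex.exp (w j * ((y - ν * a : ℝ) : ℂ))
          = Complex.exp (w j * y) * Complex.exp ((ν : ℂ) * -(w j * a)) := by
        rw [← Complex.exp_add]
        congr 1
        push_cast
        ring
      rw [this]
      ring
    simp_rw [h4]
    rw [← mul_sum, h3, prod_eq_zero hj, mul_zero]
    rw [← Complex.exp_add]
    simp
  have hf0 : f 0 = ∑ j ∈ G, C j * Complex.exp (w j * (y : ℂ)) := by
    simp [f]
  rw [sum_range_eq_add_Ico _ (by omega), h0, one_mul] at hz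
  have hf : ∑ j ∈ G, C j * Complex.exp (w j * (y : ℂ)) = -∑ ν ∈ Ico 1 (G.card + 1), e ν * f ν := by
    rw [← hf0]
    exact eq_neg_of_add_eq_zero_left hz
  rw [hf, norm_neg]
  calc ‖∑ ν ∈ Ico 1 (G.card + 1), e ν * f ν‖ ≤ ∑ ν ∈ Ico 1 (G.card + 1), ‖e ν‖ * M := by
        refine (norm_sum_le _ _).trans (sum_le_sum fun ν hν => ?_)
        rw [norm_mul]
        exact mul_le_mul_of_nonneg_left (hM ν hν) (norm_nonneg _)
    _ = (∑ ν ∈ Ico 1 (G.card + 1), ‖e ν‖) * M := by rw [sum_mul]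
    _ ≤ (∏ j ∈ G, (1 + ‖Complex.exp (w j * (a : ℂ))‖)) * M := by
        refine mul_le_mul_of_nonneg_right (le_trans ?_ h2) hM0
        rw [sum_range_eq_add_Ico _ (by omega)]
        linarith [norm_nonneg (e 0)]
    _ ≤ (1 + Real.exp R) ^ G.card * M := by
        refine mul_le_mul_of_nonneg_right ?_ hM0
        rw [← prod_const]
        refine prod_le_prod (fun _ _ => by positivity) fun j hj => ?_
        rw [Complex.norm_exp]
        have : (w j * (a : ℂ)).re ≤ R := by
          have := hw j hj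
          simp only [Complex.mul_re, Complex.ofReal_re, Complex.ofReal_im, mul_zero, sub_zero]
          linarith
        have := Real.exp_le_exp.2 this
        linarith

end Vale.Agent.P367.Lim
end

section

namespace Vale.Agent.P367.Lim

open Finset Filter Topology MeasureTheory ProbabilityTheory
open scoped NNReal

lemma gauss_exp_quadratic (V : ℝ≥0) (hV : V ≠ 0) : ∃ κ : ℝ, 0 < κ ∧ κ ≤ 1 ∧ ∀ w : ℂ,
    ∫ x : ℝ, Complex.exp (x * w - (x : ℂ) ^ 2 / 2) ∂(gaussianReal 0 V)
      = κ * Complex.exp (((V / (2 * (1 + V)) : ℝ) : ℂ) * w ^ 2) := by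
  have hV' : (0 : ℝ) < V := by exact_mod_cast pos_iff_ne_zero.mpr hV
  set A : ℂ := ((Real.sqrt (2 * Real.pi * V))⁻¹ : ℝ) *
    (Real.pi / -(-((1 / (2 * V) + 1 / 2 : ℝ) : ℂ))) ^ (1 / 2 : ℂ) with hA
  have hmain : ∀ w : ℂ, ∫ x : ℝ, Complex.exp (x * w - (x : ℂ) ^ 2 / 2) ∂(gaussianReal 0 V)
      = A * Complex.exp (((V / (2 * (1 + V)) : ℝ) : ℂ) * w ^ 2) := by
    intro w
    rw [integral_gaussianReal_eq_integral_smul hV]
    have h1 : ∀ x : ℝ, gaussianPDFReal 0 V x • Complex.exp (x * w - (x : ℂ) ^ 2 / 2)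
        = ((Real.sqrt (2 * Real.pi * V))⁻¹ : ℝ) *
          Complex.exp (-((1 / (2 * V) + 1 / 2 : ℝ) : ℂ) * x ^ 2 + w * x + 0) := by
      intro x
      rw [gaussianPDFReal, Complex.real_smul]
      push_cast
      rw [mul_assoc, ← Complex.exp_add]
      congr 2
      have : (V : ℂ) ≠ 0 := by exact_mod_cast hV'.ne'
      field_simp
      ring
    simp_rw [h1]
    rw [integral_const_mul, integral_cexp_quadratic]
    · have hE : (0 : ℂ) - w ^ 2 / (4 * -((1 / (2 * V) + 1 / 2 : ℝ) : ℂ))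
          = ((V / (2 * (1 + V)) : ℝ) : ℂ) * w ^ 2 := by
        have hr' : ((V : ℝ) / (2 * (1 + V))) = 1 / (4 * (1 / (2 * V) + 1 / 2)) := by
          have : (1 + (V : ℝ)) ≠ 0 := by positivity
          field_simp
          ring
        rw [hr']
        generalize (1 / (2 * (V : ℝ)) + 1 / 2) = t
        push_cast
        ring
      rw [hE, hA]
      ring
    · rw [Complex.neg_re, Complex.ofReal_re]
      have : 0 < 1 / (2 * (V : ℝ)) + 1 / 2 := by positivity
      linarith
  set κ : ℝ := ∫ x : ℝ, Real.exp (-(x ^ 2 / 2)) ∂(gaussianReal 0 V) with hκ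
  have hint : Integrable (fun x : ℝ => Real.exp (-(x ^ 2 / 2))) (gaussianReal 0 V) := by
    refine (integrable_const (1 : ℝ)).mono' ?_ ?_
    · exact (Continuous.aestronglyMeasurable (by fun_prop))
    · refine Eventually.of_forall fun x => ?_
      rw [Real.norm_eq_abs, Real.abs_exp]
      exact Real.exp_le_one_iff.2 (by have := sq_nonneg x; linarith)
  have hAκ : A = κ := by
    have h := hmain 0
    simp only [mul_zero, zero_sub, ne_eq, OfNat.ofNat_ne_zero, not_false_eq_true, zero_pow,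
      Complex.exp_zero, mul_one] at h
    rw [← h, hκ, ← integral_complex_ofReal]
    congr 1
    funext x
    push_cast
    rfl
  refine ⟨κ, ?_, ?_, fun w => ?_⟩
  · exact integral_exp_pos hint
  · have : κ ≤ ∫ _x : ℝ, (1 : ℝ) ∂(gaussianReal 0 V) := by
      refine integral_mono hint (integrable_const _) fun x => ?_
      exact Real.exp_le_one_iff.2 (by have := sq_nonneg x; linarith)
    simpa using this
  · rw [hmain, hAκ]

/-- Gaussian smoothing of a probability measure through its characteristic function -/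
lemma smooth_eq (lam : Measure ℝ) [IsProbabilityMeasure lam] (V : ℝ≥0) (y : ℝ) :
    ((∫ x, Real.exp (-(V * (x - y) ^ 2 / 2)) ∂lam : ℝ) : ℂ)
      = ∫ ξ : ℝ, Complex.exp (Complex.I * ξ * y) *
          (∫ x, Complex.exp (-(Complex.I * ξ * x)) ∂lam) ∂(gaussianReal 0 V) := by
  have h1 : ∀ x : ℝ, ((Real.exp (-(V * (x - y) ^ 2 / 2)) : ℝ) : ℂ)
      = ∫ ξ : ℝ, Complex.exp (Complex.I * ξ * y) * Complex.exp (-(Complex.I * ξ * x))
          ∂(gaussianReal 0 V) := by
    intro x
    have h2 := charFun_gaussianReal (μ := 0) (v := V) (y - x)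
    rw [charFun_apply_real] at h2
    have h3 : ∀ ξ : ℝ, Complex.exp (Complex.I * ξ * y) * Complex.exp (-(Complex.I * ξ * x))
        = Complex.exp (((y - x : ℝ) : ℂ) * ξ * Complex.I) := by
      intro ξ
      rw [← Complex.exp_add]
      congr 1
      push_cast
      ring
    simp_rw [h3]
    rw [h2]
    push_cast
    congr 1
    ring
  rw [← integral_complex_ofReal]
  simp_rw [h1]
  rw [integral_integral_swap]
  · congr 1
    funext ξ
    rw [integral_const_mul]
  · refine (integrable_const (1 : ℝ)).mono' ?_ ?_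
    · refine Continuous.aestronglyMeasurable ?_
      simp only [Function.uncurry_def]
      fun_prop
    · refine Eventually.of_forall fun q => ?_
      simp only [Function.uncurry]
      rw [norm_mul]
      have h4 : ∀ t : ℝ, ‖Complex.exp (Complex.I * t)‖ = 1 := fun t => by
        rw [mul_comm]; exact Complex.norm_exp_ofReal_mul_I t
      have h5 : Complex.I * (q.2 : ℂ) * (y : ℂ) = Complex.I * ((q.2 * y : ℝ) : ℂ) := by
        push_cast; ring
      have h6 : -(Complex.I * (q.2 : ℂ) * (q.1 : ℂ)) = Complex.I * ((-(q.2 * q.1) : ℝ) : ℂ) := by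
        push_cast; ring
      rw [h5, h6, h4, h4]
      norm_num

end Vale.Agent.P367.Lim
end

section

namespace Vale.Agent.P367.Lim

open Finset Filter Topology MeasureTheory ProbabilityTheory
open scoped NNReal

lemma exists_K (N : ℕ) (Y : ℝ) (hY : 0 ≤ Y) : ∃ K : ℕ, 1 ≤ K ∧ Y ≤ K ∧
    49 * (K : ℝ) * ((1 + Real.exp (30 * K)) ^ N * Real.exp (Y ^ 2 / 2)) *
      (Real.exp (-(25 * K ^ 2 / 2)) + 2 * (N * Real.exp (-((K - Y) ^ 2 / 4)))) ≤ 1 / 8 := by
  have h1 : Tendsto (fun x : ℝ => x ^ 1 * Real.exp (-x)) atTop (𝓝 0) :=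
    Real.tendsto_pow_mul_exp_neg_atTop_nhds_zero 1
  have h2 := h1.comp (tendsto_natCast_atTop_atTop (R := ℝ))
  set D : ℝ := 49 * 2 ^ N * Real.exp (Y ^ 2 / 2) * (1 + 2 * N) with hD
  have hD0 : 0 < D := by positivity
  have h3 := h2.const_mul D
  rw [mul_zero] at h3
  have h4 : ∀ᶠ K : ℕ in atTop, D * ((fun x : ℝ => x ^ 1 * Real.exp (-x)) ∘ Nat.cast) K < 1 / 8 :=
    h3.eventually_lt_const (by norm_num)
  have h5 : ∀ᶠ K : ℕ in atTop, 2 * Y + 120 * N + 4 ≤ (K : ℝ) :=
    (tendsto_natCast_atTop_atTop (R := ℝ)).eventually_ge_atTop _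
  obtain ⟨K, hK4, hK5⟩ := (h4.and h5).exists
  have hN : (0 : ℝ) ≤ N := Nat.cast_nonneg N
  have hK1 : (4 : ℝ) ≤ K := by linarith
  refine ⟨K, ?_, by linarith, ?_⟩
  · have : (1 : ℝ) ≤ K := by linarith
    exact_mod_cast this
  · simp only [Function.comp, pow_one] at hK4
    have hpow : (1 + Real.exp (30 * K)) ^ N ≤ 2 ^ N * Real.exp (30 * K * N) := by
      have h6 : 1 + Real.exp (30 * K) ≤ 2 * Real.exp (30 * (K : ℝ)) := by
        have : 1 ≤ Real.exp (30 * (K : ℝ)) := Real.one_le_exp (by linarith)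
        linarith
      calc (1 + Real.exp (30 * K)) ^ N ≤ (2 * Real.exp (30 * (K : ℝ))) ^ N := by gcongr
        _ = 2 ^ N * Real.exp (30 * K * N) := by
            rw [mul_pow, ← Real.exp_nat_mul]
            congr 2
            ring
    have he1 : Real.exp (30 * K * N) * Real.exp (-(25 * (K : ℝ) ^ 2 / 2)) ≤ Real.exp (-K) := by
      rw [← Real.exp_add]
      apply Real.exp_le_exp.2
      nlinarith
    have he2 : Real.exp (30 * K * N) * Real.exp (-(((K : ℝ) - Y) ^ 2 / 4)) ≤ Real.exp (-K) := by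
      rw [← Real.exp_add]
      apply Real.exp_le_exp.2
      nlinarith
    calc 49 * (K : ℝ) * ((1 + Real.exp (30 * K)) ^ N * Real.exp (Y ^ 2 / 2)) *
          (Real.exp (-(25 * K ^ 2 / 2)) + 2 * (N * Real.exp (-((K - Y) ^ 2 / 4))))
        ≤ 49 * (K : ℝ) * ((2 ^ N * Real.exp (30 * K * N)) * Real.exp (Y ^ 2 / 2)) *
          (Real.exp (-(25 * K ^ 2 / 2)) + 2 * (N * Real.exp (-((K - Y) ^ 2 / 4)))) := by
          gcongr
      _ = 49 * (K : ℝ) * 2 ^ N * Real.exp (Y ^ 2 / 2) *
          (Real.exp (30 * K * N) * Real.exp (-(25 * (K : ℝ) ^ 2 / 2))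
            + 2 * N * (Real.exp (30 * K * N) * Real.exp (-(((K : ℝ) - Y) ^ 2 / 4)))) := by ring
      _ ≤ 49 * (K : ℝ) * 2 ^ N * Real.exp (Y ^ 2 / 2) *
          (Real.exp (-K) + 2 * N * Real.exp (-K)) := by gcongr
      _ = D * (K * Real.exp (-K)) := by rw [hD]; ring
      _ ≤ 1 / 8 := hK4.le

section

variable {ι : Type} [Fintype ι]

lemma integrable_cexp_quad (V : ℝ≥0) (w : ℂ) :
    Integrable (fun x : ℝ => Complex.exp (x * w - (x : ℂ) ^ 2 / 2)) (gaussianReal 0 V) := by
  refine (integrable_const (Real.exp (w.re ^ 2 / 2))).mono' ?_ ?_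
  · exact (Continuous.aestronglyMeasurable (by fun_prop))
  · refine Eventually.of_forall fun x => ?_
    rw [Complex.norm_exp]
    apply Real.exp_le_exp.2
    have : ((x : ℂ) * w - (x : ℂ) ^ 2 / 2).re = x * w.re - x ^ 2 / 2 := by
      have h : ((x : ℂ) ^ 2 / 2) = (((x ^ 2 / 2 : ℝ)) : ℂ) := by push_cast; rfl
      rw [h, Complex.sub_re, Complex.ofReal_re]
      simp
    rw [this]
    nlinarith [sq_nonneg (x - w.re)]

lemma tendsto_smooth (V : ℝ≥0) (κ : ℝ)
    (hκ : ∀ w : ℂ, ∫ x : ℝ, Complex.exp (x * w - (x : ℂ) ^ 2 / 2) ∂(gaussianReal 0 V)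
      = κ * Complex.exp (((V / (2 * (1 + V)) : ℝ) : ℂ) * w ^ 2))
    (c μ : ι → ℂ) (lam : ℕ → Measure ℝ) (hlam : ∀ n, IsProbabilityMeasure (lam n))
    (hconv : ∀ ξ : ℝ, Tendsto (fun n => ∫ x, Complex.exp (-(Complex.I * ξ * x)) ∂(lam n)) atTop
      (𝓝 (∑ j, c j * Complex.exp (-(ξ * μ j) - (ξ : ℂ) ^ 2 / 2)))) (y : ℝ) :
    Tendsto (fun n => ((∫ x, Real.exp (-(V * (x - y) ^ 2 / 2)) ∂(lam n) : ℝ) : ℂ)) atTop
      (𝓝 (∑ j, c j * (κ * Complex.exp (((V / (2 * (1 + V)) : ℝ) : ℂ)
        * (Complex.I * y - μ j) ^ 2)))) := by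
  have h1 : ∀ n, ((∫ x, Real.exp (-(V * (x - y) ^ 2 / 2)) ∂(lam n) : ℝ) : ℂ)
      = ∫ ξ : ℝ, Complex.exp (Complex.I * ξ * y) *
          (∫ x, Complex.exp (-(Complex.I * ξ * x)) ∂(lam n)) ∂(gaussianReal 0 V) := fun n => by
    have := hlam n
    exact smooth_eq (lam n) V y
  simp_rw [h1]
  have h2 : ∑ j, c j * (κ * Complex.exp (((V / (2 * (1 + V)) : ℝ) : ℂ)
        * (Complex.I * y - μ j) ^ 2))
      = ∫ ξ : ℝ, Complex.exp (Complex.I * ξ * y) *
        (∑ j, c j * Complex.exp (-(ξ * μ j) - (ξ : ℂ) ^ 2 / 2)) ∂(gaussianReal 0 V) := by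
    have h3 : ∀ ξ : ℝ, Complex.exp (Complex.I * ξ * y) *
        (∑ j, c j * Complex.exp (-(ξ * μ j) - (ξ : ℂ) ^ 2 / 2))
        = ∑ j, c j * Complex.exp (ξ * (Complex.I * y - μ j) - (ξ : ℂ) ^ 2 / 2) := by
      intro ξ
      rw [mul_sum]
      refine sum_congr rfl fun j _ => ?_
      rw [mul_left_comm, ← Complex.exp_add]
      congr 2
      ring
    simp_rw [h3]
    rw [integral_finsetSum]
    · refine sum_congr rfl fun j _ => ?_
      rw [integral_const_mul, hκ]
    · intro j _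
      exact (integrable_cexp_quad V _).const_mul _
  rw [h2]
  refine tendsto_integral_of_dominated_convergence (fun _ => (1 : ℝ)) ?_ (integrable_const _) ?_ ?_
  · intro n
    have := hlam n
    have hm : AEStronglyMeasurable (fun ξ : ℝ => ∫ x, Complex.exp (-(Complex.I * ξ * x)) ∂(lam n))
        (gaussianReal 0 V) := by
      have : StronglyMeasurable (Function.uncurry fun (ξ x : ℝ) =>
          Complex.exp (-(Complex.I * ξ * x))) := by
        refine Continuous.stronglyMeasurable ?_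
        simp only [Function.uncurry_def]
        fun_prop
      exact this.integral_prod_right.aestronglyMeasurable
    exact (Continuous.aestronglyMeasurable (by fun_prop)).mul hm
  · intro n
    have := hlam n
    refine Eventually.of_forall fun ξ => ?_
    rw [norm_mul]
    have h5 : Complex.I * (ξ : ℂ) * (y : ℂ) = ((ξ * y : ℝ) : ℂ) * Complex.I := by
      push_cast; ring
    rw [h5, Complex.norm_exp_ofReal_mul_I, one_mul]
    have h6 : ∀ x : ℝ, ‖Complex.exp (-(Complex.I * ξ * x))‖ ≤ 1 := fun x => by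
      have : -(Complex.I * (ξ : ℂ) * (x : ℂ)) = ((-(ξ * x) : ℝ) : ℂ) * Complex.I := by
        push_cast; ring
      rw [this, Complex.norm_exp_ofReal_mul_I]
    have := norm_integral_le_of_norm_le_const (μ := lam n) (Eventually.of_forall h6)
    simpa using this
  · refine Eventually.of_forall fun ξ => ?_
    exact (hconv ξ).const_mul _

end

/-- value of one smoothed exponential term -/
lemma norm_term_le (V : ℝ≥0) (hV : 1 ≤ (V : ℝ)) (c μ : ℂ)
    (hb : ∀ ξ : ℝ, ‖c‖ * Real.exp (-(ξ * μ.re) - ξ ^ 2 / 2) ≤ 1) (y : ℝ) :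
    ‖c * Complex.exp (((V / (2 * (1 + V)) : ℝ) : ℂ) * (Complex.I * y - μ) ^ 2)‖
      ≤ Real.exp (-((y - μ.im) ^ 2 / 4)) := by
  set q : ℝ := V / (2 * (1 + V)) with hq
  have hq1 : q ≤ 1 / 2 := by
    rw [hq, div_le_div_iff₀ (by positivity) (by norm_num)]
    linarith
  have hq2 : 1 / 4 ≤ q := by
    rw [hq, div_le_div_iff₀ (by norm_num) (by positivity)]
    linarith
  have h1 : ‖c‖ * Real.exp (μ.re ^ 2 / 2) ≤ 1 := by
    have := hb (-μ.re)
    have e : -(-μ.re * μ.re) - (-μ.re) ^ 2 / 2 = μ.re ^ 2 / 2 := by ring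
    rwa [e] at this
  rw [norm_mul, Complex.norm_exp]
  have h2 : (((q : ℝ) : ℂ) * (Complex.I * y - μ) ^ 2).re = q * (μ.re ^ 2 - (y - μ.im) ^ 2) := by
    rw [Complex.re_ofReal_mul, pow_two, Complex.mul_re]
    simp only [Complex.sub_re, Complex.mul_re, Complex.I_re, Complex.ofReal_re, zero_mul,
      Complex.I_im, Complex.ofReal_im, mul_zero, sub_self, zero_sub, Complex.sub_im,
      Complex.mul_im, one_mul, zero_add]
    ring
  rw [h2]
  calc ‖c‖ * Real.exp (q * (μ.re ^ 2 - (y - μ.im) ^ 2))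
      ≤ ‖c‖ * Real.exp (μ.re ^ 2 / 2 + -((y - μ.im) ^ 2 / 4)) := by
        gcongr
        nlinarith [sq_nonneg μ.re, sq_nonneg (y - μ.im)]
    _ = (‖c‖ * Real.exp (μ.re ^ 2 / 2)) * Real.exp (-((y - μ.im) ^ 2 / 4)) := by
        rw [Real.exp_add]; ring
    _ ≤ 1 * Real.exp (-((y - μ.im) ^ 2 / 4)) := by gcongr
    _ = _ := one_mul _

/-- extrapolation inequality for the smoothed density -/
lemma extrap_smooth (N : ℕ) (K : ℝ) (V : ℝ≥0) (hV : 1 ≤ (V : ℝ))
    (κ : ℝ) (hκ0 : 0 < κ) (hκ1 : κ ≤ 1) (Y : ℝ) (hYK : Y ≤ K)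
    (hY0 : 24 + 30 * N ≤ Y) {ι : Type} [Fintype ι] (hcard : Fintype.card ι ≤ N)
    (c μ : ι → ℂ) (hb : ∀ j (ξ : ℝ), ‖c j‖ * Real.exp (-(ξ * (μ j).re) - ξ ^ 2 / 2) ≤ 1)
    (y : ℝ) (hy : |y| ≤ 24) (H : ℝ) (hH0 : 0 ≤ H)
    (hH : ∀ ν ∈ Ico 1 (N + 1), ‖∑ j, c j * (κ * Complex.exp (((V / (2 * (1 + V)) : ℝ) : ℂ)
        * (Complex.I * ((y - ν * 30 : ℝ) : ℂ) - μ j) ^ 2))‖ ≤ H) :
    ‖∑ j, c j * (κ * Complex.exp (((V / (2 * (1 + V)) : ℝ) : ℂ)
        * (Complex.I * (y : ℂ) - μ j) ^ 2))‖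
      ≤ (1 + Real.exp (30 * K)) ^ N * Real.exp (Y ^ 2 / 2) *
        (H + N * Real.exp (-((K - Y) ^ 2 / 4))) + N * Real.exp (-((K - Y) ^ 2 / 4)) := by
  classical
  set q : ℝ := V / (2 * (1 + V)) with hq
  have hq1 : q ≤ 1 / 2 := by
    rw [hq, div_le_div_iff₀ (by positivity) (by norm_num)]
    linarith
  have hq2 : 1 / 4 ≤ q := by
    rw [hq, div_le_div_iff₀ (by norm_num) (by positivity)]
    linarith
  have hN0 : (0 : ℝ) ≤ N := Nat.cast_nonneg N
  set G : Finset ι := univ.filter fun j => |(μ j).im| ≤ K with hG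
  set B : ℝ := N * Real.exp (-((K - Y) ^ 2 / 4)) with hB
  have hB0 : 0 ≤ B := by positivity
  have hGN : G.card ≤ N := (card_le_univ G).trans hcard
  set C : ι → ℂ := fun j => c j * Complex.exp (((q : ℝ) : ℂ) * μ j ^ 2) with hC
  set w : ι → ℂ := fun j => -(2 * Complex.I * ((q : ℝ) : ℂ) * μ j) with hw
  -- rewriting of a term
  have hterm : ∀ (j : ι) (t : ℝ), c j * (κ * Complex.exp (((q : ℝ) : ℂ)
        * (Complex.I * (t : ℂ) - μ j) ^ 2))
      = (κ * Real.exp (-(q * t ^ 2)) : ℝ) * (C j * Complex.exp (w j * t)) := by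
    intro j t
    have h1 : Complex.exp (((q : ℝ) : ℂ) * (Complex.I * (t : ℂ) - μ j) ^ 2)
        = Complex.exp ((-(q * t ^ 2) : ℝ) : ℂ) * (Complex.exp (((q : ℝ) : ℂ) * μ j ^ 2)
          * Complex.exp (w j * t)) := by
      rw [← Complex.exp_add, ← Complex.exp_add]
      congr 1
      simp only [hw]
      push_cast
      linear_combination ((q : ℂ) * (t : ℂ) ^ 2) * Complex.I_sq
    rw [h1, hC]
    push_cast
    ring
  -- bad part is small
  have hbad : ∀ t : ℝ, |t| ≤ Y → ‖∑ j ∈ Gᶜ, c j * (κ * Complex.exp (((q : ℝ) : ℂ)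
        * (Complex.I * (t : ℂ) - μ j) ^ 2))‖ ≤ B := by
    intro t ht
    refine (norm_sum_le _ _).trans ?_
    calc ∑ j ∈ Gᶜ, ‖c j * (κ * Complex.exp (((q : ℝ) : ℂ) * (Complex.I * (t : ℂ) - μ j) ^ 2))‖
        ≤ ∑ _j ∈ Gᶜ, Real.exp (-((K - Y) ^ 2 / 4)) := by
          refine sum_le_sum fun j hj => ?_
          have h1 := norm_term_le V hV (c j) (μ j) (hb j) t
          have h2 : ‖c j * (κ * Complex.exp (((q : ℝ) : ℂ) * (Complex.I * (t : ℂ) - μ j) ^ 2))‖
              = κ * ‖c j * Complex.exp (((q : ℝ) : ℂ) * (Complex.I * (t : ℂ) - μ j) ^ 2)‖ := by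
            rw [norm_mul, norm_mul, norm_mul, Complex.norm_real, Real.norm_eq_abs,
              abs_of_pos hκ0]
            ring
          rw [h2]
          have h3 : ‖c j * Complex.exp (((q : ℝ) : ℂ) * (Complex.I * (t : ℂ) - μ j) ^ 2)‖
              ≤ Real.exp (-((K - Y) ^ 2 / 4)) := by
            refine h1.trans (Real.exp_le_exp.2 ?_)
            have hj' : K < |(μ j).im| := by
              have : j ∉ G := mem_compl.1 hj
              rw [hG, mem_filter] at this
              push Not at this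
              exact this (mem_univ j)
            have h4 : K - Y ≤ |t - (μ j).im| := by
              have := abs_sub_abs_le_abs_sub (μ j).im t
              rw [abs_sub_comm] at this
              linarith
            have h5 : (K - Y) ^ 2 ≤ (t - (μ j).im) ^ 2 := by
              rw [← sq_abs (t - (μ j).im)]
              exact pow_le_pow_left₀ (by linarith) h4 2
            linarith
          calc κ * ‖c j * Complex.exp (((q : ℝ) : ℂ) * (Complex.I * (t : ℂ) - μ j) ^ 2)‖
              ≤ 1 * Real.exp (-((K - Y) ^ 2 / 4)) := by gcongr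
            _ = _ := one_mul _
      _ = (Gᶜ.card : ℝ) * Real.exp (-((K - Y) ^ 2 / 4)) := by
          rw [sum_const, nsmul_eq_mul]
      _ ≤ B := by
          rw [hB]
          have : (Gᶜ.card : ℝ) ≤ N := by
            exact_mod_cast (card_le_univ Gᶜ).trans hcard
          gcongr
  -- good part
  have hgood : ∀ t : ℝ, ∑ j ∈ G, c j * (κ * Complex.exp (((q : ℝ) : ℂ)
        * (Complex.I * (t : ℂ) - μ j) ^ 2))
      = (κ * Real.exp (-(q * t ^ 2)) : ℝ) * ∑ j ∈ G, C j * Complex.exp (w j * t) := by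
    intro t
    rw [mul_sum]
    exact sum_congr rfl fun j _ => hterm j t
  have hsplit : ∀ t : ℝ, ∑ j, c j * (κ * Complex.exp (((q : ℝ) : ℂ)
        * (Complex.I * (t : ℂ) - μ j) ^ 2))
      = (κ * Real.exp (-(q * t ^ 2)) : ℝ) * ∑ j ∈ G, C j * Complex.exp (w j * t)
        + ∑ j ∈ Gᶜ, c j * (κ * Complex.exp (((q : ℝ) : ℂ) * (Complex.I * (t : ℂ) - μ j) ^ 2)) := by
    intro t
    rw [← hgood, sum_add_sum_compl]
  have hY : 24 ≤ Y := by linarith [mul_nonneg (show (0 : ℝ) ≤ 30 by norm_num) hN0]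
  -- node bounds
  set M : ℝ := κ⁻¹ * Real.exp (Y ^ 2 / 2) * (H + B) with hM
  have hM0 : 0 ≤ M := by positivity
  have hnode : ∀ ν ∈ Ico 1 (G.card + 1),
      ‖∑ j ∈ G, C j * Complex.exp (w j * ((y - ν * 30 : ℝ) : ℂ))‖ ≤ M := by
    intro ν hν
    rw [mem_Ico] at hν
    have hνN : ν ≤ N := by omega
    have hνN' : (ν : ℝ) ≤ N := by exact_mod_cast hνN
    have hν1 : (1 : ℝ) ≤ ν := by exact_mod_cast hν.1
    set t : ℝ := y - ν * 30 with ht
    have htY : |t| ≤ Y := by
      rw [abs_le] at hy ⊢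
      constructor
      · rw [ht]; nlinarith
      · rw [ht]; nlinarith
    have h1 := hH ν (mem_Ico.2 ⟨hν.1, by omega⟩)
    rw [hsplit t] at h1
    have h2 := hbad t htY
    have h3 : ‖(κ * Real.exp (-(q * t ^ 2)) : ℝ) * ∑ j ∈ G, C j * Complex.exp (w j * (t : ℂ))‖
        ≤ H + B := by
      have := norm_sub_le ((κ * Real.exp (-(q * t ^ 2)) : ℝ) * ∑ j ∈ G, C j * Complex.exp (w j * t)
        + ∑ j ∈ Gᶜ, c j * (κ * Complex.exp (((q : ℝ) : ℂ) * (Complex.I * (t : ℂ) - μ j) ^ 2)))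
        (∑ j ∈ Gᶜ, c j * (κ * Complex.exp (((q : ℝ) : ℂ) * (Complex.I * (t : ℂ) - μ j) ^ 2)))
      rw [add_sub_cancel_right] at this
      linarith
    rw [norm_mul, Complex.norm_real, Real.norm_eq_abs, abs_of_pos (by positivity)] at h3
    have h4 : ‖∑ j ∈ G, C j * Complex.exp (w j * (t : ℂ))‖
        = (κ * Real.exp (-(q * t ^ 2)))⁻¹ * (κ * Real.exp (-(q * t ^ 2)) *
          ‖∑ j ∈ G, C j * Complex.exp (w j * (t : ℂ))‖) := by
      have : κ * Real.exp (-(q * t ^ 2)) ≠ 0 := by positivity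
      rw [← mul_assoc, inv_mul_cancel₀ this, one_mul]
    rw [h4]
    have h5 : (κ * Real.exp (-(q * t ^ 2)))⁻¹ ≤ κ⁻¹ * Real.exp (Y ^ 2 / 2) := by
      rw [mul_inv, ← Real.exp_neg, neg_neg]
      have : q * t ^ 2 ≤ Y ^ 2 / 2 := by
        have h6 : t ^ 2 ≤ Y ^ 2 := by
          rw [← sq_abs t]
          exact pow_le_pow_left₀ (abs_nonneg t) htY 2
        nlinarith [sq_nonneg t]
      gcongr
    calc (κ * Real.exp (-(q * t ^ 2)))⁻¹ * (κ * Real.exp (-(q * t ^ 2)) *
          ‖∑ j ∈ G, C j * Complex.exp (w j * (t : ℂ))‖)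
        ≤ (κ⁻¹ * Real.exp (Y ^ 2 / 2)) * (H + B) := by gcongr
      _ = M := by rw [hM]
  have hw' : ∀ j ∈ G, (30 * (w j).re : ℝ) ≤ 30 * K := by
    intro j hj
    have hj' : |(μ j).im| ≤ K := (mem_filter.1 hj).2
    have h1 : (w j).re = 2 * q * (μ j).im := by
      simp only [hw, Complex.neg_re, Complex.mul_re, Complex.mul_im, Complex.I_re, Complex.I_im,
        Complex.re_ofNat, Complex.im_ofNat, Complex.ofReal_re, Complex.ofReal_im]
      ring
    have h2 : 2 * q * (μ j).im ≤ K := by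
      have h3 := abs_le.1 hj'
      have hK0 : 0 ≤ K := (abs_nonneg _).trans hj'
      rcases le_total 0 (μ j).im with h | h
      · nlinarith
      · nlinarith
    linarith
  have hT := turan_extrap G C w 30 (30 * K) hw' y M hM0 hnode
  rw [hsplit y]
  refine (norm_add_le _ _).trans ?_
  have hyY : |y| ≤ Y := hy.trans hY
  refine add_le_add ?_ (hbad y hyY)
  rw [norm_mul, Complex.norm_real, Real.norm_eq_abs, abs_of_pos (by positivity)]
  have h6 : κ * Real.exp (-(q * y ^ 2)) ≤ κ := by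
    have : Real.exp (-(q * y ^ 2)) ≤ 1 := Real.exp_le_one_iff.2 (by
      have := sq_nonneg y; nlinarith)
    nlinarith
  calc κ * Real.exp (-(q * y ^ 2)) * ‖∑ j ∈ G, C j * Complex.exp (w j * (y : ℂ))‖
      ≤ κ * ((1 + Real.exp (30 * K)) ^ G.card * M) := by gcongr
    _ ≤ κ * ((1 + Real.exp (30 * K)) ^ N * M) := by
        gcongr
        have := Real.exp_pos (30 * K)
        linarith
    _ = (1 + Real.exp (30 * K)) ^ N * Real.exp (Y ^ 2 / 2) * (H + B) := by
        rw [hM]
        field_simp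

end Vale.Agent.P367.Lim
end

section

open MeasureTheory ProbabilityTheory

namespace Vale.Agent.P367.GT

variable {S ι : Type*} [Fintype S] [Nonempty S] [Fintype ι]

/-- linear form -/
noncomputable def zf (v : S → ι → ℝ) (J : ι → ℝ) (s : S) : ℝ := ∑ e, v s e * J e

/-- partition function -/
noncomputable def part (v : S → ι → ℝ) (J : ι → ℝ) : ℝ := ∑ s, Real.exp (zf v J s)

/-- Gibbs weights -/
noncomputable def pp (v : S → ι → ℝ) (J : ι → ℝ) (s : S) : ℝ := Real.exp (zf v J s) / part v J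

omit [Fintype S] [Nonempty S] in
lemma continuous_zf (v : S → ι → ℝ) (s : S) : Continuous fun J => zf v J s := by
  unfold zf; fun_prop

lemma part_pos (v : S → ι → ℝ) (J : ι → ℝ) : 0 < part v J :=
  Finset.sum_pos (fun _ _ => Real.exp_pos _) Finset.univ_nonempty

omit [Nonempty S] in
lemma continuous_part (v : S → ι → ℝ) : Continuous fun J => part v J := by
  unfold part
  exact continuous_finsetSum _ fun s _ => Real.continuous_exp.comp (continuous_zf v s)

lemma continuous_pp (v : S → ι → ℝ) (s : S) : Continuous fun J => pp v J s := by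
  unfold pp
  exact (Real.continuous_exp.comp (continuous_zf v s)).div (continuous_part v)
    fun J => (part_pos v J).ne'

lemma pp_nonneg (v : S → ι → ℝ) (J : ι → ℝ) (s : S) : 0 ≤ pp v J s :=
  div_nonneg (Real.exp_pos _).le (part_pos v J).le

lemma sum_pp (v : S → ι → ℝ) (J : ι → ℝ) : ∑ s, pp v J s = 1 := by
  unfold pp
  rw [← Finset.sum_div]
  exact div_self (part_pos v J).ne'

lemma pp_le_one (v : S → ι → ℝ) (J : ι → ℝ) (s : S) : pp v J s ≤ 1 := by
  rw [← sum_pp v J]
  exact Finset.single_le_sum (fun t _ => pp_nonneg v J t) (Finset.mem_univ s)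

lemma softmax_deriv (z : S → ℝ → ℝ) (z' : S → ℝ) (x : ℝ) (hz : ∀ s, HasDerivAt (z s) (z' s) x)
    (s : S) :
    HasDerivAt (fun y => Real.exp (z s y) / ∑ t, Real.exp (z t y))
      ((Real.exp (z s x) / ∑ t, Real.exp (z t x)) *
        (z' s - ∑ t, (Real.exp (z t x) / ∑ r, Real.exp (z r x)) * z' t)) x := by
  have h1 : HasDerivAt (fun y => Real.exp (z s y)) (Real.exp (z s x) * z' s) x := (hz s).exp
  have h2 : HasDerivAt (fun y => ∑ t, Real.exp (z t y)) (∑ t, Real.exp (z t x) * z' t) x :=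
    HasDerivAt.fun_sum fun t _ => (hz t).exp
  have hpos : 0 < ∑ t, Real.exp (z t x) :=
    Finset.sum_pos (fun _ _ => Real.exp_pos _) Finset.univ_nonempty
  have h3 := h1.div h2 hpos.ne'
  have h4 : (Real.exp (z s x) * z' s * (∑ t, Real.exp (z t x))
      - Real.exp (z s x) * (∑ t, Real.exp (z t x) * z' t)) / (∑ t, Real.exp (z t x)) ^ 2
      = (Real.exp (z s x) / ∑ t, Real.exp (z t x)) *
        (z' s - ∑ t, (Real.exp (z t x) / ∑ r, Real.exp (z r x)) * z' t) := by
    have h5 : ∑ t, (Real.exp (z t x) / ∑ r, Real.exp (z r x)) * z' t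
        = (∑ t, Real.exp (z t x) * z' t) / ∑ r, Real.exp (z r x) := by
      rw [Finset.sum_div]
      apply Finset.sum_congr rfl
      intro t _
      ring
    rw [h5]
    field_simp
  rw [← h4]
  exact h3

lemma log_deriv (z : S → ℝ → ℝ) (z' : S → ℝ) (x : ℝ) (hz : ∀ s, HasDerivAt (z s) (z' s) x) :
    HasDerivAt (fun y => Real.log (∑ t, Real.exp (z t y)))
      (∑ t, (Real.exp (z t x) / ∑ r, Real.exp (z r x)) * z' t) x := by
  have h2 : HasDerivAt (fun y => ∑ t, Real.exp (z t y)) (∑ t, Real.exp (z t x) * z' t) x :=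
    HasDerivAt.fun_sum fun t _ => (hz t).exp
  have hpos : 0 < ∑ t, Real.exp (z t x) :=
    Finset.sum_pos (fun _ _ => Real.exp_pos _) Finset.univ_nonempty
  have h3 := h2.log hpos.ne'
  rw [Finset.sum_div] at h3
  refine h3.congr_deriv ?_
  apply Finset.sum_congr rfl
  intro t _
  ring

lemma integrable_coord (e : ι) : Integrable (fun J : ι → ℝ => J e) (gM ι) :=
  integrable_comp_eval (μ := fun _ : ι => gaussianReal 0 1) (i := e) (f := fun x => x)
    ((memLp_id_gaussianReal 1).integrable le_rfl)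

omit [Fintype S] [Nonempty S] in
lemma integrable_zf (v : S → ι → ℝ) (s : S) : Integrable (fun J => zf v J s) (gM ι) := by
  unfold zf
  exact integrable_finsetSum _ fun e _ => (integrable_coord e).const_mul _

/-- Integration by parts for Gibbs weights. -/
lemma ibp (v : S → ι → ℝ) (c : ι → ℝ) (s : S) :
    ∫ J, (∑ e, c e * J e) * pp v J s ∂(gM ι)
      = ∫ J, pp v J s * ((∑ e, c e * v s e) - ∑ t, pp v J t * ∑ e, c e * v t e) ∂(gM ι) := by
  classical
  have hone : ∀ e, ∫ J, J e * pp v J s ∂(gM ι)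
      = ∫ J, pp v J s * (v s e - ∑ t, pp v J t * v t e) ∂(gM ι) := by
    intro e
    have hcont : Continuous fun J => pp v J s * (v s e - ∑ t, pp v J t * v t e) := by
      refine (continuous_pp v s).mul (continuous_const.sub ?_)
      exact continuous_finsetSum _ fun t _ => (continuous_pp v t).mul continuous_const
    apply stein_pi e (fun J => pp v J s)
      (fun J => pp v J s * (v s e - ∑ t, pp v J t * v t e))
      (1 + |v s e| + ∑ t, |v t e|) (continuous_pp v s).measurable hcont.measurable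
    · intro J x
      have hz : ∀ t, HasDerivAt (fun y => zf v (Function.update J e y) t) (v t e) x := by
        intro t
        unfold zf
        have h1 : HasDerivAt (fun y => ∑ e', v t e' * Function.update J e y e')
            (∑ e', v t e' * (Pi.single e (1 : ℝ) : ι → ℝ) e') x := by
          apply HasDerivAt.fun_sum
          intro e' _
          exact ((hasDerivAt_pi.mp (hasDerivAt_update J e x)) e').const_mul _
        have h2 : ∑ e', v t e' * (Pi.single e (1 : ℝ) : ι → ℝ) e' = v t e := by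
          simp [Pi.single_apply]
        rw [h2] at h1
        exact h1
      exact softmax_deriv (fun t y => zf v (Function.update J e y) t) (fun t => v t e) x hz s
    · intro J
      rw [abs_of_nonneg (pp_nonneg v J s)]
      have := pp_le_one v J s
      have h2 := abs_nonneg (v s e)
      have h3 : 0 ≤ ∑ t, |v t e| := Finset.sum_nonneg fun t _ => abs_nonneg _
      linarith
    · intro J
      rw [abs_mul, abs_of_nonneg (pp_nonneg v J s)]
      have h1 : |v s e - ∑ t, pp v J t * v t e| ≤ |v s e| + ∑ t, |v t e| := by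
        refine (abs_sub _ _).trans ?_
        have h2 : |∑ t, pp v J t * v t e| ≤ ∑ t, |v t e| := by
          refine (Finset.abs_sum_le_sum_abs _ _).trans (Finset.sum_le_sum fun t _ => ?_)
          rw [abs_mul, abs_of_nonneg (pp_nonneg v J t)]
          exact mul_le_of_le_one_left (abs_nonneg _) (pp_le_one v J t)
        linarith
      have h3 := pp_le_one v J s
      have h4 := pp_nonneg v J s
      have h5 := abs_nonneg (v s e - ∑ t, pp v J t * v t e)
      nlinarith
  have hint1 : ∀ e, Integrable (fun J : ι → ℝ => J e * pp v J s) (gM ι) := by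
    intro e
    have := (integrable_coord e).bdd_mul (c := 1) (f := fun J => pp v J s)
      (continuous_pp v s).measurable.aestronglyMeasurable
      (Filter.Eventually.of_forall fun J => by
        rw [Real.norm_eq_abs, abs_of_nonneg (pp_nonneg v J s)]; exact pp_le_one v J s)
    refine this.congr (Filter.Eventually.of_forall fun J => ?_)
    simp only [mul_comm]
  have hint2 : ∀ e, Integrable (fun J : ι → ℝ => pp v J s * (v s e - ∑ t, pp v J t * v t e))
      (gM ι) := by
    intro e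
    have hcont : Continuous fun J => pp v J s * (v s e - ∑ t, pp v J t * v t e) := by
      refine (continuous_pp v s).mul (continuous_const.sub ?_)
      exact continuous_finsetSum _ fun t _ => (continuous_pp v t).mul continuous_const
    refine Integrable.mono' (integrable_const (|v s e| + ∑ t, |v t e|))
      hcont.measurable.aestronglyMeasurable (Filter.Eventually.of_forall fun J => ?_)
    rw [Real.norm_eq_abs, abs_mul, abs_of_nonneg (pp_nonneg v J s)]
    have h1 : |v s e - ∑ t, pp v J t * v t e| ≤ |v s e| + ∑ t, |v t e| := by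
      refine (abs_sub _ _).trans ?_
      have h2 : |∑ t, pp v J t * v t e| ≤ ∑ t, |v t e| := by
        refine (Finset.abs_sum_le_sum_abs _ _).trans (Finset.sum_le_sum fun t _ => ?_)
        rw [abs_mul, abs_of_nonneg (pp_nonneg v J t)]
        exact mul_le_of_le_one_left (abs_nonneg _) (pp_le_one v J t)
      linarith
    have h3 := pp_le_one v J s
    have h4 := pp_nonneg v J s
    have h5 := abs_nonneg (v s e - ∑ t, pp v J t * v t e)
    nlinarith
  calc ∫ J, (∑ e, c e * J e) * pp v J s ∂(gM ι)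
      = ∫ J, ∑ e, c e * (J e * pp v J s) ∂(gM ι) := by
        congr 1; funext J
        rw [Finset.sum_mul]
        apply Finset.sum_congr rfl
        intro e _; ring
    _ = ∑ e, c e * ∫ J, J e * pp v J s ∂(gM ι) := by
        rw [integral_finsetSum _ fun e _ => (hint1 e).const_mul _]
        simp only [integral_const_mul]
    _ = ∑ e, c e * ∫ J, pp v J s * (v s e - ∑ t, pp v J t * v t e) ∂(gM ι) := by
        simp only [hone]
    _ = ∫ J, ∑ e, c e * (pp v J s * (v s e - ∑ t, pp v J t * v t e)) ∂(gM ι) := by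
        rw [integral_finsetSum _ fun e _ => (hint2 e).const_mul _]
        simp only [integral_const_mul]
    _ = _ := by
        congr 1; funext J
        have h1 : ∑ t, pp v J t * ∑ e, c e * v t e = ∑ e, c e * ∑ t, pp v J t * v t e := by
          simp only [Finset.mul_sum]
          rw [Finset.sum_comm]
          apply Finset.sum_congr rfl
          intro e _
          apply Finset.sum_congr rfl
          intro t _
          ring
        rw [h1, ← Finset.sum_sub_distrib, Finset.mul_sum]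
        apply Finset.sum_congr rfl
        intro e _
        ring

end Vale.Agent.P367.GT
end

section

open MeasureTheory ProbabilityTheory

namespace Vale.Agent.P367.GT

variable {S ι : Type*} [Fintype S] [Nonempty S] [Fintype ι]

/-- interpolating vectors -/
noncomputable def ww (a b : S → ι → ℝ) (θ : ℝ) (s : S) (e : ι) : ℝ :=
  Real.cos θ * a s e + Real.sin θ * b s e

/-- derivative of the interpolating vectors -/
noncomputable def wd (a b : S → ι → ℝ) (θ : ℝ) (s : S) (e : ι) : ℝ :=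
  -Real.sin θ * a s e + Real.cos θ * b s e

omit [Fintype S] [Nonempty S] in
lemma hasDerivAt_zf (a b : S → ι → ℝ) (J : ι → ℝ) (s : S) (θ : ℝ) :
    HasDerivAt (fun θ => zf (ww a b θ) J s) (zf (wd a b θ) J s) θ := by
  unfold zf
  apply HasDerivAt.fun_sum
  intro e _
  apply HasDerivAt.mul_const
  unfold ww wd
  exact ((Real.hasDerivAt_cos θ).mul_const _).add ((Real.hasDerivAt_sin θ).mul_const _)

/-- interpolating free energy -/
noncomputable def phi (a b : S → ι → ℝ) (θ : ℝ) : ℝ :=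
  ∫ J, Real.log (part (ww a b θ) J) ∂(gM ι)

omit [Fintype S] [Nonempty S] [Fintype ι] in
lemma abs_ww_le (a b : S → ι → ℝ) (θ : ℝ) (s : S) (e : ι) :
    |ww a b θ s e| ≤ |a s e| + |b s e| := by
  unfold ww
  refine (abs_add_le _ _).trans ?_
  rw [abs_mul, abs_mul]
  have h1 := Real.abs_cos_le_one θ
  have h2 := Real.abs_sin_le_one θ
  have h3 := abs_nonneg (a s e)
  have h4 := abs_nonneg (b s e)
  nlinarith [abs_nonneg (Real.cos θ), abs_nonneg (Real.sin θ)]

omit [Fintype S] [Nonempty S] [Fintype ι] in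
lemma abs_wd_le (a b : S → ι → ℝ) (θ : ℝ) (s : S) (e : ι) :
    |wd a b θ s e| ≤ |a s e| + |b s e| := by
  unfold wd
  refine (abs_add_le _ _).trans ?_
  rw [abs_mul, abs_mul, abs_neg]
  have h1 := Real.abs_cos_le_one θ
  have h2 := Real.abs_sin_le_one θ
  have h3 := abs_nonneg (a s e)
  have h4 := abs_nonneg (b s e)
  nlinarith [abs_nonneg (Real.cos θ), abs_nonneg (Real.sin θ)]

/-- dominating function -/
noncomputable def bnd (a b : S → ι → ℝ) (J : ι → ℝ) : ℝ :=
  ∑ s, ∑ e, (|a s e| + |b s e|) * |J e|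

omit [Nonempty S] in
lemma integrable_bnd (a b : S → ι → ℝ) : Integrable (bnd a b) (gM ι) := by
  unfold bnd
  exact integrable_finsetSum _ fun s _ => integrable_finsetSum _ fun e _ =>
    ((integrable_coord e).abs).const_mul _

omit [Nonempty S] in
lemma abs_zf_le (a b v : S → ι → ℝ) (hv : ∀ s e, |v s e| ≤ |a s e| + |b s e|) (J : ι → ℝ)
    (s : S) : |zf v J s| ≤ bnd a b J := by
  unfold zf bnd
  have h1 : |∑ e, v s e * J e| ≤ ∑ e, (|a s e| + |b s e|) * |J e| := by
    refine (Finset.abs_sum_le_sum_abs _ _).trans (Finset.sum_le_sum fun e _ => ?_)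
    rw [abs_mul]
    exact mul_le_mul_of_nonneg_right (hv s e) (abs_nonneg _)
  refine h1.trans ?_
  exact Finset.single_le_sum (f := fun s => ∑ e, (|a s e| + |b s e|) * |J e|)
    (fun s _ => Finset.sum_nonneg fun e _ => by positivity) (Finset.mem_univ s)

lemma log_part_bounds (v : S → ι → ℝ) (J : ι → ℝ) (M : ℝ) (h : ∀ s, |zf v J s| ≤ M) :
    |Real.log (part v J)| ≤ M + Real.log (Fintype.card S) := by
  obtain ⟨s0⟩ := (inferInstance : Nonempty S)
  have hc : (1 : ℝ) ≤ Fintype.card S := by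
    exact_mod_cast Fintype.card_pos
  have hlc : 0 ≤ Real.log (Fintype.card S) := Real.log_nonneg hc
  have h1 : Real.exp (-M) ≤ part v J := by
    have h2 : Real.exp (zf v J s0) ≤ part v J :=
      Finset.single_le_sum (f := fun s => Real.exp (zf v J s)) (fun _ _ => (Real.exp_pos _).le)
        (Finset.mem_univ s0)
    refine (Real.exp_le_exp.mpr ?_).trans h2
    exact (abs_le.mp (h s0)).1
  have h2 : part v J ≤ Fintype.card S * Real.exp M := by
    unfold part
    refine (Finset.sum_le_sum fun s _ => Real.exp_le_exp.mpr (abs_le.mp (h s)).2).trans ?_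
    simp
  rw [abs_le]
  constructor
  · have h3 := Real.log_le_log (Real.exp_pos _) h1
    rw [Real.log_exp] at h3
    linarith
  · have h3 := Real.log_le_log (part_pos v J) h2
    rw [Real.log_mul (by positivity) (Real.exp_pos _).ne', Real.log_exp] at h3
    linarith

lemma continuous_log_part (v : S → ι → ℝ) : Continuous fun J => Real.log (part v J) :=
  (continuous_part v).log fun J => (part_pos v J).ne'

lemma integrable_log_part (v : S → ι → ℝ) :
    Integrable (fun J => Real.log (part v J)) (gM ι) := by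
  refine Integrable.mono' ((integrable_bnd v v).add (integrable_const
    (Real.log (Fintype.card S)))) (continuous_log_part v).measurable.aestronglyMeasurable
    (Filter.Eventually.of_forall fun J => ?_)
  rw [Real.norm_eq_abs]
  exact log_part_bounds v J _ fun s => abs_zf_le v v v (fun s e => by
    have := abs_nonneg (v s e); linarith) J s

lemma phi_deriv (a b : S → ι → ℝ) (θ : ℝ) :
    HasDerivAt (phi a b) (∫ J, ∑ s, pp (ww a b θ) J s * zf (wd a b θ) J s ∂(gM ι)) θ := by
  have key := hasDerivAt_integral_of_dominated_loc_of_deriv_le (μ := gM ι) (s := Set.univ)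
    (F := fun θ J => Real.log (part (ww a b θ) J)) (x₀ := θ)
    (F' := fun θ J => ∑ s, pp (ww a b θ) J s * zf (wd a b θ) J s)
    (bound := bnd a b) Filter.univ_mem
    (Filter.Eventually.of_forall fun x =>
      (continuous_log_part (ww a b x)).measurable.aestronglyMeasurable)
    (integrable_log_part _)
    (by
      apply Continuous.aestronglyMeasurable
      exact continuous_finsetSum _ fun s _ => (continuous_pp _ s).mul (continuous_zf _ s))
    (Filter.Eventually.of_forall fun J x _ => by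
      rw [Real.norm_eq_abs]
      refine (Finset.abs_sum_le_sum_abs _ _).trans ?_
      calc ∑ s, |pp (ww a b x) J s * zf (wd a b x) J s|
          ≤ ∑ s, pp (ww a b x) J s * bnd a b J := by
            apply Finset.sum_le_sum
            intro s _
            rw [abs_mul, abs_of_nonneg (pp_nonneg _ J s)]
            exact mul_le_mul_of_nonneg_left
              (abs_zf_le a b _ (fun s e => abs_wd_le a b x s e) J s) (pp_nonneg _ J s)
        _ = bnd a b J := by rw [← Finset.sum_mul, sum_pp, one_mul])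
    (integrable_bnd a b)
    (Filter.Eventually.of_forall fun J x _ => by
      have := log_deriv (fun s θ => zf (ww a b θ) J s) (fun s => zf (wd a b x) J s) x
        (fun s => hasDerivAt_zf a b J s x)
      exact this)
  exact key.2

lemma integrable_pp_zf (v u : S → ι → ℝ) (s : S) :
    Integrable (fun J => pp v J s * zf u J s) (gM ι) := by
  refine (integrable_zf u s).bdd_mul (c := 1) (continuous_pp v s).measurable.aestronglyMeasurable
    (Filter.Eventually.of_forall fun J => ?_)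
  rw [Real.norm_eq_abs, abs_of_nonneg (pp_nonneg v J s)]
  exact pp_le_one v J s

/-- The derivative of the interpolation is nonnegative. -/
lemma phi_deriv_nonneg (a b : S → ι → ℝ) (horth : ∀ s t, ∑ e, a s e * b t e = 0)
    (hinc : ∀ s t, ∑ e, (a s e - a t e) ^ 2 ≤ ∑ e, (b s e - b t e) ^ 2)
    (θ : ℝ) (hθ : 0 ≤ Real.sin θ * Real.cos θ) :
    0 ≤ ∫ J, ∑ s, pp (ww a b θ) J s * zf (wd a b θ) J s ∂(gM ι) := by
  set v := ww a b θ with hv
  set c := wd a b θ with hc
  set K : S → S → ℝ := fun s t => ∑ e, c s e * v t e with hK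
  have hKe : ∀ s t, K s t = Real.sin θ * Real.cos θ *
      ((∑ e, b s e * b t e) - ∑ e, a s e * a t e) := by
    intro s t
    have h1 := horth s t
    have h2 := horth t s
    have h3 : K s t = Real.sin θ * Real.cos θ * ((∑ e, b s e * b t e) - ∑ e, a s e * a t e)
        - Real.sin θ ^ 2 * (∑ e, a s e * b t e) + Real.cos θ ^ 2 * (∑ e, a t e * b s e) := by
      rw [hK, ← Finset.sum_sub_distrib, Finset.mul_sum, Finset.mul_sum, Finset.mul_sum,
        ← Finset.sum_sub_distrib, ← Finset.sum_add_distrib]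
      apply Finset.sum_congr rfl
      intro e _
      simp only [hv, hc, ww, wd]
      ring
    rw [h3, h1, h2]
    ring
  have h1 : ∫ J, ∑ s, pp v J s * zf c J s ∂(gM ι)
      = ∑ s, ∫ J, pp v J s * (K s s - ∑ t, pp v J t * K s t) ∂(gM ι) := by
    rw [integral_finsetSum _ fun s _ => integrable_pp_zf v c s]
    apply Finset.sum_congr rfl
    intro s _
    have := ibp v (c s) s
    rw [← this]
    congr 1
    funext J
    unfold zf
    ring
  have hint : ∀ s, Integrable (fun J => pp v J s * (K s s - ∑ t, pp v J t * K s t)) (gM ι) := by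
    intro s
    have hcont : Continuous fun J => pp v J s * (K s s - ∑ t, pp v J t * K s t) := by
      refine (continuous_pp v s).mul (continuous_const.sub ?_)
      exact continuous_finsetSum _ fun t _ => (continuous_pp v t).mul continuous_const
    refine Integrable.mono' (integrable_const (|K s s| + ∑ t, |K s t|))
      hcont.measurable.aestronglyMeasurable (Filter.Eventually.of_forall fun J => ?_)
    rw [Real.norm_eq_abs, abs_mul, abs_of_nonneg (pp_nonneg v J s)]
    have h1 : |K s s - ∑ t, pp v J t * K s t| ≤ |K s s| + ∑ t, |K s t| := by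
      refine (abs_sub _ _).trans ?_
      have h2 : |∑ t, pp v J t * K s t| ≤ ∑ t, |K s t| := by
        refine (Finset.abs_sum_le_sum_abs _ _).trans (Finset.sum_le_sum fun t _ => ?_)
        rw [abs_mul, abs_of_nonneg (pp_nonneg v J t)]
        exact mul_le_of_le_one_left (abs_nonneg _) (pp_le_one v J t)
      linarith
    have h3 := pp_le_one v J s
    have h4 := pp_nonneg v J s
    have h5 := abs_nonneg (K s s - ∑ t, pp v J t * K s t)
    nlinarith
  rw [h1, ← integral_finsetSum _ fun s _ => hint s]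
  apply integral_nonneg
  intro J
  simp only [Pi.zero_apply]
  have h2 : ∑ s, pp v J s * (K s s - ∑ t, pp v J t * K s t)
      = (∑ s, ∑ t, pp v J s * pp v J t * (K s s + K t t - K s t - K t s)) / 2 := by
    have e1 : ∑ s, ∑ t, pp v J s * pp v J t * K s s = ∑ s, pp v J s * K s s := by
      apply Finset.sum_congr rfl
      intro s _
      calc ∑ t, pp v J s * pp v J t * K s s = (pp v J s * K s s) * ∑ t, pp v J t := by
            rw [Finset.mul_sum]
            apply Finset.sum_congr rfl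
            intro t _; ring
        _ = _ := by rw [sum_pp, mul_one]
    have e2 : ∑ s, ∑ t, pp v J s * pp v J t * K t t = ∑ s, pp v J s * K s s := by
      rw [Finset.sum_comm, ← e1]
      apply Finset.sum_congr rfl
      intro s _
      apply Finset.sum_congr rfl
      intro t _; ring
    have e3 : ∑ s, ∑ t, pp v J s * pp v J t * K t s = ∑ s, ∑ t, pp v J s * pp v J t * K s t := by
      rw [Finset.sum_comm]
      apply Finset.sum_congr rfl
      intro s _
      apply Finset.sum_congr rfl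
      intro t _; ring
    have e4 : ∑ s, pp v J s * (K s s - ∑ t, pp v J t * K s t)
        = ∑ s, pp v J s * K s s - ∑ s, ∑ t, pp v J s * pp v J t * K s t := by
      rw [← Finset.sum_sub_distrib]
      apply Finset.sum_congr rfl
      intro s _
      have h6 : pp v J s * (∑ t, pp v J t * K s t) = ∑ t, pp v J s * pp v J t * K s t := by
        rw [Finset.mul_sum]
        apply Finset.sum_congr rfl
        intro t _; ring
      rw [mul_sub, h6]
    have e5 : ∑ s, ∑ t, pp v J s * pp v J t * (K s s + K t t - K s t - K t s)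
        = ∑ s, ∑ t, pp v J s * pp v J t * K s s + ∑ s, ∑ t, pp v J s * pp v J t * K t t
          - ∑ s, ∑ t, pp v J s * pp v J t * K s t - ∑ s, ∑ t, pp v J s * pp v J t * K t s := by
      simp only [← Finset.sum_add_distrib, ← Finset.sum_sub_distrib]
      apply Finset.sum_congr rfl
      intro s _
      apply Finset.sum_congr rfl
      intro t _; ring
    rw [e4, e5, e1, e2, e3]
    ring
  rw [h2]
  apply div_nonneg _ (by norm_num)
  apply Finset.sum_nonneg
  intro s _
  apply Finset.sum_nonneg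
  intro t _
  apply mul_nonneg (mul_nonneg (pp_nonneg v J s) (pp_nonneg v J t))
  rw [hKe, hKe, hKe, hKe]
  have h3 : Real.sin θ * Real.cos θ * ((∑ e, b s e * b s e) - ∑ e, a s e * a s e)
      + Real.sin θ * Real.cos θ * ((∑ e, b t e * b t e) - ∑ e, a t e * a t e)
      - Real.sin θ * Real.cos θ * ((∑ e, b s e * b t e) - ∑ e, a s e * a t e)
      - Real.sin θ * Real.cos θ * ((∑ e, b t e * b s e) - ∑ e, a t e * a s e)
      = Real.sin θ * Real.cos θ * ((∑ e, (b s e - b t e) ^ 2) - ∑ e, (a s e - a t e) ^ 2) := by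
    have e1 : ∀ x : S → ι → ℝ, ∑ e, (x s e - x t e) ^ 2 = ∑ e, x s e * x s e
        + ∑ e, x t e * x t e - ∑ e, x s e * x t e - ∑ e, x t e * x s e := by
      intro x
      rw [← Finset.sum_add_distrib, ← Finset.sum_sub_distrib, ← Finset.sum_sub_distrib]
      apply Finset.sum_congr rfl
      intro e _; ring
    rw [e1 b, e1 a]
    ring
  rw [h3]
  exact mul_nonneg hθ (sub_nonneg.mpr (hinc s t))

/-- Comparison of free energies. -/
lemma free_le (a b : S → ι → ℝ) (horth : ∀ s t, ∑ e, a s e * b t e = 0)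
    (hinc : ∀ s t, ∑ e, (a s e - a t e) ^ 2 ≤ ∑ e, (b s e - b t e) ^ 2) :
    ∫ J, Real.log (part a J) ∂(gM ι) ≤ ∫ J, Real.log (part b J) ∂(gM ι) := by
  have hpi := Real.pi_pos
  have hmono : MonotoneOn (phi a b) (Set.Icc 0 (Real.pi / 2)) := by
    apply monotoneOn_of_deriv_nonneg (convex_Icc _ _)
    · exact fun θ _ => (phi_deriv a b θ).continuousAt.continuousWithinAt
    · exact fun θ _ => (phi_deriv a b θ).differentiableAt.differentiableWithinAt
    · intro θ hθ
      rw [interior_Icc] at hθ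
      rw [(phi_deriv a b θ).deriv]
      apply phi_deriv_nonneg a b horth hinc
      apply mul_nonneg
      · exact Real.sin_nonneg_of_nonneg_of_le_pi hθ.1.le (by linarith [hθ.2])
      · exact Real.cos_nonneg_of_neg_pi_div_two_le_of_le (by linarith [hθ.1]) hθ.2.le
  have h := hmono (Set.left_mem_Icc.mpr (by positivity)) (Set.right_mem_Icc.mpr (by positivity))
    (by positivity)
  have h0 : phi a b 0 = ∫ J, Real.log (part a J) ∂(gM ι) := by
    unfold phi
    have : ww a b 0 = a := by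
      funext s e; simp [ww]
    rw [this]
  have h1 : phi a b (Real.pi / 2) = ∫ J, Real.log (part b J) ∂(gM ι) := by
    unfold phi
    have : ww a b (Real.pi / 2) = b := by
      funext s e; simp [ww]
    rw [this]
  rw [h0, h1] at h
  exact h

omit [Fintype S] [Nonempty S] in
lemma zf_smul (r : ℝ) (a : S → ι → ℝ) (J : ι → ℝ) (s : S) :
    zf (fun s e => r * a s e) J s = r * zf a J s := by
  unfold zf
  rw [Finset.mul_sum]
  apply Finset.sum_congr rfl
  intro e _; ring

lemma integrable_sup_zf (a : S → ι → ℝ) : Integrable (fun J => ⨆ s, zf a J s) (gM ι) := by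
  have h1 : Integrable (bnd a a) (gM ι) := integrable_bnd a a
  refine h1.mono' ?_ (Filter.Eventually.of_forall fun J => ?_)
  · apply Measurable.aestronglyMeasurable
    exact Measurable.iSup fun s => (continuous_zf a s).measurable
  · obtain ⟨s0⟩ := (inferInstance : Nonempty S)
    have hb : BddAbove (Set.range fun s => zf a J s) := (Set.finite_range _).bddAbove
    have h2 : ∀ s, |zf a J s| ≤ bnd a a J := fun s => abs_zf_le a a a (fun s e => by
      have := abs_nonneg (a s e); linarith) J s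
    rw [Real.norm_eq_abs, abs_le]
    constructor
    · have h3 : zf a J s0 ≤ ⨆ s, zf a J s := le_ciSup hb s0
      have h4 := (abs_le.mp (h2 s0)).1
      linarith
    · exact ciSup_le fun s => (le_abs_self _).trans (h2 s)

lemma sup_le_log (r : ℝ) (hr : 0 < r) (a : S → ι → ℝ) (J : ι → ℝ) :
    r * (⨆ s, zf a J s) ≤ Real.log (part (fun s e => r * a s e) J) := by
  rw [← le_div_iff₀' hr]
  apply ciSup_le
  intro s
  rw [le_div_iff₀' hr, ← zf_smul, Real.le_log_iff_exp_le (part_pos _ _)]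
  exact Finset.single_le_sum (f := fun s => Real.exp (zf (fun s e => r * a s e) J s))
    (fun _ _ => (Real.exp_pos _).le) (Finset.mem_univ s)

lemma log_le_sup (r : ℝ) (hr : 0 < r) (a : S → ι → ℝ) (J : ι → ℝ) :
    Real.log (part (fun s e => r * a s e) J)
      ≤ r * (⨆ s, zf a J s) + Real.log (Fintype.card S) := by
  have hc : (0 : ℝ) < Fintype.card S := by exact_mod_cast Fintype.card_pos
  have hb : BddAbove (Set.range fun s => zf a J s) := (Set.finite_range _).bddAbove
  have h1 : part (fun s e => r * a s e) J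
      ≤ Fintype.card S * Real.exp (r * (⨆ s, zf a J s)) := by
    unfold part
    have h2 : ∀ s, Real.exp (zf (fun s e => r * a s e) J s)
        ≤ Real.exp (r * (⨆ s, zf a J s)) := by
      intro s
      rw [zf_smul]
      exact Real.exp_le_exp.mpr (mul_le_mul_of_nonneg_left (le_ciSup hb s) hr.le)
    refine (Finset.sum_le_sum fun s _ => h2 s).trans ?_
    simp
  have h2 := Real.log_le_log (part_pos _ _) h1
  rw [Real.log_mul hc.ne' (Real.exp_pos _).ne', Real.log_exp] at h2
  linarith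

/-- Comparison of expected maxima, on one Gaussian space. -/
theorem sup_le_same (a b : S → ι → ℝ) (horth : ∀ s t, ∑ e, a s e * b t e = 0)
    (hinc : ∀ s t, ∑ e, (a s e - a t e) ^ 2 ≤ ∑ e, (b s e - b t e) ^ 2) :
    ∫ J, ⨆ s, zf a J s ∂(gM ι) ≤ ∫ J, ⨆ s, zf b J s ∂(gM ι) := by
  set A := ∫ J, ⨆ s, zf a J s ∂(gM ι) with hA
  set B := ∫ J, ⨆ s, zf b J s ∂(gM ι) with hB
  have hc : (1 : ℝ) ≤ Fintype.card S := by exact_mod_cast Fintype.card_pos
  have hlc : 0 ≤ Real.log (Fintype.card S) := Real.log_nonneg hc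
  have key : ∀ r : ℝ, 0 < r → r * A ≤ r * B + Real.log (Fintype.card S) := by
    intro r hr
    have h1 : r * A ≤ ∫ J, Real.log (part (fun s e => r * a s e) J) ∂(gM ι) := by
      rw [hA, ← integral_const_mul]
      exact integral_mono ((integrable_sup_zf a).const_mul r) (integrable_log_part _)
        fun J => sup_le_log r hr a J
    have h2 : ∫ J, Real.log (part (fun s e => r * b s e) J) ∂(gM ι)
        ≤ r * B + Real.log (Fintype.card S) := by
      have h3 : ∫ J, (r * (⨆ s, zf b J s) + Real.log (Fintype.card S)) ∂(gM ι)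
          = r * B + Real.log (Fintype.card S) := by
        rw [integral_add ((integrable_sup_zf b).const_mul r) (integrable_const _),
          integral_const_mul, ← hB]
        simp
      rw [← h3]
      exact integral_mono (integrable_log_part _)
        (((integrable_sup_zf b).const_mul r).add (integrable_const _))
        fun J => log_le_sup r hr b J
    have h4 := free_le (fun s e => r * a s e) (fun s e => r * b s e)
      (fun s t => by
        have : ∑ e, r * a s e * (r * b t e) = r ^ 2 * ∑ e, a s e * b t e := by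
          rw [Finset.mul_sum]
          apply Finset.sum_congr rfl
          intro e _; ring
        rw [this, horth, mul_zero])
      (fun s t => by
        have h5 : ∀ x : S → ι → ℝ, ∑ e, (r * x s e - r * x t e) ^ 2
            = r ^ 2 * ∑ e, (x s e - x t e) ^ 2 := by
          intro x
          rw [Finset.mul_sum]
          apply Finset.sum_congr rfl
          intro e _; ring
        rw [h5 a, h5 b]
        exact mul_le_mul_of_nonneg_left (hinc s t) (sq_nonneg r))
    linarith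
  by_contra hlt
  push Not at hlt
  have hd : 0 < A - B := sub_pos.mpr hlt
  have := key ((Real.log (Fintype.card S) + 1) / (A - B)) (by positivity)
  have h2 : (Real.log (Fintype.card S) + 1) / (A - B) * A
      - (Real.log (Fintype.card S) + 1) / (A - B) * B = Real.log (Fintype.card S) + 1 := by
    rw [← mul_sub, div_mul_cancel₀ _ hd.ne']
  linarith

end Vale.Agent.P367.GT
end

section

/-! P367 block B: the bounded Lie-Trotter product formula. -/

namespace Vale.Agent.P367.B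

open Filter Topology NormedSpace

section powers

variable {𝔸 : Type*} [NormedRing 𝔸]

/-- telescoping estimate for powers -/
theorem norm_pow_sub_pow_le' {a b : 𝔸} {M : ℝ} (hM : 1 ≤ M) (ha : ‖a‖ ≤ M) (hb : ‖b‖ ≤ M) (m : ℕ)
    (h1 : ‖(1 : 𝔸)‖ ≤ 1) : ‖a ^ m - b ^ m‖ ≤ m * M ^ m * ‖a - b‖ := by
  have hpa : ∀ k : ℕ, ‖a ^ k‖ ≤ M ^ k := by
    intro k
    induction k with
    | zero => simpa using h1
    | succ k ih =>
      rw [pow_succ, pow_succ]
      refine (norm_mul_le _ _).trans ?_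
      gcongr
  induction m with
  | zero => simp
  | succ m ih =>
    have e : a ^ (m + 1) - b ^ (m + 1) = a ^ m * (a - b) + (a ^ m - b ^ m) * b := by
      rw [pow_succ, pow_succ]; noncomm_ring
    rw [e]
    have h2 : ‖a ^ m * (a - b)‖ ≤ M ^ m * ‖a - b‖ := by
      refine (norm_mul_le _ _).trans ?_
      gcongr
      exact hpa m
    have h3 : ‖(a ^ m - b ^ m) * b‖ ≤ (m * M ^ m * ‖a - b‖) * M := by
      refine (norm_mul_le _ _).trans ?_
      gcongr
    have hM0 : 0 ≤ M := zero_le_one.trans hM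
    calc ‖a ^ m * (a - b) + (a ^ m - b ^ m) * b‖
        ≤ M ^ m * ‖a - b‖ + (m * M ^ m * ‖a - b‖) * M := (norm_add_le _ _).trans (add_le_add h2 h3)
      _ ≤ (M ^ m * M) * ‖a - b‖ + (m * M ^ m * ‖a - b‖) * M := by
          gcongr
          exact le_mul_of_one_le_right (by positivity) hM
      _ = ((m + 1 : ℕ) : ℝ) * M ^ (m + 1) * ‖a - b‖ := by
          push_cast
          ring

end powers

variable {𝔸 : Type*} [NormedRing 𝔸] [NormedAlgebra ℂ 𝔸] [CompleteSpace 𝔸]

omit [CompleteSpace 𝔸] in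
/-- norm of the exponential -/
theorem norm_exp_le' (h1 : ‖(1 : 𝔸)‖ ≤ 1) (x : 𝔸) : ‖exp x‖ ≤ Real.exp ‖x‖ := by
  have h2 : ∀ n : ℕ, ‖((n.factorial : ℂ)⁻¹) • x ^ n‖ ≤ ‖x‖ ^ n / n.factorial := by
    intro n
    rw [norm_smul, norm_inv, Complex.norm_natCast, div_eq_inv_mul]
    gcongr
    rcases Nat.eq_zero_or_pos n with hn | hn
    · subst hn; simpa using h1
    · exact norm_pow_le' x hn
  have hs : Summable fun n : ℕ => ‖x‖ ^ n / (n.factorial : ℝ) := Real.summable_pow_div_factorial _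
  rw [exp_eq_tsum ℂ, Real.exp_eq_exp_ℝ, exp_eq_tsum_div]
  exact tsum_of_norm_bounded hs.hasSum h2

/-- first order remainder of the exponential -/
theorem norm_exp_sub_one_sub_le (_h1 : ‖(1 : 𝔸)‖ ≤ 1) (x : 𝔸) :
    ‖exp x - 1 - x‖ ≤ ‖x‖ ^ 2 * Real.exp ‖x‖ := by
  have h2 : ∀ n : ℕ, ‖(((n + 2).factorial : ℂ)⁻¹) • x ^ (n + 2)‖ ≤
      ‖x‖ ^ 2 * (‖x‖ ^ n / n.factorial) := by
    intro n
    rw [norm_smul, norm_inv, Complex.norm_natCast]
    have h3 : ‖x ^ (n + 2)‖ ≤ ‖x‖ ^ (n + 2) := norm_pow_le' x (by omega)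
    have h4 : ((n + 2).factorial : ℝ)⁻¹ ≤ (n.factorial : ℝ)⁻¹ := by
      apply inv_anti₀ (by positivity)
      exact_mod_cast Nat.factorial_le (by omega)
    calc ((n + 2).factorial : ℝ)⁻¹ * ‖x ^ (n + 2)‖ ≤ (n.factorial : ℝ)⁻¹ * ‖x‖ ^ (n + 2) := by
          gcongr
      _ = _ := by rw [pow_add]; ring
  have hs : Summable fun n : ℕ => ‖x‖ ^ n / (n.factorial : ℝ) := Real.summable_pow_div_factorial _
  have hx : Summable fun n : ℕ => ((n.factorial : ℂ)⁻¹) • x ^ n := expSeries_summable' (𝕂 := ℂ) x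
  have e : exp x - 1 - x = ∑' n : ℕ, (((n + 2).factorial : ℂ)⁻¹) • x ^ (n + 2) := by
    rw [exp_eq_tsum ℂ]
    have h5 := hx.sum_add_tsum_nat_add 2
    simp only [Finset.sum_range_succ, Finset.range_zero, Finset.sum_empty, zero_add,
      Nat.factorial_zero, Nat.cast_one, inv_one, pow_zero, one_smul, Nat.factorial_one,
      pow_one] at h5
    show (∑' n : ℕ, ((n.factorial : ℂ)⁻¹) • x ^ n) - 1 - x = _
    rw [← h5]
    abel
  rw [e]
  have h6 : HasSum (fun n : ℕ => ‖x‖ ^ 2 * (‖x‖ ^ n / (n.factorial : ℝ))) (‖x‖ ^ 2 * Real.exp ‖x‖) := by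
    have h7 := hs.hasSum.mul_left (‖x‖ ^ 2)
    rw [Real.exp_eq_exp_ℝ, exp_eq_tsum_div]
    exact h7
  exact tsum_of_norm_bounded h6 h2

/-- a product formula with second order defect -/
theorem trotter_of_defect (h1 : ‖(1 : 𝔸)‖ ≤ 1) {f : ℕ → 𝔸} {C : 𝔸} {c K : ℝ} (hc : 0 ≤ c)
    (hC : ‖C‖ ≤ c) (hf : ∀ m : ℕ, 1 ≤ m → ‖f m‖ ≤ Real.exp (c / m))
    (hd : ∀ m : ℕ, 1 ≤ m → ‖f m - exp (((m : ℂ)⁻¹) • C)‖ ≤ K / (m : ℝ) ^ 2) :
    Tendsto (fun m : ℕ => f m ^ m) atTop (𝓝 (exp C)) := by
  rw [tendsto_iff_norm_sub_tendsto_zero]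
  have hlim : Tendsto (fun m : ℕ => Real.exp c * K * (m : ℝ)⁻¹) atTop (𝓝 0) := by
    have := (tendsto_inv_atTop_nhds_zero_nat (𝕜 := ℝ)).const_mul (Real.exp c * K)
    simpa using this
  refine squeeze_zero' (Eventually.of_forall fun _ => norm_nonneg _) ?_ hlim
  filter_upwards [eventually_ge_atTop 1] with m hm
  have hm0 : (m : ℝ) ≠ 0 := by positivity
  have hmc : (m : ℂ) ≠ 0 := by exact_mod_cast (by omega : m ≠ 0)
  have e1 : exp C = exp (((m : ℂ)⁻¹) • C) ^ m := by
    let _ : NormedAlgebra ℚ 𝔸 := NormedAlgebra.restrictScalars ℚ ℂ 𝔸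
    rw [← exp_nsmul, ← Nat.cast_smul_eq_nsmul ℂ, smul_smul, mul_inv_cancel₀ hmc, one_smul]
  have hb : ‖exp (((m : ℂ)⁻¹) • C)‖ ≤ Real.exp (c / m) := by
    refine (norm_exp_le' h1 _).trans ?_
    rw [norm_smul, norm_inv, Complex.norm_natCast]
    apply Real.exp_le_exp.2
    rw [div_eq_inv_mul]
    gcongr
  have hM : 1 ≤ Real.exp (c / m) := Real.one_le_exp (by positivity)
  rw [e1]
  refine (norm_pow_sub_pow_le' hM (hf m hm) hb m h1).trans ?_
  have e2 : Real.exp (c / m) ^ m = Real.exp c := by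
    rw [← Real.exp_nat_mul]
    congr 1
    field_simp
  rw [e2]
  calc (m : ℝ) * Real.exp c * ‖f m - exp (((m : ℂ)⁻¹) • C)‖
      ≤ (m : ℝ) * Real.exp c * (K / (m : ℝ) ^ 2) := by
        gcongr
        exact hd m hm
    _ = Real.exp c * K * (m : ℝ)⁻¹ := by
        field_simp

/-- products of exponentials, first order expansion -/
theorem prod_exp_expand (h1 : ‖(1 : 𝔸)‖ ≤ 1) (l : List 𝔸) :
    ∃ K : ℝ, 0 ≤ K ∧ ∀ t : ℝ, 0 ≤ t → t ≤ 1 →
      ‖(l.map fun A => exp ((t : ℂ) • A)).prod - 1 - (t : ℂ) • l.sum‖ ≤ K * t ^ 2 ∧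
      ‖(l.map fun A => exp ((t : ℂ) • A)).prod‖ ≤ Real.exp (t * (l.map fun A => ‖A‖).sum) := by
  induction l with
  | nil =>
    refine ⟨0, le_rfl, fun t _ _ => ?_⟩
    simp [h1]
  | cons A l ih =>
    obtain ⟨K, hK, ih⟩ := ih
    refine ⟨‖A‖ ^ 2 * Real.exp ‖A‖ * Real.exp ((l.map fun A => ‖A‖).sum) + K +
      ‖A‖ * (‖l.sum‖ + K), ?_, fun t ht0 ht1 => ?_⟩
    · positivity
    obtain ⟨h2, h3⟩ := ih t ht0 ht1
    set P := (l.map fun A => exp ((t : ℂ) • A)).prod with hP
    have htn : ‖(t : ℂ) • A‖ = t * ‖A‖ := by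
      rw [norm_smul, Complex.norm_real, Real.norm_eq_abs, abs_of_nonneg ht0]
    have hSn : 0 ≤ (l.map fun A => ‖A‖).sum := List.sum_nonneg (by
      intro x hx
      obtain ⟨a, _, rfl⟩ := List.mem_map.1 hx
      exact norm_nonneg _)
    have hE := norm_exp_sub_one_sub_le h1 ((t : ℂ) • A)
    rw [htn] at hE
    have hP1 : ‖P‖ ≤ Real.exp ((l.map fun A => ‖A‖).sum) := by
      refine h3.trans (Real.exp_le_exp.2 ?_)
      nlinarith
    have hPm : ‖P - 1‖ ≤ t * (‖l.sum‖ + K) := by
      have e : P - 1 = (P - 1 - (t : ℂ) • l.sum) + (t : ℂ) • l.sum := by abel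
      rw [e]
      refine (norm_add_le _ _).trans ?_
      rw [norm_smul, Complex.norm_real, Real.norm_eq_abs, abs_of_nonneg ht0]
      nlinarith [norm_nonneg l.sum, mul_nonneg hK (sq_nonneg t), mul_le_mul_of_nonneg_left ht1 (mul_nonneg hK ht0)]
    constructor
    · rw [List.map_cons, List.prod_cons, List.sum_cons, ← hP]
      have e : exp ((t : ℂ) • A) * P - 1 - (t : ℂ) • (A + l.sum)
          = (exp ((t : ℂ) • A) - 1 - (t : ℂ) • A) * P + (P - 1 - (t : ℂ) • l.sum)
            + ((t : ℂ) • A) * (P - 1) := by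
        rw [smul_add]
        noncomm_ring
      rw [e]
      have n1 : ‖(exp ((t : ℂ) • A) - 1 - (t : ℂ) • A) * P‖ ≤
          ‖A‖ ^ 2 * Real.exp ‖A‖ * Real.exp ((l.map fun A => ‖A‖).sum) * t ^ 2 := by
        refine (norm_mul_le _ _).trans ?_
        have h4 : (t * ‖A‖) ^ 2 * Real.exp (t * ‖A‖) ≤ ‖A‖ ^ 2 * Real.exp ‖A‖ * t ^ 2 := by
          have : Real.exp (t * ‖A‖) ≤ Real.exp ‖A‖ := Real.exp_le_exp.2 (by nlinarith [norm_nonneg A])
          calc (t * ‖A‖) ^ 2 * Real.exp (t * ‖A‖) ≤ (t * ‖A‖) ^ 2 * Real.exp ‖A‖ := by gcongr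
            _ = _ := by ring
        calc _ ≤ (‖A‖ ^ 2 * Real.exp ‖A‖ * t ^ 2) * Real.exp ((l.map fun A => ‖A‖).sum) :=
              mul_le_mul (hE.trans h4) hP1 (norm_nonneg _) (by positivity)
          _ = _ := by ring
      have n2 : ‖((t : ℂ) • A) * (P - 1)‖ ≤ ‖A‖ * (‖l.sum‖ + K) * t ^ 2 := by
        refine (norm_mul_le _ _).trans ?_
        rw [htn]
        calc t * ‖A‖ * ‖P - 1‖ ≤ t * ‖A‖ * (t * (‖l.sum‖ + K)) := by gcongr
          _ = _ := by ring
      calc _ ≤ ‖(exp ((t : ℂ) • A) - 1 - (t : ℂ) • A) * P‖ + ‖P - 1 - (t : ℂ) • l.sum‖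
            + ‖((t : ℂ) • A) * (P - 1)‖ := norm_add₃_le
        _ ≤ _ := by linarith
    · rw [List.map_cons, List.prod_cons, List.map_cons, List.sum_cons, ← hP]
      refine (norm_mul_le _ _).trans ?_
      rw [mul_add, Real.exp_add]
      have h5 := norm_exp_le' h1 ((t : ℂ) • A)
      rw [htn] at h5
      exact mul_le_mul h5 h3 (norm_nonneg _) (Real.exp_pos _).le

omit [NormedAlgebra ℂ 𝔸] [CompleteSpace 𝔸] in
theorem norm_list_sum_le' (l : List 𝔸) : ‖l.sum‖ ≤ (l.map fun A => ‖A‖).sum := by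
  induction l with
  | nil => simp
  | cons A l ih =>
    rw [List.sum_cons, List.map_cons, List.sum_cons]
    exact (norm_add_le _ _).trans (add_le_add le_rfl ih)

/-- Lie-Trotter product formula for a finite product -/
theorem lie_trotter_list (h1 : ‖(1 : 𝔸)‖ ≤ 1) (l : List 𝔸) :
    Tendsto (fun m : ℕ => ((l.map fun A => exp (((m : ℂ)⁻¹) • A)).prod) ^ m) atTop
      (𝓝 (exp l.sum)) := by
  obtain ⟨K, hK, h⟩ := prod_exp_expand h1 l
  have hS : ‖l.sum‖ ≤ (l.map fun A => ‖A‖).sum := norm_list_sum_le' l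
  have hSn : 0 ≤ (l.map fun A => ‖A‖).sum := (norm_nonneg _).trans hS
  refine trotter_of_defect h1 (c := (l.map fun A => ‖A‖).sum)
    (K := K + ‖l.sum‖ ^ 2 * Real.exp ‖l.sum‖) hSn hS ?_ ?_
  · intro m hm
    have hm1 : ((m : ℝ)⁻¹) ≤ 1 := inv_le_one_of_one_le₀ (by exact_mod_cast hm)
    have h2 := (h ((m : ℝ)⁻¹) (by positivity) hm1).2
    rw [Complex.ofReal_inv, Complex.ofReal_natCast] at h2
    rwa [div_eq_inv_mul]
  · intro m hm
    have hm1 : ((m : ℝ)⁻¹) ≤ 1 := inv_le_one_of_one_le₀ (by exact_mod_cast hm)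
    have h2 := (h ((m : ℝ)⁻¹) (by positivity) hm1).1
    rw [Complex.ofReal_inv, Complex.ofReal_natCast] at h2
    have h3 := norm_exp_sub_one_sub_le h1 (((m : ℂ)⁻¹) • l.sum)
    have h4 : ‖((m : ℂ)⁻¹) • l.sum‖ = (m : ℝ)⁻¹ * ‖l.sum‖ := by
      rw [norm_smul, norm_inv, Complex.norm_natCast]
    rw [h4] at h3
    have h5 : Real.exp ((m : ℝ)⁻¹ * ‖l.sum‖) ≤ Real.exp ‖l.sum‖ :=
      Real.exp_le_exp.2 (by nlinarith [norm_nonneg l.sum])
    have e : (l.map fun A => exp (((m : ℂ)⁻¹) • A)).prod - exp (((m : ℂ)⁻¹) • l.sum)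
        = ((l.map fun A => exp (((m : ℂ)⁻¹) • A)).prod - 1 - ((m : ℂ)⁻¹) • l.sum)
          - (exp (((m : ℂ)⁻¹) • l.sum) - 1 - ((m : ℂ)⁻¹) • l.sum) := by abel
    rw [e]
    refine (norm_sub_le _ _).trans ?_
    have h6 : ((m : ℝ)⁻¹ * ‖l.sum‖) ^ 2 * Real.exp ((m : ℝ)⁻¹ * ‖l.sum‖)
        ≤ ‖l.sum‖ ^ 2 * Real.exp ‖l.sum‖ * ((m : ℝ)⁻¹) ^ 2 := by
      calc ((m : ℝ)⁻¹ * ‖l.sum‖) ^ 2 * Real.exp ((m : ℝ)⁻¹ * ‖l.sum‖)
          ≤ ((m : ℝ)⁻¹ * ‖l.sum‖) ^ 2 * Real.exp ‖l.sum‖ := by gcongr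
        _ = _ := by ring
    have e2 : (K + ‖l.sum‖ ^ 2 * Real.exp ‖l.sum‖) / (m : ℝ) ^ 2
        = K * ((m : ℝ)⁻¹) ^ 2 + ‖l.sum‖ ^ 2 * Real.exp ‖l.sum‖ * ((m : ℝ)⁻¹) ^ 2 := by
      rw [div_eq_mul_inv, inv_pow]; ring
    rw [e2]
    linarith

/-- Lie-Trotter product formula for two bounded operators -/
theorem lie_trotter (h1 : ‖(1 : 𝔸)‖ ≤ 1) (A B : 𝔸) :
    Tendsto (fun m : ℕ => (exp (((m : ℂ)⁻¹) • A) * exp (((m : ℂ)⁻¹) • B)) ^ m) atTop
      (𝓝 (exp (A + B))) := by
  have h := lie_trotter_list h1 [A, B]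
  simpa using h

end Vale.Agent.P367.B
end

section

open MeasureTheory ProbabilityTheory Filter Topology Set

namespace Vale.Agent.P367.Cl

/-- lower Riemann sums of a product -/
theorem riemann_low {v : ℝ} (hv : 0 ≤ v) {φ χ : ℝ → ℝ} (hφ : ContinuousOn φ (Icc 0 v))
    (hχ : ContinuousOn χ (Icc 0 v)) (hφ0 : ∀ t ∈ Icc 0 v, 0 ≤ φ t ∧ φ t ≤ 1)
    (hχ0 : ∀ t ∈ Icc 0 v, 0 ≤ χ t ∧ χ t ≤ 1) {ε : ℝ} (hε : 0 < ε) :
    ∀ᶠ J : ℕ in atTop, (∫ t in (0 : ℝ)..v, φ t * χ t) - ε ≤
      ∑ j ∈ Finset.range (J - 1), v / J * (φ (j * (v / J)) * χ ((j + 1 : ℕ) * (v / J))) := by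
  obtain ⟨η, hη, hηv⟩ : ∃ η : ℝ, 0 < η ∧ 2 * η * v ≤ ε / 2 := by
    refine ⟨ε / (4 * (v + 1)), by positivity, ?_⟩
    rw [mul_assoc, div_mul_eq_mul_div, mul_div_assoc', div_le_div_iff₀ (by positivity) (by norm_num)]
    nlinarith
  have uφ := isCompact_Icc.uniformContinuousOn_of_continuous hφ
  have uχ := isCompact_Icc.uniformContinuousOn_of_continuous hχ
  rw [Metric.uniformContinuousOn_iff] at uφ uχ
  obtain ⟨d1, hd1, k1⟩ := uφ η hη
  obtain ⟨d2, hd2, k2⟩ := uχ η hη
  have t0 : Tendsto (fun J : ℕ => v / (J : ℝ)) atTop (𝓝 0) :=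
    tendsto_const_nhds.div_atTop tendsto_natCast_atTop_atTop
  have e1 := t0.eventually (gt_mem_nhds hd1)
  have e2 := t0.eventually (gt_mem_nhds hd2)
  have e3 := t0.eventually (gt_mem_nhds (show (0 : ℝ) < ε / 2 by positivity))
  filter_upwards [e1, e2, e3, eventually_ge_atTop 1] with J h1 h2 h3 hJ
  have hJ0 : (0 : ℝ) < J := by exact_mod_cast hJ
  set h : ℝ := v / J with hh
  have hh0 : 0 ≤ h := div_nonneg hv hJ0.le
  have hJh : (J : ℝ) * h = v := by rw [hh]; field_simp
  have hmem : ∀ j : ℕ, j ≤ J → (j : ℝ) * h ∈ Icc 0 v := by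
    intro j hj
    refine ⟨by positivity, ?_⟩
    rw [← hJh]
    exact mul_le_mul_of_nonneg_right (by exact_mod_cast hj) hh0
  have hc : ContinuousOn (fun t => φ t * χ t) (Icc 0 v) := hφ.mul hχ
  have hsub : ∀ j : ℕ, j < J → Icc ((j : ℝ) * h) (((j + 1 : ℕ) : ℝ) * h) ⊆ Icc 0 v := by
    intro j hj
    exact Icc_subset_Icc (hmem j hj.le).1 (hmem (j + 1) hj).2
  have hle : ∀ j : ℕ, (j : ℝ) * h ≤ ((j + 1 : ℕ) : ℝ) * h := by
    intro j
    refine mul_le_mul_of_nonneg_right ?_ hh0
    push_cast; linarith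
  have hint : ∀ j < J, IntervalIntegrable (fun t => φ t * χ t) volume ((j : ℝ) * h)
      (((j + 1 : ℕ) : ℝ) * h) := by
    intro j hj
    refine ContinuousOn.intervalIntegrable ?_
    rw [uIcc_of_le (hle j)]
    exact hc.mono (hsub j hj)
  have hsum := intervalIntegral.sum_integral_adjacent_intervals
    (a := fun j : ℕ => (j : ℝ) * h) (n := J) (f := fun t => φ t * χ t) (μ := volume) hint
  simp only [Nat.cast_zero, zero_mul, hJh] at hsum
  rw [← hsum]
  have hterm : ∀ j ∈ Finset.range J, (∫ t in ((j : ℝ) * h)..(((j + 1 : ℕ) : ℝ) * h), φ t * χ t) ≤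
      h * (φ (j * h) * χ ((j + 1 : ℕ) * h)) + h * (2 * η) := by
    intro j hj
    have hj' : j < J := Finset.mem_range.1 hj
    have hb : ∀ t ∈ Icc ((j : ℝ) * h) (((j + 1 : ℕ) : ℝ) * h),
        φ t * χ t ≤ φ (j * h) * χ ((j + 1 : ℕ) * h) + 2 * η := by
      intro t ht
      have ht' := hsub j hj' ht
      have hdt : ((j + 1 : ℕ) : ℝ) * h - (j : ℝ) * h = h := by push_cast; ring
      have a1 : φ t ≤ φ (j * h) + η := by
        have := k1 t ht' (j * h) (hmem j hj'.le) (by
          rw [Real.dist_eq, abs_of_nonneg (by linarith [ht.1])]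
          linarith [ht.2])
        rw [Real.dist_eq] at this
        linarith [(abs_lt.1 this).2]
      have a2 : χ t ≤ χ ((j + 1 : ℕ) * h) + η := by
        have := k2 t ht' ((j + 1 : ℕ) * h) (hmem (j + 1) hj') (by
          rw [Real.dist_eq, abs_sub_comm, abs_of_nonneg (by linarith [ht.2])]
          linarith [ht.1])
        rw [Real.dist_eq] at this
        linarith [(abs_lt.1 this).2]
      have b1 := hφ0 t ht'
      have b2 := hχ0 t ht'
      have b3 := hφ0 _ (hmem j hj'.le)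
      have b4 := hχ0 _ (hmem (j + 1) hj')
      calc φ t * χ t ≤ (φ (j * h) + η) * χ t := mul_le_mul_of_nonneg_right a1 b2.1
        _ = φ (j * h) * χ t + η * χ t := by ring
        _ ≤ φ (j * h) * (χ ((j + 1 : ℕ) * h) + η) + η * 1 := by
            refine add_le_add (mul_le_mul_of_nonneg_left a2 b3.1)
              (mul_le_mul_of_nonneg_left b2.2 hη.le)
        _ ≤ φ (j * h) * χ ((j + 1 : ℕ) * h) + 2 * η := by nlinarith [b3.2]
    have := intervalIntegral.integral_mono_on (hle j) (hint j hj')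
      (intervalIntegrable_const (c := φ (j * h) * χ ((j + 1 : ℕ) * h) + 2 * η)) hb
    rw [intervalIntegral.integral_const, smul_eq_mul] at this
    refine this.trans (le_of_eq ?_)
    push_cast; ring
  have h5 := Finset.sum_le_sum hterm
  rw [Finset.sum_add_distrib, Finset.sum_const, Finset.card_range, nsmul_eq_mul] at h5
  have h6 : (J : ℝ) * (h * (2 * η)) = 2 * η * v := by rw [← hJh]; ring
  rw [h6] at h5
  obtain ⟨K, rfl⟩ : ∃ K, J = K + 1 := ⟨J - 1, by omega⟩
  rw [Finset.sum_range_succ (fun j => h * (φ (j * h) * χ ((j + 1 : ℕ) * h)))] at h5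
  have h7 : h * (φ (K * h) * χ ((K + 1 : ℕ) * h)) ≤ h := by
    have b3 := hφ0 _ (hmem K (by omega))
    have b4 := hχ0 _ (hmem (K + 1) le_rfl)
    have : φ (K * h) * χ ((K + 1 : ℕ) * h) ≤ 1 := mul_le_one₀ b3.2 b4.1 b4.2
    nlinarith
  simp only [Nat.add_sub_cancel]
  linarith

end Vale.Agent.P367.Cl
end

section

/-!
# P367, classical half: the value

`ψ = x G' - G` is bounded and the derivative in the time of its average is `E G'' + (g / 2) E G'²`.
-/

open MeasureTheory ProbabilityTheory Filter Topology Set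

namespace Vale.Agent.P367.Cl

open Vale.Agent.P157.Par
open Vale.Agent.P146.Gap
open Vale.Agent.P146.Pw2

/-! ### Functions close to the absolute value -/

theorem fval_lc (x : ℝ) : |lc x - (|x|)| ≤ Real.log 2 := by
  have h0 : 0 ≤ |x| := abs_nonneg x
  have h1 : Real.cosh x = (Real.exp |x| + Real.exp (-|x|)) / 2 := by
    rw [← Real.cosh_abs, Real.cosh_eq]
  have h2 : 0 < Real.exp (-|x|) := Real.exp_pos _
  have h3 : Real.exp (-|x|) ≤ Real.exp |x| := Real.exp_le_exp.2 (by linarith)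
  have h4 : Real.exp |x| / 2 ≤ Real.cosh x := by rw [h1]; linarith
  have h5 : Real.cosh x ≤ Real.exp |x| := by rw [h1]; linarith
  have h6 : |x| - Real.log 2 ≤ lc x := by
    have := Real.log_le_log (by positivity) h4
    rwa [Real.log_div (Real.exp_pos _).ne' two_ne_zero, Real.log_exp] at this
  have h7 : lc x ≤ |x| := by
    have := Real.log_le_log (Real.cosh_pos x) h5
    rwa [Real.log_exp] at this
  have h8 : 0 ≤ Real.log 2 := Real.log_nonneg (by norm_num)
  rw [abs_le]
  constructor <;> linarith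

theorem fval_step {C D g v : ℝ} {F : ℝ → ℝ} (h : Adm C F) (hg : 0 < g) (hg1 : g ≤ 1)
    (hv : 0 ≤ v) (hD : ∀ x, |F x - (|x|)| ≤ D) (x : ℝ) : |gstep g v F x - (|x|)| ≤ D + v / 2 := by
  have h1 := gstep_var_lip h hg hg1 hv le_rfl x
  rw [gstep_zero hg.ne', sub_zero, abs_of_nonneg hv] at h1
  have h2 := hD x
  have h3 := abs_sub_le (gstep g v F x) (F x) |x|
  linarith

theorem fval_fl {n : ℕ} {m r : ℕ → ℝ} (hm : Exponents n m) (hr : Path n r) {l : ℕ} (hl : l ≤ n) :
    ∀ x, |Fl n m r l x - (|x|)| ≤ Real.log 2 + (r n - r l) / 2 := by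
  induction hl using Nat.decreasingInduction with
  | self => intro x; rw [fl_last, sub_self, zero_div, add_zero]; exact fval_lc x
  | of_succ l hl ih =>
    intro x
    obtain ⟨g0, g1⟩ := sp7_exp_of hm l hl
    obtain ⟨C, hC⟩ := fl_good hm hr (show l + 1 ≤ n from hl)
    have h1 := fval_step hC.adm g0 g1 (sub_nonneg.2 (hr.2 l hl)) ih x
    rw [← fl_succ hl] at h1
    linarith

section NR

variable {C D : ℝ} {G : ℝ → ℝ}

theorem fval_hd0 (h : Adm C G) (x : ℝ) : HasDerivAt G (iteratedDeriv 1 G x) x := by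
  have := adm_hasD h.smb.smooth 0 x
  rwa [iteratedDeriv_zero] at this

theorem fval_tan (h : Adm C G) (x : ℝ) : -G 0 ≤ x * iteratedDeriv 1 G x - G x := by
  set φ : ℝ → ℝ := fun t => t * iteratedDeriv 1 G t - G t with hφ
  have hd : ∀ t, HasDerivAt φ (t * iteratedDeriv 2 G t) t := by
    intro t
    refine (((hasDerivAt_id t).mul (adm_hasD h.smb.smooth 1 t)).sub (fval_hd0 h t)).congr_deriv ?_
    simp only [id]
    ring
  have hc : Continuous φ := continuous_iff_continuousAt.2 fun t => (hd t).continuousAt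
  have h0 : φ 0 = -G 0 := by simp [hφ]
  rw [← h0]
  show φ 0 ≤ φ x
  rcases lt_trichotomy x 0 with hx | hx | hx
  · obtain ⟨c, hc1, hc2⟩ := exists_hasDerivAt_eq_slope φ (fun t => t * iteratedDeriv 2 G t) hx
      hc.continuousOn (fun t _ => hd t)
    have h1 : c * iteratedDeriv 2 G c ≤ 0 := mul_nonpos_of_nonpos_of_nonneg hc1.2.le (h.pos c).le
    rw [hc2, div_le_iff₀ (by linarith)] at h1
    linarith
  · rw [hx]
  · obtain ⟨c, hc1, hc2⟩ := exists_hasDerivAt_eq_slope φ (fun t => t * iteratedDeriv 2 G t) hx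
      hc.continuousOn (fun t _ => hd t)
    have h1 : 0 ≤ c * iteratedDeriv 2 G c := mul_nonneg hc1.1.le (h.pos c).le
    rw [hc2, le_div_iff₀ (by linarith)] at h1
    linarith

theorem fval_d1 (h : Adm C G) (x : ℝ) : |iteratedDeriv 1 G x| ≤ 1 := (adm_ec h).abs_M x

theorem fval_xd1 (h : Adm C G) (x : ℝ) : |x * iteratedDeriv 1 G x| ≤ |x| := by
  rw [abs_mul]
  exact mul_le_of_le_one_right (abs_nonneg x) (fval_d1 h x)

theorem fval_zero (hD : ∀ x, |G x - (|x|)| ≤ D) : |G 0| ≤ D := by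
  have := hD 0
  rwa [abs_zero, sub_zero] at this

theorem fval_psi (h : Adm C G) (hD : ∀ x, |G x - (|x|)| ≤ D) (x : ℝ) :
    |x * iteratedDeriv 1 G x - G x| ≤ D := by
  have h1 := fval_tan h x
  have h2 := (abs_le.1 (fval_xd1 h x)).2
  have h3 := (abs_le.1 (hD x)).1
  have h4 := (abs_le.1 (fval_zero hD)).2
  rw [abs_le]
  constructor <;> linarith

theorem fval_x2 (h : Adm C G) (hD : ∀ x, |G x - (|x|)| ≤ D) (x : ℝ) :
    |x| * iteratedDeriv 2 G x ≤ 4 * D := by
  have h1 := fval_tan h x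
  have h2 : x * iteratedDeriv 1 G x ≤ |x| * |iteratedDeriv 1 G x| := by
    rw [← abs_mul]
    exact le_abs_self _
  have h3 := (abs_le.1 (hD x)).1
  have h4 := (abs_le.1 (fval_zero hD)).2
  have h5 := fval_d1 h x
  have h6 := h.le1 x
  have h7 : |x| * (1 - |iteratedDeriv 1 G x|) ≤ 2 * D := by linarith
  have h8 : 0 ≤ |iteratedDeriv 1 G x| := abs_nonneg _
  have h9 : iteratedDeriv 2 G x ≤ (1 - |iteratedDeriv 1 G x|) * (1 + |iteratedDeriv 1 G x|) := by
    have := sq_abs (iteratedDeriv 1 G x)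
    nlinarith
  have h10 : |x| * iteratedDeriv 2 G x ≤
      |x| * (1 - |iteratedDeriv 1 G x|) * (1 + |iteratedDeriv 1 G x|) := by
    rw [mul_assoc]
    exact mul_le_mul_of_nonneg_left h9 (abs_nonneg x)
  have h11 : 0 ≤ |x| * (1 - |iteratedDeriv 1 G x|) :=
    mul_nonneg (abs_nonneg x) (by linarith)
  nlinarith

theorem fval_x3 (h : Adm C G) (hC : 0 ≤ C) (hD : ∀ x, |G x - (|x|)| ≤ D) (x : ℝ) :
    |x * iteratedDeriv 3 G x| ≤ C * (4 * D) := by
  rw [abs_mul]
  have h1 := mul_le_mul_of_nonneg_left (h.r3 x) (abs_nonneg x)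
  have h2 := mul_le_mul_of_nonneg_left (fval_x2 h hD x) hC
  calc |x| * |iteratedDeriv 3 G x| ≤ |x| * (C * iteratedDeriv 2 G x) := h1
    _ = C * (|x| * iteratedDeriv 2 G x) := by ring
    _ ≤ _ := h2

end NR

/-! ### The bounded family -/

section FAM

variable {C D g v : ℝ} {F : ℝ → ℝ}

/-- the clipped time -/
noncomputable def fval_c (v τ : ℝ) : ℝ := max 0 (min τ v)

theorem fval_c_cont (v : ℝ) : Continuous (fval_c v) := by
  unfold fval_c
  fun_prop

theorem fval_c_mem (hv : 0 ≤ v) (τ : ℝ) : fval_c v τ ∈ Icc 0 v :=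
  ⟨le_max_left _ _, max_le hv (min_le_right _ _)⟩

theorem fval_c_eq {τ : ℝ} (h : τ ∈ Icc 0 v) : fval_c v τ = τ := by
  unfold fval_c
  rw [min_eq_left h.2, max_eq_right h.1]

/-- the jets at the clipped time -/
noncomputable def fval_f (g v : ℝ) (F : ℝ → ℝ) (j : ℕ) (τ x : ℝ) : ℝ :=
  first_f g v F j (fval_c v τ) x

theorem fval_f_cont (h : Adm C F) (hg : 0 < g) (j : ℕ) :
    Continuous (fun p : ℝ × ℝ => fval_f g v F j p.1 p.2) := by
  have h1 := first_f_cont h hg v j
  have h2 : Continuous fun p : ℝ × ℝ => (fval_c v p.1, p.2) :=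
    ((fval_c_cont v).comp continuous_fst).prodMk continuous_snd
  exact h1.comp h2

theorem fval_f_bc (h : Adm C F) (hg : 0 < g) (j : ℕ) : first_Bc (fval_f g v F (j + 1)) := by
  obtain ⟨-, B, hB⟩ := first_f_bc h hg v j
  exact ⟨fval_f_cont h hg (j + 1), B, fun s x => hB _ x⟩

theorem fval_f_x (h : Adm C F) (hg : 0 < g) (j : ℕ) (τ x : ℝ) :
    HasDerivAt (fval_f g v F j τ) (fval_f g v F (j + 1) τ x) x :=
  first_f_x h hg v j (fval_c v τ) x

/-- `x G' - G` -/
noncomputable def fval_p (g v : ℝ) (F : ℝ → ℝ) (τ x : ℝ) : ℝ :=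
  x * fval_f g v F 1 τ x - fval_f g v F 0 τ x

theorem fval_C_nonneg (h : Adm C F) : 0 ≤ C := by
  have h1 := h.r3 0
  have h2 := h.pos 0
  have h3 : 0 ≤ C * iteratedDeriv 2 F 0 := (abs_nonneg _).trans h1
  by_contra h4
  push Not at h4
  nlinarith

theorem fval_adm (h : Adm C F) (hg : 0 < g) (hg1 : g ≤ 1) (hv : 0 ≤ v)
    (hD : ∀ x, |F x - (|x|)| ≤ D) (τ : ℝ) :
    Adm (C * Real.exp (2 * g * v)) (gstep g (v - fval_c v τ) F) ∧
      ∀ x, |gstep g (v - fval_c v τ) F x - (|x|)| ≤ D + v / 2 := by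
  obtain ⟨h1, h2⟩ := fval_c_mem hv τ
  have h3 : 0 ≤ v - fval_c v τ := by linarith
  have h4 := h.step hg hg1 h3
  have hC := fval_C_nonneg h
  have h5 : C * Real.exp (2 * g * (v - fval_c v τ)) ≤ C * Real.exp (2 * g * v) := by
    refine mul_le_mul_of_nonneg_left (Real.exp_le_exp.2 ?_) hC
    nlinarith
  refine ⟨⟨h4.smb, h4.even, h4.pos, h4.le1, fun x => (h4.r3 x).trans ?_, h4.r4⟩, fun x => ?_⟩
  · exact mul_le_mul_of_nonneg_right h5 (h4.pos x).le
  · have := fval_step h hg hg1 h3 hD x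
    linarith

theorem fval_b0 (h : Adm C F) (hg : 0 < g) (hg1 : g ≤ 1) (hv : 0 ≤ v)
    (hD : ∀ x, |F x - (|x|)| ≤ D) : first_Bc (fval_p g v F) := by
  refine ⟨?_, D + v / 2, fun τ x => ?_⟩
  · exact (continuous_snd.mul (fval_f_cont h hg 1)).sub (fval_f_cont h hg 0)
  · obtain ⟨h1, h2⟩ := fval_adm h hg hg1 hv hD τ
    have h3 := fval_psi h1 h2 x
    have e : fval_f g v F 0 τ x = gstep g (v - fval_c v τ) F x := by
      unfold fval_f
      rw [first_f_zero]
    unfold fval_p
    rw [e]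
    exact h3

theorem fval_bx2 (h : Adm C F) (hg : 0 < g) (hg1 : g ≤ 1) (hv : 0 ≤ v)
    (hD : ∀ x, |F x - (|x|)| ≤ D) : first_Bc (fun τ x => x * fval_f g v F 2 τ x) := by
  refine ⟨?_, 4 * (D + v / 2), fun τ x => ?_⟩
  · exact continuous_snd.mul (fval_f_cont h hg 2)
  · obtain ⟨h1, h2⟩ := fval_adm h hg hg1 hv hD τ
    have h3 := fval_x2 h1 h2 x
    rw [abs_mul]
    have e : |fval_f g v F 2 τ x| = iteratedDeriv 2 (gstep g (v - fval_c v τ) F) x :=
      abs_of_pos (h1.pos x)
    rw [e]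
    exact h3

theorem fval_bx3 (h : Adm C F) (hg : 0 < g) (hg1 : g ≤ 1) (hv : 0 ≤ v)
    (hD : ∀ x, |F x - (|x|)| ≤ D) : first_Bc (fun τ x => x * fval_f g v F 3 τ x) := by
  refine ⟨?_, C * Real.exp (2 * g * v) * (4 * (D + v / 2)), fun τ x => ?_⟩
  · exact continuous_snd.mul (fval_f_cont h hg 3)
  · obtain ⟨h1, h2⟩ := fval_adm h hg hg1 hv hD τ
    exact fval_x3 h1 (fval_C_nonneg h1) h2 x

theorem fval_P (h : Adm C F) (hg : 0 < g) (hg1 : g ≤ 1) (hv : 0 ≤ v)
    (hD : ∀ x, |F x - (|x|)| ≤ D) :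
    first_P v (fval_p g v F) (fun τ x => x * fval_f g v F 2 τ x)
      (fun τ x => fval_f g v F 2 τ x + x * fval_f g v F 3 τ x)
      (fun τ x => -(x * (1 / 2 * fval_f g v F 3 τ x
        + g * (fval_f g v F 1 τ x * fval_f g v F 2 τ x)))
        + 1 / 2 * (fval_f g v F 2 τ x + g * fval_f g v F 1 τ x ^ 2)) := by
  have b1 := fval_f_bc (v := v) h hg 0
  have b2 := fval_f_bc (v := v) h hg 1
  have x2 := fval_bx2 h hg hg1 hv hD
  have x3 := fval_bx3 h hg hg1 hv hD
  refine ⟨fun s x => ?_, fun s x => ?_, fun s hs x => ?_, fval_b0 h hg hg1 hv hD, x2,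
    b2.add x3, ?_⟩
  · refine (((hasDerivAt_id x).mul (fval_f_x h hg 1 s x)).sub
      (fval_f_x h hg 0 s x)).congr_deriv ?_
    simp only [id]
    ring
  · refine ((hasDerivAt_id x).mul (fval_f_x h hg 2 s x)).congr_deriv ?_
    simp only [id]
    ring
  · have e : (fun s => fval_p g v F s x) =ᶠ[𝓝 s]
        fun s => x * first_f g v F 1 s x - first_f g v F 0 s x := by
      filter_upwards [Ioo_mem_nhds hs.1 hs.2] with t ht
      unfold fval_p fval_f
      rw [fval_c_eq (Ioo_subset_Icc_self ht)]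
    refine HasDerivAt.congr_of_eventuallyEq ?_ e
    have h1 := first_comp (fj_s1 h.smb hg (s := v - s) (by linarith [hs.2]) x)
    have h2 := first_comp (fj_s0 h.smb hg (s := v - s) (by linarith [hs.2]) x)
    refine ((h1.const_mul x).sub h2).congr_deriv ?_
    unfold fval_f
    rw [fval_c_eq (Ioo_subset_Icc_self hs)]
    unfold first_f
    ring
  · have := ((x3.smul (-(1 / 2))).add ((b1.mul x2).smul (-g))).add
      ((b2.add ((b1.mul b1).smul g)).smul (1 / 2))
    convert this using 3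
    ring

theorem fval_tlt_deriv (h : Adm C F) (hg : 0 < g) (hg1 : g ≤ 1) (hv : 0 ≤ v)
    (hD : ∀ x, |F x - (|x|)| ≤ D) (y : ℝ) {τ : ℝ} (hτ : τ ∈ Ioo 0 v) :
    HasDerivAt (fun τ => tlt g τ (gstep g (v - τ) F) (fval_p g v F τ) y)
      (tlt g τ (gstep g (v - τ) F) (fun x => first_f g v F 2 τ x
        + g / 2 * first_f g v F 1 τ x ^ 2) y) τ := by
  refine (blk_tlt_deriv h hg (fval_P h hg hg1 hv hD) y hτ).congr_deriv ?_
  congr 1
  funext x
  unfold fval_f
  rw [fval_c_eq (Ioo_subset_Icc_self hτ)]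
  ring

end FAM

/-! ### One block -/

section BLOCK

variable {n l : ℕ} {m r : ℕ → ℝ}

/-- `x F' - F` at the level `l` -/
noncomputable def fval_ps (n : ℕ) (m r : ℕ → ℝ) (l : ℕ) (x : ℝ) : ℝ :=
  x * iteratedDeriv 1 (Fl n m r l) x - Fl n m r l x

theorem fval_Bt_eq (hm : Exponents n m) (hr : Path n r) (hl : l < n) {t : ℝ}
    (ht : t ∈ Icc 0 (r (l + 1) - r l)) :
    Ee n m r l (tlt (m (l + 1)) t (Gb n m r l t)
      (fun x => iteratedDeriv 2 (Gb n m r l t) x
        + m (l + 1) / 2 * iteratedDeriv 1 (Gb n m r l t) x ^ 2)) =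
      Ab n m r l t + m (l + 1) / 2 * Rb n m r l t := by
  obtain ⟨g0, g1⟩ := sp7_exp_of hm l hl
  obtain ⟨C, hC⟩ := fl_good hm hr (show l + 1 ≤ n from hl)
  have hG := first_adm hC.adm g0 g1 ht
  have hE := adm_ec hG
  have c2 := nest_cb2 hG
  have c1 := sp7_cb_sq (nest_cb1 hG)
  have e1 : tlt (m (l + 1)) t (Gb n m r l t)
      (fun x => iteratedDeriv 2 (Gb n m r l t) x
        + m (l + 1) / 2 * iteratedDeriv 1 (Gb n m r l t) x ^ 2) =
      fun y => tlt (m (l + 1)) t (Gb n m r l t) (iteratedDeriv 2 (Gb n m r l t)) y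
        + m (l + 1) / 2 * tlt (m (l + 1)) t (Gb n m r l t)
          (fun x => iteratedDeriv 1 (Gb n m r l t) x ^ 2) y := by
    funext y
    obtain ⟨k2, K2, hK2⟩ := c2
    obtain ⟨k1, K1, hK1⟩ := nest_cb_smul (m (l + 1) / 2) c1
    rw [← tlt_const_mul]
    exact hE.sm.tlt_add k2 hK2 k1 hK1 _ _ y
  have k2 : Sp7Cb (tlt (m (l + 1)) t (Gb n m r l t) (iteratedDeriv 2 (Gb n m r l t))) :=
    sp7_cb_tlt hE c2 _ _
  have k1 : Sp7Cb (tlt (m (l + 1)) t (Gb n m r l t)
      (fun x => iteratedDeriv 1 (Gb n m r l t) x ^ 2)) := sp7_cb_tlt hE c1 _ _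
  rw [e1, ee_add hm hr hl.le k2 (nest_cb_smul _ k1), ee_smul]
  rfl

theorem fval_block (hm : Exponents n m) (hr : Path n r) (hl : l < n) :
    ∫ t in (0 : ℝ)..(r (l + 1) - r l), (Ab n m r l t + m (l + 1) / 2 * Rb n m r l t) =
      Ee n m r (l + 1) (fval_ps n m r (l + 1)) - Ee n m r l (fval_ps n m r l) := by
  obtain ⟨g0, g1⟩ := sp7_exp_of hm l hl
  obtain ⟨C, hC⟩ := fl_good hm hr (show l + 1 ≤ n from hl)
  have hD := fval_fl hm hr (show l + 1 ≤ n from hl)
  have hv : 0 ≤ r (l + 1) - r l := sub_nonneg.2 (hr.2 l hl)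
  set v := r (l + 1) - r l with hvdef
  set g := m (l + 1) with hgdef
  set F := Fl n m r (l + 1) with hFdef
  have hF := hC.adm
  have hb0 := fval_b0 hF g0 g1 hv hD
  have hP := fval_P hF g0 g1 hv hD
  have hsm : ∀ t ∈ Icc 0 v, Ec (gstep g (v - t) F) (iteratedDeriv 1 (gstep g (v - t) F))
      (iteratedDeriv 2 (gstep g (v - t) F)) := fun t ht => adm_ec (first_adm hF g0 g1 ht)
  have b1 := first_f_bc hF g0 v 0
  have b2 := first_f_bc hF g0 v 1
  have hq : first_Bc (fun t x => first_f g v F 2 t x + g / 2 * first_f g v F 1 t x ^ 2) := by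
    have := b2.add ((b1.mul b1).smul (g / 2))
    convert this using 3
    ring
  have hI : Ioo 0 v ⊆ Icc 0 v := Ioo_subset_Icc_self
  obtain ⟨-, B0, hB0⟩ := hb0
  have hq' := hq
  obtain ⟨-, B1, hB1⟩ := hq'
  have hd : ∀ t ∈ Ioo 0 v, HasDerivAt
      (fun t => Ee n m r l (fun y => tlt g t (gstep g (v - t) F) (fval_p g v F t) y))
      (Ee n m r l (fun y => tlt g t (gstep g (v - t) F) (fun x => first_f g v F 2 t x
        + g / 2 * first_f g v F 1 t x ^ 2) y)) t := by
    intro t ht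
    refine ee_deriv hm hr hl.le (a := 0) (b := v)
      (f := fun t y => tlt g t (gstep g (v - t) F) (fval_p g v F t) y)
      (f' := fun t y => tlt g t (gstep g (v - t) F) (fun x => first_f g v F 2 t x
        + g / 2 * first_f g v F 1 t x ^ 2) y)
      (fun t ht y => fval_tlt_deriv hF g0 g1 hv hD y ht) ?_ ?_ ⟨max B0 B1, ?_⟩ ht
    · intro t ht
      exact (hsm t (hI ht)).sm.tlt_cont ((fval_b0 hF g0 g1 hv hD).slice t) (hB0 t) g t
    · intro t ht
      exact (hsm t (hI ht)).sm.tlt_cont (hq.slice t) (hB1 t) g t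
    · intro t ht y
      constructor
      · exact ((hsm t (hI ht)).sm.abs_tlt_le ((fval_b0 hF g0 g1 hv hD).slice t) (hB0 t)
          g t y).trans (le_max_left _ _)
      · exact ((hsm t (hI ht)).sm.abs_tlt_le (hq.slice t) (hB1 t) g t y).trans (le_max_right _ _)
  have hc : ContinuousOn
      (fun t => Ee n m r l (fun y => tlt g t (gstep g (v - t) F) (fval_p g v F t) y))
      (Icc 0 v) := by
    refine ee_contOn hm hr hl.le
      (f := fun t y => tlt g t (gstep g (v - t) F) (fval_p g v F t) y) ?_ ?_ ⟨B0, ?_⟩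
    · intro y
      exact blk_tlt_cont hF g0 (fval_b0 hF g0 g1 hv hD) g y
    · intro t ht
      exact (hsm t ht).sm.tlt_cont ((fval_b0 hF g0 g1 hv hD).slice t) (hB0 t) g t
    · intro t ht y
      exact (hsm t ht).sm.abs_tlt_le ((fval_b0 hF g0 g1 hv hD).slice t) (hB0 t) g t y
  have hint : IntervalIntegrable (fun t => Ab n m r l t + g / 2 * Rb n m r l t) volume 0 v := by
    refine ContinuousOn.intervalIntegrable_of_Icc hv ?_
    exact (Ab_cont hm hr hl).add (continuousOn_const.mul (Rb_cont hm hr hl))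
  have h1 := intervalIntegral.integral_eq_sub_of_hasDerivAt_of_le hv hc
    (f' := fun t => Ab n m r l t + g / 2 * Rb n m r l t)
    (fun t ht => by
      refine (hd t ht).congr_deriv ?_
      exact fval_Bt_eq hm hr hl (hI ht)) hint
  rw [h1]
  congr 1
  · rw [ee_succ hl]
    congr 1
    funext y
    rw [sub_self, gstep_zero g0.ne']
    congr 1
    funext x
    unfold fval_p fval_f fval_ps first_f fj
    rw [fval_c_eq ⟨hv, le_rfl⟩, sub_self, gstep_zero g0.ne', iteratedDeriv_zero]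
  · congr 1
    funext y
    rw [sp3_tlt_triv le_rfl]
    unfold fval_p fval_f fval_ps first_f fj
    rw [fval_c_eq ⟨le_rfl, hv⟩, sub_zero, iteratedDeriv_zero, fl_succ hl]

end BLOCK

/-! ### The identity -/

section VALUE

theorem fval_abel (m r : ℕ → ℝ) (k : ℕ) :
    ∑ l ∈ Finset.range (k + 1), (m (l + 1) - m l) * r l ^ 2 =
      m (k + 1) * r k ^ 2 - m 0 * r 0 ^ 2 -
        ∑ l ∈ Finset.range k, m (l + 1) * (r (l + 1) ^ 2 - r l ^ 2) := by
  induction k with
  | zero => simp; ring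
  | succ k ih =>
    rw [Finset.sum_range_succ, ih, Finset.sum_range_succ _ k]
    ring

theorem fval_int_lin (a v c : ℝ) :
    ∫ t in (0 : ℝ)..v, c * (a + t) = c * ((a + v) ^ 2 - a ^ 2) / 2 := by
  have h : ∀ t ∈ uIcc 0 v, HasDerivAt (fun t => c * (a + t) ^ 2 / 2) (c * (a + t)) t := by
    intro t _
    have h1 := (((hasDerivAt_id t).const_add a).pow 2).const_mul c |>.div_const 2
    refine h1.congr_deriv ?_
    simp only [id]
    ring
  rw [intervalIntegral.integral_eq_sub_of_hasDerivAt h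
    (Continuous.intervalIntegrable (by fun_prop) _ _)]
  ring

theorem value_id {b : ℝ} (hb : 0 < b) {n : ℕ} {m r : ℕ → ℝ} (hm : Exponents n m)
    (hr : Path n r) (h0 : r 0 = 0) : SKr b n m r =
      (∑ l ∈ Finset.range n, ∫ t in (0 : ℝ)..(r (l + 1) - r l), Ab n m r l t)
      + Ee n m r n (fun x => lc x - x * Real.tanh x) + (b ^ 2 - r n) ^ 2 / (4 * b ^ 2)
      + ∑ l ∈ Finset.range n, ∫ t in (0 : ℝ)..(r (l + 1) - r l),
          m (l + 1) / 2 * (Rb n m r l t - (r l + t) / b ^ 2) := by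
  have h1 : ∑ l ∈ Finset.range n, ∫ t in (0 : ℝ)..(r (l + 1) - r l),
      (Ab n m r l t + m (l + 1) / 2 * Rb n m r l t) =
      Ee n m r n (fval_ps n m r n) - Ee n m r 0 (fval_ps n m r 0) := by
    rw [← Finset.sum_range_sub (fun l => Ee n m r l (fval_ps n m r l))]
    exact Finset.sum_congr rfl fun l hl => fval_block hm hr (Finset.mem_range.1 hl)
  have h2 : Ee n m r 0 (fval_ps n m r 0) = -cascade m r n lc 0 := by
    rw [ee_zero h0, fval_ps, zero_mul, zero_sub, fl_zero]
  have h3 : Ee n m r n (fval_ps n m r n) = -Ee n m r n (fun x => lc x - x * Real.tanh x) := by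
    rw [neg_eq_neg_one_mul, ← ee_smul]
    congr 1
    funext x
    unfold fval_ps
    rw [fl_last, adm_lc_it1]
    ring
  have h4 : spinPart n m r = cascade m r n lc 0 - r n / 2 := by
    unfold spinPart
    rw [h0, Real.sqrt_zero]
    simp only [zero_mul, integral_const, probReal_univ, one_smul]
    rfl
  have h5 : ∀ l ∈ Finset.range n, ∫ t in (0 : ℝ)..(r (l + 1) - r l),
      m (l + 1) / 2 * (Rb n m r l t - (r l + t) / b ^ 2) =
      (∫ t in (0 : ℝ)..(r (l + 1) - r l), (Ab n m r l t + m (l + 1) / 2 * Rb n m r l t))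
       - (∫ t in (0 : ℝ)..(r (l + 1) - r l), Ab n m r l t)
       - m (l + 1) * (r (l + 1) ^ 2 - r l ^ 2) / (4 * b ^ 2) := by
    intro l hl
    have hl' := Finset.mem_range.1 hl
    have hv := sub_nonneg.2 (hr.2 l hl')
    have i1 : IntervalIntegrable (Ab n m r l) volume 0 (r (l + 1) - r l) :=
      (Ab_cont hm hr hl').intervalIntegrable_of_Icc hv
    have i2 : IntervalIntegrable (fun t => m (l + 1) / 2 * Rb n m r l t) volume 0
        (r (l + 1) - r l) :=
      (continuousOn_const.mul (Rb_cont hm hr hl')).intervalIntegrable_of_Icc hv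
    have i3 : IntervalIntegrable (fun t => m (l + 1) / (2 * b ^ 2) * (r l + t)) volume 0
        (r (l + 1) - r l) := Continuous.intervalIntegrable (by fun_prop) _ _
    rw [intervalIntegral.integral_add i1 i2]
    have e : ∫ t in (0 : ℝ)..(r (l + 1) - r l),
          m (l + 1) / 2 * (Rb n m r l t - (r l + t) / b ^ 2) =
        ∫ t in (0 : ℝ)..(r (l + 1) - r l),
          (m (l + 1) / 2 * Rb n m r l t - m (l + 1) / (2 * b ^ 2) * (r l + t)) := by
      congr 1
      funext t
      field_simp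
    rw [e, intervalIntegral.integral_sub i2 i3, fval_int_lin]
    field_simp
    ring
  rw [SKr, h4, fval_abel, Finset.sum_congr rfl h5, Finset.sum_sub_distrib,
    Finset.sum_sub_distrib, h1, h2, h3, ← Finset.sum_div, hm.1, hm.2.1, h0]
  field_simp
  ring

/-! ### The bounds -/

theorem fval_path {n : ℕ} {r : ℕ → ℝ} (hr : Path n r) {i j : ℕ} (hij : i ≤ j) (hj : j ≤ n) :
    r i ≤ r j := by
  induction j, hij using Nat.le_induction with
  | base => exact le_rfl
  | succ j hij ih => exact (ih (by omega)).trans (hr.2 j (by omega))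

theorem fval_sqrt {b M : ℝ} (hb : 0 < b) (hM : 0 ≤ M) : 1 / b - √M ≤ b * |M - 1 / b ^ 2| := by
  set s := √M with hsdef
  have hs : 0 ≤ s := Real.sqrt_nonneg M
  have hM' : s ^ 2 = M := Real.sq_sqrt hM
  rcases le_total (1 / b) s with h | h
  · have : 0 ≤ b * |M - 1 / b ^ 2| := by positivity
    linarith
  · have h1 : 1 / b ^ 2 - M ≤ |M - 1 / b ^ 2| := by
      rw [abs_sub_comm]
      exact le_abs_self _
    have h2 : b * (1 / b ^ 2 - M) = (1 / b - s) * (1 + b * s) := by
      rw [← hM']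
      field_simp
      ring
    have h3 : (1 / b - s) * 1 ≤ (1 / b - s) * (1 + b * s) :=
      mul_le_mul_of_nonneg_left (by nlinarith [mul_nonneg hb.le hs]) (sub_nonneg.2 h)
    have h4 := mul_le_mul_of_nonneg_left h1 hb.le
    linarith

variable {b : ℝ} {n : ℕ} {m r : ℕ → ℝ}

theorem fval_R (hb : 0 < b) (hm : Exponents n m) (hmin : IsMin b n m r) {l : ℕ} (hl : l < n)
    {t : ℝ} (ht : t ∈ Icc 0 (r (l + 1) - r l)) :
    |Rb n m r l t - (r l + t) / b ^ 2| ≤
      ∫ s in (0 : ℝ)..(r (l + 1) - r l), |Mb n m r l s - 1 / b ^ 2| := by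
  have hr : Path n r := hmin.1.2.1
  have hfix := stat_fix hb hm hmin.1 hmin.2 l hl.le
  have hcR := Rb_cont hm hr hl
  have hcM := Mb_cont hm hr hl
  have hsub : Icc 0 t ⊆ Icc 0 (r (l + 1) - r l) := Icc_subset_Icc_right ht.2
  have h1 : ∫ s in (0 : ℝ)..t, (Mb n m r l s - 1 / b ^ 2) =
      (Rb n m r l t - (r l + t) / b ^ 2) - (Rb n m r l 0 - (r l + 0) / b ^ 2) := by
    refine intervalIntegral.integral_eq_sub_of_hasDerivAt_of_le ht.1
      (f := fun s => Rb n m r l s - (r l + s) / b ^ 2) ?_ ?_ ?_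
    · exact (hcR.mono hsub).sub (Continuous.continuousOn (by fun_prop))
    · intro s hs
      have := Rb_deriv hm hr hl (t := s) ⟨hs.1, hs.2.trans_le ht.2⟩
      exact this.sub (((hasDerivAt_id s).const_add (r l)).div_const (b ^ 2))
    · exact ((hcM.mono hsub).sub continuousOn_const).intervalIntegrable_of_Icc ht.1
  have h2 : Rb n m r l 0 - (r l + 0) / b ^ 2 = 0 := by
    rw [Rb_zero hm hr hl, add_zero, hfix]
    field_simp
    ring
  rw [h2, sub_zero] at h1
  rw [← h1]
  have h3 : |∫ s in (0 : ℝ)..t, (Mb n m r l s - 1 / b ^ 2)| ≤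
      ∫ s in (0 : ℝ)..t, |Mb n m r l s - 1 / b ^ 2| :=
    intervalIntegral.abs_integral_le_integral_abs ht.1
  refine h3.trans (intervalIntegral.integral_mono_interval le_rfl ht.1 ht.2
    (ae_of_all _ fun _ => abs_nonneg _) ?_)
  exact (hcM.sub continuousOn_const).abs.intervalIntegrable_of_Icc (ht.1.trans ht.2)

theorem fval_S2 (hb : 0 < b) (hm : Exponents n m) (hmin : IsMin b n m r) :
    ∑ l ∈ Finset.range n, ∫ t in (0 : ℝ)..(r (l + 1) - r l),
        m (l + 1) / 2 * (Rb n m r l t - (r l + t) / b ^ 2) ≤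
      b ^ 2 / 2 * ∑ l ∈ Finset.range n, ∫ t in (0 : ℝ)..(r (l + 1) - r l),
        |Mb n m r l t - 1 / b ^ 2| := by
  have hr : Path n r := hmin.1.2.1
  rw [Finset.mul_sum]
  refine Finset.sum_le_sum fun l hl => ?_
  have hl' := Finset.mem_range.1 hl
  obtain ⟨g0, g1⟩ := sp7_exp_of hm l hl'
  have hv := sub_nonneg.2 (hr.2 l hl')
  set δ := ∫ t in (0 : ℝ)..(r (l + 1) - r l), |Mb n m r l t - 1 / b ^ 2| with hδ
  have hδ0 : 0 ≤ δ := intervalIntegral.integral_nonneg hv fun _ _ => abs_nonneg _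
  have h1 : ∫ t in (0 : ℝ)..(r (l + 1) - r l),
      m (l + 1) / 2 * (Rb n m r l t - (r l + t) / b ^ 2) ≤
      ∫ _ in (0 : ℝ)..(r (l + 1) - r l), δ / 2 := by
    refine intervalIntegral.integral_mono_on hv ?_ ?_ ?_
    · refine ContinuousOn.intervalIntegrable_of_Icc hv ?_
      exact continuousOn_const.mul
        ((Rb_cont hm hr hl').sub (Continuous.continuousOn (by fun_prop)))
    · exact _root_.intervalIntegrable_const
    · intro t ht
      have h2 := fval_R hb hm hmin hl' ht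
      have h3 := (le_abs_self _).trans h2
      have h4 : m (l + 1) / 2 * (Rb n m r l t - (r l + t) / b ^ 2) ≤ m (l + 1) / 2 * δ :=
        mul_le_mul_of_nonneg_left h3 (by linarith)
      nlinarith
  rw [intervalIntegral.integral_const, smul_eq_mul, sub_zero] at h1
  have h5 : r (l + 1) - r l ≤ b ^ 2 := by
    have h6 := fval_path hr (show l + 1 ≤ n from hl') le_rfl
    have h7 := fval_path hr (Nat.zero_le l) hl'.le
    have h8 := hmin.1.2.2
    have h9 := hmin.1.1
    linarith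
  have h6 := mul_le_mul_of_nonneg_right h5 (show 0 ≤ δ / 2 by linarith)
  linarith

theorem fval_SA (hb : 0 < b) (hm : Exponents n m) (hr : Path n r) :
    (∑ l ∈ Finset.range n, ∫ t in (0 : ℝ)..(r (l + 1) - r l), Ab n m r l t) / b ≤
      (∑ l ∈ Finset.range n, ∫ t in (0 : ℝ)..(r (l + 1) - r l),
          √(Mb n m r l t) * Ab n m r l t) +
        b * ∑ l ∈ Finset.range n, ∫ t in (0 : ℝ)..(r (l + 1) - r l),
          |Mb n m r l t - 1 / b ^ 2| := by
  rw [Finset.sum_div, Finset.mul_sum, ← Finset.sum_add_distrib]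
  refine Finset.sum_le_sum fun l hl => ?_
  have hl' := Finset.mem_range.1 hl
  have hv := sub_nonneg.2 (hr.2 l hl')
  have hcM := Mb_cont hm hr hl'
  have hcA := Ab_cont hm hr hl'
  have i1 : IntervalIntegrable (fun t => √(Mb n m r l t) * Ab n m r l t) volume 0
      (r (l + 1) - r l) :=
    ((Real.continuous_sqrt.comp_continuousOn hcM).mul hcA).intervalIntegrable_of_Icc hv
  have i2 : IntervalIntegrable (fun t => b * |Mb n m r l t - 1 / b ^ 2|) volume 0
      (r (l + 1) - r l) :=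
    (continuousOn_const.mul (hcM.sub continuousOn_const).abs).intervalIntegrable_of_Icc hv
  rw [← intervalIntegral.integral_div, ← intervalIntegral.integral_const_mul,
    ← intervalIntegral.integral_add i1 i2]
  refine intervalIntegral.integral_mono_on hv ?_ (i1.add i2) ?_
  · exact (hcA.div_const b).intervalIntegrable_of_Icc hv
  · intro t ht
    obtain ⟨a0, a1⟩ := Ab_mem hm hr hl' ht
    obtain ⟨m0, m1⟩ := Mb_mem hm hr hl' ht
    have h1 := fval_sqrt hb m0
    have h2 := mul_le_mul_of_nonneg_right h1 a0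
    have h3 : 0 ≤ b * |Mb n m r l t - 1 / b ^ 2| := by positivity
    have h4 := mul_le_mul_of_nonneg_left a1 h3
    have h5 : Ab n m r l t / b = 1 / b * Ab n m r l t := by ring
    rw [h5]
    linarith

theorem fval_last (hm : Exponents n m) (hr : Path n r) :
    Ee n m r n (fun x => lc x - x * Real.tanh x) ≤ 0 := by
  have hA := good_lc.adm
  have hl0 : lc 0 = 0 := by simp [lc]
  have h1 : ∀ x, lc x - x * Real.tanh x ≤ 0 := by
    intro x
    have := fval_tan hA x
    rw [adm_lc_it1, hl0] at this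
    linarith
  have h2 : ∀ x, |lc x - x * Real.tanh x| ≤ Real.log 2 := by
    intro x
    have := fval_psi hA fval_lc x
    rwa [adm_lc_it1, abs_sub_comm] at this
  have hc : Continuous fun x => lc x - x * Real.tanh x := by
    have h3 := (nest_cb1 hA).1
    rw [adm_lc_it1] at h3
    exact hA.smb.smooth.continuous.sub (continuous_id.mul h3)
  have h3 := ee_mono hm hr le_rfl (ψ := fun x => lc x - x * Real.tanh x) (φ := fun _ => 0)
    ⟨hc, _, h2⟩ ⟨continuous_const, 0, fun _ => by simp⟩ h1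
  rwa [ee_const hm hr le_rfl] at h3

end VALUE

end Vale.Agent.P367.Cl
end
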