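import Vale.Agent.P367.Bd3.B1

set_option linter.all false

section

theorem Vale.Agent.P367.NI.eqforce_plain : True := by
  first
  | exact (fun _ => trivial) @Vale.Agent.P367.NI.plain.eq_1
  | exact (fun _ => trivial) @Vale.Agent.P367.NI.plain.eq_1.{0}
end

section

/-! P367, Theorem A, block F, last step: the simulation statement and Gram continuity give
Theorem A. -/

namespace Vale.Agent.P367.A

open Complex Filter Topology

open Vale.Agent.P367.NI (Gate)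

namespace Sys

variable {H K : Type*} [NormedAddCommGroup H] [InnerProductSpace ℂ H]
  [NormedAddCommGroup K] [InnerProductSpace ℂ K] (S : Sys H K)

/-! ### The exact labelled evolution as an instance of `lw` -/

/-- field vectors of the exact labelled evolution -/
noncomputable def asX (w : List Gate) (i : ℕ) : H := S.xv (S.ev (w.drop (w.length - i)))

/-- phase vectors of the exact labelled evolution -/
noncomputable def asV (w : List Gate) (i : ℕ) : K :=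
  match w.drop (w.length - (i + 1)) with
  | Gate.C γ :: u => (γ : ℂ) • S.iota (S.xv (S.ev u))
  | Gate.G κ :: _ => (κ : ℂ) • S.e0
  | _ => 0

lemma as_drop {w p u : List Gate} (h : w = p ++ u) : w.drop (w.length - u.length) = u := by
  subst h
  rw [List.length_append, Nat.add_sub_cancel, List.drop_left]

lemma asX_eq {w p u : List Gate} (h : w = p ++ u) : S.asX w u.length = S.xv (S.ev u) := by
  unfold asX
  rw [as_drop h]

lemma asV_C {w p u : List Gate} {γ : ℝ} (h : w = p ++ (Gate.C γ :: u)) :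
    S.asV w u.length = (γ : ℂ) • S.iota (S.xv (S.ev u)) := by
  unfold asV
  have h1 := as_drop h
  rw [List.length_cons] at h1
  rw [h1]

lemma asV_G {w p u : List Gate} {κ : ℝ} (h : w = p ++ (Gate.G κ :: u)) :
    S.asV w u.length = (κ : ℂ) • S.e0 := by
  unfold asV
  have h1 := as_drop h
  rw [List.length_cons] at h1
  rw [h1]

lemma as_lw {w : List Gate} : ∀ (u p : List Gate), w = p ++ u → S.lw (S.asV w) u = S.ev u := by
  intro u
  induction u with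
  | nil => intro p _; rfl
  | cons g u ih =>
    intro p h
    have h1 : w = (p ++ [g]) ++ u := by rw [h, List.append_assoc]; rfl
    have h2 := ih _ h1
    cases g with
    | B b => show S.xr b * S.lw (S.asV w) u = S.xr b * S.ev u; rw [h2]
    | C γ =>
      show S.zr (S.asV w u.length) * S.lw (S.asV w) u =
        S.zr ((γ : ℂ) • S.iota (S.xv (S.ev u))) * S.ev u
      rw [h2, S.asV_C h]
    | G κ =>
      show S.zr (S.asV w u.length) * S.lw (S.asV w) u = S.zr ((κ : ℂ) • S.e0) * S.ev u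
      rw [h2, S.asV_G h]

lemma as_good {w : List Gate} :
    ∀ (u p : List Gate), w = p ++ u → S.Good 0 S.e0 (S.asX w) (S.asV w) u := by
  intro u
  induction u with
  | nil => intro p _; trivial
  | cons g u ih =>
    intro p h
    have h1 : w = (p ++ [g]) ++ u := by rw [h, List.append_assoc]; rfl
    have h2 := ih _ h1
    have h3 : ‖S.asX w u.length - S.xv (S.lw (S.asV w) u)‖ ≤ 0 := by
      rw [S.asX_eq h1, S.as_lw u _ h1, sub_self, norm_zero]
    have h4 : ‖(inner ℂ S.e0 (S.iota (S.asX w u.length)) : ℂ)‖ ≤ 0 := by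
      rw [S.e0perp, norm_zero]
    cases g with
    | B b => exact ⟨h2, h3, h4⟩
    | C γ => exact ⟨h2, h3, h4, by rw [S.asV_C h, S.asX_eq h1]⟩
    | G κ => exact ⟨h2, h3, h4, by rw [S.asV_G h, sub_self, norm_zero]⟩

lemma as_eaux {w : List Gate} (y : H) :
    ∀ (u p : List Gate), w = p ++ u → eSum (S.asX w) y u = S.eaux y u := by
  intro u
  induction u with
  | nil => intro p _; rfl
  | cons g u ih =>
    intro p h
    have h1 : w = (p ++ [g]) ++ u := by rw [h, List.append_assoc]; rfl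
    have h2 := ih _ h1
    cases g with
    | B b => exact h2
    | C γ =>
      show -(γ * ((inner ℂ (S.asX w u.length) y) ^ 2 : ℂ).im) + eSum (S.asX w) y u =
        -(γ * ((inner ℂ (S.xv (S.ev u)) y) ^ 2 : ℂ).im) + S.eaux y u
      rw [h2, S.asX_eq h1]
    | G κ => exact h2

/-! ### Comparison of energies -/

/-- total strength of the `C` gates -/
def asG : List Gate → ℝ
  | [] => 0
  | Gate.C γ :: u => |γ| + asG u
  | Gate.B _ :: u => asG u
  | Gate.G _ :: u => asG u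

lemma asG_nonneg : ∀ u : List Gate, 0 ≤ asG u := by
  intro u
  induction u with
  | nil => exact le_rfl
  | cons g u ih =>
    cases g with
    | B b => exact ih
    | C γ => exact add_nonneg (abs_nonneg _) ih
    | G κ => exact ih

lemma as_sq {z z' : ℂ} {δ : ℝ} (hz : ‖z‖ ≤ 2) (hz' : ‖z'‖ ≤ 2) (h : ‖z - z'‖ ≤ δ) :
    |(z ^ 2).im - (z' ^ 2).im| ≤ 4 * δ := by
  rw [← Complex.sub_im]
  refine (Complex.abs_im_le_norm _).trans ?_
  have e : z ^ 2 - z' ^ 2 = (z - z') * (z + z') := by ring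
  rw [e, norm_mul]
  have h1 : ‖z + z'‖ ≤ 4 := (norm_add_le _ _).trans (by linarith)
  have h2 : 0 ≤ ‖z - z'‖ := norm_nonneg _
  nlinarith [norm_nonneg (z + z')]

lemma as_diff {x x' : ℕ → H} {y y' : H} {δ : ℝ} : ∀ (u : List Gate),
    (∀ i < u.length, ‖(inner ℂ (x i) y : ℂ)‖ ≤ 2 ∧ ‖(inner ℂ (x' i) y' : ℂ)‖ ≤ 2 ∧
      ‖(inner ℂ (x i) y : ℂ) - inner ℂ (x' i) y'‖ ≤ δ) →
    |eSum x y u - eSum x' y' u| ≤ asG u * (4 * δ) := by
  intro u
  induction u with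
  | nil => intro _; show |(0 : ℝ) - 0| ≤ 0 * (4 * δ); simp
  | cons g u ih =>
    intro h
    have h2 := ih fun i hi => h i (by rw [List.length_cons]; omega)
    cases g with
    | B b => exact h2
    | G κ => exact h2
    | C γ =>
      obtain ⟨a1, a2, a3⟩ := h u.length (by rw [List.length_cons]; omega)
      have h3 := as_sq a1 a2 a3
      show |(-(γ * ((inner ℂ (x u.length) y) ^ 2 : ℂ).im) + eSum x y u) -
        (-(γ * ((inner ℂ (x' u.length) y') ^ 2 : ℂ).im) + eSum x' y' u)| ≤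
          (|γ| + asG u) * (4 * δ)
      have e : (-(γ * ((inner ℂ (x u.length) y) ^ 2 : ℂ).im) + eSum x y u) -
        (-(γ * ((inner ℂ (x' u.length) y') ^ 2 : ℂ).im) + eSum x' y' u) =
        -(γ * (((inner ℂ (x u.length) y) ^ 2 : ℂ).im -
          ((inner ℂ (x' u.length) y') ^ 2 : ℂ).im)) + (eSum x y u - eSum x' y' u) := by ring
      rw [e]
      refine (abs_add_le _ _).trans ?_
      rw [abs_neg, abs_mul, add_mul]
      exact add_le_add (mul_le_mul_of_nonneg_left h3 (abs_nonneg _)) h2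

lemma as_norm_xv (V : H ≃ₗᵢ[ℂ] H) : ‖S.xv V‖ = 1 := by
  unfold xv
  rw [LinearIsometryEquiv.norm_map, LinearIsometryEquiv.norm_map, LinearIsometryEquiv.norm_map,
    S.nOm]

/-- the vectors of a good assignment are close to field vectors -/
lemma as_good_norm {d : ℝ} {e : K} {x : ℕ → H} {v : ℕ → K} : ∀ (u : List Gate),
    S.Good d e x v u → ∀ i < u.length, ‖x i‖ ≤ 1 + d := by
  intro u
  induction u with
  | nil => intro _ i hi; exact absurd hi (by simp)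
  | cons g u ih =>
    intro h i hi
    have hx : ‖x u.length - S.xv (S.lw v u)‖ ≤ d → ‖x u.length‖ ≤ 1 + d := by
      intro h1
      have h2 : x u.length = S.xv (S.lw v u) + (x u.length - S.xv (S.lw v u)) := by abel
      rw [h2]
      refine (norm_add_le _ _).trans ?_
      rw [S.as_norm_xv]
      linarith
    have key : S.Good d e x v u ∧ ‖x u.length - S.xv (S.lw v u)‖ ≤ d := by
      cases g with
      | B b => exact ⟨h.1, h.2.1⟩
      | C γ => exact ⟨h.1, h.2.1⟩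
      | G κ => exact ⟨h.1, h.2.1⟩
    rcases Nat.lt_or_ge i u.length with h1 | h1
    · exact ih key.1 i h1
    · have h2 : i = u.length := by
        rw [List.length_cons] at hi
        omega
      rw [h2]
      exact hx key.2

lemma as_good_mono {d d' : ℝ} (hd : d ≤ d') {e : K} {x : ℕ → H} {v : ℕ → K} :
    ∀ (u : List Gate), S.Good d e x v u → S.Good d' e x v u := by
  intro u
  induction u with
  | nil => intro _; trivial
  | cons g u ih =>
    intro h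
    cases g with
    | B b => exact ⟨ih h.1, h.2.1.trans hd, h.2.2.trans hd⟩
    | C γ => exact ⟨ih h.1, h.2.1.trans hd, h.2.2.1.trans hd, h.2.2.2⟩
    | G κ => exact ⟨ih h.1, h.2.1.trans hd, h.2.2.1.trans hd, h.2.2.2.trans hd⟩

theorem aStmt_of (hN : S.NStmt) (hG : S.GStmt) (hSim : S.SimStmt) : S.AStmt := by
  intro u κ hu δ hδ
  obtain ⟨C, ε₀, hC, hε₀, H1⟩ := hSim u κ hu
  generalize u ++ [Gate.G κ] = w at H1 ⊢
  obtain ⟨C', hCC', HX⟩ := S.xStmt hN C hC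
  have hC' : 0 ≤ C' := hC.trans hCC'
  have hG0 := asG_nonneg w
  obtain ⟨δ1, hδ1, hδ1e⟩ : ∃ δ1 : ℝ, 0 < δ1 ∧ asG w * (4 * (2 * δ1)) ≤ δ / 2 := by
    refine ⟨δ / (16 * (asG w + 1)), by positivity, ?_⟩
    have h1 : asG w * (4 * (2 * (δ / (16 * (asG w + 1))))) =
        δ / 2 * (asG w / (asG w + 1)) := by
      field_simp
      ring
    rw [h1]
    have h2 : asG w / (asG w + 1) ≤ 1 := by
      rw [div_le_one (by linarith)]
      linarith
    nlinarith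
  obtain ⟨d, hd, H2⟩ := hG w (S.asX w) (S.asV w) (S.as_good w [] rfl) δ1 hδ1
  have hCC : 0 ≤ C * C' := mul_nonneg hC hC'
  obtain ⟨M, hM1, hM2, hM3, hM4⟩ : ∃ M : ℝ, 1 ≤ M ∧ C ≤ M ∧ C' ≤ M ∧ C + C * C' ≤ M :=
    ⟨C + C * C' + C' + 1, by linarith, by linarith, by linarith, by linarith⟩
  have hM0 : 0 < M := by linarith
  obtain ⟨ε, hε, hεε₀, hε1, hMd, hMδ1, hMδ, hM1'⟩ : ∃ ε : ℝ, 0 < ε ∧ ε ≤ ε₀ ∧ ε ≤ 1 ∧
      M * ε ≤ d ∧ M * ε ≤ δ1 / 2 ∧ M * ε ≤ δ / 4 ∧ M * ε ≤ 1 := by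
    refine ⟨min ε₀ (min d (min (δ1 / 2) (min (δ / 4) 1)) / M), ?_, min_le_left _ _, ?_, ?_⟩
    · positivity
    · refine (min_le_right _ _).trans ?_
      rw [div_le_iff₀ hM0]
      refine (min_le_right _ _).trans ((min_le_right _ _).trans ((min_le_right _ _).trans ?_))
      linarith
    · have h1 : M * min ε₀ (min d (min (δ1 / 2) (min (δ / 4) 1)) / M) ≤
          min d (min (δ1 / 2) (min (δ / 4) 1)) := by
        refine (mul_le_mul_of_nonneg_left (min_le_right _ _) hM0.le).trans (le_of_eq ?_)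
        field_simp
      exact ⟨h1.trans (min_le_left _ _),
        h1.trans ((min_le_right _ _).trans (min_le_left _ _)),
        h1.trans ((min_le_right _ _).trans ((min_le_right _ _).trans (min_le_left _ _))),
        h1.trans ((min_le_right _ _).trans ((min_le_right _ _).trans (min_le_right _ _)))⟩
  obtain ⟨r, θ, σ, a, η, e, x, v, hr, hSt, hL, hGo, -, hE⟩ := H1 ε hε hεε₀
  refine ⟨r, hr, ?_⟩
  obtain ⟨-, hX2, hX3⟩ := HX ε hε hε1 _ _ _ _ _ _ _ hSt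
  have hX3' := hX3 hL
  have hie : ‖S.iota e‖ = 1 := by rw [LinearIsometry.norm_map, hL.n]
  have hCM : C * ε ≤ M * ε := mul_le_mul_of_nonneg_right hM2 hε.le
  have hCM' : C' * ε ≤ M * ε := mul_le_mul_of_nonneg_right hM3 hε.le
  have hGd : S.Good d (S.iota e) x v w := S.as_good_mono (hCM.trans hMd) w hGo
  have H3 := (H2 (S.iota e) x v hie hGd).2
  have hlw : S.lw (S.asV w) w = S.ev w := S.as_lw (w := w) w [] rfl
  rw [hlw] at H3
  have hxn := S.as_good_norm w hGo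
  have hy := S.as_norm_xv (S.ev r)
  have hy0 := S.as_norm_xv (S.ev w)
  have K1 := as_diff (x := x) (x' := S.asX w) (y := S.xv (S.ev r)) (y' := S.xv (S.ev w))
    (δ := 2 * δ1) w (fun i hi => by
      have h1 : ‖x i‖ ≤ 2 := by
        have := hxn i hi
        linarith
      refine ⟨?_, ?_, ?_⟩
      · refine (norm_inner_le_norm _ _).trans ?_
        rw [hy]
        linarith
      · refine (norm_inner_le_norm _ _).trans ?_
        have h2 : ‖S.asX w i‖ = 1 := S.as_norm_xv _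
        rw [hy0, h2]
        norm_num
      · have h2 : (inner ℂ (x i) (S.xv (S.ev r)) : ℂ) - inner ℂ (S.asX w i) (S.xv (S.ev w)) =
            inner ℂ (x i) (S.xv (S.ev r) - S.xv (S.lw v w)) +
            (inner ℂ (x i) (S.xv (S.lw v w)) - inner ℂ (S.asX w i) (S.xv (S.ev w))) := by
          rw [inner_sub_right]
          ring
        rw [h2]
        refine (norm_add_le _ _).trans ?_
        have h3 : ‖(inner ℂ (x i) (S.xv (S.ev r) - S.xv (S.lw v w)) : ℂ)‖ ≤ 2 * (C' * ε) :=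
          (norm_inner_le_norm _ _).trans
            (mul_le_mul h1 hX2 (norm_nonneg _) (by norm_num))
        have h4 := (H3 i hi).le
        linarith)
  have K2 : eSum (S.asX w) (S.xv (S.ev w)) w = S.energy w := S.as_eaux (w := w) _ w [] rfl
  have K3 := hE (S.xv (S.ev r)) hy.le
  have K4 : C * ε + C * ‖(inner ℂ e (S.xv (S.ev r)) : ℂ)‖ ≤ M * ε := by
    have h1 : C * ‖(inner ℂ e (S.xv (S.ev r)) : ℂ)‖ ≤ C * (C' * ε) :=
      mul_le_mul_of_nonneg_left hX3' hC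
    have h2 := mul_le_mul_of_nonneg_right hM4 hε.le
    nlinarith
  have K5 : S.energy r = S.eaux (S.xv (S.ev r)) r := rfl
  rw [K2] at K1
  rw [K5]
  have K6 := abs_sub_le (S.eaux (S.xv (S.ev r)) r) (eSum x (S.xv (S.ev r)) w) (S.energy w)
  linarith

end Sys

end Vale.Agent.P367.A
end

section

/-! P367, Theorem A, block F, master induction: the simulation statement from the steps. -/

namespace Vale.Agent.P367.A

open Complex Filter Topology

open Vale.Agent.P367.NI (Gate)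

namespace Sys

variable {H K : Type*} [NormedAddCommGroup H] [InnerProductSpace ℂ H]
  [NormedAddCommGroup K] [InnerProductSpace ℂ K] (S : Sys H K)

/-! ### Congruence -/

lemma si_lw {v v' : ℕ → K} : ∀ u : List Gate, (∀ i < u.length, v i = v' i) →
    S.lw v u = S.lw v' u := by
  intro u
  induction u with
  | nil => intro _; rfl
  | cons g u ih =>
    intro h
    have h1 := ih fun i hi => h i (by rw [List.length_cons]; omega)
    have h2 := h u.length (by rw [List.length_cons]; omega)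
    cases g with
    | B b => show S.xr b * S.lw v u = S.xr b * S.lw v' u; rw [h1]
    | C γ => show S.zr (v u.length) * S.lw v u = S.zr (v' u.length) * S.lw v' u; rw [h1, h2]
    | G κ => show S.zr (v u.length) * S.lw v u = S.zr (v' u.length) * S.lw v' u; rw [h1, h2]

lemma si_good {d : ℝ} {e : K} {x x' : ℕ → H} {v v' : ℕ → K} : ∀ u : List Gate,
    (∀ i < u.length, x i = x' i) → (∀ i < u.length, v i = v' i) →
    S.Good d e x v u → S.Good d e x' v' u := by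
  intro u
  induction u with
  | nil => intro _ _ _; trivial
  | cons g u ih =>
    intro hx hv h
    have hx' : ∀ i < u.length, x i = x' i := fun i hi => hx i (by rw [List.length_cons]; omega)
    have hv' : ∀ i < u.length, v i = v' i := fun i hi => hv i (by rw [List.length_cons]; omega)
    have h1 := ih hx' hv'
    have h2 := S.si_lw u hv'
    have h3 := hx u.length (by rw [List.length_cons]; omega)
    have h4 := hv u.length (by rw [List.length_cons]; omega)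
    cases g with
    | B b => exact ⟨h1 h.1, by rw [← h2, ← h3]; exact h.2.1, by rw [← h3]; exact h.2.2⟩
    | C γ =>
      exact ⟨h1 h.1, by rw [← h2, ← h3]; exact h.2.1, by rw [← h3]; exact h.2.2.1,
        by rw [← h3, ← h4]; exact h.2.2.2⟩
    | G κ =>
      exact ⟨h1 h.1, by rw [← h2, ← h3]; exact h.2.1, by rw [← h3]; exact h.2.2.1,
        by rw [← h4]; exact h.2.2.2⟩

lemma si_aSum {x x' : ℕ → H} : ∀ u : List Gate, (∀ i < u.length, x i = x' i) →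
    aSum x u = aSum x' u := by
  intro u
  induction u with
  | nil => intro _; rfl
  | cons g u ih =>
    intro h
    have h1 := ih fun i hi => h i (by rw [List.length_cons]; omega)
    have h2 := h u.length (by rw [List.length_cons]; omega)
    cases g with
    | B b => exact h1
    | C γ => exact h1
    | G κ =>
      show (κ : ℂ) • x u.length + aSum x u = (κ : ℂ) • x' u.length + aSum x' u
      rw [h1, h2]

lemma si_eSum {x x' : ℕ → H} (y : H) : ∀ u : List Gate, (∀ i < u.length, x i = x' i) →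
    eSum x y u = eSum x' y u := by
  intro u
  induction u with
  | nil => intro _; rfl
  | cons g u ih =>
    intro h
    have h1 := ih fun i hi => h i (by rw [List.length_cons]; omega)
    have h2 := h u.length (by rw [List.length_cons]; omega)
    cases g with
    | B b => exact h1
    | C γ =>
      show -(γ * ((inner ℂ (x u.length) y) ^ 2 : ℂ).im) + eSum x y u =
        -(γ * ((inner ℂ (x' u.length) y) ^ 2 : ℂ).im) + eSum x' y u
      rw [h1, h2]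
    | G κ => exact h1

/-! ### The pulse words -/

lemma si_xr_inv (b : ℝ) : (S.xr b)⁻¹ = S.xr (-b) := by
  ext x
  refine inv_apply_eq ?_
  exact S.xrL_xrL_neg b x

lemma si_xr_inv' (b : ℝ) : (S.xr (-b))⁻¹ = S.xr b := by
  rw [S.si_xr_inv, neg_neg]

lemma si_xv_xr (t : ℝ) (V : H ≃ₗᵢ[ℂ] H) : S.xv (S.xr t * V) = S.xt (-t) V := by
  show (S.xr t * V)⁻¹ (S.Z ((S.xr t * V) S.Om)) = V⁻¹ (S.Zt (-t) (V S.Om))
  rw [mul_inv_rev, S.si_xr_inv]
  show V⁻¹ (S.xr (-t) (S.Z (S.xr t (V S.Om)))) =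
    V⁻¹ (S.xr (-t) (S.Z (S.xr (-(-t)) (V S.Om))))
  rw [neg_neg]

/-- the word of one pulse -/
def psw (t s : ℝ) (u : List Gate) : List Gate := Gate.B t :: Gate.C s :: Gate.B (-t) :: u

/-- the word of the four-pulse word -/
def wvw (t1 t2 s1 s2 : ℝ) (u : List Gate) : List Gate :=
  psw t1 (-s1) (psw t2 (-s2) (psw t1 s1 (psw t2 s2 u)))

lemma ev_psw (t s : ℝ) (u : List Gate) : S.ev (psw t s u) = S.ps t s (S.ev u) := by
  show S.xr t * (S.zr ((s : ℂ) • S.iota (S.xv (S.xr (-t) * S.ev u))) * (S.xr (-t) * S.ev u)) =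
    S.xr t * S.zr ((s : ℂ) • S.iota (S.xt t (S.ev u))) * S.xr (-t) * S.ev u
  rw [S.si_xv_xr, neg_neg]
  simp only [mul_assoc]

lemma ev_wvw (t1 t2 s1 s2 : ℝ) (u : List Gate) :
    S.ev (wvw t1 t2 s1 s2 u) = S.wv t1 t2 s1 s2 (S.ev u) := by
  unfold wvw wv
  rw [ev_psw, ev_psw, ev_psw, ev_psw]

lemma si_plain_B {b : ℝ} {u : List Gate} (h : Plain u) : Plain (Gate.B b :: u) := by
  intro g hg k
  rcases List.mem_cons.1 hg with h1 | h1
  · rw [h1]
    intro h2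
    cases h2
  · exact h g h1 k

lemma si_plain_C {b : ℝ} {u : List Gate} (h : Plain u) : Plain (Gate.C b :: u) := by
  intro g hg k
  rcases List.mem_cons.1 hg with h1 | h1
  · rw [h1]
    intro h2
    cases h2
  · exact h g h1 k

lemma si_plain_psw {t s : ℝ} {u : List Gate} (h : Plain u) : Plain (psw t s u) :=
  si_plain_B (si_plain_C (si_plain_B h))

lemma si_plain_wvw {t1 t2 s1 s2 : ℝ} {u : List Gate} (h : Plain u) :
    Plain (wvw t1 t2 s1 s2 u) :=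
  si_plain_psw (si_plain_psw (si_plain_psw (si_plain_psw h)))

lemma si_sq_le {x y : H} (hx : ‖x‖ ≤ 1) (hy : ‖y‖ ≤ 1) : |((inner ℂ x y) ^ 2 : ℂ).im| ≤ 1 := by
  refine (Complex.abs_im_le_norm _).trans ?_
  rw [norm_pow]
  have h1 : ‖(inner ℂ x y : ℂ)‖ ≤ 1 := by
    refine (norm_inner_le_norm _ _).trans ?_
    nlinarith [norm_nonneg x, norm_nonneg y]
  exact pow_le_one₀ (norm_nonneg _) h1

lemma eaux_psw (t s : ℝ) (u : List Gate) {y : H} (hy : ‖y‖ ≤ 1) :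
    |S.eaux y (psw t s u) - S.eaux y u| ≤ |s| := by
  show |-(s * ((inner ℂ (S.xv (S.ev (Gate.B (-t) :: u))) y) ^ 2 : ℂ).im) + S.eaux y u -
    S.eaux y u| ≤ |s|
  rw [add_sub_cancel_right, abs_neg, abs_mul]
  have h := si_sq_le (x := S.xv (S.ev (Gate.B (-t) :: u))) (y := y) (S.as_norm_xv _).le hy
  calc |s| * |((inner ℂ (S.xv (S.ev (Gate.B (-t) :: u))) y) ^ 2 : ℂ).im| ≤ |s| * 1 :=
        mul_le_mul_of_nonneg_left h (abs_nonneg _)
    _ = |s| := mul_one _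

lemma eaux_wvw (t1 t2 s1 s2 : ℝ) (u : List Gate) {y : H} (hy : ‖y‖ ≤ 1) :
    |S.eaux y (wvw t1 t2 s1 s2 u) - S.eaux y u| ≤ 2 * |s1| + 2 * |s2| := by
  have h1 := S.eaux_psw t2 s2 u hy
  have h2 := S.eaux_psw t1 s1 (psw t2 s2 u) hy
  have h3 := S.eaux_psw t2 (-s2) (psw t1 s1 (psw t2 s2 u)) hy
  have h4 := S.eaux_psw t1 (-s1) (psw t2 (-s2) (psw t1 s1 (psw t2 s2 u))) hy
  rw [abs_neg] at h3 h4
  rw [abs_le] at *
  unfold wvw
  constructor <;> linarith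

/-! ### Alignment -/

/-- total strength of the label gates -/
def asK : List Gate → ℝ
  | [] => 0
  | Gate.G κ :: u => |κ| + asK u
  | Gate.B _ :: u => asK u
  | Gate.C _ :: u => asK u

lemma asK_nonneg : ∀ u : List Gate, 0 ≤ asK u := by
  intro u
  induction u with
  | nil => exact le_rfl
  | cons g u ih =>
    cases g with
    | B b => exact ih
    | C γ => exact ih
    | G κ => exact add_nonneg (abs_nonneg _) ih

lemma as_laux {w : List Gate} (y : H) :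
    ∀ (u p : List Gate), w = p ++ u → (inner ℂ (aSum (S.asX w) u) y : ℂ).im = S.laux y u := by
  intro u
  induction u with
  | nil =>
    intro p _
    show (inner ℂ (0 : H) y : ℂ).im = 0
    rw [inner_zero_left, Complex.zero_im]
  | cons g u ih =>
    intro p h
    have h1 : w = (p ++ [g]) ++ u := by rw [h, List.append_assoc]; rfl
    have h2 := ih _ h1
    cases g with
    | B b => exact h2
    | C γ => exact h2
    | G κ =>
      show (inner ℂ ((κ : ℂ) • S.asX w u.length + aSum (S.asX w) u) y : ℂ).im =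
        κ * (inner ℂ (S.xv (S.ev u)) y : ℂ).im + S.laux y u
      rw [inner_add_left, inner_smul_left, Complex.add_im, h2, S.asX_eq h1, Complex.conj_ofReal,
        Complex.im_ofReal_mul]

lemma as_adiff {x x' : ℕ → H} {y y' : H} {δ : ℝ} : ∀ (u : List Gate),
    (∀ i < u.length, ‖(inner ℂ (x i) y : ℂ) - inner ℂ (x' i) y'‖ ≤ δ) →
    ‖(inner ℂ (aSum x u) y : ℂ) - inner ℂ (aSum x' u) y'‖ ≤ asK u * δ := by
  intro u
  induction u with
  | nil =>
    intro _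
    show ‖(inner ℂ (0 : H) y : ℂ) - inner ℂ (0 : H) y'‖ ≤ 0 * δ
    rw [inner_zero_left, inner_zero_left, sub_zero, norm_zero, zero_mul]
  | cons g u ih =>
    intro h
    have h2 := ih fun i hi => h i (by rw [List.length_cons]; omega)
    cases g with
    | B b => exact h2
    | C γ => exact h2
    | G κ =>
      have h3 := h u.length (by rw [List.length_cons]; omega)
      show ‖(inner ℂ ((κ : ℂ) • x u.length + aSum x u) y : ℂ) -
        inner ℂ ((κ : ℂ) • x' u.length + aSum x' u) y'‖ ≤ (|κ| + asK u) * δ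
      have e : (inner ℂ ((κ : ℂ) • x u.length + aSum x u) y : ℂ) -
        inner ℂ ((κ : ℂ) • x' u.length + aSum x' u) y' =
        (κ : ℂ) * ((inner ℂ (x u.length) y : ℂ) - inner ℂ (x' u.length) y') +
        ((inner ℂ (aSum x u) y : ℂ) - inner ℂ (aSum x' u) y') := by
        rw [inner_add_left, inner_add_left, inner_smul_left, inner_smul_left,
          Complex.conj_ofReal]
        ring
      rw [e, add_mul]
      refine (norm_add_le _ _).trans (add_le_add ?_ h2)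
      rw [norm_mul, Complex.norm_real, Real.norm_eq_abs]
      exact mul_le_mul_of_nonneg_left h3 (abs_nonneg _)

lemma as_aSum_norm {x : ℕ → H} {c : ℝ} : ∀ (u : List Gate),
    (∀ i < u.length, ‖x i‖ ≤ c) → ‖aSum x u‖ ≤ asK u * c := by
  intro u
  induction u with
  | nil =>
    intro _
    show ‖(0 : H)‖ ≤ 0 * c
    rw [norm_zero, zero_mul]
  | cons g u ih =>
    intro h
    have h2 := ih fun i hi => h i (by rw [List.length_cons]; omega)
    cases g with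
    | B b => exact h2
    | C γ => exact h2
    | G κ =>
      have h3 := h u.length (by rw [List.length_cons]; omega)
      show ‖(κ : ℂ) • x u.length + aSum x u‖ ≤ (|κ| + asK u) * c
      rw [add_mul]
      refine (norm_add_le _ _).trans (add_le_add ?_ h2)
      rw [norm_smul, Complex.norm_real, Real.norm_eq_abs]
      exact mul_le_mul_of_nonneg_left h3 (abs_nonneg _)

/-- The alignment of a labelled word is seen by the simulation.  `g` is a word `p ++ w` (with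
`p = []` or `p = [B b]`); only gates of `w` carry labels. -/
lemma si_align (hG : S.GStmt) (w p : List Gate) (hp : asK (p ++ w) = asK w)
    (ha : ∀ x : ℕ → H, aSum x (p ++ w) = aSum x w) (hal : S.al (p ++ w) ≠ 0)
    {D : ℝ} (hD : 0 ≤ D) : ∃ δ ε₀ : ℝ, 0 < δ ∧ 0 < ε₀ ∧ ∀ ε, 0 < ε → ε ≤ ε₀ →
    ∀ (e : H) (x : ℕ → H) (v : ℕ → K) (y : H) (a : K), ‖e‖ = 1 →
      S.Good (D * ε) (S.iota e) x v (p ++ w) → ‖y‖ = 1 →
      ‖y - S.xv (S.lw v (p ++ w))‖ ≤ D * ε → ‖a + S.iota (aSum x w)‖ ≤ D * ε →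
      δ ≤ |(inner ℂ (S.iota y) a : ℂ).im| := by
  have hK := asK_nonneg w
  have hA : 0 < |S.al (p ++ w)| := abs_pos.2 hal
  obtain ⟨δ1, hδ1, hδ1e⟩ : ∃ δ1 : ℝ, 0 < δ1 ∧ asK w * δ1 ≤ |S.al (p ++ w)| / 4 := by
    refine ⟨|S.al (p ++ w)| / (4 * (asK w + 1)), by positivity, ?_⟩
    have h1 : asK w * (|S.al (p ++ w)| / (4 * (asK w + 1))) =
        |S.al (p ++ w)| / 4 * (asK w / (asK w + 1)) := by
      field_simp
    rw [h1]
    have h2 : asK w / (asK w + 1) ≤ 1 := by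
      rw [div_le_one (by linarith)]
      linarith
    nlinarith
  obtain ⟨d, hd, H2⟩ := hG (p ++ w) (S.asX (p ++ w)) (S.asV (p ++ w))
    (S.as_good (w := p ++ w) (p ++ w) [] rfl) δ1 hδ1
  have hDK : 0 ≤ D * asK w := mul_nonneg hD hK
  obtain ⟨M, hM0, hM1, hM2⟩ : ∃ M : ℝ, 0 < M ∧ D ≤ M ∧ D + 2 * (D * asK w) ≤ M :=
    ⟨D + 2 * (D * asK w) + 1, by linarith, by linarith, by linarith⟩
  refine ⟨|S.al (p ++ w)| / 4, min d (min 1 (|S.al (p ++ w)| / 4)) / M, by positivity,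
    by positivity, ?_⟩
  intro ε hε hε0 e x v y a he hGo hy hyx ha'
  have hMε : M * ε ≤ min d (min 1 (|S.al (p ++ w)| / 4)) := by
    rw [le_div_iff₀ hM0] at hε0
    linarith
  have e1 : M * ε ≤ d := hMε.trans (min_le_left _ _)
  have e2 : M * ε ≤ 1 := hMε.trans ((min_le_right _ _).trans (min_le_left _ _))
  have e3 : M * ε ≤ |S.al (p ++ w)| / 4 :=
    hMε.trans ((min_le_right _ _).trans (min_le_right _ _))
  have hDM : D * ε ≤ M * ε := mul_le_mul_of_nonneg_right hM1 hε.le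
  have hie : ‖S.iota e‖ = 1 := by rw [LinearIsometry.norm_map, he]
  have H3 := (H2 (S.iota e) x v hie (S.as_good_mono (hDM.trans e1) _ hGo)).2
  have hlw : S.lw (S.asV (p ++ w)) (p ++ w) = S.ev (p ++ w) :=
    S.as_lw (w := p ++ w) (p ++ w) [] rfl
  rw [hlw] at H3
  have h4 := as_adiff (p ++ w) (fun i hi => (H3 i hi).le)
  have h5 : (inner ℂ (aSum (S.asX (p ++ w)) (p ++ w)) (S.xv (S.ev (p ++ w))) : ℂ).im =
      S.al (p ++ w) := S.as_laux (w := p ++ w) _ (p ++ w) [] rfl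
  have h6 := (Complex.abs_im_le_norm _).trans h4
  rw [Complex.sub_im, h5, hp, ha] at h6
  have hxn : ‖aSum x w‖ ≤ asK w * 2 := by
    refine as_aSum_norm w fun i hi => ?_
    have h7 := S.as_good_norm (p ++ w) hGo i (by rw [List.length_append]; omega)
    linarith
  have h8 : |(inner ℂ (aSum x w) y : ℂ).im - (inner ℂ (aSum x w) (S.xv (S.lw v (p ++ w))) : ℂ).im|
      ≤ asK w * 2 * (D * ε) := by
    rw [← Complex.sub_im, ← inner_sub_right]
    refine (Complex.abs_im_le_norm _).trans ((norm_inner_le_norm _ _).trans ?_)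
    exact mul_le_mul hxn hyx (norm_nonneg _) (by positivity)
  have h9 : (inner ℂ (S.iota y) a : ℂ).im = (inner ℂ (S.iota y) (a + S.iota (aSum x w)) : ℂ).im +
      (inner ℂ (aSum x w) y : ℂ).im := by
    rw [inner_add_right, Complex.add_im, LinearIsometry.inner_map_map]
    have : (inner ℂ y (aSum x w) : ℂ).im = -(inner ℂ (aSum x w) y : ℂ).im := by
      rw [← inner_conj_symm y (aSum x w), Complex.conj_im]
    rw [this]
    ring
  have h10 : |(inner ℂ (S.iota y) (a + S.iota (aSum x w)) : ℂ).im| ≤ D * ε := by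
    refine (Complex.abs_im_le_norm _).trans ((norm_inner_le_norm _ _).trans ?_)
    rw [LinearIsometry.norm_map, hy, one_mul]
    exact ha'
  have h11 : D * ε + asK w * 2 * (D * ε) ≤ M * ε := by
    have := mul_le_mul_of_nonneg_right hM2 hε.le
    nlinarith
  rw [h9]
  generalize (inner ℂ (S.iota y) (a + S.iota (aSum x w)) : ℂ).im = z1 at *
  generalize (inner ℂ (aSum x w) y : ℂ).im = z2 at *
  generalize (inner ℂ (aSum x w) (S.xv (S.lw v (p ++ w))) : ℂ).im = z3 at *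
  have t1 : |S.al (p ++ w)| ≤ |z1 + z2| + |z1| + |z2 - z3| + |z3 - S.al (p ++ w)| := by
    have e5 : S.al (p ++ w) = (z1 + z2) - z1 - (z2 - z3) - (z3 - S.al (p ++ w)) := by ring
    calc |S.al (p ++ w)| = |(z1 + z2) - z1 - (z2 - z3) - (z3 - S.al (p ++ w))| := by
          rw [← e5]
      _ ≤ |(z1 + z2) - z1 - (z2 - z3)| + |z3 - S.al (p ++ w)| := abs_sub _ _
      _ ≤ |(z1 + z2) - z1| + |z2 - z3| + |z3 - S.al (p ++ w)| := by
          gcongr
          exact abs_sub _ _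
      _ ≤ |z1 + z2| + |z1| + |z2 - z3| + |z3 - S.al (p ++ w)| := by
          gcongr
          exact abs_sub _ _
  linarith

/-! ### Monotonicity -/

lemma si_nice_mono {c d : ℝ} {x : H} (h : S.Nice c x) (hcd : c ≤ d) : S.Nice d x where
  m0 := h.m0.trans hcd
  m1 a := (h.m1 a).trans (mul_le_mul_of_nonneg_right hcd (norm_nonneg _))
  m2 a b := (h.m2 a b).trans (mul_le_mul_of_nonneg_right hcd (by positivity))

lemma si_st_mono {C C' ε : ℝ} (hC : C ≤ C') (hε : 0 ≤ ε) {V T : H ≃ₗᵢ[ℂ] H} {θ : ℂ} {σ : ℝ}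
    {a : K} {η e : H} (h : S.St C ε V T θ σ a η e) : S.St C' ε V T θ σ a η e where
  th := h.th
  sg := h.sg
  a_le := h.a_le.trans hC
  eta := S.si_nice_mono h.eta hC
  T_nice c x hx := by
    have hc : 0 ≤ c := (norm_nonneg _).trans hx.m0
    exact ⟨S.si_nice_mono (h.T_nice c x hx).1 (mul_le_mul_of_nonneg_right hC hc),
      S.si_nice_mono (h.T_nice c x hx).2 (mul_le_mul_of_nonneg_right hC hc)⟩
  i1 := h.i1.trans (mul_le_mul_of_nonneg_right hC (by positivity))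
  i2 c x hx := by
    have hc : 0 ≤ c := (norm_nonneg _).trans hx.m0
    exact (h.i2 c x hx).trans
      (mul_le_mul_of_nonneg_right (mul_le_mul_of_nonneg_right hC hc) hε)
  i6 := h.i6.trans (mul_le_mul_of_nonneg_right hC hε)

lemma si_lv_mono {C C' ε : ℝ} (hC : C ≤ C') (hε : 0 ≤ ε) {e : H} (h : S.Lv C ε e) :
    S.Lv C' ε e where
  n := h.n
  perp c x hx := by
    have hc : 0 ≤ c := (norm_nonneg _).trans hx.m0
    exact (h.perp c x hx).trans
      (mul_le_mul_of_nonneg_right (mul_le_mul_of_nonneg_right hC hc) hε)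

/-! ### The steps -/

/-- simulation for all small `ε` -/
def PSim (w : List Gate) : Prop :=
  ∃ C ε₀ : ℝ, 0 ≤ C ∧ 0 < ε₀ ∧ ∀ ε, 0 < ε → ε ≤ ε₀ → S.Sim C ε w

lemma si_upx {α : Type*} (x : ℕ → α) (n : ℕ) (z : α) :
    ∀ i < n, x i = Function.update x n z i := fun i hi => by
  rw [Function.update_of_ne (Nat.ne_of_lt hi)]

/-- extension of a good assignment by one gate -/
lemma si_common {w : List Gate} {C C1 D ε : ℝ} (h1 : C * ε ≤ D * ε) (h2 : C1 * ε ≤ D * ε)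
    {V : H ≃ₗᵢ[ℂ] H} {e : H} {x : ℕ → H} {v : ℕ → K} (z : K)
    (hGo : S.Good (C * ε) (S.iota e) x v w) (hX2 : ‖S.xv V - S.xv (S.lw v w)‖ ≤ C1 * ε)
    (hX3 : ‖(inner ℂ e (S.xv V) : ℂ)‖ ≤ C1 * ε) :
    S.Good (D * ε) (S.iota e) (Function.update x w.length (S.xv V))
      (Function.update v w.length z) w ∧
    ‖Function.update x w.length (S.xv V) w.length -
      S.xv (S.lw (Function.update v w.length z) w)‖ ≤ D * ε ∧
    ‖(inner ℂ (S.iota e) (S.iota (Function.update x w.length (S.xv V) w.length)) : ℂ)‖ ≤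
      D * ε := by
  refine ⟨S.si_good w (si_upx _ _ _) (si_upx _ _ _) (S.as_good_mono h1 w hGo), ?_, ?_⟩
  · rw [Function.update_self, ← S.si_lw w (si_upx v w.length z)]
    exact hX2.trans h2
  · rw [Function.update_self, LinearIsometry.inner_map_map]
    exact hX3.trans h2

theorem si_C (hN : S.NStmt) (hSC : S.SCStmt) {w : List Gate} (γ : ℝ) (h : S.PSim w) :
    S.PSim (Gate.C γ :: w) := by
  obtain ⟨C, ε₀, hC, hε₀, H1⟩ := h
  obtain ⟨C1, hC1, HX⟩ := S.xStmt hN C hC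
  obtain ⟨C2, ε2, hC2, hε2, HS⟩ := hSC C γ hC
  refine ⟨C + C1 + C2, min ε₀ (min 1 ε2), by linarith, by positivity, ?_⟩
  intro ε hε hε'
  have u0 : ε ≤ ε₀ := hε'.trans (min_le_left _ _)
  have u1 : ε ≤ 1 := hε'.trans ((min_le_right _ _).trans (min_le_left _ _))
  have u2 : ε ≤ ε2 := hε'.trans ((min_le_right _ _).trans (min_le_right _ _))
  obtain ⟨r, θ, σ, a, η, e, x, v, hr, hSt, hL, hGo, ha, hE⟩ := H1 ε hε u0
  obtain ⟨-, hX2, hX3⟩ := HX ε hε u1 _ _ _ _ _ _ _ hSt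
  obtain ⟨η', hSt'⟩ := HS ε hε u2 _ _ _ _ _ _ _ hSt
  have k1 : C * ε ≤ (C + C1 + C2) * ε := mul_le_mul_of_nonneg_right (by linarith) hε.le
  have k2 : C1 * ε ≤ (C + C1 + C2) * ε := mul_le_mul_of_nonneg_right (by linarith) hε.le
  obtain ⟨g1, g2, g3⟩ := S.si_common k1 k2 ((γ : ℂ) • S.iota (S.xv (S.ev r))) hGo hX2 (hX3 hL)
  refine ⟨Gate.C γ :: r, θ, σ, a, η', e, Function.update x w.length (S.xv (S.ev r)),
    Function.update v w.length ((γ : ℂ) • S.iota (S.xv (S.ev r))), si_plain_C hr, ?_,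
    S.si_lv_mono (by linarith) hε.le hL, ⟨g1, g2, g3, ?_⟩, ?_, ?_⟩
  · have e1 : S.lw (Function.update v w.length ((γ : ℂ) • S.iota (S.xv (S.ev r))))
        (Gate.C γ :: w) = S.zr ((γ : ℂ) • S.iota (S.xv (S.ev r))) * S.lw v w := by
      show S.zr (Function.update v w.length ((γ : ℂ) • S.iota (S.xv (S.ev r))) w.length) *
        S.lw _ w = _
      rw [Function.update_self, ← S.si_lw w (si_upx v w.length _)]
    rw [e1]
    exact S.si_st_mono (by linarith) hε.le hSt'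
  · rw [Function.update_self, Function.update_self]
  · show ‖a + S.iota (aSum _ w)‖ ≤ _
    rw [← si_aSum w (si_upx x w.length _)]
    exact ha.trans k1
  · intro y hy
    show |(-(γ * ((inner ℂ (S.xv (S.ev r)) y) ^ 2 : ℂ).im) + S.eaux y r) -
      (-(γ * ((inner ℂ (Function.update x w.length (S.xv (S.ev r)) w.length) y) ^ 2 : ℂ).im) +
        eSum (Function.update x w.length (S.xv (S.ev r))) y w)| ≤ _
    rw [Function.update_self, ← si_eSum y w (si_upx x w.length _), add_sub_add_left_eq_sub]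
    refine (hE y hy).trans (add_le_add k1 ?_)
    exact mul_le_mul_of_nonneg_right (by linarith) (norm_nonneg _)

theorem si_B (hN : S.NStmt) (hG : S.GStmt) (hSB : S.SBStmt) {w : List Gate} (b : ℝ)
    (hb : |b| ≤ Real.pi) (hal : S.al (Gate.B b :: w) ≠ 0) (h : S.PSim w) :
    S.PSim (Gate.B b :: w) := by
  obtain ⟨C, ε₀, hC, hε₀, H1⟩ := h
  obtain ⟨C1, hC1, HX⟩ := S.xStmt hN C hC
  obtain ⟨δ, ε1, hδ, hε1, HA⟩ := S.si_align hG w [Gate.B b] rfl (fun _ => rfl) hal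
    (D := C + C1) (by linarith)
  obtain ⟨C2, ε2, hC2, hε2, HS⟩ := hSB C b δ hC hb hδ
  refine ⟨C + C1 + 5 * C2, min ε₀ (min 1 (min ε1 ε2)), by linarith, by positivity, ?_⟩
  intro ε hε hε'
  have u0 : ε ≤ ε₀ := hε'.trans (min_le_left _ _)
  have u1 : ε ≤ 1 := hε'.trans ((min_le_right _ _).trans (min_le_left _ _))
  have u2 : ε ≤ ε1 :=
    hε'.trans ((min_le_right _ _).trans ((min_le_right _ _).trans (min_le_left _ _)))
  have u3 : ε ≤ ε2 :=
    hε'.trans ((min_le_right _ _).trans ((min_le_right _ _).trans (min_le_right _ _)))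
  obtain ⟨r, θ, σ, a, η, e, x, v, hr, hSt, hL, hGo, ha, hE⟩ := H1 ε hε u0
  obtain ⟨hX1, hX2, hX3⟩ := HX ε hε u1 _ _ _ _ _ _ _ hSt
  have k1 : C * ε ≤ (C + C1 + 5 * C2) * ε := mul_le_mul_of_nonneg_right (by linarith) hε.le
  have k2 : C1 * ε ≤ (C + C1 + 5 * C2) * ε := mul_le_mul_of_nonneg_right (by linarith) hε.le
  have k3 : C * ε ≤ (C + C1) * ε := mul_le_mul_of_nonneg_right (by linarith) hε.le
  have k4 : C1 * ε ≤ (C + C1) * ε := mul_le_mul_of_nonneg_right (by linarith) hε.le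
  obtain ⟨g1, g2, g3⟩ := S.si_common k1 k2 (0 : K) hGo hX2 (hX3 hL)
  obtain ⟨f1, f2, f3⟩ := S.si_common k3 k4 (0 : K) hGo hX2 (hX3 hL)
  have e1 : S.lw (Function.update v w.length 0) (Gate.B b :: w) = S.xr b * S.lw v w := by
    show S.xr b * S.lw _ w = _
    rw [← S.si_lw w (si_upx v w.length _)]
  have e2 : ‖S.xv (S.xr b * S.ev r) -
      S.xv (S.lw (Function.update v w.length 0) ([Gate.B b] ++ w))‖ ≤ (C + C1) * ε := by
    rw [List.singleton_append, e1, S.si_xv_xr, S.si_xv_xr]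
    exact (hX1 (-b)).trans k4
  have e3 : ‖a + S.iota (aSum (Function.update x w.length (S.xv (S.ev r))) w)‖ ≤
      (C + C1) * ε := by
    rw [← si_aSum w (si_upx x w.length _)]
    exact ha.trans k3
  have hδa := HA ε hε u2 e (Function.update x w.length (S.xv (S.ev r)))
    (Function.update v w.length 0) (S.xv (S.xr b * S.ev r)) a hL.n ⟨f1, f2, f3⟩
    (S.as_norm_xv _) e2 e3
  obtain ⟨t1, t2, s1, s2, hs1, hs2, hSt'⟩ := HS ε hε u3 _ _ _ _ _ _ _ hSt hδa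
  refine ⟨wvw t1 t2 s1 s2 (Gate.B b :: r), θ, σ, a, η, e,
    Function.update x w.length (S.xv (S.ev r)), Function.update v w.length 0,
    si_plain_wvw (si_plain_B hr), ?_, S.si_lv_mono (by linarith) hε.le hL, ⟨g1, g2, g3⟩, ?_, ?_⟩
  · rw [e1, S.ev_wvw]
    exact S.si_st_mono (by linarith) hε.le hSt'
  · show ‖a + S.iota (aSum _ w)‖ ≤ _
    rw [← si_aSum w (si_upx x w.length _)]
    exact ha.trans k1
  · intro y hy
    show |S.eaux y (wvw t1 t2 s1 s2 (Gate.B b :: r)) -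
        eSum (Function.update x w.length (S.xv (S.ev r))) y w| ≤ _
    rw [← si_eSum y w (si_upx x w.length _)]
    have h1 := hE y hy
    have h2 := S.eaux_wvw t1 t2 s1 s2 (Gate.B b :: r) hy
    have h3 : S.eaux y (Gate.B b :: r) = S.eaux y r := rfl
    rw [h3] at h2
    have h4 := abs_sub_le (S.eaux y (wvw t1 t2 s1 s2 (Gate.B b :: r))) (S.eaux y r) (eSum x y w)
    have h5 : C * ‖(inner ℂ e y : ℂ)‖ ≤ (C + C1 + 5 * C2) * ‖(inner ℂ e y : ℂ)‖ :=
      mul_le_mul_of_nonneg_right (by linarith) (norm_nonneg _)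
    have h6 : C * ε + 4 * (C2 * ε) ≤ (C + C1 + 5 * C2) * ε := by
      have : 0 ≤ (C1 + C2) * ε := mul_nonneg (by linarith) hε.le
      nlinarith
    linarith

theorem si_G0 (hN : S.NStmt) {w : List Gate} (h : S.PSim w) : S.PSim (Gate.G 0 :: w) := by
  obtain ⟨C, ε₀, hC, hε₀, H1⟩ := h
  obtain ⟨C1, hC1, HX⟩ := S.xStmt hN C hC
  refine ⟨C + C1, min ε₀ 1, by linarith, by positivity, ?_⟩
  intro ε hε hε'
  have u0 : ε ≤ ε₀ := hε'.trans (min_le_left _ _)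
  have u1 : ε ≤ 1 := hε'.trans (min_le_right _ _)
  obtain ⟨r, θ, σ, a, η, e, x, v, hr, hSt, hL, hGo, ha, hE⟩ := H1 ε hε u0
  obtain ⟨-, hX2, hX3⟩ := HX ε hε u1 _ _ _ _ _ _ _ hSt
  have k1 : C * ε ≤ (C + C1) * ε := mul_le_mul_of_nonneg_right (by linarith) hε.le
  have k2 : C1 * ε ≤ (C + C1) * ε := mul_le_mul_of_nonneg_right (by linarith) hε.le
  obtain ⟨g1, g2, g3⟩ := S.si_common k1 k2 (0 : K) hGo hX2 (hX3 hL)
  have z0 : S.zr (0 : K) = 1 := by
    ext y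
    rw [zr_apply, neg_zero, S.W_zero_apply, S.W_zero_apply]
    show _ = y
    module
  refine ⟨r, θ, σ, a, η, e, Function.update x w.length (S.xv (S.ev r)),
    Function.update v w.length 0, hr, ?_, S.si_lv_mono (by linarith) hε.le hL,
    ⟨g1, g2, g3, ?_⟩, ?_, ?_⟩
  · have e1 : S.lw (Function.update v w.length 0) (Gate.G 0 :: w) = S.lw v w := by
      show S.zr (Function.update v w.length 0 w.length) * S.lw _ w = _
      rw [Function.update_self, ← S.si_lw w (si_upx v w.length _), z0, one_mul]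
    rw [e1]
    exact S.si_st_mono (by linarith) hε.le hSt
  · rw [Function.update_self, Complex.ofReal_zero, zero_smul, sub_zero, norm_zero]
    exact mul_nonneg (by linarith) hε.le
  · show ‖a + S.iota (((0 : ℝ) : ℂ) • Function.update x w.length (S.xv (S.ev r)) w.length +
      aSum _ w)‖ ≤ _
    rw [Complex.ofReal_zero, zero_smul, zero_add, ← si_aSum w (si_upx x w.length _)]
    exact ha.trans k1
  · intro y hy
    show |S.eaux y r - eSum (Function.update x w.length (S.xv (S.ev r))) y w| ≤ _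
    rw [← si_eSum y w (si_upx x w.length _)]
    refine (hE y hy).trans (add_le_add k1 ?_)
    exact mul_le_mul_of_nonneg_right (by linarith) (norm_nonneg _)

lemma si_pair {x1 x2 y e : H} {τ κ c : ℝ} (h1 : ‖x1‖ ≤ 1) (h2 : ‖x2‖ ≤ 1) (hy : ‖y‖ ≤ 1)
    (h : ‖(τ : ℂ) • (x2 - x1) - (κ : ℂ) • e‖ ≤ c) :
    |τ * ((inner ℂ x2 y) ^ 2 : ℂ).im - τ * ((inner ℂ x1 y) ^ 2 : ℂ).im| ≤
      2 * (|κ| * ‖(inner ℂ e y : ℂ)‖ + c) := by
  have e1 : τ * ((inner ℂ x2 y) ^ 2 : ℂ).im - τ * ((inner ℂ x1 y) ^ 2 : ℂ).im =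
      ((inner ℂ ((τ : ℂ) • (x2 - x1)) y) * (inner ℂ x2 y + inner ℂ x1 y) : ℂ).im := by
    rw [inner_smul_left, inner_sub_left, Complex.conj_ofReal]
    have : (τ : ℂ) * (inner ℂ x2 y - inner ℂ x1 y) * (inner ℂ x2 y + inner ℂ x1 y) =
        (τ : ℂ) * ((inner ℂ x2 y) ^ 2 - (inner ℂ x1 y) ^ 2) := by ring
    rw [this, Complex.im_ofReal_mul, Complex.sub_im]
    ring
  rw [e1]
  refine (Complex.abs_im_le_norm _).trans ?_
  rw [norm_mul]
  have h3 : ‖(inner ℂ x2 y + inner ℂ x1 y : ℂ)‖ ≤ 2 := by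
    have a1 : ‖(inner ℂ x1 y : ℂ)‖ ≤ 1 := by
      refine (norm_inner_le_norm _ _).trans ?_
      nlinarith [norm_nonneg x1, norm_nonneg y]
    have a2 : ‖(inner ℂ x2 y : ℂ)‖ ≤ 1 := by
      refine (norm_inner_le_norm _ _).trans ?_
      nlinarith [norm_nonneg x2, norm_nonneg y]
    refine (norm_add_le _ _).trans ?_
    linarith
  have h4 : ‖(inner ℂ ((τ : ℂ) • (x2 - x1)) y : ℂ)‖ ≤ |κ| * ‖(inner ℂ e y : ℂ)‖ + c := by
    have e2 : (inner ℂ ((τ : ℂ) • (x2 - x1)) y : ℂ) =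
        inner ℂ ((κ : ℂ) • e) y + inner ℂ ((τ : ℂ) • (x2 - x1) - (κ : ℂ) • e) y := by
      rw [← inner_add_left, add_sub_cancel]
    rw [e2]
    refine (norm_add_le _ _).trans (add_le_add ?_ ?_)
    · rw [inner_smul_left, norm_mul, Complex.conj_ofReal, Complex.norm_real, Real.norm_eq_abs]
    · refine (norm_inner_le_norm _ _).trans ?_
      have := norm_nonneg ((τ : ℂ) • (x2 - x1) - (κ : ℂ) • e)
      nlinarith [norm_nonneg y]
  have h5 : 0 ≤ ‖(inner ℂ ((τ : ℂ) • (x2 - x1)) y : ℂ)‖ := norm_nonneg _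
  nlinarith [norm_nonneg (inner ℂ x2 y + inner ℂ x1 y : ℂ)]

theorem si_G (hN : S.NStmt) (hG : S.GStmt) (hSG : S.SGStmt) {w : List Gate} {κ : ℝ}
    (hκ : κ ≠ 0) (hal : S.al w ≠ 0) (h : S.PSim w) : S.PSim (Gate.G κ :: w) := by
  obtain ⟨C, ε₀, hC, hε₀, H1⟩ := h
  obtain ⟨C1, hC1, HX⟩ := S.xStmt hN C hC
  obtain ⟨δ, ε1, hδ, hε1, HA⟩ := S.si_align hG w [] rfl (fun _ => rfl) hal
    (D := C + C1) (by linarith)
  obtain ⟨C2, ε2, hC2, hε2, HS⟩ := hSG C κ δ hC hκ hδ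
  have hκ0 := abs_nonneg κ
  have hC20 : 0 ≤ C2 := hC.trans hC2
  have hκC2 : 0 ≤ |κ| * C2 := mul_nonneg hκ0 hC20
  refine ⟨C + C1 + 6 * C2 + |κ| * C2 + 2 * |κ|, min ε₀ (min 1 (min ε1 ε2)), by linarith,
    by positivity, ?_⟩
  intro ε hε hε'
  have u0 : ε ≤ ε₀ := hε'.trans (min_le_left _ _)
  have u1 : ε ≤ 1 := hε'.trans ((min_le_right _ _).trans (min_le_left _ _))
  have u2 : ε ≤ ε1 :=
    hε'.trans ((min_le_right _ _).trans ((min_le_right _ _).trans (min_le_left _ _)))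
  have u3 : ε ≤ ε2 :=
    hε'.trans ((min_le_right _ _).trans ((min_le_right _ _).trans (min_le_right _ _)))
  obtain ⟨r, θ, σ, a, η, e, x, v, hr, hSt, hL, hGo, ha, hE⟩ := H1 ε hε u0
  obtain ⟨-, hX2, hX3⟩ := HX ε hε u1 _ _ _ _ _ _ _ hSt
  have hle : ∀ c, c ≤ C + C1 + 6 * C2 + |κ| * C2 + 2 * |κ| →
      c * ε ≤ (C + C1 + 6 * C2 + |κ| * C2 + 2 * |κ|) * ε := fun c hc =>
    mul_le_mul_of_nonneg_right hc hε.le
  have k3 : C * ε ≤ (C + C1) * ε := mul_le_mul_of_nonneg_right (by linarith) hε.le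
  have k4 : C1 * ε ≤ (C + C1) * ε := mul_le_mul_of_nonneg_right (by linarith) hε.le
  have hδa := HA ε hε u2 e x v (S.xv (S.ev r)) a hL.n (S.as_good_mono k3 w hGo)
    (S.as_norm_xv _) (hX2.trans k4) (ha.trans k3)
  obtain ⟨t1, t2, s1, s2, τ, hs1, hs2, hτ, HV⟩ := HS ε hε u3 _ _ _ _ _ _ _ hSt hδa
  obtain ⟨b1, b2, θ', η', hSt'⟩ := HV (S.ev (Gate.C (-τ) :: r))
    (S.ev (wvw t1 t2 s1 s2 (Gate.C (-τ) :: r)))
    (S.ev (Gate.C τ :: wvw t1 t2 s1 s2 (Gate.C (-τ) :: r))) rfl (S.ev_wvw _ _ _ _ _) rfl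
  have hr' : Plain (Gate.C τ :: wvw t1 t2 s1 s2 (Gate.C (-τ) :: r)) :=
    si_plain_C (si_plain_wvw (si_plain_C hr))
  set V2 := S.ev (wvw t1 t2 s1 s2 (Gate.C (-τ) :: r)) with hV2
  obtain ⟨g1, g2, g3⟩ := S.si_common (hle C (by linarith)) (hle C1 (by linarith))
    ((τ : ℂ) • S.iota (S.xv V2 - S.xv (S.ev r))) hGo hX2 (hX3 hL)
  refine ⟨Gate.C τ :: wvw t1 t2 s1 s2 (Gate.C (-τ) :: r), θ', -σ,
    a - ((κ / 2 : ℝ) : ℂ) • S.iota (S.xv (S.ev r) + S.xv V2), η', e,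
    Function.update x w.length (S.xv (S.ev r)),
    Function.update v w.length ((τ : ℂ) • S.iota (S.xv V2 - S.xv (S.ev r))), hr', ?_,
    S.si_lv_mono (by linarith) hε.le hL, ⟨g1, g2, g3, ?_⟩, ?_, ?_⟩
  · have e1 : S.lw (Function.update v w.length ((τ : ℂ) • S.iota (S.xv V2 - S.xv (S.ev r))))
        (Gate.G κ :: w) = S.zr ((τ : ℂ) • S.iota (S.xv V2 - S.xv (S.ev r))) * S.lw v w := by
      show S.zr (Function.update v w.length _ w.length) * S.lw _ w = _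
      rw [Function.update_self, ← S.si_lw w (si_upx v w.length _)]
    rw [e1]
    exact S.si_st_mono (by linarith) hε.le hSt'
  · rw [Function.update_self, ← map_smul, ← map_smul, ← map_sub, LinearIsometry.norm_map]
    exact b1.trans (hle C2 (by linarith))
  · show ‖a - ((κ / 2 : ℝ) : ℂ) • S.iota (S.xv (S.ev r) + S.xv V2) +
      S.iota ((κ : ℂ) • Function.update x w.length (S.xv (S.ev r)) w.length + aSum _ w)‖ ≤ _
    rw [Function.update_self, ← si_aSum w (si_upx x w.length _)]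
    have e2 : a - ((κ / 2 : ℝ) : ℂ) • S.iota (S.xv (S.ev r) + S.xv V2) +
        S.iota ((κ : ℂ) • S.xv (S.ev r) + aSum x w) =
        (a + S.iota (aSum x w)) - ((κ / 2 : ℝ) : ℂ) • S.iota (S.xv V2 - S.xv (S.ev r)) := by
      simp only [map_add, map_smul, map_sub]
      push_cast
      module
    rw [e2]
    refine (norm_sub_le _ _).trans ?_
    rw [norm_smul, LinearIsometry.norm_map, Complex.norm_real, Real.norm_eq_abs, abs_div,
      abs_two]
    have h1 : |κ| / 2 * ‖S.xv V2 - S.xv (S.ev r)‖ ≤ |κ| / 2 * (C2 * ε) :=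
      mul_le_mul_of_nonneg_left b2 (by positivity)
    have h2 : C * ε + |κ| / 2 * (C2 * ε) ≤ (C + C1 + 6 * C2 + |κ| * C2 + 2 * |κ|) * ε := by
      have : 0 ≤ (C1 + 6 * C2 + |κ| * C2 / 2 + 2 * |κ|) * ε :=
        mul_nonneg (by linarith) hε.le
      nlinarith
    linarith
  · intro y hy
    have h1 := hE y hy
    have h2 := S.eaux_wvw t1 t2 s1 s2 (Gate.C (-τ) :: r) hy
    have h3 : S.eaux y (Gate.C (-τ) :: r) =
        -((-τ) * ((inner ℂ (S.xv (S.ev r)) y) ^ 2 : ℂ).im) + S.eaux y r := rfl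
    have h4 : S.eaux y (Gate.C τ :: wvw t1 t2 s1 s2 (Gate.C (-τ) :: r)) =
        -(τ * ((inner ℂ (S.xv V2) y) ^ 2 : ℂ).im) +
          S.eaux y (wvw t1 t2 s1 s2 (Gate.C (-τ) :: r)) := rfl
    have h5 := si_pair (S.as_norm_xv (S.ev r)).le (S.as_norm_xv V2).le hy b1
    show |S.eaux y (Gate.C τ :: wvw t1 t2 s1 s2 (Gate.C (-τ) :: r)) -
        eSum (Function.update x w.length (S.xv (S.ev r))) y w| ≤ _
    rw [← si_eSum y w (si_upx x w.length _), h4]
    rw [h3, neg_mul, neg_neg] at h2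
    have h6 : (C + 6 * C2) * ε ≤ (C + C1 + 6 * C2 + |κ| * C2 + 2 * |κ|) * ε :=
      hle _ (by linarith)
    have h7 : (C + 2 * |κ|) * ‖(inner ℂ e y : ℂ)‖ ≤
        (C + C1 + 6 * C2 + |κ| * C2 + 2 * |κ|) * ‖(inner ℂ e y : ℂ)‖ :=
      mul_le_mul_of_nonneg_right (by linarith) (norm_nonneg _)
    have h8 : (C + 6 * C2) * ε = C * ε + 6 * (C2 * ε) := by ring
    have h9 : (C + 2 * |κ|) * ‖(inner ℂ e y : ℂ)‖ =
        C * ‖(inner ℂ e y : ℂ)‖ + 2 * (|κ| * ‖(inner ℂ e y : ℂ)‖) := by ring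
    rw [h8] at h6
    rw [h9] at h7
    rw [abs_le] at h1 h2 h5 ⊢
    constructor <;> linarith [h1.1, h1.2, h2.1, h2.2, h5.1, h5.2]

theorem si_base (hN : S.NStmt) (hK : S.KStmt) {κ : ℝ} (hκ : κ ≠ 0) : S.PSim [Gate.G κ] := by
  obtain ⟨C, ε₀, hC, hε₀, H⟩ := hK κ hκ
  have hκ0 := abs_nonneg κ
  have hκC : 0 ≤ |κ| * C := mul_nonneg hκ0 hC
  refine ⟨3 * C + |κ| * C + 2 * |κ|, ε₀, by positivity, hε₀, ?_⟩
  intro ε hε hε'
  have hle : ∀ c, c ≤ 3 * C + |κ| * C + 2 * |κ| →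
      c * ε ≤ (3 * C + |κ| * C + 2 * |κ|) * ε := fun c hc =>
    mul_le_mul_of_nonneg_right hc hε.le
  obtain ⟨θ, η, e, hSt, hL, h1, h2⟩ := H ε hε hε' (-κ / 2 / ε) rfl
  generalize -κ / 2 / ε = τ at hSt h1 h2
  have hx1 : S.xv (S.ev []) = S.Z S.Om := rfl
  have ek1 : S.ev [Gate.C τ] = S.k1 τ := rfl
  have ek2 : S.ev [Gate.B ε, Gate.C τ] = S.k2 ε τ := rfl
  have ek3 : S.ev [Gate.C (-τ), Gate.B ε, Gate.C τ] = S.k3 ε τ := rfl
  have hr : Plain [Gate.C (-τ), Gate.B ε, Gate.C τ] := by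
    refine si_plain_C (si_plain_B (si_plain_C ?_))
    intro g hg
    exact absurd hg (by simp)
  refine ⟨[Gate.C (-τ), Gate.B ε, Gate.C τ], θ, 1,
    ((-κ / 2 : ℝ) : ℂ) • S.iota (S.xv (S.k2 ε τ) + S.Z S.Om), η, e, fun _ => S.Z S.Om,
    fun _ => -((τ : ℂ) • S.iota (S.xv (S.k2 ε τ) - S.Z S.Om)), hr, ?_,
    S.si_lv_mono (by linarith) hε.le hL, ⟨trivial, ?_, ?_, ?_⟩, ?_, ?_⟩
  · rw [ek3]
    exact S.si_st_mono (by linarith) hε.le hSt
  · show ‖S.Z S.Om - S.xv (S.ev [])‖ ≤ _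
    rw [hx1, sub_self, norm_zero]
    positivity
  · rw [LinearIsometry.inner_map_map]
    refine (hL.perp 3 (S.Z S.Om) (hN.comm S.Z S.WZ _ _ hN.om)).trans ?_
    rw [mul_comm C 3]
    exact hle (3 * C) (by linarith)
  · show ‖-((τ : ℂ) • S.iota (S.xv (S.k2 ε τ) - S.Z S.Om)) - (κ : ℂ) • S.iota e‖ ≤ _
    rw [← map_smul, ← map_smul, ← map_neg, ← map_sub, LinearIsometry.norm_map]
    exact h1.trans (hle C (by linarith))
  · show ‖((-κ / 2 : ℝ) : ℂ) • S.iota (S.xv (S.k2 ε τ) + S.Z S.Om) +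
      S.iota ((κ : ℂ) • S.Z S.Om + 0)‖ ≤ _
    have e2 : ((-κ / 2 : ℝ) : ℂ) • S.iota (S.xv (S.k2 ε τ) + S.Z S.Om) +
        S.iota ((κ : ℂ) • S.Z S.Om + 0) =
        ((-κ / 2 : ℝ) : ℂ) • S.iota (S.xv (S.k2 ε τ) - S.Z S.Om) := by
      simp only [map_add, map_smul, map_sub, map_zero]
      push_cast
      module
    rw [e2, norm_smul, LinearIsometry.norm_map, Complex.norm_real, Real.norm_eq_abs, abs_div,
      abs_neg, abs_two]
    have h3 : |κ| / 2 * ‖S.xv (S.k2 ε τ) - S.Z S.Om‖ ≤ |κ| / 2 * (C * ε) :=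
      mul_le_mul_of_nonneg_left h2 (by positivity)
    have h4 : |κ| / 2 * (C * ε) = (|κ| * C / 2) * ε := by ring
    rw [h4] at h3
    exact h3.trans (hle _ (by linarith))
  · intro y hy
    have h3 : ‖((-τ : ℝ) : ℂ) • (S.xv (S.k2 ε τ) - S.Z S.Om) - (κ : ℂ) • e‖ ≤ C * ε := by
      rw [Complex.ofReal_neg, neg_smul]
      exact h1
    have h4 := si_pair (x1 := S.Z S.Om) (x2 := S.xv (S.k2 ε τ)) (S.as_norm_xv (S.ev [])).le
      (S.as_norm_xv _).le hy h3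
    show |(-(-τ * ((inner ℂ (S.xv (S.k2 ε τ)) y) ^ 2 : ℂ).im) +
      (-(τ * ((inner ℂ (S.Z S.Om) y) ^ 2 : ℂ).im) + 0)) - 0| ≤ _
    have h5 : (-(-τ * ((inner ℂ (S.xv (S.k2 ε τ)) y) ^ 2 : ℂ).im) +
        (-(τ * ((inner ℂ (S.Z S.Om) y) ^ 2 : ℂ).im) + 0)) - 0 =
        -(-τ * ((inner ℂ (S.xv (S.k2 ε τ)) y) ^ 2 : ℂ).im -
          -τ * ((inner ℂ (S.Z S.Om) y) ^ 2 : ℂ).im) := by ring
    rw [h5, abs_neg]
    refine h4.trans ?_
    have h6 := hle (2 * C) (by linarith)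
    have h7 : (2 * |κ|) * ‖(inner ℂ e y : ℂ)‖ ≤
        (3 * C + |κ| * C + 2 * |κ|) * ‖(inner ℂ e y : ℂ)‖ :=
      mul_le_mul_of_nonneg_right (by linarith) (norm_nonneg _)
    have h8 : 2 * (|κ| * ‖(inner ℂ e y : ℂ)‖ + C * ε) =
        2 * C * ε + 2 * |κ| * ‖(inner ℂ e y : ℂ)‖ := by ring
    rw [h8]
    exact add_le_add h6 h7

/-- **master induction** -/
theorem simStmt (hN : S.NStmt) (hG : S.GStmt) (hK : S.KStmt) (hSC : S.SCStmt) (hSB : S.SBStmt)
    (hSG : S.SGStmt) : S.SimStmt := by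
  intro u κ hu
  obtain ⟨u0, b0, hu0⟩ := hu.first
  have hκ : κ ≠ 0 := by
    intro h
    refine hu.al [Gate.B b0] (by simp) ⟨u0, hu0.symm⟩ ?_
    rw [h]
    show (0 : ℝ) * _ + 0 = 0
    rw [zero_mul, add_zero]
  have key : ∀ u' : List Gate, u' <:+ u → S.PSim (u' ++ [Gate.G κ]) := by
    intro u'
    induction u' with
    | nil => intro _; exact S.si_base hN hK hκ
    | cons g u' ih =>
      intro hs
      have hs' : u' <:+ u := (List.suffix_cons g u').trans hs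
      have ih' := ih hs'
      cases g with
      | B b =>
        exact S.si_B hN hG hSB b (hu.b_le b (hs.subset (by simp)))
          (hu.al (Gate.B b :: u') (by simp) hs) ih'
      | C γ => exact S.si_C hN hSC γ ih'
      | G κ' =>
        by_cases hκ' : κ' = 0
        · rw [hκ']
          exact S.si_G0 hN ih'
        · have hne : u' ≠ [] := by
            intro h
            rw [h, hu0] at hs
            obtain ⟨t, ht⟩ := hs
            have h2 := (List.append_inj' ht rfl).2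
            simp at h2
          exact S.si_G hN hG hSG hκ' (hu.al u' hne hs') ih'
  exact key u (List.suffix_refl u)

end Sys

end Vale.Agent.P367.A
end

section

/-! P367, Theorem A, final form: every labelled word is approximated in energy by plain words
`plain γ β p`. -/

namespace Vale.Agent.P367.A

open Complex Filter Topology

open Vale.Agent.P367.NI (Gate HH dg zop Weyl plain)

section bridge

variable {F K : Type} [NormedAddCommGroup F] [InnerProductSpace ℂ F]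
  [NormedAddCommGroup K] [InnerProductSpace ℂ K]

/-- Pauli `X` -/
noncomputable def swp (F : Type) [NormedAddCommGroup F] [InnerProductSpace ℂ F] :
    HH F ≃ₗᵢ[ℂ] HH F where
  toFun x := WithLp.toLp 2 (x.snd, x.fst)
  invFun x := WithLp.toLp 2 (x.snd, x.fst)
  map_add' _ _ := rfl
  map_smul' _ _ := rfl
  left_inv _ := rfl
  right_inv _ := rfl
  norm_map' x := by
    refine (sq_eq_sq₀ (norm_nonneg _) (norm_nonneg _)).1 ?_
    rw [NI.normsq_HH, NI.normsq_HH, add_comm]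
    rfl

@[simp] lemma swp_fst (x : HH F) : (swp F x).fst = x.snd := rfl
@[simp] lemma swp_snd (x : HH F) : (swp F x).snd = x.fst := rfl

lemma hh_ext {x y : HH F} (h1 : x.fst = y.fst) (h2 : x.snd = y.snd) : x = y := by
  apply (WithLp.equiv 2 (F × F)).injective
  exact Prod.ext h1 h2

lemma sqrt_two_inv_sq : (((Real.sqrt 2)⁻¹ : ℝ) : ℂ) * (((Real.sqrt 2)⁻¹ : ℝ) : ℂ) = 1 / 2 := by
  rw [← Complex.ofReal_mul, ← mul_inv, Real.mul_self_sqrt (by norm_num)]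
  norm_num

lemma omH_vac (S : Weyl F K) (a : K) :
    inner ℂ S.OmH (dg (S.W a) (S.W a) S.OmH) = Complex.exp (-((‖a‖ ^ 2 / 2 : ℝ) : ℂ)) := by
  rw [NI.inner_HH]
  show inner ℂ ((((Real.sqrt 2)⁻¹ : ℝ) : ℂ) • S.Om) (S.W a ((((Real.sqrt 2)⁻¹ : ℝ) : ℂ) • S.Om)) +
    inner ℂ ((((Real.sqrt 2)⁻¹ : ℝ) : ℂ) • S.Om) (S.W a ((((Real.sqrt 2)⁻¹ : ℝ) : ℂ) • S.Om)) = _
  rw [map_smul, inner_smul_left, inner_smul_right, Complex.conj_ofReal, S.vac, ← mul_assoc,
    sqrt_two_inv_sq]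
  ring

lemma omH_norm (S : Weyl F K) : ‖S.OmH‖ = 1 := by
  have h := omH_vac S 0
  have h1 : dg (S.W 0) (S.W 0) S.OmH = S.OmH := hh_ext (S.W_zero _) (S.W_zero _)
  rw [h1, inner_self_eq_norm_sq_to_K] at h
  have h2 : ‖S.OmH‖ ^ 2 = 1 := by
    have h3 : ((‖S.OmH‖ : ℂ)) ^ 2 = 1 := by
      rw [norm_zero] at h
      simpa using h
    exact_mod_cast h3
  have h4 := norm_nonneg S.OmH
  nlinarith [h2, h4]

/-- the spin-Weyl system of a Weyl system -/
noncomputable def toSys (S : Weyl F K) : Sys (HH F) K where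
  X := swp F
  Z := zop F
  W a := dg (S.W a) (S.W a)
  Om := S.OmH
  iota := S.iota
  e0 := S.e0
  XX _ := rfl
  ZZ x := hh_ext rfl (by simp)
  XZ x := hh_ext (by simp) (by simp)
  WW a b x := hh_ext (S.W_mul a b x.fst) (S.W_mul a b x.snd)
  WX _ _ := rfl
  WZ a x := hh_ext rfl (by simp)
  XOm := rfl
  nOm := omH_norm S
  vac a := omH_vac S a
  ne0 := S.norm_e0
  e0perp := S.e0_perp

variable (S : Weyl F K)

lemma toSys_xr (b : ℝ) : (toSys S).xr b = NI.xr b := by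
  ext x
  refine hh_ext ?_ ?_
  · rw [Sys.xr_apply]
    rfl
  · rw [Sys.xr_apply]
    show (Real.cos b : ℂ) • x.snd - (Complex.I * (Real.sin b : ℂ)) • x.fst =
      -((Complex.I * (Real.sin b : ℂ)) • x.fst) + (Real.cos b : ℂ) • x.snd
    rw [sub_eq_neg_add]

lemma toSys_zr (v : K) : (toSys S).zr v = S.zr v := by
  ext x
  refine hh_ext ?_ ?_
  · rw [Sys.zr_apply]
    show (1 / 2 : ℂ) • (S.W (-v) x.fst + S.W v x.fst) +
      (1 / 2 : ℂ) • (S.W (-v) x.fst - S.W v x.fst) = S.W (-v) x.fst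
    module
  · rw [Sys.zr_apply]
    show (1 / 2 : ℂ) • (S.W (-v) x.snd + S.W v x.snd) +
      (1 / 2 : ℂ) • (S.W (-v) (-x.snd) - S.W v (-x.snd)) = S.W v x.snd
    rw [map_neg, map_neg]
    module

lemma toSys_xv (V : HH F ≃ₗᵢ[ℂ] HH F) : (toSys S).xv V = S.xv V := rfl

lemma toSys_ev (w : List Gate) : (toSys S).ev w = S.ev w := by
  induction w with
  | nil => rfl
  | cons g w ih =>
    cases g with
    | B b =>
      show (toSys S).xr b * (toSys S).ev w = (S.ev w).trans (NI.xr b)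
      rw [ih, toSys_xr]
      rfl
    | C γ =>
      show (toSys S).zr ((γ : ℂ) • S.iota (S.xv ((toSys S).ev w))) * (toSys S).ev w =
        (S.ev w).trans (S.zr ((γ : ℂ) • S.iota (S.xv (S.ev w))))
      rw [ih, toSys_zr]
      rfl
    | G κ =>
      show (toSys S).zr ((κ : ℂ) • S.e0) * (toSys S).ev w = (S.ev w).trans (S.zr ((κ : ℂ) • S.e0))
      rw [ih, toSys_zr]
      rfl

lemma toSys_eaux (w : List Gate) (y : HH F) : (toSys S).eaux y w = S.eaux y w := by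
  induction w with
  | nil => rfl
  | cons g w ih =>
    cases g with
    | B b => exact ih
    | C γ =>
      show -(γ * ((inner ℂ (S.xv ((toSys S).ev w)) y) ^ 2 : ℂ).im) + (toSys S).eaux y w = _
      rw [ih, toSys_ev]
      rfl
    | G κ => exact ih

lemma toSys_energy (w : List Gate) : (toSys S).energy w = S.energy w := by
  show (toSys S).eaux (S.xv ((toSys S).ev w)) w = S.eaux (S.xv (S.ev w)) w
  rw [toSys_ev, toSys_eaux]

lemma toSys_laux (w : List Gate) (y : HH F) : (toSys S).laux y w = S.laux y w := by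
  induction w with
  | nil => rfl
  | cons g w ih =>
    cases g with
    | B b => exact ih
    | C γ => exact ih
    | G κ =>
      show κ * (inner ℂ (S.xv ((toSys S).ev w)) y : ℂ).im + (toSys S).laux y w = _
      rw [ih, toSys_ev]
      rfl

lemma toSys_al (w : List Gate) : (toSys S).al w = S.al w := by
  show (toSys S).laux (S.xv ((toSys S).ev w)) w = S.laux (S.xv (S.ev w)) w
  rw [toSys_ev, toSys_laux]

/-! ### Plain words -/

lemma plain_congr {γ γ' β β' : ℕ → ℝ} : ∀ {p : ℕ}, (∀ k < p, γ k = γ' k) →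
    (∀ k < p, β k = β' k) → plain γ β p = plain γ' β' p := by
  intro p
  induction p with
  | zero => intro _ _; rfl
  | succ p ih =>
    intro h1 h2
    rw [plain, plain, h1 p (Nat.lt_succ_self p), h2 p (Nat.lt_succ_self p),
      ih (fun k hk => h1 k (Nat.lt_succ_of_lt hk)) (fun k hk => h2 k (Nat.lt_succ_of_lt hk))]

/-- every word in `B`, `C` gates is equivalent to a word `plain γ β p` -/
lemma exists_plain : ∀ r : List Gate, Plain r → ∃ γ β : ℕ → ℝ,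
    S.ev (plain γ β r.length) = S.ev r ∧
      ∀ y, S.eaux y (plain γ β r.length) = S.eaux y r := by
  intro r
  induction r with
  | nil => intro _; exact ⟨fun _ => 0, fun _ => 0, rfl, fun _ => rfl⟩
  | cons g r ih =>
    intro hr
    obtain ⟨γ, β, h1, h2⟩ := ih fun g' hg' => hr g' (List.mem_cons_of_mem _ hg')
    have key : ∀ c b : ℝ,
        plain (Function.update γ r.length c) (Function.update β r.length b) (r.length + 1) =
          Gate.B b :: Gate.C c :: plain γ β r.length := by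
      intro c b
      rw [plain, Function.update_self, Function.update_self]
      congr 2
      refine plain_congr ?_ ?_ <;>
      · intro k hk
        rw [Function.update_of_ne (by omega)]
    have hz : S.zr (((0 : ℝ) : ℂ) • S.iota (S.xv (S.ev r))) = LinearIsometryEquiv.refl ℂ (HH F) := by
      rw [Complex.ofReal_zero, zero_smul]
      exact NI.zr_zero
    cases g with
    | B b =>
      refine ⟨Function.update γ r.length 0, Function.update β r.length b, ?_, fun y => ?_⟩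
      · rw [List.length_cons, key]
        show ((S.ev (plain γ β r.length)).trans (S.zr (((0 : ℝ) : ℂ) •
          S.iota (S.xv (S.ev (plain γ β r.length)))))).trans (NI.xr b) = (S.ev r).trans (NI.xr b)
        rw [h1, hz]
        rfl
      · rw [List.length_cons, key]
        show -(0 * ((inner ℂ (S.xv (S.ev (plain γ β r.length))) y) ^ 2 : ℂ).im) +
          S.eaux y (plain γ β r.length) = S.eaux y r
        rw [h2, zero_mul, neg_zero, zero_add]
    | C c =>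
      refine ⟨Function.update γ r.length c, Function.update β r.length 0, ?_, fun y => ?_⟩
      · rw [List.length_cons, key]
        show ((S.ev (plain γ β r.length)).trans (S.zr ((c : ℂ) •
          S.iota (S.xv (S.ev (plain γ β r.length)))))).trans (NI.xr 0) =
          (S.ev r).trans (S.zr ((c : ℂ) • S.iota (S.xv (S.ev r))))
        rw [h1, NI.xr_zero]
        rfl
      · rw [List.length_cons, key]
        show -(c * ((inner ℂ (S.xv (S.ev (plain γ β r.length))) y) ^ 2 : ℂ).im) +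
          S.eaux y (plain γ β r.length) = -(c * ((inner ℂ (S.xv (S.ev r)) y) ^ 2 : ℂ).im) + S.eaux y r
        rw [h1, h2]
    | G k => exact absurd rfl (hr (Gate.G k) List.mem_cons_self k)

lemma exists_plain_energy (r : List Gate) (hr : Plain r) :
    ∃ (p : ℕ) (γ β : ℕ → ℝ), S.energy (plain γ β p) = S.energy r := by
  obtain ⟨γ, β, h1, h2⟩ := exists_plain S r hr
  refine ⟨r.length, γ, β, ?_⟩
  show S.eaux (S.xv (S.ev (plain γ β r.length))) (plain γ β r.length) =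
    S.eaux (S.xv (S.ev r)) r
  rw [h1, h2]

/-- **Theorem A**, final form, from the statement for admissible words -/
theorem final_of (hA : (toSys S).AStmt) (W : List Gate) {d : ℝ} (hd : 0 < d) :
    ∃ (p : ℕ) (γ β : ℕ → ℝ), |S.energy (plain γ β p) - S.energy W| < d := by
  obtain ⟨u, hu1, hu2, hu3⟩ := NI.perturb S W (half_pos hd)
  have hadm : (toSys S).Adm (u ++ [Gate.B (Real.pi / 4)]) 1 := by
    constructor
    · intro b hb
      rcases List.mem_append.1 hb with h | h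
      · exact hu1 b h
      · have : b = Real.pi / 4 := by
          have h' := List.mem_singleton.1 h
          injection h'
        rw [this, abs_of_pos (by positivity)]
        linarith [Real.pi_pos]
    · exact ⟨u, _, rfl⟩
    · intro u' hne hsuf
      rw [toSys_al]
      obtain ⟨v, rfl, hv⟩ : ∃ v, u' = v ++ [Gate.B (Real.pi / 4)] ∧ v <:+ u := by
        obtain ⟨s, hs⟩ := hsuf
        obtain ⟨v, g, rfl⟩ : ∃ v g, u' = v ++ [g] :=
          ⟨u'.dropLast, u'.getLast hne, (List.dropLast_append_getLast hne).symm⟩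
        rw [← List.append_assoc] at hs
        have h1 := List.append_inj' hs rfl
        exact ⟨v, by rw [h1.2], ⟨s, h1.1⟩⟩
      have := hu2 v hv
      rwa [List.append_assoc]
  obtain ⟨r, hr, hr2⟩ := hA _ _ hadm _ (half_pos hd)
  obtain ⟨p, γ, β, hp⟩ := exists_plain_energy S r hr
  refine ⟨p, γ, β, ?_⟩
  rw [toSys_energy, toSys_energy, List.append_assoc] at hr2
  rw [hp]
  calc |S.energy r - S.energy W| ≤ |S.energy r - S.energy (u ++ ([Gate.B (Real.pi / 4)] ++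
        [Gate.G 1]))| + |S.energy (u ++ ([Gate.B (Real.pi / 4)] ++ [Gate.G 1])) - S.energy W| :=
        abs_sub_le _ _ _
    _ < d / 2 + d / 2 := add_lt_add hr2 hu3
    _ = d := add_halves d

end bridge

end Vale.Agent.P367.A
end

section

/-! P367, block B, T2: final assembly, part 1 (helper739): block phases as label functions. -/

namespace Vale.Agent.P367.A

open Complex Filter Topology MeasureTheory

namespace LSys

variable {H K : Type*} [NormedAddCommGroup H] [InnerProductSpace ℂ H]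
  [NormedAddCommGroup K] [InnerProductSpace ℂ K] (L : LSys H K)

lemma fa_ind_sum {N : ℕ} {b : ℕ → Set ℝ} (hd : ∀ i < N, ∀ j < N, i ≠ j → Disjoint (b i) (b j))
    {α : Type*} [AddCommMonoid α] (g : ℕ → α) {i : ℕ} (hi : i < N) {t : ℝ} (ht : t ∈ b i) :
    ∑ j ∈ Finset.range N, (b j).indicator (fun _ => g j) t = g i := by
  rw [Finset.sum_eq_single i]
  · exact Set.indicator_of_mem ht _
  · intro j hj hji
    refine Set.indicator_of_notMem (fun h => ?_) _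
    exact (Set.disjoint_left.1 (hd j (Finset.mem_range.1 hj) i hi hji)) h ht
  · intro h
    exact absurd (Finset.mem_range.2 hi) h

lemma fa_ind_sum_off {N : ℕ} {b : ℕ → Set ℝ} {α : Type*} [AddCommMonoid α] (g : ℕ → α) {t : ℝ}
    (ht : ∀ i < N, t ∉ b i) :
    ∑ j ∈ Finset.range N, (b j).indicator (fun _ => g j) t = 0 :=
  Finset.sum_eq_zero fun j hj => Set.indicator_of_notMem (ht j (Finset.mem_range.1 hj)) _

lemma fa_E_sum {N : ℕ} {b : ℕ → Set ℝ} {G : Set ℝ} (hb : ∀ i < N, MeasurableSet (b i))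
    (hd : ∀ i < N, ∀ j < N, i ≠ j → Disjoint (b i) (b j)) (hG : G = ⋃ i ∈ Finset.range N, b i)
    (y : H) : L.E G y = ∑ i ∈ Finset.range N, L.E (b i) y := by
  have h1 : G.indicator (fun _ => (1 : ℂ))
      = fun t => ∑ j ∈ Finset.range N, (b j).indicator (fun _ => (1 : ℂ)) t := by
    funext t
    by_cases ht : t ∈ G
    · rw [Set.indicator_of_mem ht]
      have ht' := ht
      rw [hG] at ht'
      simp only [Set.mem_iUnion, Finset.mem_range] at ht'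
      obtain ⟨i, hi, hti⟩ := ht'
      exact (fa_ind_sum hd (fun _ => (1 : ℂ)) hi hti).symm
    · rw [Set.indicator_of_notMem ht]
      refine (fa_ind_sum_off (fun _ => (1 : ℂ)) ?_).symm
      intro i hi hti
      apply ht
      rw [hG]
      simp only [Set.mem_iUnion, Finset.mem_range]
      exact ⟨i, hi, hti⟩
  unfold E
  rw [h1, L.lab_sum _ fun i hi => bm_ind (hb i (Finset.mem_range.1 hi)),
    FunLike.coe_sum, Finset.sum_apply]

lemma fa_pyth {N : ℕ} {b : ℕ → Set ℝ} (hb : ∀ i < N, MeasurableSet (b i))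
    (hd : ∀ i < N, ∀ j < N, i ≠ j → Disjoint (b i) (b j)) (w : ℕ → H) :
    ‖∑ i ∈ Finset.range N, L.E (b i) (w i)‖ ^ 2
      = ∑ i ∈ Finset.range N, ‖L.E (b i) (w i)‖ ^ 2 := by
  have h1 : (inner ℂ (∑ i ∈ Finset.range N, L.E (b i) (w i))
      (∑ i ∈ Finset.range N, L.E (b i) (w i)) : ℂ)
      = ∑ i ∈ Finset.range N, ((‖L.E (b i) (w i)‖ : ℂ)) ^ 2 := by
    rw [sum_inner]
    refine Finset.sum_congr rfl fun i hi => ?_
    rw [inner_sum, Finset.sum_eq_single i]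
    · exact inner_self_eq_norm_sq_to_K _
    · intro j hj hji
      rw [L.o_E_sa (b i) (hb i (Finset.mem_range.1 hi)),
        L.o_E_disj (hb i (Finset.mem_range.1 hi)) (hb j (Finset.mem_range.1 hj))
          (hd i (Finset.mem_range.1 hi) j (Finset.mem_range.1 hj) (Ne.symm hji)), inner_zero_right]
    · intro h
      exact absurd hi h
  rw [inner_self_eq_norm_sq_to_K] at h1
  apply Complex.ofReal_injective
  rw [Complex.ofReal_pow, Complex.ofReal_sum]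
  simp only [Complex.ofReal_pow]
  exact h1

/-- block phases are given by a bounded label function -/
theorem fa_phase {N : ℕ} {b : ℕ → Set ℝ} {G : Set ℝ} (hb : ∀ i < N, MeasurableSet (b i))
    (hd : ∀ i < N, ∀ j < N, i ≠ j → Disjoint (b i) (b j)) (hG : G = ⋃ i ∈ Finset.range N, b i)
    (c : ℕ → ℂ) (hc : ∀ i < N, ‖c i‖ = 1) :
    ∃ f : ℝ → ℝ, Measurable f ∧ (∃ C : ℝ, ∀ t, |f t| ≤ C) ∧ (∀ t, t ∉ G → f t = 0) ∧
      ∀ y z : H, ‖L.lab (fun t => Complex.exp (Complex.I * (f t : ℂ))) (L.E G y) - L.E G z‖ ^ 2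
        = ∑ i ∈ Finset.range N, ‖c i • L.E (b i) y - L.E (b i) z‖ ^ 2 := by
  classical
  set f : ℝ → ℝ := fun t => ∑ j ∈ Finset.range N, (b j).indicator (fun _ => (c j).arg) t with hf
  have hfm : Measurable f := by
    refine Finset.measurable_fun_sum _ fun j hj => ?_
    exact measurable_const.indicator (hb j (Finset.mem_range.1 hj))
  have hmem : ∀ t, t ∈ G → ∃ i < N, t ∈ b i := by
    intro t ht
    rw [hG] at ht
    simp only [Set.mem_iUnion, Finset.mem_range] at ht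
    obtain ⟨i, hi, hti⟩ := ht
    exact ⟨i, hi, hti⟩
  have hoff : ∀ t, t ∉ G → f t = 0 := by
    intro t ht
    refine fa_ind_sum_off _ ?_
    intro i hi hti
    apply ht
    rw [hG]
    simp only [Set.mem_iUnion, Finset.mem_range]
    exact ⟨i, hi, hti⟩
  refine ⟨f, hfm, ⟨Real.pi, fun t => ?_⟩, hoff, ?_⟩
  · by_cases ht : t ∈ G
    · obtain ⟨i, hi, hti⟩ := hmem t ht
      rw [hf]
      simp only
      rw [fa_ind_sum hd (fun j => (c j).arg) hi hti]
      exact Complex.abs_arg_le_pi _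
    · rw [hoff t ht, abs_zero]
      exact Real.pi_pos.le
  · intro y z
    have hB : Bm (fun t => Complex.exp (Complex.I * (f t : ℂ))) := by
      refine ⟨Complex.measurable_exp.comp (measurable_const.mul
        (Complex.measurable_ofReal.comp hfm)), 1, fun t => ?_⟩
      change ‖Complex.exp (Complex.I * (f t : ℂ))‖ ≤ 1
      rw [mul_comm, Complex.norm_exp_ofReal_mul_I]
    have h1 : ∀ i < N, L.lab (fun t => Complex.exp (Complex.I * (f t : ℂ))) (L.E (b i) y)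
        = c i • L.E (b i) y := by
      intro i hi
      have h2 := L.lab_mul _ _ hB (bm_ind (hb i hi))
      have h3 : (fun t => Complex.exp (Complex.I * (f t : ℂ)) * (b i).indicator (fun _ => (1 : ℂ)) t)
          = fun t => c i * (b i).indicator (fun _ => (1 : ℂ)) t := by
        funext t
        by_cases ht : t ∈ b i
        · rw [Set.indicator_of_mem ht]
          congr 1
          have h4 : f t = (c i).arg := fa_ind_sum hd (fun j => (c j).arg) hi ht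
          rw [h4, mul_comm Complex.I]
          have h5 := Complex.norm_mul_exp_arg_mul_I (c i)
          rw [hc i hi, Complex.ofReal_one, one_mul] at h5
          exact h5
        · rw [Set.indicator_of_notMem ht, mul_zero, mul_zero]
      rw [h3, L.lab_smul (c i) (bm_ind (hb i hi))] at h2
      have h6 := congrArg (fun T : H →L[ℂ] H => T y) h2
      exact h6.symm
    rw [L.fa_E_sum hb hd hG y, L.fa_E_sum hb hd hG z, map_sum]
    have e1 : (∑ i ∈ Finset.range N, L.lab (fun t => Complex.exp (Complex.I * (f t : ℂ)))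
        (L.E (b i) y)) - ∑ i ∈ Finset.range N, L.E (b i) z
        = ∑ i ∈ Finset.range N, L.E (b i) (c i • y - z) := by
      rw [← Finset.sum_sub_distrib]
      refine Finset.sum_congr rfl fun i hi => ?_
      rw [h1 i (Finset.mem_range.1 hi), map_sub, map_smul]
    rw [e1, L.fa_pyth hb hd]
    refine Finset.sum_congr rfl fun i _ => ?_
    rw [map_sub, map_smul]

end LSys

end Vale.Agent.P367.A
end

section

/-! P367, block B, T2: the core statement of the sweep analysis and the final assembly of the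
finite form of T2 (helper739). -/

namespace Vale.Agent.P367.A

open Complex Filter Topology MeasureTheory

namespace LSys

variable {H K : Type} [NormedAddCommGroup H] [InnerProductSpace ℂ H]
  [NormedAddCommGroup K] [InnerProductSpace ℂ K] (L : LSys H K)

variable (hc : ∀ x : H, Tendsto (fun a => L.W a x) (𝓝 0) (𝓝 x))

/-- (CORE) sweep analysis: for small `mu` and fine partitions the end of a sweep is close to
`U V0` on `G`, up to block phases. -/
def CoreStmt [CompleteSpace H] : Prop :=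
  ∀ (G r : Set ℝ) (𝔄 : Set (H →L[ℂ] H)) (sg : H →L[ℂ] H) (s : ℝ) (V0 U : H ≃ₗᵢ[ℂ] H),
    MeasurableSet G → MeasurableSet r → Disjoint G r → L.mu r ≠ 0 → L.Ctl 𝔄 → L.Sgn G 𝔄 sg →
    (∀ a ∈ 𝔄, ∀ x, a (V0 x) = V0 (a x)) → (∀ x, L.E r (V0 x) = L.E r x) →
    L.IsProd G sg s V0 U →
    ∀ (F : Finset H) (ε : ℝ), 0 < ε →
      ∃ mu0 : ℝ, 0 < mu0 ∧ ∀ mu : ℝ, 0 < mu → mu < mu0 → ∃ de : ℝ, 0 < de ∧
        ∀ (N : ℕ) (b : ℕ → Set ℝ), (∀ i, MeasurableSet (b i)) →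
          (∀ i j, i ≠ j → Disjoint (b i) (b j)) → (⋃ i ∈ Finset.range N, b i) = G →
          (∀ i, b i ⊆ G) → (∀ i, L.mu.real (b i) ≤ de) →
          ∀ (V V1 V2 : ℕ → (H ≃ₗᵢ[ℂ] H)) (co cr : ℕ → ℂ), V 0 = V0 →
            (∀ i, ∀ a ∈ 𝔄, ∀ x, a (V i x) = V i (a x)) →
            (∀ i, ∀ a ∈ 𝔄, ∀ x, a (V1 i x) = V1 i (a x)) →
            (∀ i, ∀ a ∈ 𝔄, ∀ x, a (V2 i x) = V2 i (a x)) →
            (∀ i, L.StepRel hc G r (b i) sg s mu
              (Real.pi / (4 * mu ^ 2 * Real.sqrt (L.mu.real r)))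
              (-(mu ^ 2 / Real.sqrt (L.mu.real r)))
              (V i) (V1 i) (V2 i) (V (i + 1)) (co i) (cr i)) →
            ∃ c : ℕ → ℂ, (∀ i < N, ‖c i‖ = 1) ∧ ∀ x ∈ F,
              ∑ i ∈ Finset.range N,
                ‖c i • L.E (b i) (V N x) - L.E (b i) (U (V0 x))‖ ^ 2 ≤ ε ^ 2

/-- **(FA)** finite form of T2 from the sweep analysis and the existence of sweeps -/
theorem fa [CompleteSpace H] (hcore : L.CoreStmt hc) (hsweep : L.SweepStmt hc) : L.T2FinStmt := by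
  intro G 𝔄 Rch hG hA hcl M R r V0 sg s hV0 hr hrM hGr hr0 hV0r hsg U hU F ε hε
  obtain ⟨mu0, hmu0, h1⟩ := hcore G r 𝔄 sg s V0 U hG hr hGr hr0 hA hsg (hcl.comm M R V0 hV0) hV0r hU
    F ε hε
  obtain ⟨de, hde, h2⟩ := h1 (mu0 / 2) (by linarith) (by linarith)
  obtain ⟨N, b, hb, hbd, hbG, hbs, _, hbde⟩ := L.exists_part hG hde
  obtain ⟨V, V1, V2, co, cr, hV, hRV, hRV1, hRV2, hst, hoff⟩ := hsweep G 𝔄 Rch hG hA hcl M R r V0 sg s
    (mu0 / 2) (Real.pi / (4 * (mu0 / 2) ^ 2 * Real.sqrt (L.mu.real r)))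
    (-((mu0 / 2) ^ 2 / Real.sqrt (L.mu.real r))) b hV0 hr hrM hGr hsg hb hbs
  obtain ⟨c, hc1, hc2⟩ := h2 N b hb hbd hbG hbs hbde V V1 V2 co cr hV
    (fun i => hcl.comm M R _ (hRV i)) (fun i => hcl.comm M R _ (hRV1 i))
    (fun i => hcl.comm M R _ (hRV2 i)) hst
  obtain ⟨f, hf1, hf2, hf3, hf4⟩ := L.fa_phase (fun i _ => hb i) (fun i _ j _ hij => hbd i j hij)
    hbG.symm c hc1
  refine ⟨V N, f, hf1, hf2, hf3, hRV N, hoff N, fun x hx => ?_⟩
  have h3 := hf4 (V N x) (U (V0 x))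
  have h4 := hc2 x hx
  rw [← h3] at h4
  exact (sq_le_sq₀ (norm_nonneg _) hε.le).1 h4

end LSys

end Vale.Agent.P367.A
end

section

/-! P367 block B: identification of the limit of the bounded gates with Weyl operators. -/

namespace Vale.Agent.P367.B

open Filter Topology Complex

namespace WFam

variable {K E : Type} [NormedAddCommGroup K] [InnerProductSpace ℂ K]
  [NormedAddCommGroup E] [InnerProductSpace ℂ E] [CompleteSpace E] (T : WFam K E)

lemma op_moll (v : K) (z : E) (r τ : ℝ) : T.W ((τ : ℂ) • v) (T.moll v z r)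
    = ((r : ℂ))⁻¹ • ∫ t in τ..(r + τ), T.orb v z t := by
  have hc := T.continuous_orb v z
  have hi : ∀ a b : ℝ, IntervalIntegrable (T.orb v z) MeasureTheory.volume a b :=
    fun a b => hc.intervalIntegrable a b
  have h1 : T.op ((τ : ℂ) • v) (∫ t in (0:ℝ)..r, T.orb v z t)
      = ∫ t in τ..(r + τ), T.orb v z t := by
    rw [← ContinuousLinearMap.intervalIntegral_comp_comm _ (hi 0 r)]
    have : (fun t => T.op ((τ : ℂ) • v) (T.orb v z t)) = fun t => T.orb v z (t + τ) := by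
      funext t
      rw [op_apply, T.W_orb, add_comm]
    rw [this, intervalIntegral.integral_comp_add_right, zero_add]
  unfold moll
  rw [map_smul, ← h1]
  rfl

lemma hasDerivAt_moll (v : K) (z : E) (r τ : ℝ) :
    HasDerivAt (fun τ : ℝ => T.W ((τ : ℂ) • v) (T.moll v z r))
      (((r : ℂ))⁻¹ • (T.orb v z (r + τ) - T.orb v z τ)) τ := by
  have hc := T.continuous_orb v z
  have hi : ∀ a b : ℝ, IntervalIntegrable (T.orb v z) MeasureTheory.volume a b :=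
    fun a b => hc.intervalIntegrable a b
  have e : (fun τ : ℝ => T.W ((τ : ℂ) • v) (T.moll v z r))
      = fun τ : ℝ => ((r : ℂ))⁻¹ • ((∫ t in (0:ℝ)..(r + τ), T.orb v z t)
        - ∫ t in (0:ℝ)..τ, T.orb v z t) := by
    funext τ
    rw [T.op_moll]
    congr 1
    rw [intervalIntegral.integral_interval_sub_left (hi _ _) (hi _ _)]
  rw [e]
  have h1 : HasDerivAt (fun u : ℝ => ∫ t in (0:ℝ)..u, T.orb v z t) (T.orb v z τ) τ :=
    intervalIntegral.integral_hasDerivAt_right (hi _ _)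
      (hc.stronglyMeasurableAtFilter _ _) hc.continuousAt
  have h2 : HasDerivAt (fun u : ℝ => ∫ t in (0:ℝ)..u, T.orb v z t) (T.orb v z (r + τ)) (r + τ) :=
    intervalIntegral.integral_hasDerivAt_right (hi _ _)
      (hc.stronglyMeasurableAtFilter _ _) hc.continuousAt
  have h3 : HasDerivAt (fun τ : ℝ => ∫ t in (0:ℝ)..(r + τ), T.orb v z t)
      (T.orb v z (r + τ)) τ := h2.comp_const_add r τ
  exact (h3.sub h1).const_smul _

/-- (O5) the bounded gate is close to the Weyl operator -/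
lemma norm_ex_sub_W_le (v : K) (z : E) {r μ σ : ℝ} (hr : 0 < r) (hμ : 0 < μ) (hσ : 0 ≤ σ)
    {κ κ' : ℝ} (h0 : ∀ t ∈ Set.Icc (0:ℝ) r, ‖T.orb v z t - z‖ ≤ κ)
    (h1 : ∀ t ∈ Set.Icc (-μ) μ, ‖T.orb v z t - z‖ ≤ κ') :
    ‖ex (((σ : ℂ)) • (((μ : ℂ))⁻¹ • T.sn ((μ : ℂ) • v))) z - T.W ((σ : ℂ) • v) z‖
      ≤ 2 * κ + σ * (2 * κ' / r) := by
  set A : E →L[ℂ] E := ((μ : ℂ))⁻¹ • T.sn ((μ : ℂ) • v) with hA
  have hAs : IsSelfAdjoint A := by
    rw [isSelfAdjoint_iff, hA, star_smul, (T.sn_sa _).star_eq]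
    congr 1
    rw [star_inv₀]; simp
  have hsa : ∀ t : ℝ, IsSelfAdjoint ((t : ℂ) • A) := by
    intro t
    rw [isSelfAdjoint_iff, star_smul, hAs.star_eq]
    congr 1
    simp
  set y := T.moll v z r with hy
  have h3 : ‖y - z‖ ≤ κ := T.norm_moll_sub_le _ _ hr h0
  have h4 : ‖A y - (Complex.I * r)⁻¹ • (T.orb v z r - z)‖ ≤ 2 * κ' / r :=
    T.norm_sn_moll_sub_le v z hr hμ h1
  have hcomm : ∀ t : ℝ, ∀ x, A (T.W ((t : ℂ) • v) x) = T.W ((t : ℂ) • v) (A x) := by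
    intro t x
    have c1 : Commute (T.op ((t : ℂ) • v)) (T.sn ((μ : ℂ) • v)) := by
      unfold sn
      refine ((Commute.sub_right ?_ ?_).smul_right _)
      · exact T.op_commute (im_smul_smul t μ (im_self v))
      · exact T.op_commute (im_neg_right (im_smul_smul t μ (im_self v)))
    have c2 := (c1.smul_right ((μ : ℂ))⁻¹).symm
    exact congrArg (fun B : E →L[ℂ] E => B x) c2
  -- the interpolating path
  have hd : ∀ τ : ℝ, HasDerivAt
      (fun τ : ℝ => ex (((σ - τ : ℝ) : ℂ) • A) (T.W ((τ : ℂ) • v) y))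
      (ex (((σ - τ : ℝ) : ℂ) • A) (T.W ((τ : ℂ) • v)
        (-(Complex.I • (A y - (Complex.I * r)⁻¹ • (T.orb v z r - z)))))) τ := by
    intro τ
    have g1 : HasDerivAt (fun τ : ℝ => ex (((σ - τ : ℝ) : ℂ) • A))
        (-(ex (((σ - τ : ℝ) : ℂ) • A) * (Complex.I • A))) τ := by
      have e1 : (fun τ : ℝ => ex (((σ - τ : ℝ) : ℂ) • A))
          = fun τ : ℝ => NormedSpace.exp ((σ - τ) • (Complex.I • A)) := by
        funext τ
        unfold ex
        rw [Complex.coe_smul, smul_comm]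
      have g := (hasDerivAt_exp_smul_const (𝕂 := ℝ) (Complex.I • A) (σ - τ))
      have g' := g.comp_const_sub σ τ
      rw [e1]
      have e2 : ex (((σ - τ : ℝ) : ℂ) • A) = NormedSpace.exp ((σ - τ) • (Complex.I • A)) := by
        unfold ex
        rw [Complex.coe_smul, smul_comm]
      rw [e2]
      exact g'
    have g2 := T.hasDerivAt_moll v z r τ
    rw [← hy] at g2
    have g3 := (((ContinuousLinearMap.restrictScalarsL ℂ E E ℝ ℝ).hasFDerivAt).comp_hasDerivAt τ g1)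
    have g4 := HasDerivAt.clm_apply g3 g2
    refine g4.congr_deriv ?_
    change -(ex (((σ - τ : ℝ) : ℂ) • A) (Complex.I • A (T.W ((τ : ℂ) • v) y)))
      + ex (((σ - τ : ℝ) : ℂ) • A) (((r : ℂ))⁻¹ • (T.orb v z (r + τ) - T.orb v z τ)) = _
    rw [← map_neg, ← map_add]
    congr 1
    have e3 : T.orb v z (r + τ) - T.orb v z τ = T.W ((τ : ℂ) • v) (T.orb v z r - z) := by
      rw [map_sub, T.W_orb, add_comm]
      rfl
    rw [hcomm, e3, map_neg, map_smul, map_sub (T.W ((τ : ℂ) • v)) (A y), map_smul, smul_sub,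
      smul_smul, mul_inv, ← mul_assoc, mul_inv_cancel₀ Complex.I_ne_zero, one_mul]
    abel
  have hb : ∀ τ ∈ Set.Ico (0:ℝ) σ, ‖ex (((σ - τ : ℝ) : ℂ) • A) (T.W ((τ : ℂ) • v)
        (-(Complex.I • (A y - (Complex.I * r)⁻¹ • (T.orb v z r - z)))))‖ ≤ 2 * κ' / r := by
    intro τ _
    rw [norm_ex (hsa _), LinearIsometryEquiv.norm_map, norm_neg, norm_smul, Complex.norm_I,
      one_mul]
    exact h4
  have h5 := norm_image_sub_le_of_norm_deriv_le_segment'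
    (fun τ _ => (hd τ).hasDerivWithinAt) hb σ ⟨hσ, le_refl σ⟩
  rw [sub_self, ofReal_zero, zero_smul, ex_zero, sub_zero, zero_smul, T.W_zero] at h5
  have h6 : ‖ex ((σ : ℂ) • A) z - ex ((σ : ℂ) • A) y‖ ≤ κ := by
    rw [← map_sub, norm_ex (hsa _), norm_sub_rev]
    exact h3
  have h7 : ‖T.W ((σ : ℂ) • v) y - T.W ((σ : ℂ) • v) z‖ ≤ κ := by
    rw [← map_sub, LinearIsometryEquiv.norm_map]
    exact h3
  have h8 : ‖ex ((σ : ℂ) • A) y - T.W ((σ : ℂ) • v) y‖ ≤ σ * (2 * κ' / r) := by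
    rw [norm_sub_rev, mul_comm]
    exact h5
  calc ‖ex ((σ : ℂ) • A) z - T.W ((σ : ℂ) • v) z‖
      = ‖(ex ((σ : ℂ) • A) z - ex ((σ : ℂ) • A) y)
        + ((ex ((σ : ℂ) • A) y - T.W ((σ : ℂ) • v) y)
          + (T.W ((σ : ℂ) • v) y - T.W ((σ : ℂ) • v) z))‖ := by
        congr 1
        abel
    _ ≤ κ + (σ * (2 * κ' / r) + κ) :=
        (norm_add_le _ _).trans (add_le_add h6 ((norm_add_le _ _).trans (add_le_add h8 h7)))
    _ = _ := by ring

end WFam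

end Vale.Agent.P367.B
end

section

/-! P367 block B, T2CORE part 2: chains of steps and their exact form. -/

namespace Vale.Agent.P367.A

open Complex Filter Topology MeasureTheory
open Vale.Agent.P367.B (famS cl exU ex gb ga WFam)

namespace LSys

variable {H K : Type} [NormedAddCommGroup H] [InnerProductSpace ℂ H] [CompleteSpace H]
  [NormedAddCommGroup K] [InnerProductSpace ℂ K] (L : LSys H K)
  (hc : ∀ x : H, Tendsto (fun a => L.W a x) (𝓝 0) (𝓝 x))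

/-- control vector of a step -/
noncomputable def vch (μ la : ℝ) (o r : Set ℝ) (V1 : H ≃ₗᵢ[ℂ] H) : K :=
  (μ : ℂ) • L.fv (L.pau 2) o V1 + (la : ℂ) • L.fv (L.pau 1) r V1

/-- batch control `-(s/mu) sg E_b` -/
noncomputable def Cch (s μ : ℝ) (sg : H →L[ℂ] H) (b : Set ℝ) : H →L[ℂ] H :=
  ((-(s / μ) : ℝ) : ℂ) • (sg * L.E b)

/-- reaction vector `iota (E_b V1^* C Z sin phi(v) V1 Om)` -/
noncomputable def qch (v : K) (C : H →L[ℂ] H) (b : Set ℝ) (V1 : H ≃ₗᵢ[ℂ] H) : K :=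
  L.iota (L.E b (V1⁻¹ (C (L.Z ((famS L.toSys hc).sn v (V1 L.Om))))))

/-- a chain of `N` steps with batches `b 0, ..., b (N-1)` and reserve `r` -/
structure Chain (𝔄 : Set (H →L[ℂ] H)) (G r : Set ℝ) (sg : H →L[ℂ] H)
    (s μ a la : ℝ) (N : ℕ) (b : ℕ → Set ℝ) (V V1 V2 : ℕ → (H ≃ₗᵢ[ℂ] H)) (co cr : ℕ → ℂ) :
    Prop where
  mG : MeasurableSet G
  mr : MeasurableSet r
  Gr : Disjoint G r
  mb : ∀ i < N, MeasurableSet (b i)
  bG : ∀ i < N, b i ⊆ G
  bb : ∀ i < N, ∀ j < N, i ≠ j → Disjoint (b i) (b j)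
  cV : ∀ i ≤ N, ∀ A ∈ 𝔄, ∀ x, A (V i x) = V i (A x)
  cV1 : ∀ i < N, ∀ A ∈ 𝔄, ∀ x, A (V1 i x) = V1 i (A x)
  cV2 : ∀ i < N, ∀ A ∈ 𝔄, ∀ x, A (V2 i x) = V2 i (A x)
  nco : ∀ i < N, ‖co i‖ = 1
  ncr : ∀ i < N, ‖cr i‖ = 1
  r1 : ∀ i < N, ∀ x, V1 i x
    = L.zr (-((a : ℂ) • L.fv (L.pau 2) r (V i))) (L.E (b i) (V i x))
      + L.zr (-((a : ℂ) • L.fv (L.pau 2) (b i) (V i))) (L.E r (V i x))
      + (V i x - L.E (b i) (V i x) - L.E r (V i x))
  r2 : ∀ i < N, ∀ x, V2 i x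
    = ex (gb L.toSys hc (L.Cch s μ sg (b i)) (L.vch μ la (G \ b i) r (V1 i)))
        (L.E (b i) (V1 i x))
      + co i • L.zr (-((μ : ℂ) • L.qch hc (L.vch μ la (G \ b i) r (V1 i))
          (L.Cch s μ sg (b i)) (b i) (V1 i))) (L.E (G \ b i) (V1 i x))
      + cr i • L.pw (L.pau 1) (-((la : ℂ) • L.qch hc (L.vch μ la (G \ b i) r (V1 i))
          (L.Cch s μ sg (b i)) (b i) (V1 i))) (L.E r (V1 i x))
      + (V1 i x - L.E (b i) (V1 i x) - L.E (G \ b i) (V1 i x) - L.E r (V1 i x))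
  r3 : ∀ i < N, ∀ x, V (i + 1) x
    = L.zr ((a : ℂ) • L.fv (L.pau 2) r (V2 i)) (L.E (b i) (V2 i x))
      + L.zr ((a : ℂ) • L.fv (L.pau 2) (b i) (V2 i)) (L.E r (V2 i x))
      + (V2 i x - L.E (b i) (V2 i x) - L.E r (V2 i x))

/-! ### the real subspace of admissible field vectors -/

/-- admissible vectors `iota (T Om)`, `T` self-adjoint commuting with the controls -/
def RR (𝔄 : Set (H →L[ℂ] H)) : Set K :=
  {c | ∃ T : H →L[ℂ] H, Sa T ∧ (∀ a ∈ 𝔄, T * a = a * T) ∧ c = L.iota (T L.Om)}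

variable {L} {𝔄 : Set (H →L[ℂ] H)}

omit [CompleteSpace H] in
lemma RR.W (hA : L.Ctl 𝔄) {c : K} (h : c ∈ L.RR 𝔄) {a : H →L[ℂ] H} (ha : a ∈ 𝔄) (x : H) :
    a (L.W c x) = L.W c (a x) := by
  obtain ⟨T, h1, h2, rfl⟩ := h
  exact hA.W a ha T h1 h2 x

omit [CompleteSpace H] in
lemma RR.add {c d : K} (h : c ∈ L.RR 𝔄) (h' : d ∈ L.RR 𝔄) : c + d ∈ L.RR 𝔄 := by
  obtain ⟨T, h1, h2, rfl⟩ := h
  obtain ⟨T', h1', h2', rfl⟩ := h'
  refine ⟨T + T', fun x y => ?_, fun a ha => ?_, ?_⟩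
  · rw [add_apply, add_apply, inner_add_left, inner_add_right, h1, h1']
  · rw [add_mul, mul_add, h2 a ha, h2' a ha]
  · rw [add_apply, map_add]

omit [CompleteSpace H] in
lemma RR.smul {c : K} (h : c ∈ L.RR 𝔄) (t : ℝ) : (t : ℂ) • c ∈ L.RR 𝔄 := by
  obtain ⟨T, h1, h2, rfl⟩ := h
  refine ⟨(t : ℂ) • T, fun x y => ?_, fun a ha => ?_, ?_⟩
  · rw [smul_apply, smul_apply, inner_smul_left, inner_smul_right, h1, conj_ofReal]
  · rw [smul_mul_assoc, mul_smul_comm, h2 a ha]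
  · rw [smul_apply, map_smul]

omit [CompleteSpace H] in
lemma RR.neg {c : K} (h : c ∈ L.RR 𝔄) : -c ∈ L.RR 𝔄 := by
  have := RR.smul h (-1)
  rwa [ofReal_neg, ofReal_one, neg_one_smul] at this

omit [CompleteSpace H] in
lemma RR.sub {c d : K} (h : c ∈ L.RR 𝔄) (h' : d ∈ L.RR 𝔄) : c - d ∈ L.RR 𝔄 := by
  rw [sub_eq_add_neg]; exact RR.add h (RR.neg h')

omit [CompleteSpace H] in
lemma RR.zero : (0 : K) ∈ L.RR 𝔄 :=
  ⟨0, fun x y => by simp, fun a _ => by simp, by simp⟩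

omit [CompleteSpace H] in
lemma E_mem (hA : L.Ctl 𝔄) {e : Set ℝ} (he : MeasurableSet e) : L.E e ∈ 𝔄 :=
  hA.lab _ (Bm.ind he 1)

omit [CompleteSpace H] in
lemma comm_inv {U : H ≃ₗᵢ[ℂ] H} {a : H →L[ℂ] H} (h : ∀ x, a (U x) = U (a x)) (x : H) :
    a (U⁻¹ x) = U⁻¹ (a x) := by
  apply U.injective
  rw [← h, Sys.Ainv, Sys.Ainv]

omit [CompleteSpace H] in
/-- vectors `iota (E_e U^* B U Om)` are admissible -/
lemma RR.mk' (hA : L.Ctl 𝔄) {U : H ≃ₗᵢ[ℂ] H} (hU : ∀ a ∈ 𝔄, ∀ x, a (U x) = U (a x))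
    {e : Set ℝ} (he : MeasurableSet e) (B : H →L[ℂ] H) (hB : Sa B)
    (hBA : ∀ a ∈ 𝔄, ∀ x, a (B x) = B (a x)) : L.iota (L.E e (U⁻¹ (B (U L.Om)))) ∈ L.RR 𝔄 := by
  refine ⟨L.E e * (cl U⁻¹ * (B * cl U)), fun x y => ?_, fun a ha => ?_, rfl⟩
  · change inner ℂ (L.E e (U⁻¹ (B (U x)))) y = inner ℂ x (L.E e (U⁻¹ (B (U y))))
    rw [L.E_sa he, Sys.inner_invA, hB, comm_inv (hU _ (E_mem hA he)), hBA _ (E_mem hA he),
      hU _ (E_mem hA he)]
    have := Sys.inner_invA U⁻¹ x (B (U (L.E e y)))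
    rw [inv_inv] at this
    exact this
  · ext x
    change L.E e (U⁻¹ (B (U (a x)))) = a (L.E e (U⁻¹ (B (U x))))
    have h1 : ∀ y, L.E e (a y) = a (L.E e y) := fun y =>
      congrArg (fun T : H →L[ℂ] H => T y) (hA.comm _ _ (E_mem hA he) ha)
    rw [← hU a ha, ← hBA a ha, ← comm_inv (hU a ha), h1]

omit [CompleteSpace H] in
lemma ctl_pau (hA : L.Ctl 𝔄) {a : H →L[ℂ] H} (ha : a ∈ 𝔄) (P : Fin 3) (x : H) :
    a (L.pau P x) = L.pau P (a x) := by
  have hxr : ∀ t y, a (L.xr t y) = L.xr t (a y) := fun t y => by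
    rw [L.xr_apply, L.xr_apply, map_sub, map_smul, map_smul, hA.X a ha]
  fin_cases P
  · exact hA.X a ha x
  · change a (L.Zt _ x) = L.Zt _ (a x)
    rw [L.Zt_apply, L.Zt_apply, hxr, hA.Z a ha]
  · exact hA.Z a ha x

omit [CompleteSpace H] in
lemma RR.fv (hA : L.Ctl 𝔄) {U : H ≃ₗᵢ[ℂ] H} (hU : ∀ a ∈ 𝔄, ∀ x, a (U x) = U (a x))
    {e : Set ℝ} (he : MeasurableSet e) (P : Fin 3) : L.fv (L.pau P) e U ∈ L.RR 𝔄 :=
  RR.mk' hA hU he (cl (L.pau P)) (fun x y => L.inner_pau P x y) (fun a ha x => ctl_pau hA ha P x)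

omit [CompleteSpace H] in
lemma RR.sn (hA : L.Ctl 𝔄) {v : K} (hv : v ∈ L.RR 𝔄) {a : H →L[ℂ] H} (ha : a ∈ 𝔄) (x : H) :
    a ((famS L.toSys hc).sn v x) = (famS L.toSys hc).sn v (a x) := by
  rw [B.sn_apply', B.sn_apply', map_smul, map_sub, RR.W hA hv ha, RR.W hA (RR.neg hv) ha]

omit [CompleteSpace H] in
lemma RR.cs (hA : L.Ctl 𝔄) {v : K} (hv : v ∈ L.RR 𝔄) {a : H →L[ℂ] H} (ha : a ∈ 𝔄) (x : H) :
    a ((famS L.toSys hc).cs v x) = (famS L.toSys hc).cs v (a x) := by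
  rw [B.cs_apply', B.cs_apply', map_smul, map_add, RR.W hA hv ha, RR.W hA (RR.neg hv) ha]

omit [CompleteSpace H] in
lemma RR.zr (hA : L.Ctl 𝔄) {v : K} (hv : v ∈ L.RR 𝔄) {a : H →L[ℂ] H} (ha : a ∈ 𝔄) (x : H) :
    a (L.zr v x) = L.zr v (a x) := by
  rw [L.zr_apply, L.zr_apply]
  simp only [map_add, map_sub, map_smul, RR.W hA hv ha, RR.W hA (RR.neg hv) ha, hA.Z a ha]

end LSys

end Vale.Agent.P367.A
end

section

/-! P367 block B, T2CORE part 3: blocks of a chain. -/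

namespace Vale.Agent.P367.A

open Complex Filter Topology MeasureTheory
open Vale.Agent.P367.B (famS cl exU ex gb ga WFam)

namespace LSys

variable {H K : Type} [NormedAddCommGroup H] [InnerProductSpace ℂ H] [CompleteSpace H]
  [NormedAddCommGroup K] [InnerProductSpace ℂ K] {L : LSys H K} {𝔄 : Set (H →L[ℂ] H)}

lemma ctl_smul (hA : L.Ctl 𝔄) {T : H →L[ℂ] H} (hT : T ∈ 𝔄) (c : ℂ) : c • T ∈ 𝔄 := by
  have h := hA.mul _ _ (hA.lab _ (Bm.const c)) hT
  rw [L.lab_const, smul_mul_assoc, one_mul] at h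
  exact h

lemma Cch_mem (hA : L.Ctl 𝔄) {sg : H →L[ℂ] H} (hsg : sg ∈ 𝔄) (s μ : ℝ) {b : Set ℝ}
    (hb : MeasurableSet b) : L.Cch s μ sg b ∈ 𝔄 :=
  ctl_smul hA (hA.mul _ _ hsg (E_mem hA hb)) _

lemma sa_comp {A B : H →L[ℂ] H} (h1 : Sa A) (h2 : Sa B) (h : ∀ x, A (B x) = B (A x)) :
    Sa (A * B) := by
  intro x y
  change inner ℂ (A (B x)) y = inner ℂ x (A (B y))
  rw [h1, h2, h]

lemma sa_rsmul {A : H →L[ℂ] H} (h1 : Sa A) (t : ℝ) : Sa ((t : ℂ) • A) := by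
  intro x y
  rw [smul_apply, smul_apply, inner_smul_left, inner_smul_right, h1, conj_ofReal]

lemma E_Sa {b : Set ℝ} (hb : MeasurableSet b) : Sa (L.E b) := fun x y => L.E_sa hb x y

lemma ctl_comm (hA : L.Ctl 𝔄) {S T : H →L[ℂ] H} (hS : S ∈ 𝔄) (hT : T ∈ 𝔄) (x : H) :
    S (T x) = T (S x) :=
  congrArg (fun R : H →L[ℂ] H => R x) (hA.comm _ _ hS hT)

lemma Cch_sa (hA : L.Ctl 𝔄) {sg : H →L[ℂ] H} (hsg : sg ∈ 𝔄) (hs : Sa sg) (s μ : ℝ) {b : Set ℝ}
    (hb : MeasurableSet b) : Sa (L.Cch s μ sg b) :=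
  sa_rsmul (sa_comp hs (E_Sa hb) (fun x => ctl_comm hA hsg (E_mem hA hb) x)) _

/-- `Sa` is self-adjointness -/
lemma isSA {A : H →L[ℂ] H} (h : Sa A) : IsSelfAdjoint A := by
  rw [isSelfAdjoint_iff, ContinuousLinearMap.star_eq_adjoint]
  symm
  rw [ContinuousLinearMap.eq_adjoint_iff]
  exact h

lemma sa_of {A : H →L[ℂ] H} (h : IsSelfAdjoint A) : Sa A := by
  rw [isSelfAdjoint_iff, ContinuousLinearMap.star_eq_adjoint] at h
  have h' := h.symm
  rw [ContinuousLinearMap.eq_adjoint_iff] at h'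
  exact h'

/-- commuting with an exponential -/
lemma comm_ex {A T : H →L[ℂ] H} (h : ∀ x, T (A x) = A (T x)) (x : H) :
    T (ex A x) = ex A (T x) := by
  have hc : Commute A T := by
    ext y
    exact (h y).symm
  have := B.ex_commute hc
  exact (congrArg (fun R : H →L[ℂ] H => R x) this).symm

variable (hc : ∀ x : H, Tendsto (fun a => L.W a x) (𝓝 0) (𝓝 x))

lemma RR.vch (hA : L.Ctl 𝔄) (μ la : ℝ) {o r : Set ℝ} (ho : MeasurableSet o)
    (hr : MeasurableSet r) {V1 : H ≃ₗᵢ[ℂ] H} (hV : ∀ a ∈ 𝔄, ∀ x, a (V1 x) = V1 (a x)) :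
    L.vch μ la o r V1 ∈ L.RR 𝔄 :=
  RR.add (RR.smul (RR.fv hA hV ho 2) μ) (RR.smul (RR.fv hA hV hr 1) la)

lemma RR.qch (hA : L.Ctl 𝔄) {v : K} (hv : v ∈ L.RR 𝔄) {C : H →L[ℂ] H} (hC : C ∈ 𝔄)
    (hCs : Sa C) {b : Set ℝ} (hb : MeasurableSet b) {V1 : H ≃ₗᵢ[ℂ] H}
    (hV : ∀ a ∈ 𝔄, ∀ x, a (V1 x) = V1 (a x)) : L.qch hc v C b V1 ∈ L.RR 𝔄 := by
  refine RR.mk' hA hV hb (C * (cl L.Z * (famS L.toSys hc).sn v)) ?_ ?_
  · refine sa_comp hCs (sa_comp (fun x y => L.inner_Z x y) (sa_of ((famS L.toSys hc).sn_sa v)) ?_) ?_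
    · intro x
      exact (B.sn_Z L.toSys hc v x).symm
    · intro x
      change C (L.Z ((famS L.toSys hc).sn v x)) = L.Z ((famS L.toSys hc).sn v (C x))
      rw [hA.Z C hC, RR.sn hc hA hv hC]
  · intro a ha x
    change a (C (L.Z ((famS L.toSys hc).sn v x))) = C (L.Z ((famS L.toSys hc).sn v (a x)))
    rw [ctl_comm hA ha hC, hA.Z a ha, RR.sn hc hA hv ha]

lemma gb_comm (hA : L.Ctl 𝔄) {v : K} (hv : v ∈ L.RR 𝔄) {C : H →L[ℂ] H} (hC : C ∈ 𝔄)
    {T : H →L[ℂ] H} (hT : T ∈ 𝔄) (x : H) :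
    T (gb L.toSys hc C v x) = gb L.toSys hc C v (T x) := by
  rw [B.gb_apply, B.gb_apply, map_neg, ctl_comm hA hT hC, hA.Z T hT, RR.cs hc hA hv hT]

variable {G r : Set ℝ} {sg : H →L[ℂ] H} {s μ a la : ℝ} {N : ℕ} {b : ℕ → Set ℝ}
  {V V1 V2 : ℕ → (H ≃ₗᵢ[ℂ] H)} {co cr : ℕ → ℂ}

namespace Chain

variable {hc}

lemma mo (h : L.Chain hc 𝔄 G r sg s μ a la N b V V1 V2 co cr) {i : ℕ} (hi : i < N) :
    MeasurableSet (G \ b i) := h.mG.diff (h.mb i hi)

lemma br (h : L.Chain hc 𝔄 G r sg s μ a la N b V V1 V2 co cr) {i : ℕ} (hi : i < N) :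
    Disjoint (b i) r := Set.disjoint_of_subset_left (h.bG i hi) h.Gr

lemma or (h : L.Chain hc 𝔄 G r sg s μ a la N b V V1 V2 co cr) {i : ℕ} :
    Disjoint (G \ b i) r := Set.disjoint_of_subset_left Set.sdiff_subset h.Gr

variable (h : L.Chain hc 𝔄 G r sg s μ a la N b V V1 V2 co cr) (hA : L.Ctl 𝔄)
include h

lemma one_e {i : ℕ} (hi : i < N) {e : Set ℝ} (he : MeasurableSet e) (h1 : Disjoint e (b i))
    (h2 : Disjoint e r) (x : H) : L.E e (V1 i x) = L.E e (V i x) := by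
  rw [h.r1 i hi, map_add, map_add, map_sub, map_sub, L.E_zr, L.E_zr, L.E_dis he (h.mb i hi) h1,
    L.E_dis he h.mr h2]
  simp

lemma one_b {i : ℕ} (hi : i < N) (x : H) :
    L.E (b i) (V1 i x) = L.zr (-((a : ℂ) • L.fv (L.pau 2) r (V i))) (L.E (b i) (V i x)) := by
  rw [h.r1 i hi, map_add, map_add, map_sub, map_sub, L.E_zr, L.E_zr, L.E_E (h.mb i hi),
    L.E_dis (h.mb i hi) h.mr (h.br hi)]
  simp

lemma one_r {i : ℕ} (hi : i < N) (x : H) :
    L.E r (V1 i x) = L.zr (-((a : ℂ) • L.fv (L.pau 2) (b i) (V i))) (L.E r (V i x)) := by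
  rw [h.r1 i hi, map_add, map_add, map_sub, map_sub, L.E_zr, L.E_zr, L.E_E h.mr,
    L.E_dis h.mr (h.mb i hi) (h.br hi).symm]
  simp

lemma three_e {i : ℕ} (hi : i < N) {e : Set ℝ} (he : MeasurableSet e) (h1 : Disjoint e (b i))
    (h2 : Disjoint e r) (x : H) : L.E e (V (i + 1) x) = L.E e (V2 i x) := by
  rw [h.r3 i hi, map_add, map_add, map_sub, map_sub, L.E_zr, L.E_zr, L.E_dis he (h.mb i hi) h1,
    L.E_dis he h.mr h2]
  simp

lemma three_b {i : ℕ} (hi : i < N) (x : H) :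
    L.E (b i) (V (i + 1) x) = L.zr ((a : ℂ) • L.fv (L.pau 2) r (V2 i)) (L.E (b i) (V2 i x)) := by
  rw [h.r3 i hi, map_add, map_add, map_sub, map_sub, L.E_zr, L.E_zr, L.E_E (h.mb i hi),
    L.E_dis (h.mb i hi) h.mr (h.br hi)]
  simp

lemma three_r {i : ℕ} (hi : i < N) (x : H) :
    L.E r (V (i + 1) x) = L.zr ((a : ℂ) • L.fv (L.pau 2) (b i) (V2 i)) (L.E r (V2 i x)) := by
  rw [h.r3 i hi, map_add, map_add, map_sub, map_sub, L.E_zr, L.E_zr, L.E_E h.mr,
    L.E_dis h.mr (h.mb i hi) (h.br hi).symm]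
  simp

include hA

lemma vmem {i : ℕ} (hi : i < N) : L.vch μ la (G \ b i) r (V1 i) ∈ L.RR 𝔄 :=
  RR.vch hA μ la (h.mo hi) h.mr (h.cV1 i hi)

lemma ex_E (hsg : sg ∈ 𝔄) {i : ℕ} (hi : i < N) {e : Set ℝ} (he : MeasurableSet e) (x : H) :
    L.E e (ex (gb L.toSys hc (L.Cch s μ sg (b i)) (L.vch μ la (G \ b i) r (V1 i))) x)
      = ex (gb L.toSys hc (L.Cch s μ sg (b i)) (L.vch μ la (G \ b i) r (V1 i))) (L.E e x) :=
  comm_ex (fun y => gb_comm hc hA (h.vmem hA hi) (Cch_mem hA hsg s μ (h.mb i hi))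
    (E_mem hA he) y) x

lemma two_e (hsg : sg ∈ 𝔄) {i : ℕ} (hi : i < N) {e : Set ℝ} (he : MeasurableSet e)
    (h1 : e ⊆ G \ b i) (x : H) : L.E e (V2 i x)
      = co i • L.zr (-((μ : ℂ) • L.qch hc (L.vch μ la (G \ b i) r (V1 i))
          (L.Cch s μ sg (b i)) (b i) (V1 i))) (L.E e (V1 i x)) := by
  have d1 : Disjoint e (b i) := Set.disjoint_of_subset_left h1 Set.disjoint_sdiff_left
  have d2 : Disjoint e r := Set.disjoint_of_subset_left h1 h.or
  rw [h.r2 i hi, map_add, map_add, map_add, map_sub, map_sub, map_sub, map_smul, map_smul,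
    h.ex_E hA hsg hi he, L.E_zr, L.E_pw, L.E_dis he (h.mb i hi) d1, L.E_dis he h.mr d2,
    L.E_sub he (h.mo hi) h1, ← L.pwLin_apply 1, map_zero, map_zero]
  simp

lemma two_b (hsg : sg ∈ 𝔄) {i : ℕ} (hi : i < N) (x : H) : L.E (b i) (V2 i x)
      = ex (gb L.toSys hc (L.Cch s μ sg (b i)) (L.vch μ la (G \ b i) r (V1 i)))
        (L.E (b i) (V1 i x)) := by
  rw [h.r2 i hi, map_add, map_add, map_add, map_sub, map_sub, map_sub, map_smul, map_smul,
    h.ex_E hA hsg hi (h.mb i hi), L.E_zr, L.E_pw, L.E_E (h.mb i hi),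
    L.E_dis (h.mb i hi) h.mr (h.br hi), L.E_dis (h.mb i hi) (h.mo hi) Set.disjoint_sdiff_right,
    ← L.pwLin_apply 1, map_zero, map_zero]
  simp

lemma two_r (hsg : sg ∈ 𝔄) {i : ℕ} (hi : i < N) (x : H) : L.E r (V2 i x)
      = cr i • L.pw (L.pau 1) (-((la : ℂ) • L.qch hc (L.vch μ la (G \ b i) r (V1 i))
          (L.Cch s μ sg (b i)) (b i) (V1 i))) (L.E r (V1 i x)) := by
  rw [h.r2 i hi, map_add, map_add, map_add, map_sub, map_sub, map_sub, map_smul, map_smul,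
    h.ex_E hA hsg hi h.mr, L.E_zr, L.E_pw, L.E_E h.mr,
    L.E_dis h.mr (h.mb i hi) (h.br hi).symm, L.E_dis h.mr (h.mo hi) h.or.symm,
    map_zero, map_zero]
  simp

end Chain

end LSys

end Vale.Agent.P367.A
end

section

/-! P367 block B, T2CORE part 4: exact form of the end of a chain. -/

namespace Vale.Agent.P367.A

open Complex Filter Topology MeasureTheory
open Vale.Agent.P367.B (famS cl exU ex gb ga WFam)

namespace LSys

variable {H K : Type} [NormedAddCommGroup H] [InnerProductSpace ℂ H] [CompleteSpace H]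
  [NormedAddCommGroup K] [InnerProductSpace ℂ K] {L : LSys H K} {𝔄 : Set (H →L[ℂ] H)}

/-- change of the state on one block -/
lemma blk {e : Set ℝ} (he : MeasurableSet e) {U U' G : H ≃ₗᵢ[ℂ] H} {c : ℂ} (hc0 : c ≠ 0)
    (hU : ∀ x, L.E e (U x) = U (L.E e x)) (hU' : ∀ x, L.E e (U' x) = U' (L.E e x))
    (hG : ∀ x, L.E e (G x) = G (L.E e x)) (h : ∀ x, L.E e (U' x) = c • G (L.E e (U x)))
    (B : H →ₗ[ℂ] H) (hB : ∀ x, L.E e (B x) = B (L.E e x)) (y : H) :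
    L.E e (U'⁻¹ (B (U' y))) = L.E e (U⁻¹ (G⁻¹ (B (G (U y))))) := by
  have key : ∀ z, L.E e z = z → U'⁻¹ z = c⁻¹ • U⁻¹ (G⁻¹ z) := by
    intro z hz
    have hw : L.E e (c⁻¹ • U⁻¹ (G⁻¹ z)) = c⁻¹ • U⁻¹ (G⁻¹ z) := by
      rw [map_smul, comm_inv hU, comm_inv hG, hz]
    apply Sys.inv_apply_eq
    rw [← hw, ← hU', h, map_smul, map_smul, map_smul, Sys.Ainv, ← hG, Sys.Ainv, hz,
      smul_smul, mul_inv_cancel₀ hc0, one_smul]
  have h2 : L.E e (B (L.E e (G (U y)))) = B (L.E e (G (U y))) := by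
    rw [hB, L.E_E he]
  rw [comm_inv hU', hB, h, ← hG, map_smul, map_smul, key _ h2, smul_smul, mul_inv_cancel₀ hc0,
    one_smul, ← hB, ← comm_inv hG, ← comm_inv hU]

lemma fvZ_of {e : Set ℝ} (he : MeasurableSet e) {U U' G : H ≃ₗᵢ[ℂ] H} {c : ℂ} (hc0 : c ≠ 0)
    (hU : ∀ x, L.E e (U x) = U (L.E e x)) (hU' : ∀ x, L.E e (U' x) = U' (L.E e x))
    (hG : ∀ x, L.E e (G x) = G (L.E e x)) (hGZ : ∀ x, L.Z (G x) = G (L.Z x))
    (h : ∀ x, L.E e (U' x) = c • G (L.E e (U x))) :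
    L.fv (L.pau 2) e U' = L.fv (L.pau 2) e U := by
  unfold fv
  have := blk he hc0 hU hU' hG h (L.Z.toLinearEquiv.toLinearMap) (fun x => L.E_Z e x) L.Om
  change L.iota (L.E e (U'⁻¹ (L.Z (U' L.Om)))) = L.iota (L.E e (U⁻¹ (L.Z (U L.Om))))
  change L.E e (U'⁻¹ (L.Z (U' L.Om))) = L.E e (U⁻¹ (G⁻¹ (L.Z (G (U L.Om))))) at this
  rw [this, hGZ, Sys.invA]

lemma fv_add {e e' : Set ℝ} (he : MeasurableSet e) (he' : MeasurableSet e') (hd : Disjoint e e')
    (Q U : H ≃ₗᵢ[ℂ] H) : L.fv Q (e ∪ e') U = L.fv Q e U + L.fv Q e' U := by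
  unfold fv
  rw [L.E_union he he' hd, map_add]

lemma fv_split {e b : Set ℝ} (he : MeasurableSet e) (hb : MeasurableSet b)
    (Q U : H ≃ₗᵢ[ℂ] H) : L.fv Q e U = L.fv Q (e ∩ b) U + L.fv Q (e \ b) U := by
  rw [← fv_add (he.inter hb) (he.diff hb) (Set.disjoint_left.2 fun t h1 h2 => h2.2 h1.2),
    Set.inter_union_sdiff]

variable {hc : ∀ x : H, Tendsto (fun a => L.W a x) (𝓝 0) (𝓝 x)}
  {G r : Set ℝ} {sg : H →L[ℂ] H} {s μ a la : ℝ} {N : ℕ} {b : ℕ → Set ℝ}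
  {V V1 V2 : ℕ → (H ≃ₗᵢ[ℂ] H)} {co cr : ℕ → ℂ}

namespace Chain

variable (h : L.Chain hc 𝔄 G r sg s μ a la N b V V1 V2 co cr) (hA : L.Ctl 𝔄)

include h

lemma gbsa (hA : L.Ctl 𝔄) (hsg : sg ∈ 𝔄) (hs : Sa sg) {i : ℕ} (hi : i < N) :
    IsSelfAdjoint (gb L.toSys hc (L.Cch s μ sg (b i)) (L.vch μ la (G \ b i) r (V1 i))) := by
  have hv := h.vmem hA hi
  have hC := Cch_mem hA hsg s μ (h.mb i hi)
  refine B.gb_sa L.toSys hc (isSA (Cch_sa hA hsg hs s μ (h.mb i hi))) ?_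
    (fun x => RR.W hA hv hC x) (fun x => RR.W hA (RR.neg hv) hC x)
  ext x
  exact hA.Z _ hC x

include hA

/-- the field vector `x` of a subset of `G` does not change, first half step -/
lemma fv1 {i : ℕ} (hi : i < N) {e : Set ℝ} (he : MeasurableSet e) (heG : e ⊆ G) :
    L.fv (L.pau 2) e (V1 i) = L.fv (L.pau 2) e (V i) := by
  have m1 := he.inter (h.mb i hi)
  have m2 := he.diff (h.mb i hi)
  rw [fv_split he (h.mb i hi), fv_split he (h.mb i hi) _ (V i)]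
  have c0 : ∀ x, ∀ e, MeasurableSet e → L.E e (V i x) = V i (L.E e x) := fun x e hm =>
    h.cV i hi.le _ (E_mem hA hm) x
  have c1 : ∀ x, ∀ e, MeasurableSet e → L.E e (V1 i x) = V1 i (L.E e x) := fun x e hm =>
    h.cV1 i hi _ (E_mem hA hm) x
  congr 1
  · refine fvZ_of m1 (c := 1) one_ne_zero (fun x => c0 x _ m1) (fun x => c1 x _ m1)
      (G := L.zr (-((a : ℂ) • L.fv (L.pau 2) r (V i)))) (fun x => L.E_zr _ _ x)
      (fun x => L.Z_zr _ x) (fun x => ?_)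
    rw [← L.E_sub m1 (h.mb i hi) Set.inter_subset_right (V1 i x), h.one_b hi, one_smul, L.E_zr,
      L.E_sub m1 (h.mb i hi) Set.inter_subset_right]
  · refine fvZ_of m2 (c := 1) one_ne_zero (fun x => c0 x _ m2) (fun x => c1 x _ m2)
      (G := 1) (fun x => rfl) (fun x => rfl) (fun x => ?_)
    rw [one_smul]
    exact h.one_e hi m2 Set.disjoint_sdiff_left
      (Set.disjoint_of_subset_left (Set.sdiff_subset.trans heG) h.Gr) x

lemma fv2 (hsg : sg ∈ 𝔄) (hs : Sa sg) {i : ℕ} (hi : i < N) {e : Set ℝ} (he : MeasurableSet e)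
    (heG : e ⊆ G) : L.fv (L.pau 2) e (V2 i) = L.fv (L.pau 2) e (V1 i) := by
  have m1 := he.inter (h.mb i hi)
  have m2 := he.diff (h.mb i hi)
  rw [fv_split he (h.mb i hi), fv_split he (h.mb i hi) _ (V1 i)]
  have c0 : ∀ x, ∀ e, MeasurableSet e → L.E e (V1 i x) = V1 i (L.E e x) := fun x e hm =>
    h.cV1 i hi _ (E_mem hA hm) x
  have c1 : ∀ x, ∀ e, MeasurableSet e → L.E e (V2 i x) = V2 i (L.E e x) := fun x e hm =>
    h.cV2 i hi _ (E_mem hA hm) x
  congr 1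
  · refine fvZ_of m1 (c := 1) one_ne_zero (fun x => c0 x _ m1) (fun x => c1 x _ m1)
      (G := exU _ (h.gbsa hA hsg hs hi)) (fun x => ?_) (fun x => ?_) (fun x => ?_)
    · exact h.ex_E hA hsg hi m1 x
    · have hv := h.vmem hA hi
      have hC := Cch_mem hA hsg s μ (h.mb i hi)
      refine comm_ex (T := cl L.Z) (fun y => ?_) x
      change L.Z (gb _ _ _ _ y) = gb _ _ _ _ (L.Z y)
      rw [B.gb_apply, B.gb_apply, map_neg, ← hA.Z _ hC, B.cs_Z]
    · rw [← L.E_sub m1 (h.mb i hi) Set.inter_subset_right (V2 i x), h.two_b hA hsg hi, one_smul,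
        h.ex_E hA hsg hi m1, L.E_sub m1 (h.mb i hi) Set.inter_subset_right]
      rfl
  · have hne : co i ≠ 0 := by
      intro h0
      have := h.nco i hi
      rw [h0, norm_zero] at this
      exact zero_ne_one this
    refine fvZ_of m2 hne (fun x => c0 x _ m2) (fun x => c1 x _ m2)
      (G := L.zr (-((μ : ℂ) • L.qch hc (L.vch μ la (G \ b i) r (V1 i))
          (L.Cch s μ sg (b i)) (b i) (V1 i)))) (fun x => L.E_zr _ _ x) (fun x => L.Z_zr _ x)
      (fun x => ?_)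
    exact h.two_e hA hsg hi m2 (Set.sdiff_subset_sdiff_left heG) x

lemma fv3 {i : ℕ} (hi : i < N) {e : Set ℝ} (he : MeasurableSet e) (heG : e ⊆ G) :
    L.fv (L.pau 2) e (V (i + 1)) = L.fv (L.pau 2) e (V2 i) := by
  have m1 := he.inter (h.mb i hi)
  have m2 := he.diff (h.mb i hi)
  rw [fv_split he (h.mb i hi), fv_split he (h.mb i hi) _ (V2 i)]
  have c0 : ∀ x, ∀ e, MeasurableSet e → L.E e (V2 i x) = V2 i (L.E e x) := fun x e hm =>
    h.cV2 i hi _ (E_mem hA hm) x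
  have c1 : ∀ x, ∀ e, MeasurableSet e → L.E e (V (i + 1) x) = V (i + 1) (L.E e x) := fun x e hm =>
    h.cV (i + 1) (by omega) _ (E_mem hA hm) x
  congr 1
  · refine fvZ_of m1 (c := 1) one_ne_zero (fun x => c0 x _ m1) (fun x => c1 x _ m1)
      (G := L.zr ((a : ℂ) • L.fv (L.pau 2) r (V2 i))) (fun x => L.E_zr _ _ x)
      (fun x => L.Z_zr _ x) (fun x => ?_)
    rw [← L.E_sub m1 (h.mb i hi) Set.inter_subset_right (V (i + 1) x), h.three_b hi, one_smul,
      L.E_zr, L.E_sub m1 (h.mb i hi) Set.inter_subset_right]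
  · refine fvZ_of m2 (c := 1) one_ne_zero (fun x => c0 x _ m2) (fun x => c1 x _ m2)
      (G := 1) (fun x => rfl) (fun x => rfl) (fun x => ?_)
    rw [one_smul]
    exact h.three_e hi m2 Set.disjoint_sdiff_left
      (Set.disjoint_of_subset_left (Set.sdiff_subset.trans heG) h.Gr) x

/-- field vectors of subsets of `G` are constant along the chain -/
lemma fvV (hsg : sg ∈ 𝔄) (hs : Sa sg) {e : Set ℝ} (he : MeasurableSet e) (heG : e ⊆ G) :
    ∀ i ≤ N, L.fv (L.pau 2) e (V i) = L.fv (L.pau 2) e (V 0) := by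
  intro i
  induction i with
  | zero => intro _; rfl
  | succ i ih =>
    intro hi
    rw [h.fv3 hA (by omega) he heG, h.fv2 hA hsg hs (by omega) he heG,
      h.fv1 hA (by omega) he heG, ih (by omega)]

/-- the reaction displacement `-mu q_i` -/
noncomputable def w (_h : L.Chain hc 𝔄 G r sg s μ a la N b V V1 V2 co cr) (i : ℕ) : K :=
  -((μ : ℂ) • L.qch hc (L.vch μ la (G \ b i) r (V1 i)) (L.Cch s μ sg (b i)) (b i) (V1 i))

/-- sum of the displacements of the batches before `i` -/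
noncomputable def Wv (h : L.Chain hc 𝔄 G r sg s μ a la N b V V1 V2 co cr) (i : ℕ) : K :=
  ∑ j ∈ Finset.range i, h.w j

omit hA in
lemma norm_phase (t : ℝ) : ‖Complex.exp (-(Complex.I * (t : ℂ)))‖ = 1 := by
  rw [show -(Complex.I * (t : ℂ)) = ((-t : ℝ) : ℂ) * Complex.I by push_cast; ring,
    Complex.norm_exp_ofReal_mul_I]

/-- blocks before their own step -/
lemma pre (hsg : sg ∈ 𝔄) {k : ℕ} (hk : k < N) : ∀ i ≤ k, ∃ c : ℂ, ‖c‖ = 1 ∧
    ∀ x, L.E (b k) (V i x) = c • L.zr (h.Wv i) (L.E (b k) (V 0 x)) := by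
  intro i
  induction i with
  | zero =>
    intro _
    refine ⟨1, norm_one, fun x => ?_⟩
    rw [one_smul, Wv, Finset.range_zero, Finset.sum_empty, L.zr_zero]
  | succ i ih =>
    intro hi
    obtain ⟨c, hc1, hc2⟩ := ih (by omega)
    have hiN : i < N := by omega
    have hd : Disjoint (b k) (b i) := h.bb k hk i hiN (by omega)
    have hsub : b k ⊆ G \ b i := fun t ht => ⟨h.bG k hk ht, fun h2 => hd.le_bot ⟨ht, h2⟩⟩
    refine ⟨co i * c * Complex.exp (-(Complex.I * (th (h.w i) (h.Wv i) : ℂ))), ?_, fun x => ?_⟩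
    · rw [norm_mul, norm_mul, h.nco i hiN, hc1, h.norm_phase, one_mul, one_mul]
    · rw [h.three_e hiN (h.mb k hk) hd (h.br hk), h.two_e hA hsg hiN (h.mb k hk) hsub,
        h.one_e hiN (h.mb k hk) hd (h.br hk), hc2, map_smul]
      change co i • c • L.zr (h.w i) (L.zr (h.Wv i) _) = _
      rw [L.zr_zr, smul_smul, smul_smul, Wv, Wv, Finset.sum_range_succ, add_comm (h.w i)]

/-- blocks after their own step -/
lemma post (hsg : sg ∈ 𝔄) {k : ℕ} (hk : k < N) : ∀ i, k + 1 ≤ i → i ≤ N → ∃ c : ℂ, ‖c‖ = 1 ∧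
    ∀ x, L.E (b k) (V i x) = c • L.zr (h.Wv i - h.Wv (k + 1)) (L.E (b k) (V (k + 1) x)) := by
  intro i
  induction i with
  | zero => intro h1; omega
  | succ i ih =>
    intro h1 h2
    rcases Nat.eq_or_lt_of_le h1 with h3 | h3
    · refine ⟨1, norm_one, fun x => ?_⟩
      rw [← h3, sub_self, L.zr_zero, one_smul]
    · obtain ⟨c, hc1, hc2⟩ := ih (by omega) (by omega)
      have hiN : i < N := by omega
      have hd : Disjoint (b k) (b i) := h.bb k hk i hiN (by omega)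
      have hsub : b k ⊆ G \ b i := fun t ht => ⟨h.bG k hk ht, fun h2 => hd.le_bot ⟨ht, h2⟩⟩
      refine ⟨co i * c * Complex.exp (-(Complex.I * (th (h.w i) (h.Wv i - h.Wv (k + 1)) : ℂ))),
        ?_, fun x => ?_⟩
      · rw [norm_mul, norm_mul, h.nco i hiN, hc1, h.norm_phase, one_mul, one_mul]
      · rw [h.three_e hiN (h.mb k hk) hd (h.br hk), h.two_e hA hsg hiN (h.mb k hk) hsub,
          h.one_e hiN (h.mb k hk) hd (h.br hk), hc2, map_smul]
        change co i • c • L.zr (h.w i) (L.zr (h.Wv i - h.Wv (k + 1)) _) = _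
        rw [L.zr_zr, smul_smul, smul_smul]
        congr 3
        rw [Wv, Wv, Wv, Finset.sum_range_succ _ i]
        abel

/-- the displacement seen by the batch `k` in its own step -/
noncomputable def cc (h : L.Chain hc 𝔄 G r sg s μ a la N b V V1 V2 co cr) (k : ℕ) : K :=
  (a : ℂ) • L.fv (L.pau 2) r (V k) - h.Wv k

/-- its shift -/
noncomputable def θ (h : L.Chain hc 𝔄 G r sg s μ a la N b V V1 V2 co cr) (k : ℕ) : ℝ :=
  2 * th (h.cc k) (L.vch μ la (G \ b k) r (V1 k))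

lemma one_own (hsg : sg ∈ 𝔄) {k : ℕ} (hk : k < N) : ∃ c : ℂ, ‖c‖ = 1 ∧
    ∀ x, L.E (b k) (V1 k x) = c • L.zr (-(h.cc k)) (L.E (b k) (V 0 x)) := by
  obtain ⟨c, hc1, hc2⟩ := h.pre hA hsg hk k le_rfl
  refine ⟨c * Complex.exp (-(Complex.I * (th (-((a : ℂ) • L.fv (L.pau 2) r (V k)))
    (h.Wv k) : ℂ))), ?_, fun x => ?_⟩
  · rw [norm_mul, hc1, h.norm_phase, one_mul]
  · rw [h.one_b hk, hc2, map_smul, L.zr_zr, smul_smul, cc]
    congr 3
    abel

end Chain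

end LSys

end Vale.Agent.P367.A
end

section

/-! P367 block B, T2CORE part 5: exact form of the own batch and of the reaction vectors. -/

namespace Vale.Agent.P367.A

open Complex Filter Topology MeasureTheory
open Vale.Agent.P367.B (famS cl exU ex gb ga WFam)

namespace LSys

variable {H K : Type} [NormedAddCommGroup H] [InnerProductSpace ℂ H] [CompleteSpace H]
  [NormedAddCommGroup K] [InnerProductSpace ℂ K] {L : LSys H K} {𝔄 : Set (H →L[ℂ] H)}
  {hc : ∀ x : H, Tendsto (fun a => L.W a x) (𝓝 0) (𝓝 x)}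
  {G r : Set ℝ} {sg : H →L[ℂ] H} {s μ a la : ℝ} {N : ℕ} {b : ℕ → Set ℝ}
  {V V1 V2 : ℕ → (H ≃ₗᵢ[ℂ] H)} {co cr : ℕ → ℂ}

namespace Chain

variable (h : L.Chain hc 𝔄 G r sg s μ a la N b V V1 V2 co cr) (hA : L.Ctl 𝔄)

include h hA

lemma wmem (hsg : sg ∈ 𝔄) (hs : Sa sg) {i : ℕ} (hi : i < N) : h.w i ∈ L.RR 𝔄 :=
  RR.neg (RR.smul (RR.qch hc hA (h.vmem hA hi) (Cch_mem hA hsg s μ (h.mb i hi))
    (Cch_sa hA hsg hs s μ (h.mb i hi)) (h.mb i hi) (h.cV1 i hi)) μ)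

lemma Wvmem (hsg : sg ∈ 𝔄) (hs : Sa sg) : ∀ i ≤ N, h.Wv i ∈ L.RR 𝔄 := by
  intro i
  induction i with
  | zero => intro _; rw [Wv, Finset.range_zero, Finset.sum_empty]; exact RR.zero
  | succ i ih =>
    intro hi
    have e : h.Wv (i + 1) = h.Wv i + h.w i := by rw [Wv, Wv, Finset.sum_range_succ]
    rw [e]
    exact RR.add (ih (by omega)) (h.wmem hA hsg hs (by omega))

lemma ccmem (hsg : sg ∈ 𝔄) (hs : Sa sg) {k : ℕ} (hk : k < N) : h.cc k ∈ L.RR 𝔄 :=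
  RR.sub (RR.smul (RR.fv hA (h.cV k hk.le) h.mr 2) a) (h.Wvmem hA hsg hs k hk.le)

/-- the own step of the batch `k` -/
lemma own_step (hsg : sg ∈ 𝔄) (hs : Sa sg) {k : ℕ} (hk : k < N) : ∃ c : ℂ, ‖c‖ = 1 ∧
    ∀ x, L.E (b k) (V (k + 1) x)
      = c • L.zr ((a : ℂ) • L.fv (L.pau 2) r (V2 k) - h.cc k)
        (ex (ga L.toSys hc (L.Cch s μ sg (b k)) (L.vch μ la (G \ b k) r (V1 k)) (h.θ k))
          (L.E (b k) (V 0 x))) := by
  obtain ⟨c, hc1, hc2⟩ := h.one_own hA hsg hk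
  have hC := Cch_mem hA hsg s μ (h.mb k hk)
  have hcc := h.ccmem hA hsg hs hk
  refine ⟨c * Complex.exp (-(Complex.I * (th ((a : ℂ) • L.fv (L.pau 2) r (V2 k))
    (-(h.cc k)) : ℂ))), ?_, fun x => ?_⟩
  · rw [norm_mul, hc1, h.norm_phase, one_mul]
  · rw [h.three_b hk, h.two_b hA hsg hk, hc2, map_smul, map_smul,
      B.ex_gb_zr L.toSys hc (fun y => hA.Z _ hC y) (fun y => RR.zr hA (RR.neg hcc) hC y),
      L.zr_zr, smul_smul, ← sub_eq_add_neg]
    rfl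

/-- **exact form of the batch `k` at the end of the chain** -/
lemma own (hsg : sg ∈ 𝔄) (hs : Sa sg) {k : ℕ} (hk : k < N) : ∃ c : ℂ, ‖c‖ = 1 ∧
    ∀ x, L.E (b k) (V N x)
      = c • L.zr (h.Wv N - h.w k + (a : ℂ) • (L.fv (L.pau 2) r (V2 k) - L.fv (L.pau 2) r (V k)))
        (ex (ga L.toSys hc (L.Cch s μ sg (b k)) (L.vch μ la (G \ b k) r (V1 k)) (h.θ k))
          (L.E (b k) (V 0 x))) := by
  obtain ⟨c, hc1, hc2⟩ := h.own_step hA hsg hs hk
  obtain ⟨d, hd1, hd2⟩ := h.post hA hsg hk N hk le_rfl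
  refine ⟨d * c * Complex.exp (-(Complex.I * (th (h.Wv N - h.Wv (k + 1))
    ((a : ℂ) • L.fv (L.pau 2) r (V2 k) - h.cc k) : ℂ))), ?_, fun x => ?_⟩
  · rw [norm_mul, norm_mul, hc1, hd1, h.norm_phase, one_mul, one_mul]
  · rw [hd2, hc2, map_smul, L.zr_zr, smul_smul, smul_smul]
    congr 3
    rw [cc, smul_sub, Wv, Wv, Wv, Finset.sum_range_succ _ k]
    abel

/-- **exact form of the reaction displacement** -/
lemma w_eq (hsg : sg ∈ 𝔄) (hs : Sa sg) (hμ : μ ≠ 0) {k : ℕ} (hk : k < N) :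
    h.w k = (s : ℂ) • L.iota (L.E (b k) ((V 0)⁻¹ (sg
      ((Real.cos (h.θ k) : ℂ) • L.Z ((famS L.toSys hc).sn (L.vch μ la (G \ b k) r (V1 k))
          (V 0 L.Om))
        + (Real.sin (h.θ k) : ℂ) • (famS L.toSys hc).cs (L.vch μ la (G \ b k) r (V1 k))
          (V 0 L.Om))))) := by
  obtain ⟨c, hc1, hc2⟩ := h.one_own hA hsg hk
  have hC := Cch_mem hA hsg s μ (h.mb k hk)
  have hcc := h.ccmem hA hsg hs hk
  have hv := h.vmem hA hk
  have hb := h.mb k hk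
  have hne : c ≠ 0 := by
    intro h0
    rw [h0, norm_zero] at hc1
    exact zero_ne_one hc1
  have hE := E_mem (L := L) hA hb
  have h1 := blk hb (U := V 0) (U' := V1 k) (G := L.zr (-(h.cc k))) hne
    (fun x => h.cV 0 (Nat.zero_le _) _ hE x) (fun x => h.cV1 k hk _ hE x)
    (fun x => L.E_zr _ _ x) (fun x => hc2 x)
    ((L.Cch s μ sg (b k) * (cl L.Z * (famS L.toSys hc).sn
      (L.vch μ la (G \ b k) r (V1 k)))) : H →L[ℂ] H).toLinearMap
    (fun x => by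
      change L.E (b k) (L.Cch s μ sg (b k) (L.Z ((famS L.toSys hc).sn _ x)))
        = L.Cch s μ sg (b k) (L.Z ((famS L.toSys hc).sn _ (L.E (b k) x)))
      rw [ctl_comm hA hE hC, L.E_Z, RR.sn hc hA hv hE]) L.Om
  change L.E (b k) ((V1 k)⁻¹ (L.Cch s μ sg (b k) (L.Z ((famS L.toSys hc).sn
      (L.vch μ la (G \ b k) r (V1 k)) (V1 k L.Om)))))
    = L.E (b k) ((V 0)⁻¹ ((L.zr (-(h.cc k)))⁻¹ (L.Cch s μ sg (b k) (L.Z ((famS L.toSys hc).sn
      (L.vch μ la (G \ b k) r (V1 k)) (L.zr (-(h.cc k)) (V 0 L.Om))))))) at h1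
  rw [B.react_zr L.toSys hc (fun y => RR.zr hA (RR.neg hcc) hC y), Sys.invA] at h1
  change -((μ : ℂ) • L.iota (L.E (b k) ((V1 k)⁻¹ (L.Cch s μ sg (b k) (L.Z
    ((famS L.toSys hc).sn (L.vch μ la (G \ b k) r (V1 k)) (V1 k L.Om))))))) = _
  rw [h1]
  change -((μ : ℂ) • L.iota (L.E (b k) ((V 0)⁻¹ (((-(s / μ) : ℝ) : ℂ) • (sg (L.E (b k)
    ((Real.cos (h.θ k) : ℂ) • L.Z ((famS L.toSys hc).sn (L.vch μ la (G \ b k) r (V1 k))
          (V 0 L.Om))
        + (Real.sin (h.θ k) : ℂ) • (famS L.toSys hc).cs (L.vch μ la (G \ b k) r (V1 k))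
          (V 0 L.Om)))))))) = _
  rw [map_smul, map_smul, map_smul, smul_smul, ← neg_smul]
  have e1 : -((μ : ℂ) * ((-(s / μ) : ℝ) : ℂ)) = (s : ℂ) := by
    have : (μ : ℂ) ≠ 0 := by exact_mod_cast hμ
    push_cast
    field_simp
  rw [e1]
  congr 2
  rw [ctl_comm hA hsg hE, ← comm_inv (fun x => h.cV 0 (Nat.zero_le _) _ hE x), L.E_E hb]

end Chain

end LSys

end Vale.Agent.P367.A
end

section

/-! P367 block B, T2CORE: orthogonality, reality and norm estimates for a chain (helper96). -/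

namespace Vale.Agent.P367.A

open Complex Filter Topology MeasureTheory
open Vale.Agent.P367.B (famS cl exU ex gb ga WFam)

namespace LSys

variable {H K : Type} [NormedAddCommGroup H] [InnerProductSpace ℂ H] [CompleteSpace H]
  [NormedAddCommGroup K] [InnerProductSpace ℂ K] {L : LSys H K} {𝔄 : Set (H →L[ℂ] H)}

omit [CompleteSpace H] in
lemma num_iota (x y : H) : (inner ℂ (L.iota x) (L.iota y) : ℂ) = inner ℂ x y :=
  L.iota.inner_map_map x y

omit [CompleteSpace H] in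
lemma num_norm_iota (x : H) : ‖L.iota x‖ = ‖x‖ := L.iota.norm_map x

omit [CompleteSpace H] in
/-- orthogonality of disjoint blocks -/
lemma num_orth {e e' : Set ℝ} (he : MeasurableSet e) (he' : MeasurableSet e')
    (hd : Disjoint e e') (x y : H) :
    (inner ℂ (L.iota (L.E e x)) (L.iota (L.E e' y)) : ℂ) = 0 := by
  rw [num_iota, L.inner_E_dis he he' hd]

omit [CompleteSpace H] in
lemma num_fv_orth {e e' : Set ℝ} (he : MeasurableSet e) (he' : MeasurableSet e')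
    (hd : Disjoint e e') (Q Q' U U' : H ≃ₗᵢ[ℂ] H) :
    (inner ℂ (L.fv Q e U) (L.fv Q' e' U') : ℂ) = 0 := num_orth he he' hd _ _

omit [CompleteSpace H] in
/-- reality: commuting self-adjoint operators -/
lemma num_real {e e' : Set ℝ} (he : MeasurableSet e) (he' : MeasurableSet e')
    {U : H ≃ₗᵢ[ℂ] H} (hU : ∀ x, L.E e (U x) = U (L.E e x))
    (hU' : ∀ x, L.E e' (U x) = U (L.E e' x)) {A B : H →L[ℂ] H} (hA : Sa A) (hB : Sa B)
    (hAe : ∀ x, L.E e (A x) = A (L.E e x)) (hAe' : ∀ x, L.E e' (A x) = A (L.E e' x))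
    (hBe : ∀ x, L.E e (B x) = B (L.E e x)) (hBe' : ∀ x, L.E e' (B x) = B (L.E e' x))
    (hAB : ∀ x, A (B x) = B (A x)) :
    th (L.iota (L.E e (U⁻¹ (A (U L.Om))))) (L.iota (L.E e' (U⁻¹ (B (U L.Om))))) = 0 := by
  set z := U L.Om with hz
  have h1 : (inner ℂ (L.iota (L.E e (U⁻¹ (A z)))) (L.iota (L.E e' (U⁻¹ (B z)))) : ℂ)
      = inner ℂ (A z) (L.E e (L.E e' (B z))) := by
    rw [num_iota, L.E_sa he, comm_inv hU', comm_inv hU, (U⁻¹).inner_map_map]
  have h2 : (inner ℂ (A z) (L.E e (L.E e' (B z))) : ℂ) = inner ℂ (L.E e (L.E e' (B z))) (A z) := by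
    have e1 : (inner ℂ (L.E e (L.E e' (B z))) (A z) : ℂ)
        = inner ℂ z (L.E e (L.E e' (A (B z)))) := by
      rw [L.E_sa he, L.E_sa he', hB, ← hBe', ← hBe, ← hAB, L.E_comm he he']
    rw [hA, ← hAe, ← hAe', e1]
  unfold th
  rw [h1]
  have h3 := congrArg Complex.im h2
  rw [← inner_conj_symm (L.E e (L.E e' (B z))), Complex.conj_im] at h3
  linarith

omit [CompleteSpace H] in
/-- norm of a block of a unitary state -/
lemma num_norm_E_state {e : Set ℝ} (he : MeasurableSet e) {U : H ≃ₗᵢ[ℂ] H}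
    (hU : ∀ x, L.E e (U x) = U (L.E e x)) : ‖L.E e (U L.Om)‖ = Real.sqrt (L.mu.real e) := by
  rw [hU, LinearIsometryEquiv.norm_map, ← L.norm_E_Om he, Real.sqrt_sq (norm_nonneg _)]

omit [CompleteSpace H] in
lemma num_norm_fv {e : Set ℝ} (he : MeasurableSet e) {U : H ≃ₗᵢ[ℂ] H}
    (hU : ∀ x, L.E e (U x) = U (L.E e x)) (P : Fin 3) :
    ‖L.fv (L.pau P) e U‖ = Real.sqrt (L.mu.real e) := by
  unfold fv
  rw [num_norm_iota, comm_inv hU, LinearIsometryEquiv.norm_map, L.E_pau,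
    LinearIsometryEquiv.norm_map, num_norm_E_state he hU]

omit [CompleteSpace H] in
lemma num_mu_le (e : Set ℝ) : Real.sqrt (L.mu.real e) ≤ 1 := by
  have := L.prob
  rw [Real.sqrt_le_one]
  exact measureReal_le_one

omit [CompleteSpace H] in
/-- a sign control is a contraction -/
lemma num_sgn_le {G : Set ℝ} (mG : MeasurableSet G) {sg : H →L[ℂ] H} (hs : Sa sg)
    (h2 : sg * sg = L.E G) (x : H) : ‖sg x‖ ≤ ‖x‖ := by
  have h3 : (inner ℂ (sg x) (sg x) : ℂ) = inner ℂ (L.E G x) (L.E G x) := by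
    rw [hs, ← mul_apply_eq_comp, h2, L.E_sa mG, L.E_E mG]
  have h4 : ‖sg x‖ ^ 2 = ‖L.E G x‖ ^ 2 := by
    have := congrArg Complex.re h3
    rw [show (inner ℂ (sg x) (sg x) : ℂ).re = ‖sg x‖ ^ 2 from
        (norm_sq_eq_re_inner (𝕜 := ℂ) _).symm,
      show (inner ℂ (L.E G x) (L.E G x) : ℂ).re = ‖L.E G x‖ ^ 2 from
        (norm_sq_eq_re_inner (𝕜 := ℂ) _).symm] at this
    exact this
  have h5 : ‖sg x‖ = ‖L.E G x‖ := (sq_eq_sq₀ (norm_nonneg _) (norm_nonneg _)).1 h4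
  rw [h5]
  exact L.norm_E_le mG x

omit [CompleteSpace H] in
/-- Pythagoras for a sum over disjoint blocks -/
lemma num_sum_sq {N : ℕ} {b : ℕ → Set ℝ} (mb : ∀ i < N, MeasurableSet (b i))
    (bb : ∀ i < N, ∀ j < N, i ≠ j → Disjoint (b i) (b j)) (y : ℕ → H) :
    ∀ k ≤ N, ‖∑ j ∈ Finset.range k, L.iota (L.E (b j) (y j))‖ ^ 2
      = ∑ j ∈ Finset.range k, ‖L.iota (L.E (b j) (y j))‖ ^ 2 := by
  intro k
  induction k with
  | zero => intro _; simp
  | succ k ih =>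
    intro hk
    rw [Finset.sum_range_succ, Finset.sum_range_succ, ← ih (by omega), @norm_add_sq ℂ K]
    have : (inner ℂ (∑ j ∈ Finset.range k, L.iota (L.E (b j) (y j)))
        (L.iota (L.E (b k) (y k))) : ℂ) = 0 := by
      rw [sum_inner]
      refine Finset.sum_eq_zero fun j hj => ?_
      have hj' := Finset.mem_range.1 hj
      exact num_orth (mb j (by omega)) (mb k (by omega)) (bb j (by omega) k (by omega) (by omega))
        _ _
    rw [this]
    simp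

variable {hc : ∀ x : H, Tendsto (fun a => L.W a x) (𝓝 0) (𝓝 x)}
  {G r : Set ℝ} {sg : H →L[ℂ] H} {s μ a la : ℝ} {N : ℕ} {b : ℕ → Set ℝ}
  {V V1 V2 : ℕ → (H ≃ₗᵢ[ℂ] H)} {co cr : ℕ → ℂ}

namespace Chain

variable (h : L.Chain hc 𝔄 G r sg s μ a la N b V V1 V2 co cr)

/-- the operator in `w k` -/
noncomputable def num_y (_h : L.Chain hc 𝔄 G r sg s μ a la N b V V1 V2 co cr) (k : ℕ) : H :=
  -((μ : ℂ) • ((V1 k)⁻¹ (L.Cch s μ sg (b k) (L.Z ((famS L.toSys hc).sn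
    (L.vch μ la (G \ b k) r (V1 k)) (V1 k L.Om))))))

lemma num_w_eq (k : ℕ) : h.w k = L.iota (L.E (b k) (h.num_y k)) := by
  unfold w num_y qch
  simp only [map_neg, map_smul]

/-- (B1) -/
lemma num_w_orth {i j : ℕ} (hi : i < N) (hj : j < N) (hij : i ≠ j) :
    (inner ℂ (h.w i) (h.w j) : ℂ) = 0 := by
  rw [num_w_eq, num_w_eq]
  exact num_orth (h.mb i hi) (h.mb j hj) (h.bb i hi j hj hij) _ _

lemma num_w_fv_orth {i : ℕ} (hi : i < N) {e : Set ℝ} (he : MeasurableSet e)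
    (hd : Disjoint (b i) e) (Q U : H ≃ₗᵢ[ℂ] H) : (inner ℂ (h.w i) (L.fv Q e U) : ℂ) = 0 := by
  rw [num_w_eq]
  exact num_orth (h.mb i hi) he hd _ _

lemma num_w_fv_r {i : ℕ} (hi : i < N) (Q U : H ≃ₗᵢ[ℂ] H) :
    (inner ℂ (h.w i) (L.fv Q r U) : ℂ) = 0 := h.num_w_fv_orth hi h.mr (h.br hi) Q U

include h

lemma num_fv_r {e : Set ℝ} (he : MeasurableSet e) (heG : e ⊆ G) (Q Q' U U' : H ≃ₗᵢ[ℂ] H) :
    (inner ℂ (L.fv Q r U) (L.fv Q' e U') : ℂ) = 0 :=
  num_fv_orth h.mr he (Set.disjoint_of_subset_left heG h.Gr).symm _ _ _ _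

lemma num_fv_r' {e : Set ℝ} (he : MeasurableSet e) (heG : e ⊆ G) (Q Q' U U' : H ≃ₗᵢ[ℂ] H) :
    (inner ℂ (L.fv Q' e U') (L.fv Q r U) : ℂ) = 0 :=
  num_fv_orth he h.mr (Set.disjoint_of_subset_left heG h.Gr) _ _ _ _

/-- (B2) -/
lemma num_B2 (hA : L.Ctl 𝔄) (hsg : sg ∈ 𝔄) (hs : Sa sg) {b' e : Set ℝ} (hb : MeasurableSet b')
    (he : MeasurableSet e) :
    th (L.iota (L.E b' (sg L.Om))) (L.fv (L.pau 2) e (V 0)) = 0 := by
  have c0 : ∀ A ∈ 𝔄, ∀ x, A (V 0 x) = V 0 (A x) := h.cV 0 (Nat.zero_le _)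
  have e1 : L.iota (L.E b' (sg L.Om)) = L.iota (L.E b' ((V 0)⁻¹ (sg (V 0 L.Om)))) := by
    rw [c0 sg hsg, Sys.invA]
  rw [e1]
  exact num_real (A := sg) (B := cl L.Z) hb he (c0 _ (E_mem hA hb)) (c0 _ (E_mem hA he)) hs
    (fun x y => L.inner_Z x y) (fun x => ctl_comm hA (E_mem hA hb) hsg x)
    (fun x => ctl_comm hA (E_mem hA he) hsg x) (fun x => L.E_Z _ x) (fun x => L.E_Z _ x)
    (fun x => hA.Z sg hsg x)

/-- (B2'), the exact form -/
lemma num_w_real (hA : L.Ctl 𝔄) (hsg : sg ∈ 𝔄) (hs : Sa sg) {j : ℕ} (hj : j < N) {e : Set ℝ}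
    (he : MeasurableSet e) (heG : e ⊆ G) : th (h.w j) (L.fv (L.pau 2) e (V 0)) = 0 := by
  rw [← h.fvV hA hsg hs he heG j hj.le, ← h.fv1 hA hj he heG]
  have hv := h.vmem hA hj
  have hC := Cch_mem hA hsg s μ (h.mb j hj)
  have hCs := Cch_sa hA hsg hs s μ (h.mb j hj)
  have c1 := h.cV1 j hj
  set v := L.vch μ la (G \ b j) r (V1 j) with hvd
  set C := L.Cch s μ sg (b j) with hCd
  unfold w
  rw [th_neg_left, ← hvd, ← hCd, th_smul_left]
  unfold qch
  have key : th (L.iota (L.E (b j) ((V1 j)⁻¹ (C (L.Z ((famS L.toSys hc).sn v (V1 j L.Om)))))))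
      (L.fv (L.pau 2) e (V1 j)) = 0 := by
    refine num_real (A := C * (cl L.Z * (famS L.toSys hc).sn v)) (B := cl L.Z) (h.mb j hj) he
      (c1 _ (E_mem hA (h.mb j hj))) (c1 _ (E_mem hA he)) ?_ (fun x y => L.inner_Z x y) ?_ ?_
      (fun x => L.E_Z _ x) (fun x => L.E_Z _ x) ?_
    · refine sa_comp hCs (sa_comp (fun x y => L.inner_Z x y)
        (sa_of ((famS L.toSys hc).sn_sa v)) (fun x => (B.sn_Z L.toSys hc v x).symm)) fun x => ?_
      change C (L.Z ((famS L.toSys hc).sn v x)) = L.Z ((famS L.toSys hc).sn v (C x))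
      rw [hA.Z C hC, RR.sn hc hA hv hC]
    · intro x
      change L.E (b j) (C (L.Z ((famS L.toSys hc).sn v x)))
        = C (L.Z ((famS L.toSys hc).sn v (L.E (b j) x)))
      rw [ctl_comm hA (E_mem hA (h.mb j hj)) hC, L.E_Z, RR.sn hc hA hv (E_mem hA (h.mb j hj))]
    · intro x
      change L.E e (C (L.Z ((famS L.toSys hc).sn v x)))
        = C (L.Z ((famS L.toSys hc).sn v (L.E e x)))
      rw [ctl_comm hA (E_mem hA he) hC, L.E_Z, RR.sn hc hA hv (E_mem hA he)]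
    · intro x
      change C (L.Z ((famS L.toSys hc).sn v (L.Z x))) = L.Z (C (L.Z ((famS L.toSys hc).sn v x)))
      rw [B.sn_Z, hA.Z C hC]
  rw [key]
  simp

/-- (B3): the shift, exactly -/
lemma num_θ (hA : L.Ctl 𝔄) (hsg : sg ∈ 𝔄) (hs : Sa sg) {k : ℕ} (hk : k < N) :
    h.θ k = 2 * a * la * th (L.fv (L.pau 2) r (V k)) (L.fv (L.pau 1) r (V1 k)) := by
  have e1 : L.fv (L.pau 2) (G \ b k) (V1 k) = L.fv (L.pau 2) (G \ b k) (V 0) := by
    rw [h.fv1 hA hk (h.mo hk) Set.sdiff_subset,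
      h.fvV hA hsg hs (h.mo hk) Set.sdiff_subset k hk.le]
  have t1 : th (L.fv (L.pau 2) r (V k)) (L.fv (L.pau 2) (G \ b k) (V1 k)) = 0 := by
    unfold th
    rw [h.num_fv_r (h.mo hk) Set.sdiff_subset]
    rfl
  have t2 : th (h.Wv k) (L.fv (L.pau 2) (G \ b k) (V1 k)) = 0 := by
    rw [e1]
    unfold Wv th
    rw [sum_inner, Complex.im_sum]
    refine Finset.sum_eq_zero fun j hj => ?_
    exact h.num_w_real hA hsg hs (lt_trans (Finset.mem_range.1 hj) hk) (h.mo hk)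
      Set.sdiff_subset
  have t3 : th (h.Wv k) (L.fv (L.pau 1) r (V1 k)) = 0 := by
    unfold Wv th
    rw [sum_inner, Complex.im_sum]
    refine Finset.sum_eq_zero fun j hj => ?_
    rw [h.num_w_fv_r (lt_trans (Finset.mem_range.1 hj) hk)]
    rfl
  unfold θ cc vch
  rw [th_sub_left, th_add_right, th_add_right]
  simp only [th_smul_left, th_smul_right]
  rw [t1, t2, t3]
  ring

/-- (B4) -/
lemma num_w_le (hA : L.Ctl 𝔄) (hsg : L.Sgn G 𝔄 sg) {k : ℕ} (hk : k < N) :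
    ‖h.w k‖ ≤ |s| * Real.sqrt (L.mu.real (b k)) := by
  have hE := E_mem (L := L) hA (h.mb k hk)
  have hC := Cch_mem hA hsg.1 s μ (h.mb k hk)
  have hv := h.vmem hA hk
  have c1 := h.cV1 k hk
  unfold w qch
  rw [norm_neg, norm_smul, Complex.norm_real, Real.norm_eq_abs, num_norm_iota,
    comm_inv (c1 _ hE), LinearIsometryEquiv.norm_map, ctl_comm hA hE hC, L.E_Z,
    RR.sn hc hA hv hE]
  have h1 : ‖L.Cch s μ sg (b k) (L.Z ((famS L.toSys hc).sn (L.vch μ la (G \ b k) r (V1 k))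
      (L.E (b k) (V1 k L.Om))))‖ ≤ |s / μ| * Real.sqrt (L.mu.real (b k)) := by
    change ‖((-(s / μ) : ℝ) : ℂ) • (sg (L.E (b k) _))‖ ≤ _
    rw [norm_smul, Complex.norm_real, Real.norm_eq_abs, abs_neg]
    gcongr
    refine (num_sgn_le h.mG hsg.2.1 hsg.2.2 _).trans ((L.norm_E_le (h.mb k hk) _).trans ?_)
    rw [LinearIsometryEquiv.norm_map]
    refine ((famS L.toSys hc).norm_sn_le' _ _).trans ?_
    rw [num_norm_E_state (h.mb k hk) (c1 _ hE)]
  have h2 : |μ| * |s / μ| ≤ |s| := by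
    rw [← abs_mul]
    rcases eq_or_ne μ 0 with h0 | h0
    · rw [h0, zero_mul, abs_zero]; exact abs_nonneg s
    · rw [mul_div_cancel₀ _ h0]
  calc _ ≤ |μ| * (|s / μ| * Real.sqrt (L.mu.real (b k))) := by gcongr
    _ = |μ| * |s / μ| * Real.sqrt (L.mu.real (b k)) := by ring
    _ ≤ _ := by gcongr

omit h in
omit [CompleteSpace H] in
lemma num_W_neg {e : Set ℝ} (v : K) (z : H) :
    ‖L.E e (L.W (-v) z) - L.E e z‖ = ‖L.E e (L.W v z) - L.E e z‖ := by
  have : L.E e (L.W v z) - L.E e z = -(L.W v (L.E e (L.W (-v) z) - L.E e z)) := by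
    rw [map_sub, ← L.E_W, ← L.E_W, L.W_W_neg]
    abel
  rw [this, norm_neg, LinearIsometryEquiv.norm_map]

omit h in
omit [CompleteSpace H] in
lemma num_cs_le {e : Set ℝ} (v : K) (z : H) :
    ‖L.E e ((famS L.toSys hc).cs v z) - L.E e z‖ ≤ ‖L.E e (L.W v z) - L.E e z‖ := by
  have e1 : L.E e ((famS L.toSys hc).cs v z) - L.E e z
      = (2 : ℂ)⁻¹ • ((L.E e (L.W v z) - L.E e z) + (L.E e (L.W (-v) z) - L.E e z)) := by
    rw [B.cs_apply', map_smul, map_add]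
    module
  rw [e1, norm_smul, norm_inv]
  have h1 := norm_add_le (L.E e (L.W v z) - L.E e z) (L.E e (L.W (-v) z) - L.E e z)
  rw [num_W_neg v z] at h1
  have h2 : ‖(2 : ℂ)‖ = 2 := by simp
  rw [h2]
  linarith

omit h in
omit [CompleteSpace H] in
lemma num_sin_sub (t : ℝ) : |Real.sin t - 1| ≤ |t - Real.pi / 2| := by
  have h1 : Real.sin t - 1 = Real.cos (t - Real.pi / 2) - 1 := by
    rw [Real.cos_sub_pi_div_two]
  rw [h1]
  have h2 := Real.cos_le_one (t - Real.pi / 2)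
  rw [abs_of_nonpos (by linarith)]
  rcases le_or_gt |t - Real.pi / 2| 2 with h3 | h3
  · have h4 := Real.one_sub_sq_div_two_le_cos (x := t - Real.pi / 2)
    have h5 : (t - Real.pi / 2) ^ 2 = |t - Real.pi / 2| ^ 2 := (sq_abs _).symm
    have h6 := abs_nonneg (t - Real.pi / 2)
    nlinarith
  · have h4 := Real.neg_one_le_cos (t - Real.pi / 2)
    linarith

/-- the vector `w_k - s iota E_b sg Om` -/
lemma num_w_sub (k : ℕ) : h.w k - (s : ℂ) • L.iota (L.E (b k) (sg L.Om))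
    = L.iota (L.E (b k) (h.num_y k - (s : ℂ) • sg L.Om)) := by
  rw [num_w_eq, map_sub, map_sub, map_smul, map_smul]

/-- (B5) -/
lemma num_w_sub_le (hA : L.Ctl 𝔄) (hsg : L.Sgn G 𝔄 sg) (hμ : μ ≠ 0) {k : ℕ} (hk : k < N) :
    ‖h.w k - (s : ℂ) • L.iota (L.E (b k) (sg L.Om))‖
      ≤ |s| * (2 * |h.θ k - Real.pi / 2| * Real.sqrt (L.mu.real (b k))
        + ‖L.E (b k) (L.W (L.vch μ la (G \ b k) r (V1 k)) (V 0 L.Om))
          - L.E (b k) (V 0 L.Om)‖) := by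
  have hb := h.mb k hk
  have hE := E_mem (L := L) hA hb
  have hv := h.vmem hA hk
  have c0 : ∀ A ∈ 𝔄, ∀ x, A (V 0 x) = V 0 (A x) := h.cV 0 (Nat.zero_le _)
  set v := L.vch μ la (G \ b k) r (V1 k) with hvd
  have e1 : sg L.Om = (V 0)⁻¹ (sg (V 0 L.Om)) := by rw [c0 sg hsg.1, Sys.invA]
  set z := V 0 L.Om with hz
  have e2 : h.w k - (s : ℂ) • L.iota (L.E (b k) (sg L.Om))
      = (s : ℂ) • L.iota ((V 0)⁻¹ (sg (
        (Real.cos (h.θ k) : ℂ) • L.Z ((famS L.toSys hc).sn v (L.E (b k) z))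
        + (((Real.sin (h.θ k) - 1 : ℝ) : ℂ) • (famS L.toSys hc).cs v (L.E (b k) z)
        + (L.E (b k) ((famS L.toSys hc).cs v z) - L.E (b k) z))))) := by
    rw [h.w_eq hA hsg.1 hsg.2.1 hμ hk, e1, ← smul_sub, ← map_sub, ← map_sub, ← map_sub, ← map_sub,
      comm_inv (c0 _ hE), ctl_comm hA hE hsg.1]
    congr 4
    rw [map_sub, map_add, map_smul, map_smul, L.E_Z, RR.sn hc hA hv hE, ← RR.cs hc hA hv hE]
    push_cast
    module
  rw [e2, norm_smul, Complex.norm_real, Real.norm_eq_abs, num_norm_iota,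
    LinearIsometryEquiv.norm_map]
  gcongr
  refine (num_sgn_le h.mG hsg.2.1 hsg.2.2 _).trans ?_
  have n0 : ‖L.E (b k) z‖ = Real.sqrt (L.mu.real (b k)) := num_norm_E_state hb (c0 _ hE)
  have n1 : ‖(Real.cos (h.θ k) : ℂ) • L.Z ((famS L.toSys hc).sn v (L.E (b k) z))‖
      ≤ |h.θ k - Real.pi / 2| * Real.sqrt (L.mu.real (b k)) := by
    rw [norm_smul, Complex.norm_real, Real.norm_eq_abs, LinearIsometryEquiv.norm_map, ← n0]
    have := Real.abs_sin_le_abs (x := Real.pi / 2 - h.θ k)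
    rw [Real.sin_pi_div_two_sub, abs_sub_comm] at this
    exact mul_le_mul this ((famS L.toSys hc).norm_sn_le' _ _) (norm_nonneg _) (abs_nonneg _)
  have n2 : ‖((Real.sin (h.θ k) - 1 : ℝ) : ℂ) • (famS L.toSys hc).cs v (L.E (b k) z)‖
      ≤ |h.θ k - Real.pi / 2| * Real.sqrt (L.mu.real (b k)) := by
    rw [norm_smul, Complex.norm_real, Real.norm_eq_abs, ← n0]
    have := num_sin_sub (h.θ k)
    exact mul_le_mul this ((famS L.toSys hc).norm_cs_le' _ _) (norm_nonneg _) (abs_nonneg _)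
  have n3 := num_cs_le (L := L) (hc := hc) (e := b k) v z
  refine (norm_add_le _ _).trans ?_
  have n4 := norm_add_le (((Real.sin (h.θ k) - 1 : ℝ) : ℂ) • (famS L.toSys hc).cs v (L.E (b k) z))
    (L.E (b k) ((famS L.toSys hc).cs v z) - L.E (b k) z)
  linarith

/-- Pythagoras for the reaction vectors -/
lemma num_Wv_sub_sq {k : ℕ} (hk : k ≤ N) :
    ‖h.Wv k - (s : ℂ) • ∑ j ∈ Finset.range k, L.iota (L.E (b j) (sg L.Om))‖ ^ 2
      = ∑ j ∈ Finset.range k, ‖h.w j - (s : ℂ) • L.iota (L.E (b j) (sg L.Om))‖ ^ 2 := by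
  unfold Wv
  rw [Finset.smul_sum, ← Finset.sum_sub_distrib]
  simp only [num_w_sub]
  exact num_sum_sq h.mb h.bb _ k hk

lemma num_fvZG (hA : L.Ctl 𝔄) (hsg : L.Sgn G 𝔄 sg) {k : ℕ} (hk : k < N) :
    L.fv (L.pau 2) (G \ b k) (V1 k) = L.fv (L.pau 2) (G \ b k) (V 0) := by
  rw [h.fv1 hA hk (h.mo hk) Set.sdiff_subset,
    h.fvV hA hsg.1 hsg.2.1 (h.mo hk) Set.sdiff_subset k hk.le]

/-- (B6): reality of the control vector -/
lemma num_v_real (hA : L.Ctl 𝔄) (hsg : L.Sgn G 𝔄 sg) {k : ℕ} (hk : k < N) {e : Set ℝ}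
    (he : MeasurableSet e) (heG : e ⊆ G) :
    th (L.fv (L.pau 2) e (V 0)) (L.vch μ la (G \ b k) r (V1 k)) = 0 := by
  have c0 : ∀ A ∈ 𝔄, ∀ x, A (V 0 x) = V 0 (A x) := h.cV 0 (Nat.zero_le _)
  unfold vch
  rw [h.num_fvZG hA hsg hk, th_add_right, th_smul_right, th_smul_right]
  have h1 : th (L.fv (L.pau 2) e (V 0)) (L.fv (L.pau 1) r (V1 k)) = 0 := by
    unfold th
    rw [h.num_fv_r' he heG]
    rfl
  have h2 : th (L.fv (L.pau 2) e (V 0)) (L.fv (L.pau 2) (G \ b k) (V 0)) = 0 :=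
    num_real (A := cl L.Z) (B := cl L.Z) he (h.mo hk) (c0 _ (E_mem hA he))
      (c0 _ (E_mem hA (h.mo hk))) (fun x y => L.inner_Z x y) (fun x y => L.inner_Z x y)
      (fun x => L.E_Z _ x) (fun x => L.E_Z _ x) (fun x => L.E_Z _ x) (fun x => L.E_Z _ x)
      (fun x => rfl)
  rw [h1, h2]
  ring

/-- (B7) -/
lemma num_v_le (hA : L.Ctl 𝔄) {k : ℕ} (hk : k < N) :
    ‖L.vch μ la (G \ b k) r (V1 k)‖ ≤ |μ| + |la| * Real.sqrt (L.mu.real r) := by
  unfold vch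
  refine (norm_add_le _ _).trans ?_
  rw [norm_smul, norm_smul, Complex.norm_real, Complex.norm_real, Real.norm_eq_abs,
    Real.norm_eq_abs, num_norm_fv h.mr (h.cV1 k hk _ (E_mem hA h.mr)),
    num_norm_fv (h.mo hk) (h.cV1 k hk _ (E_mem hA (h.mo hk)))]
  have := num_mu_le (L := L) (G \ b k)
  have h2 := abs_nonneg μ
  nlinarith

/-- (B7') the normalised control vector is close to `x` -/
lemma num_v_sub_le (hA : L.Ctl 𝔄) (hsg : L.Sgn G 𝔄 sg) (hμ : μ ≠ 0) {k : ℕ} (hk : k < N) :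
    ‖((μ⁻¹ : ℝ) : ℂ) • L.vch μ la (G \ b k) r (V1 k) - L.fv (L.pau 2) G (V 0)‖
      ≤ Real.sqrt (L.mu.real (b k)) + |la / μ| * Real.sqrt (L.mu.real r) := by
  have c0 : ∀ A ∈ 𝔄, ∀ x, A (V 0 x) = V 0 (A x) := h.cV 0 (Nat.zero_le _)
  have hb := h.mb k hk
  have e1 : L.fv (L.pau 2) G (V 0)
      = L.fv (L.pau 2) (b k) (V 0) + L.fv (L.pau 2) (G \ b k) (V 0) := by
    rw [fv_split h.mG hb, Set.inter_eq_right.2 (h.bG k hk)]
  have e2 : ((μ⁻¹ : ℝ) : ℂ) • L.vch μ la (G \ b k) r (V1 k) - L.fv (L.pau 2) G (V 0)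
      = ((la / μ : ℝ) : ℂ) • L.fv (L.pau 1) r (V1 k) - L.fv (L.pau 2) (b k) (V 0) := by
    have hμ' : (μ : ℂ) ≠ 0 := by exact_mod_cast hμ
    unfold vch
    rw [e1, h.num_fvZG hA hsg hk, smul_add, smul_smul, smul_smul]
    have e3 : ((μ⁻¹ : ℝ) : ℂ) * (μ : ℂ) = 1 := by
      push_cast
      exact inv_mul_cancel₀ hμ'
    have e4 : ((μ⁻¹ : ℝ) : ℂ) * (la : ℂ) = ((la / μ : ℝ) : ℂ) := by
      push_cast
      field_simp
    rw [e3, e4, one_smul]
    abel
  rw [e2]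
  refine (norm_sub_le _ _).trans ?_
  rw [norm_smul, Complex.norm_real, Real.norm_eq_abs,
    num_norm_fv h.mr (h.cV1 k hk _ (E_mem hA h.mr)), num_norm_fv hb (c0 _ (E_mem hA hb)), add_comm]

end Chain

/-- `sg = sg E_G` -/
lemma num_sg_EG {G : Set ℝ} (hA : L.Ctl 𝔄) (mG : MeasurableSet G) {sg : H →L[ℂ] H}
    (hsg : L.Sgn G 𝔄 sg) (x : H) : L.E G (sg x) = sg x := by
  have h1 : sg (x - L.E G x) = 0 := by
    have h2 : (inner ℂ (sg (x - L.E G x)) (sg (x - L.E G x)) : ℂ) = 0 := by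
      rw [hsg.2.1, ← mul_apply_eq_comp, hsg.2.2, map_sub, L.E_E mG, sub_self, inner_zero_right]
    exact inner_self_eq_zero.1 h2
  rw [map_sub, sub_eq_zero] at h1
  rw [ctl_comm hA (E_mem hA mG) hsg.1, ← h1]

omit [CompleteSpace H] in
/-- sum of the projections over a finite disjoint family -/
lemma num_sum_E {N : ℕ} {b : ℕ → Set ℝ} (mb : ∀ i < N, MeasurableSet (b i))
    (bb : ∀ i < N, ∀ j < N, i ≠ j → Disjoint (b i) (b j)) (x : H) :
    ∀ k ≤ N, ∑ j ∈ Finset.range k, L.E (b j) x = L.E (⋃ j ∈ Finset.range k, b j) x := by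
  intro k
  induction k with
  | zero =>
    intro _
    simp [L.E_empty]
  | succ k ih =>
    intro hk
    have hm : MeasurableSet (⋃ j ∈ Finset.range k, b j) :=
      Finset.measurableSet_biUnion _ fun j hj => mb j (by have := Finset.mem_range.1 hj; omega)
    have hd : Disjoint (⋃ j ∈ Finset.range k, b j) (b k) := by
      rw [Set.disjoint_iUnion₂_left]
      intro j hj
      have := Finset.mem_range.1 hj
      exact bb j (by omega) k (by omega) (by omega)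
    have e : (⋃ j ∈ Finset.range (k + 1), b j) = (⋃ j ∈ Finset.range k, b j) ∪ b k := by
      rw [Finset.range_add_one, Finset.set_biUnion_insert, Set.union_comm]
    rw [Finset.sum_range_succ, ih (by omega), e, L.E_union hm (mb k (by omega)) hd]

/-- `iota (sg Om)` is the sum of its blocks -/
lemma num_sum_sg {G : Set ℝ} (hA : L.Ctl 𝔄) (mG : MeasurableSet G) {sg : H →L[ℂ] H}
    (hsg : L.Sgn G 𝔄 sg) {N : ℕ} {b : ℕ → Set ℝ} (mb : ∀ i < N, MeasurableSet (b i))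
    (bb : ∀ i < N, ∀ j < N, i ≠ j → Disjoint (b i) (b j))
    (hU : (⋃ i ∈ Finset.range N, b i) = G) :
    ∑ j ∈ Finset.range N, L.iota (L.E (b j) (sg L.Om)) = L.iota (sg L.Om) := by
  rw [← map_sum, num_sum_E mb bb _ N le_rfl, hU, num_sg_EG hA mG hsg]

end LSys

end Vale.Agent.P367.A
end

section

/-! P367 block B, T2CORE leaf A: the own-batch estimate. -/

namespace Vale.Agent.P367.B

open Filter Topology Complex

section oe

variable {K E : Type} [NormedAddCommGroup K] [InnerProductSpace ℂ K]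
  [NormedAddCommGroup E] [InnerProductSpace ℂ E] [CompleteSpace E] (T : WFam K E)

/-- exponentials agree on a vector killed by the difference -/
lemma oe_ex_congr {A B : E →L[ℂ] E} (hA : IsSelfAdjoint A) (hB : IsSelfAdjoint B)
    (h : Commute A B) {z : E} (hz : A z = B z) : ex A z = ex B z := by
  have h1 := norm_ex_sub_ex_le hA hB h z
  rw [sub_apply, hz, sub_self, norm_zero] at h1
  exact sub_eq_zero.1 (norm_le_zero_iff.1 h1)

lemma oe_ex_W_pos (v : K) (z : E) {σ : ℝ} (hσ : 0 ≤ σ) {ε : ℝ} (hε : 0 < ε) :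
    ∃ m > 0, ∀ μ : ℝ, 0 < μ → μ < m →
      ‖ex ((σ : ℂ) • ((μ : ℂ)⁻¹ • T.sn ((μ : ℂ) • v))) z - T.W ((σ : ℂ) • v) z‖ ≤ ε := by
  obtain ⟨δ, hδ, h1⟩ := T.small z (κ := ε / 4) (by positivity)
  set r := δ / (2 * (‖v‖ + 1)) with hr
  have hr0 : 0 < r := by positivity
  have key : ∀ d : ℝ, 0 < d → d / (2 * (‖v‖ + 1)) * ‖v‖ < d := by
    intro d hd
    rw [div_mul_eq_mul_div, div_lt_iff₀ (by positivity)]
    have : 0 ≤ d * ‖v‖ := by positivity
    nlinarith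
  have h1' : ∀ t ∈ Set.Icc (0:ℝ) r, ‖T.orb v z t - z‖ ≤ ε / 4 := by
    intro t ht
    apply h1
    rw [norm_smul, norm_real, Real.norm_eq_abs, abs_of_nonneg ht.1]
    calc t * ‖v‖ ≤ r * ‖v‖ := by gcongr; exact ht.2
      _ < δ := key δ hδ
  obtain ⟨δ', hδ', h2⟩ := T.small z (κ := ε * r / (4 * (σ + 1))) (by positivity)
  refine ⟨δ' / (2 * (‖v‖ + 1)), by positivity, fun μ hμ hμm => ?_⟩
  have h2' : ∀ t ∈ Set.Icc (-μ) μ, ‖T.orb v z t - z‖ ≤ ε * r / (4 * (σ + 1)) := by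
    intro t ht
    apply h2
    rw [norm_smul, norm_real, Real.norm_eq_abs]
    have h3 : |t| ≤ μ := abs_le.2 ht
    calc |t| * ‖v‖ ≤ δ' / (2 * (‖v‖ + 1)) * ‖v‖ := by gcongr; linarith
      _ < δ' := key δ' hδ'
  refine (T.norm_ex_sub_W_le v z hr0 hμ hσ h1' h2').trans ?_
  have h4 : σ * (2 * (ε * r / (4 * (σ + 1))) / r) = ε / 2 * (σ / (σ + 1)) := by
    field_simp
    ring
  rw [h4]
  have h5 : σ / (σ + 1) ≤ 1 := by
    rw [div_le_one (by positivity)]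
    linarith
  nlinarith

lemma oe_ex_W (v : K) (z : E) (σ : ℝ) {ε : ℝ} (hε : 0 < ε) :
    ∃ m > 0, ∀ μ : ℝ, 0 < μ → μ < m →
      ‖ex ((σ : ℂ) • ((μ : ℂ)⁻¹ • T.sn ((μ : ℂ) • v))) z - T.W ((σ : ℂ) • v) z‖ ≤ ε := by
  rcases le_total 0 σ with h | h
  · exact oe_ex_W_pos T v z h hε
  · obtain ⟨m, hm, h1⟩ := oe_ex_W_pos T (-v) z (σ := -σ) (by linarith) hε
    refine ⟨m, hm, fun μ hμ hμm => ?_⟩
    have h2 := h1 μ hμ hμm
    have e1 : T.sn ((μ : ℂ) • (-v)) = -T.sn ((μ : ℂ) • v) := by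
      unfold WFam.sn
      rw [smul_neg, neg_neg, ← neg_sub (T.op ((μ : ℂ) • v)), smul_neg]
    rw [e1] at h2
    simpa only [ofReal_neg, smul_neg, neg_smul, neg_neg] using h2

end oe

end Vale.Agent.P367.B

namespace Vale.Agent.P367.A

open Complex Filter Topology MeasureTheory
open Vale.Agent.P367.B (famS cl exU ex gb ga WFam)

namespace LSys

variable {H K : Type} [NormedAddCommGroup H] [InnerProductSpace ℂ H] [CompleteSpace H]
  [NormedAddCommGroup K] [InnerProductSpace ℂ K] {L : LSys H K} {𝔄 : Set (H →L[ℂ] H)}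
  (hc : ∀ x : H, Tendsto (fun a => L.W a x) (𝓝 0) (𝓝 x))

omit [CompleteSpace H] in
lemma oe_Com (hA : L.Ctl 𝔄) {v : K} (hv : v ∈ L.RR 𝔄) {a : H →L[ℂ] H} (ha : a ∈ 𝔄) :
    (famS L.toSys hc).Com a v := by
  intro t
  ext x
  exact RR.W hA (RR.smul hv t) ha x

omit [CompleteSpace H] in
lemma oe_norm_sg {G : Set ℝ} (mG : MeasurableSet G) {sg : H →L[ℂ] H} (hs : Sa sg)
    (hsq : sg * sg = L.E G) (x : H) : ‖sg x‖ = ‖L.E G x‖ := by
  have h1 : (inner ℂ (sg x) (sg x) : ℂ) = inner ℂ (L.E G x) (L.E G x) := by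
    rw [hs, L.E_sa mG, L.E_E mG, ← hsq]
    rfl
  have h2 := congrArg Complex.re h1
  rw [show (inner ℂ (sg x) (sg x) : ℂ).re = ‖sg x‖ ^ 2 from
      (norm_sq_eq_re_inner (𝕜 := ℂ) _).symm,
    show (inner ℂ (L.E G x) (L.E G x) : ℂ).re = ‖L.E G x‖ ^ 2 from
      (norm_sq_eq_re_inner (𝕜 := ℂ) _).symm] at h2
  exact (sq_eq_sq₀ (norm_nonneg _) (norm_nonneg _)).1 h2

/-- the limit of the own gate -/
noncomputable def oeD (L : LSys H K) (s : ℝ) (X : K) (sg : H →L[ℂ] H) (y : H) : H :=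
  (1 / 2 : ℂ) • (L.W (-((s : ℂ) • X)) (y + sg y) + L.W ((s : ℂ) • X) (y - sg y))

lemma oe_D_E (hA : L.Ctl 𝔄) {sg : H →L[ℂ] H} (hsg : sg ∈ 𝔄) (s : ℝ) (X : K) {b : Set ℝ}
    (hb : MeasurableSet b) (y : H) : oeD L s X sg (L.E b y) = L.E b (oeD L s X sg y) := by
  unfold oeD
  rw [(L.E b).map_smul, (L.E b).map_add, L.E_W, L.E_W, (L.E b).map_add, (L.E b).map_sub,
    ctl_comm hA hsg (E_mem hA hb)]

/-- the bounded gate converges on the whole of `G` -/
lemma oe_lim (hA : L.Ctl 𝔄) {G : Set ℝ} (mG : MeasurableSet G) {sg : H →L[ℂ] H} (hsg : sg ∈ 𝔄)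
    (hs : Sa sg) (hsq : sg * sg = L.E G) {X : K} (hX : X ∈ L.RR 𝔄) (s : ℝ) (z : H) {ε : ℝ}
    (hε : 0 < ε) : ∃ m > 0, ∀ μ : ℝ, 0 < μ → μ < m →
      ‖ex ((famS L.toSys hc).gen (((-s : ℝ) : ℂ) • sg) X μ) (L.E G z)
        - oeD L s X sg (L.E G z)‖ ≤ ε := by
  set T := famS L.toSys hc with hT
  set y := L.E G z with hy
  have hyy : L.E G y = y := L.E_E mG z
  set p := (1 / 2 : ℂ) • (y + sg y) with hp
  set q := (1 / 2 : ℂ) • (y - sg y) with hq
  have hss : sg (sg y) = y := by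
    have : sg (sg y) = (sg * sg) y := rfl
    rw [this, hsq, hyy]
  have hsp : sg p = p := by
    rw [hp, map_smul, map_add, hss, add_comm]
  have hsq' : sg q = -q := by
    rw [hq, map_smul, map_sub, hss, ← smul_neg, neg_sub]
  have hpq : y = p + q := by
    rw [hp, hq]; module
  obtain ⟨m1, hm1, h1⟩ := B.oe_ex_W T X p (-s) (half_pos hε)
  obtain ⟨m2, hm2, h2⟩ := B.oe_ex_W T X q s (half_pos hε)
  refine ⟨min m1 m2, lt_min hm1 hm2, fun μ hμ hμm => ?_⟩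
  have h1' := h1 μ hμ (hμm.trans_le (min_le_left _ _))
  have h2' := h2 μ hμ (hμm.trans_le (min_le_right _ _))
  have hCm : (((-s : ℝ) : ℂ) • sg) ∈ 𝔄 := ctl_smul hA hsg _
  have hCs : IsSelfAdjoint (((-s : ℝ) : ℂ) • sg) := isSA (sa_rsmul hs _)
  have hCom : T.Com (((-s : ℝ) : ℂ) • sg) X := oe_Com hc hA hX hCm
  have hA1 := T.gen_sa hCs hCom μ
  have hAs : IsSelfAdjoint ((μ : ℂ)⁻¹ • T.sn ((μ : ℂ) • X)) := by
    rw [isSelfAdjoint_iff, star_smul, (T.sn_sa _).star_eq]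
    congr 1
    rw [star_inv₀]; simp
  have hBs : ∀ t : ℝ, IsSelfAdjoint ((t : ℂ) • ((μ : ℂ)⁻¹ • T.sn ((μ : ℂ) • X))) :=
    fun t => B.sa_real_smul hAs t
  have hBc : ∀ t : ℝ, Commute (T.gen (((-s : ℝ) : ℂ) • sg) X μ)
      ((t : ℂ) • ((μ : ℂ)⁻¹ • T.sn ((μ : ℂ) • X))) := by
    intro t
    unfold WFam.gen
    refine (Commute.smul_left ?_ _)
    refine Commute.smul_right (Commute.smul_right ?_ _) _
    exact (hCom.sn μ).mul_left (Commute.refl _)
  have sc : ∀ x, sg (T.sn ((μ : ℂ) • X) x) = T.sn ((μ : ℂ) • X) (sg x) := fun x =>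
    RR.sn hc hA (RR.smul hX μ) hsg x
  have g : ∀ x, T.gen (((-s : ℝ) : ℂ) • sg) X μ x
      = (μ : ℂ)⁻¹ • (((-s : ℝ) : ℂ) • T.sn ((μ : ℂ) • X) (sg x)) := by
    intro x
    rw [← sc]
    rfl
  have ep : ex (T.gen (((-s : ℝ) : ℂ) • sg) X μ) p
      = ex (((-s : ℝ) : ℂ) • ((μ : ℂ)⁻¹ • T.sn ((μ : ℂ) • X))) p := by
    refine B.oe_ex_congr hA1 (hBs _) (hBc _) ?_
    rw [g, hsp, smul_apply, smul_apply, smul_comm]
  have eq : ex (T.gen (((-s : ℝ) : ℂ) • sg) X μ) q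
      = ex ((s : ℂ) • ((μ : ℂ)⁻¹ • T.sn ((μ : ℂ) • X))) q := by
    refine B.oe_ex_congr hA1 (hBs _) (hBc _) ?_
    rw [g, hsq', smul_apply, smul_apply, map_neg, smul_neg, ofReal_neg, neg_smul, neg_neg,
      smul_comm]
  have eD : oeD L s X sg y = L.W (((-s : ℝ) : ℂ) • X) p + L.W ((s : ℂ) • X) q := by
    unfold oeD
    rw [hp, hq, map_smul, map_smul, ← smul_add, ofReal_neg, neg_smul]
  rw [eD]
  conv_lhs => rw [hpq, map_add, ep, eq]
  calc _ = ‖(ex (((-s : ℝ) : ℂ) • ((μ : ℂ)⁻¹ • T.sn ((μ : ℂ) • X))) p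
          - L.W (((-s : ℝ) : ℂ) • X) p)
        + (ex ((s : ℂ) • ((μ : ℂ)⁻¹ • T.sn ((μ : ℂ) • X))) q - L.W ((s : ℂ) • X) q)‖ := by
        congr 1; abel
    _ ≤ ε / 2 + ε / 2 := (norm_add_le _ _).trans (add_le_add h1' h2')
    _ = ε := by ring

omit [CompleteSpace H] in
lemma oe_norm_zr_sub (v : K) (x : H) : ‖L.zr v x - x‖ ≤ 2 * ‖L.W v x - x‖ := by
  have e : L.zr v x - x = (1 / 2 : ℂ) • ((L.W (-v) x - x) + (L.W v x - x))
      + (1 / 2 : ℂ) • (L.Z (L.W (-v) x - x) - L.Z (L.W v x - x)) := by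
    rw [L.zr_apply, map_sub, map_sub, ← L.WZ, ← L.WZ]
    module
  have hn : ‖L.W (-v) x - x‖ = ‖L.W v x - x‖ := by
    rw [← (L.W v).norm_map (L.W (-v) x - x), map_sub, L.W_W_neg, norm_sub_rev]
  rw [e]
  refine (norm_add_le _ _).trans ?_
  rw [norm_smul, norm_smul]
  have h1 := norm_add_le (L.W (-v) x - x) (L.W v x - x)
  have h2 := norm_sub_le (L.Z (L.W (-v) x - x)) (L.Z (L.W v x - x))
  rw [LinearIsometryEquiv.norm_map, LinearIsometryEquiv.norm_map] at h2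
  rw [hn] at h1 h2
  have h3 : ‖(1 / 2 : ℂ)‖ = 1 / 2 := by simp
  rw [h3]
  linarith

/-- one block -/
lemma oe_one (hA : L.Ctl 𝔄) {G : Set ℝ} (mG : MeasurableSet G) {sg : H →L[ℂ] H} (hsg : sg ∈ 𝔄)
    (hs : Sa sg) (hsq : sg * sg = L.E G) {X : K} (hX : X ∈ L.RR 𝔄) (s : ℝ) (z : H)
    {μ : ℝ} (hμ : 0 < μ) {b : Set ℝ} (hb : MeasurableSet b) (hbG : b ⊆ G) {v d : K} {θ r0 κ κ' : ℝ}
    (hv : v ∈ L.RR 𝔄) (hXv : (inner ℂ X v : ℂ).im = 0) (hθ : |θ - Real.pi / 2| ≤ r0 * μ)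
    (hκ : ∀ t ∈ Set.Icc (0:ℝ) 1, ‖L.W ((t : ℂ) • (v - X)) (L.E b z) - L.E b z‖ ≤ κ)
    (hκ' : ‖L.W d (oeD L s X sg (L.E b z)) - oeD L s X sg (L.E b z)‖ ≤ κ') :
    ‖L.zr d (ex (ga L.toSys hc (L.Cch s μ sg b) ((μ : ℂ) • v) θ) (L.E b z))
      - oeD L s X sg (L.E b z)‖ ≤ 2 * |s| * r0 * ‖L.E b z‖ + (2 + |s|) * κ
        + ‖L.E b (ex ((famS L.toSys hc).gen (((-s : ℝ) : ℂ) • sg) X μ) (L.E G z)
        - oeD L s X sg (L.E G z))‖ + 2 * κ' := by
  set T := famS L.toSys hc with hT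
  set y := L.E b z with hy
  have hyy : L.E b y = y := L.E_E hb z
  have hsn1 : ‖sg‖ ≤ 1 := by
    refine ContinuousLinearMap.opNorm_le_bound _ zero_le_one fun x => ?_
    rw [oe_norm_sg mG hs hsq, one_mul]
    exact L.norm_E_le mG x
  have hEb1 : ‖L.E b‖ ≤ 1 := by
    refine ContinuousLinearMap.opNorm_le_bound _ zero_le_one fun x => ?_
    rw [one_mul]
    exact L.norm_E_le hb x
  have hCm : (((-s : ℝ) : ℂ) • sg) ∈ 𝔄 := ctl_smul hA hsg _
  have hCs : IsSelfAdjoint (((-s : ℝ) : ℂ) • sg) := isSA (sa_rsmul hs _)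
  have hCn : ‖((-s : ℝ) : ℂ) • sg‖ ≤ |s| := by
    rw [norm_smul, norm_real, Real.norm_eq_abs, abs_neg]
    exact mul_le_of_le_one_right (abs_nonneg _) hsn1
  have hC0m := Cch_mem hA hsg s μ hb
  have hC0s := Cch_sa hA hsg hs s μ hb
  have hC0n : ‖L.Cch s μ sg b‖ ≤ |s| / μ := by
    unfold Cch
    rw [norm_smul, norm_real, Real.norm_eq_abs, abs_neg, abs_div, abs_of_pos hμ]
    refine mul_le_of_le_one_right (by positivity) ((norm_mul_le _ _).trans ?_)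
    exact mul_le_one₀ hsn1 (norm_nonneg _) hEb1
  -- 1. remove the residual Pauli
  have hμv : (μ : ℂ) • v ∈ L.RR 𝔄 := RR.smul hv μ
  have s1 : ‖ex (ga L.toSys hc (L.Cch s μ sg b) ((μ : ℂ) • v) θ) y
      - ex (L.Cch s μ sg b * T.sn ((μ : ℂ) • v)) y‖ ≤ 2 * |s| * r0 * ‖y‖ := by
    refine (B.norm_ex_ga_sub_le L.toSys hc (isSA hC0s) ?_ (fun x => RR.W hA hμv hC0m x)
      (fun x => RR.W hA (RR.neg hμv) hC0m x) θ y).trans ?_
    · ext x
      exact hA.Z _ hC0m x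
    · have e1 : |Real.sin θ - 1| ≤ |θ - Real.pi / 2| := by
        have := Real.abs_sin_sub_sin_le θ (Real.pi / 2)
        rwa [Real.sin_pi_div_two] at this
      have e2 : |Real.cos θ| ≤ |θ - Real.pi / 2| := by
        have := Real.abs_cos_sub_cos_le θ (Real.pi / 2)
        rwa [Real.cos_pi_div_two, sub_zero] at this
      calc _ ≤ |s| / μ * ((r0 * μ + r0 * μ) * ‖y‖) := by
            gcongr
            · exact e1.trans hθ
            · exact e2.trans hθ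
        _ = _ := by field_simp; ring
  -- 2. pass to the global control
  have hComv : T.Com (((-s : ℝ) : ℂ) • sg) v := oe_Com hc hA hv hCm
  have hComX : T.Com (((-s : ℝ) : ℂ) • sg) X := oe_Com hc hA hX hCm
  have hCom0 : T.Com (L.Cch s μ sg b) v := oe_Com hc hA hv hC0m
  have s2 : ex (L.Cch s μ sg b * T.sn ((μ : ℂ) • v)) y
      = ex (T.gen (((-s : ℝ) : ℂ) • sg) v μ) y := by
    refine B.oe_ex_congr (B.sa_mul (isSA hC0s) (T.sn_sa _) (hCom0.sn μ))
      (T.gen_sa hCs hComv μ) ?_ ?_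
    · unfold WFam.gen
      refine Commute.smul_right ?_ _
      have c1 : Commute (L.Cch s μ sg b) (((-s : ℝ) : ℂ) • sg) := hA.comm _ _ hC0m hCm
      exact ((c1.mul_right (hCom0.sn μ))).mul_left
        (((hComv.sn μ).symm).mul_right (Commute.refl _))
    · have e : L.E b (T.sn ((μ : ℂ) • v) y) = T.sn ((μ : ℂ) • v) y := by
        rw [RR.sn hc hA hμv (E_mem hA hb), hyy]
      change ((-(s / μ) : ℝ) : ℂ) • sg (L.E b (T.sn ((μ : ℂ) • v) y))
        = (μ : ℂ)⁻¹ • (((-s : ℝ) : ℂ) • sg (T.sn ((μ : ℂ) • v) y))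
      rw [e, smul_smul]
      congr 1
      push_cast
      rw [div_eq_mul_inv]
      ring
  -- 3. replace the field vector
  have s3 : ‖ex (T.gen (((-s : ℝ) : ℂ) • sg) v μ) y - ex (T.gen (((-s : ℝ) : ℂ) • sg) X μ) y‖
      ≤ (2 + |s|) * κ := by
    have hκ0 : 0 ≤ κ := (norm_nonneg _).trans (hκ 0 ⟨le_rfl, zero_le_one⟩)
    refine (T.norm_ex_gen_sub_le hCs hComX hComv hXv hμ y hκ).trans ?_
    gcongr
  -- 4. the limit
  have hyG : y = L.E b (L.E G z) := (L.E_sub hb mG hbG z).symm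
  have s4 : ex (T.gen (((-s : ℝ) : ℂ) • sg) X μ) y - oeD L s X sg y
      = L.E b (ex (T.gen (((-s : ℝ) : ℂ) • sg) X μ) (L.E G z) - oeD L s X sg (L.E G z)) := by
    rw [map_sub, ← oe_D_E hA hsg s X hb, ← hyG]
    congr 1
    rw [hyG]
    symm
    refine comm_ex (fun x => ?_) _
    change L.E b ((μ : ℂ)⁻¹ • (((-s : ℝ) : ℂ) • sg (T.sn ((μ : ℂ) • X) x)))
      = (μ : ℂ)⁻¹ • (((-s : ℝ) : ℂ) • sg (T.sn ((μ : ℂ) • X) (L.E b x)))
    rw [(L.E b).map_smul, (L.E b).map_smul, ctl_comm hA (E_mem hA hb) hsg,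
      RR.sn hc hA (RR.smul hX μ) (E_mem hA hb)]
  -- 5. assembly
  set u1 := ex (ga L.toSys hc (L.Cch s μ sg b) ((μ : ℂ) • v) θ) y
  set u2 := ex (L.Cch s μ sg b * T.sn ((μ : ℂ) • v)) y
  set u3 := ex (T.gen (((-s : ℝ) : ℂ) • sg) X μ) y
  set D := oeD L s X sg y
  have s5 : ‖L.zr d D - D‖ ≤ 2 * κ' := (oe_norm_zr_sub d D).trans (by linarith)
  rw [← s2] at s3
  have s6 : ‖u3 - D‖ = ‖L.E b (ex (T.gen (((-s : ℝ) : ℂ) • sg) X μ) (L.E G z)
      - oeD L s X sg (L.E G z))‖ := by rw [← s4]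
  calc ‖L.zr d u1 - D‖ = ‖(L.zr d (u1 - D)) + (L.zr d D - D)‖ := by
        rw [map_sub]; congr 1; abel
    _ ≤ ‖u1 - D‖ + 2 * κ' := by
        refine (norm_add_le _ _).trans ?_
        rw [LinearIsometryEquiv.norm_map]
        gcongr
    _ = ‖(u1 - u2) + ((u2 - u3) + (u3 - D))‖ + 2 * κ' := by
        congr 2; abel
    _ ≤ _ := by
        have := (norm_add_le (u1 - u2) ((u2 - u3) + (u3 - D)))
        have := (norm_add_le (u2 - u3) (u3 - D))
        linarith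

/-- **(OE)** own-batch estimate, summed over all batches -/
theorem own_est (hA : L.Ctl 𝔄) {G : Set ℝ} (mG : MeasurableSet G) {sg : H →L[ℂ] H}
    (hsg : sg ∈ 𝔄) (hs : Sa sg) (hsq : sg * sg = L.E G) {V0 : H ≃ₗᵢ[ℂ] H}
    (hV0 : ∀ a ∈ 𝔄, ∀ x, a (V0 x) = V0 (a x)) (s : ℝ) (z : H) {ε : ℝ} (hε : 0 < ε) :
    ∃ r0 > 0, ∃ mu1 > 0, ∀ μ : ℝ, 0 < μ → μ < mu1 → ∀ (N : ℕ) (b : ℕ → Set ℝ),
      (∀ i < N, MeasurableSet (b i)) → (∀ i < N, ∀ j < N, i ≠ j → Disjoint (b i) (b j)) →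
      (∀ i < N, b i ⊆ G) → ∀ (vh del : ℕ → K) (θ : ℕ → ℝ),
      (∀ k < N, vh k ∈ L.RR 𝔄) →
      (∀ k < N, (inner ℂ (L.fv (L.pau 2) G V0) (vh k) : ℂ).im = 0) →
      (∀ k < N, ‖vh k - L.fv (L.pau 2) G V0‖ < r0) →
      (∀ k < N, |θ k - Real.pi / 2| < r0 * μ) → (∀ k < N, ‖del k‖ < r0) →
      ∑ k ∈ Finset.range N,
        ‖L.zr (del k) (ex (ga L.toSys hc (L.Cch s μ sg (b k)) ((μ : ℂ) • vh k) (θ k))
            (L.E (b k) z))
          - (1 / 2 : ℂ) • (L.W (-((s : ℂ) • L.fv (L.pau 2) G V0)) (L.E (b k) z + sg (L.E (b k) z))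
            + L.W ((s : ℂ) • L.fv (L.pau 2) G V0) (L.E (b k) z - sg (L.E (b k) z)))‖ ^ 2
        ≤ ε ^ 2 := by
  set X := L.fv (L.pau 2) G V0 with hXd
  have hX : X ∈ L.RR 𝔄 := RR.fv hA hV0 mG 2
  have hk1 : 0 < ε / (4 * (2 + |s|)) := by positivity
  obtain ⟨r1, hr1, h1⟩ := L.us z hk1
  obtain ⟨r2, hr2, h2⟩ := L.us (oeD L s X sg z) (κ := ε / 8) (by positivity)
  obtain ⟨m, hm, h3⟩ := oe_lim hc hA mG hsg hs hsq hX s z (ε := ε / 4) (by positivity)
  set r3 := ε / (8 * (|s| + 1) * (‖z‖ + 1)) with hr3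
  have hr30 : 0 < r3 := by positivity
  refine ⟨min r1 (min r2 r3), lt_min hr1 (lt_min hr2 hr30), m, hm, ?_⟩
  intro μ hμ hμm N b hb hd hG vh del θ hv hXv hvX hθ hdel
  obtain ⟨k1, hk10, hk1s, hk1b⟩ := h1 N (fun i => b i) (fun i => hb i i.2)
    (fun i j hij => hd i i.2 j j.2 (fun h => hij (Fin.ext h)))
  obtain ⟨k2, hk20, hk2s, hk2b⟩ := h2 N (fun i => b i) (fun i => hb i i.2)
    (fun i j hij => hd i i.2 j j.2 (fun h => hij (Fin.ext h)))
  have h3' := h3 μ hμ hμm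
  set g := ex ((famS L.toSys hc).gen (((-s : ℝ) : ℂ) • sg) X μ) (L.E G z)
        - oeD L s X sg (L.E G z) with hg
  have bess : ∀ x : H, ∑ i : Fin N, ‖L.E (b i) x‖ ^ 2 ≤ ‖x‖ ^ 2 := fun x =>
    L.us_bessel (fun i : Fin N => b i) (fun i => hb i i.2)
      (fun i j hij => hd i i.2 j j.2 (fun h => hij (Fin.ext h))) x
  rw [Finset.sum_range]
  have main : ∀ i : Fin N, ‖L.zr (del i) (ex (ga L.toSys hc (L.Cch s μ sg (b i))
      ((μ : ℂ) • vh i) (θ i)) (L.E (b i) z)) - oeD L s X sg (L.E (b i) z)‖ ^ 2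
      ≤ 4 * ((2 * |s| * r3) ^ 2 * ‖L.E (b i) z‖ ^ 2 + (2 + |s|) ^ 2 * k1 i ^ 2
        + ‖L.E (b i) g‖ ^ 2 + 4 * k2 i ^ 2) := by
    intro i
    have e := oe_one hc hA mG hsg hs hsq hX s z hμ (hb i i.2) (hG i i.2) (d := del i)
      (θ := θ i) (r0 := r3) (κ := k1 i) (κ' := k2 i) (hv i i.2) (hXv i i.2) ?_ ?_ ?_
    · rw [← hg] at e
      have e0 : 0 ≤ ‖L.zr (del i) (ex (ga L.toSys hc (L.Cch s μ sg (b i))
        ((μ : ℂ) • vh i) (θ i)) (L.E (b i) z)) - oeD L s X sg (L.E (b i) z)‖ := norm_nonneg _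
      calc _ ≤ (2 * |s| * r3 * ‖L.E (b i) z‖ + (2 + |s|) * k1 i + ‖L.E (b i) g‖
            + 2 * k2 i) ^ 2 := by gcongr
        _ ≤ _ := by
          generalize 2 * |s| * r3 = a
          generalize ‖L.E (b i) z‖ = p
          generalize (2 + |s|) = c
          generalize ‖L.E (b i) g‖ = q
          nlinarith [sq_nonneg (a * p - c * k1 i), sq_nonneg (a * p - q),
            sq_nonneg (a * p - 2 * k2 i), sq_nonneg (c * k1 i - q),
            sq_nonneg (c * k1 i - 2 * k2 i), sq_nonneg (q - 2 * k2 i)]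
    · refine (hθ i i.2).le.trans ?_
      gcongr
      exact (min_le_right _ _).trans (min_le_right _ _)
    · intro t ht
      rw [← L.E_W]
      refine hk1b i _ ?_
      rw [norm_smul, norm_real, Real.norm_eq_abs, abs_of_nonneg ht.1]
      have h4 := (hvX i i.2).trans_le (min_le_left _ _)
      have h5 : t * ‖vh i - X‖ ≤ 1 * ‖vh i - X‖ := by
        gcongr
        exact ht.2
      linarith
    · rw [oe_D_E hA hsg s X (hb i i.2), ← L.E_W]
      refine hk2b i _ ?_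
      exact (hdel i i.2).trans_le ((min_le_right _ _).trans (min_le_left _ _))
  calc _ ≤ ∑ i : Fin N, 4 * ((2 * |s| * r3) ^ 2 * ‖L.E (b i) z‖ ^ 2 + (2 + |s|) ^ 2 * k1 i ^ 2
        + ‖L.E (b i) g‖ ^ 2 + 4 * k2 i ^ 2) := Finset.sum_le_sum fun i _ => main i
    _ = 4 * ((2 * |s| * r3) ^ 2 * ∑ i : Fin N, ‖L.E (b i) z‖ ^ 2
        + (2 + |s|) ^ 2 * ∑ i : Fin N, k1 i ^ 2
        + ∑ i : Fin N, ‖L.E (b i) g‖ ^ 2 + 4 * ∑ i : Fin N, k2 i ^ 2) := by
        rw [← Finset.mul_sum, Finset.sum_add_distrib, Finset.sum_add_distrib,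
          Finset.sum_add_distrib, ← Finset.mul_sum, ← Finset.mul_sum, ← Finset.mul_sum]
    _ ≤ 4 * ((2 * |s| * r3) ^ 2 * ‖z‖ ^ 2 + (2 + |s|) ^ 2 * (ε / (4 * (2 + |s|))) ^ 2
        + (ε / 4) ^ 2 + 4 * (ε / 8) ^ 2) := by
        have b1 := bess z
        have b2 := bess g
        have b3 : ‖g‖ ^ 2 ≤ (ε / 4) ^ 2 := by gcongr
        gcongr
        exact b2.trans b3
    _ ≤ ε ^ 2 := by
        have c1 : (2 * |s| * r3) ^ 2 * ‖z‖ ^ 2 ≤ (ε / 4) ^ 2 := by
          rw [← mul_pow]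
          have : 2 * |s| * r3 * ‖z‖ ≤ ε / 4 := by
            rw [hr3]
            have c2 : |s| / (|s| + 1) ≤ 1 := by
              rw [div_le_one (by positivity)]; linarith
            have c3 : ‖z‖ / (‖z‖ + 1) ≤ 1 := by
              rw [div_le_one (by positivity)]; linarith
            have c4 : 0 ≤ ‖z‖ / (‖z‖ + 1) := by positivity
            have c5 : 2 * |s| * (ε / (8 * (|s| + 1) * (‖z‖ + 1))) * ‖z‖
                = ε / 4 * (|s| / (|s| + 1) * (‖z‖ / (‖z‖ + 1))) := by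
              field_simp
              ring
            rw [c5]
            have c6 : |s| / (|s| + 1) * (‖z‖ / (‖z‖ + 1)) ≤ 1 := mul_le_one₀ c2 c4 c3
            nlinarith
          gcongr
        have c7 : (2 + |s|) ^ 2 * (ε / (4 * (2 + |s|))) ^ 2 = (ε / 4) ^ 2 := by
          rw [← mul_pow]
          congr 1
          field_simp
        rw [c7]
        nlinarith

end LSys

end Vale.Agent.P367.A
end

section

/-! P367, block B, T2: leaf A2, small displacements on the blocks of a partition. -/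

namespace Vale.Agent.P367.A

open Complex Filter Topology MeasureTheory

namespace LSys

variable {H K : Type*} [NormedAddCommGroup H] [InnerProductSpace ℂ H]
  [NormedAddCommGroup K] [InnerProductSpace ℂ K] (L : LSys H K)

/-- (US), blocks indexed by `i < N` -/
theorem us_N (x : H) {κ : ℝ} (hκ : 0 < κ) : ∃ r > 0, ∀ (N : ℕ) (b : ℕ → Set ℝ),
    (∀ i < N, MeasurableSet (b i)) → (∀ i < N, ∀ j < N, i ≠ j → Disjoint (b i) (b j)) →
    ∃ k : ℕ → ℝ, (∀ i, 0 ≤ k i) ∧ ∑ i ∈ Finset.range N, k i ^ 2 ≤ κ ^ 2 ∧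
      ∀ i < N, ∀ w : K, ‖w‖ < r → ‖L.E (b i) (L.W w x) - L.E (b i) x‖ ≤ k i := by
  obtain ⟨r, hr, h⟩ := L.us x hκ
  refine ⟨r, hr, fun N b mb bb => ?_⟩
  obtain ⟨k, hk0, hk, h1⟩ := h N (fun i => b i) (fun i => mb i i.2)
    (fun i j hij => bb i i.2 j j.2 (fun e => hij (Fin.ext e)))
  refine ⟨fun i => if hi : i < N then k ⟨i, hi⟩ else 0, fun i => ?_, ?_, fun i hi w hw => ?_⟩
  · dsimp only
    split_ifs with hi
    · exact hk0 _
    · exact le_rfl
  · rw [Finset.sum_range]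
    refine le_trans (le_of_eq (Finset.sum_congr rfl fun i _ => ?_)) hk
    dsimp only
    rw [dif_pos i.2]
  · dsimp only
    rw [dif_pos hi]
    exact h1 ⟨i, hi⟩ w hw

/-- small displacements on blocks -/
theorem W_small (y : H) {ε : ℝ} (hε : 0 < ε) : ∃ r0 > 0, ∀ (N : ℕ) (b : ℕ → Set ℝ),
    (∀ i < N, MeasurableSet (b i)) → (∀ i < N, ∀ j < N, i ≠ j → Disjoint (b i) (b j)) →
    ∀ del : ℕ → K, (∀ k < N, ‖del k‖ < r0) →
      ∑ k ∈ Finset.range N, ‖L.W (del k) (L.E (b k) y) - L.E (b k) y‖ ^ 2 ≤ ε ^ 2 := by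
  obtain ⟨r, hr, h⟩ := L.us_N y hε
  refine ⟨r, hr, fun N b mb bb del hd => ?_⟩
  obtain ⟨k, hk0, hk, h1⟩ := h N b mb bb
  refine le_trans (Finset.sum_le_sum fun i hi => ?_) hk
  have hi' := Finset.mem_range.1 hi
  have h2 := h1 i hi' (del i) (hd i hi')
  rw [L.E_W] at h2
  exact pow_le_pow_left₀ (norm_nonneg _) h2 2

/-- small pulses on blocks -/
theorem zr_small (y : H) {ε : ℝ} (hε : 0 < ε) : ∃ r0 > 0, ∀ (N : ℕ) (b : ℕ → Set ℝ),
    (∀ i < N, MeasurableSet (b i)) → (∀ i < N, ∀ j < N, i ≠ j → Disjoint (b i) (b j)) →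
    ∀ del : ℕ → K, (∀ k < N, ‖del k‖ < r0) →
      ∑ k ∈ Finset.range N, ‖L.zr (del k) (L.E (b k) y) - L.E (b k) y‖ ^ 2 ≤ ε ^ 2 := by
  obtain ⟨r, hr, h⟩ := L.us_N y (half_pos hε)
  obtain ⟨r', hr', h'⟩ := L.us_N (L.Z y) (half_pos hε)
  refine ⟨min r r', lt_min hr hr', fun N b mb bb del hd => ?_⟩
  obtain ⟨k, hk0, hk, h1⟩ := h N b mb bb
  obtain ⟨k', hk0', hk', h1'⟩ := h' N b mb bb
  have key : ∀ i ∈ Finset.range N, ‖L.zr (del i) (L.E (b i) y) - L.E (b i) y‖ ^ 2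
      ≤ 2 * k i ^ 2 + 2 * k' i ^ 2 := by
    intro i hi
    have hi' := Finset.mem_range.1 hi
    have hn : ‖del i‖ < r := (hd i hi').trans_le (min_le_left _ _)
    have hn' : ‖del i‖ < r' := (hd i hi').trans_le (min_le_right _ _)
    have a1 := h1 i hi' (del i) hn
    have a2 := h1 i hi' (-del i) (by rwa [norm_neg])
    have a3 := h1' i hi' (del i) hn'
    have a4 := h1' i hi' (-del i) (by rwa [norm_neg])
    rw [L.E_W] at a1 a2 a3 a4
    rw [L.E_Z] at a3 a4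
    have e : L.zr (del i) (L.E (b i) y) - L.E (b i) y
        = (1 / 2 : ℂ) • ((L.W (-del i) (L.E (b i) y) - L.E (b i) y)
            + (L.W (del i) (L.E (b i) y) - L.E (b i) y))
          + (1 / 2 : ℂ) • ((L.W (-del i) (L.Z (L.E (b i) y)) - L.Z (L.E (b i) y))
            - (L.W (del i) (L.Z (L.E (b i) y)) - L.Z (L.E (b i) y))) := by
      rw [L.zr_apply]
      module
    have hle : ‖L.zr (del i) (L.E (b i) y) - L.E (b i) y‖ ≤ k i + k' i := by
      rw [e]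
      refine (norm_add_le _ _).trans ?_
      rw [norm_smul, norm_smul]
      have e2 : ‖(1 / 2 : ℂ)‖ = 1 / 2 := by simp
      rw [e2]
      have b1 := norm_add_le (L.W (-del i) (L.E (b i) y) - L.E (b i) y)
        (L.W (del i) (L.E (b i) y) - L.E (b i) y)
      have b2 := norm_sub_le (L.W (-del i) (L.Z (L.E (b i) y)) - L.Z (L.E (b i) y))
        (L.W (del i) (L.Z (L.E (b i) y)) - L.Z (L.E (b i) y))
      linarith
    have h3 := pow_le_pow_left₀ (norm_nonneg _) hle 2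
    nlinarith [sq_nonneg (k i - k' i)]
  refine (Finset.sum_le_sum key).trans ?_
  rw [Finset.sum_add_distrib, ← Finset.mul_sum, ← Finset.mul_sum]
  nlinarith

end LSys

end Vale.Agent.P367.A
end

section

/-! P367, block B: the reserve along a chain of batches (Res). -/

namespace Vale.Agent.P367.A

open Complex Filter Topology MeasureTheory

namespace LSys

variable {H K : Type*} [NormedAddCommGroup H] [InnerProductSpace ℂ H]
  [NormedAddCommGroup K] [InnerProductSpace ℂ K] (L : LSys H K)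

/-- one-particle modes of a label block -/
noncomputable def res_modes (b : Set ℝ) : Submodule ℂ K :=
  LinearMap.range (L.iota.toLinearMap ∘ₗ (L.E b).toLinearMap)

lemma res_mem (b : Set ℝ) (x : H) : L.iota (L.E b x) ∈ L.res_modes b := ⟨x, rfl⟩

lemma res_fv_mem (Q : H ≃ₗᵢ[ℂ] H) (b : Set ℝ) (V : H ≃ₗᵢ[ℂ] H) : L.fv Q b V ∈ L.res_modes b :=
  ⟨V⁻¹ (Q (V L.Om)), rfl⟩

lemma res_orth {a b : Set ℝ} (ha : MeasurableSet a) (hb : MeasurableSet b) (h : Disjoint a b)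
    {v w : K} (hv : v ∈ L.res_modes a) (hw : w ∈ L.res_modes b) : (inner ℂ v w : ℂ) = 0 := by
  obtain ⟨x, rfl⟩ := hv
  obtain ⟨y, rfl⟩ := hw
  change (inner ℂ (L.iota (L.E a x)) (L.iota (L.E b y)) : ℂ) = 0
  rw [L.iota.inner_map_map]
  exact L.inner_E_dis ha hb h x y

lemma res_zr_SW {x : H} (hx : x ∈ B.LKS.SW L.toSys) (v : K) : L.zr v x ∈ B.LKS.SW L.toSys :=
  B.LKS.SW.mapzr hx v

/-- the kick of one batch on the reserve -/
noncomputable def kick (c : ℂ) (v q : K) (x : H) : H :=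
  c • L.zr v (L.pw (L.pau 1) q (L.zr (-v) x))

lemma kick_E (c : ℂ) (v q : K) (r : Set ℝ) (x : H) :
    L.E r (L.kick c v q x) = L.kick c v q (L.E r x) := by
  unfold kick
  rw [map_smul, L.E_zr, L.E_pw, L.E_zr]

lemma kick_smul (c : ℂ) (v q : K) (d : ℂ) (x : H) : L.kick c v q (d • x) = d • L.kick c v q x := by
  unfold kick
  rw [map_smul, L.pw_smul, map_smul, smul_comm]

lemma norm_kick {c : ℂ} (hc : ‖c‖ = 1) (v q : K) (x : H) : ‖L.kick c v q x‖ = ‖x‖ := by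
  unfold kick
  rw [norm_smul, hc, one_mul, LinearIsometryEquiv.norm_map, L.norm_pw,
    LinearIsometryEquiv.norm_map]

lemma kick_par {N : Submodule ℂ K} (c : ℂ) {v q : K} (hv : v ∈ N) (hq : q ∈ N) :
    B.LKS.IsPar L.toSys N (L.kick c v q) := by
  have h1 : B.LKS.IsPar L.toSys N (fun x => L.zr v (L.pul (-(Real.pi / 4)) q (L.zr (-v) x))) :=
    B.LKS.IsPar.comp (U := L.zr v) (V := fun x => L.pul (-(Real.pi / 4)) q (L.zr (-v) x))
      (B.LKS.IsPar.zr hv) (B.LKS.IsPar.comp (U := L.pul (-(Real.pi / 4)) q) (V := L.zr (-v))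
        (B.LKS.IsPar.pul _ hq) (B.LKS.IsPar.zr (N.neg_mem hv)))
  have h2 : B.LKS.IsPar L.toSys N (fun x => c • x) :=
    B.LKS.IsPar.rotX N c 0 fun x => by rw [zero_smul, add_zero]
  have h3 := B.LKS.IsPar.comp h2 h1
  have e : L.kick c v q = fun x => c • L.zr v (L.pul (-(Real.pi / 4)) q (L.zr (-v) x)) := by
    funext x
    unfold kick
    rw [L.pw_one]
  rw [e]
  exact h3

lemma kick_SW (c : ℂ) (v q : K) {x : H} (hx : x ∈ B.LKS.SW L.toSys) :
    L.kick c v q x ∈ B.LKS.SW L.toSys := by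
  unfold kick
  rw [L.pw_one]
  exact Submodule.smul_mem _ _ (B.LKS.SW.mapzr (B.LKS.SW.mappul (B.LKS.SW.mapzr hx _) _ _) _)

lemma norm_kick_Om_sub {c : ℂ} (hc : ‖c‖ = 1) (v q : K) :
    ‖L.kick c v q L.Om - c • L.Om‖ ^ 2 ≤ 2 * (‖q‖ ^ 2 * (1 + 4 * ‖v‖ ^ 2)) := by
  have h := B.LKS.norm_kick_sub (S := L.toSys) (-(Real.pi / 4)) (-v) q
  rw [neg_neg, norm_neg] at h
  unfold kick
  rw [← smul_sub, norm_smul, hc, one_mul, L.pw_one]
  exact h

/-- **(Res)**: along a chain of kicks by disjoint batches the reserve vector stays a phase times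
the initial one. -/
theorem res_chain {r : Set ℝ} (hr : MeasurableSet r) {n : ℕ} {b : ℕ → Set ℝ}
    (hb : ∀ i < n, MeasurableSet (b i)) (hd : ∀ i j, i < j → j < n → Disjoint (b i) (b j))
    {v q : ℕ → K} (hv : ∀ i < n, v i ∈ L.res_modes (b i)) (hq : ∀ i < n, q i ∈ L.res_modes (b i))
    {c : ℕ → ℂ} (hc : ∀ i < n, ‖c i‖ = 1) {V : ℕ → (H ≃ₗᵢ[ℂ] H)}
    (h0 : ∀ x, L.E r (V 0 x) = L.E r x)
    (hs : ∀ i < n, ∀ x, L.E r (V (i + 1) x) = L.kick (c i) (v i) (q i) (L.E r (V i x)))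
    (m : ℕ) (hm : m ≤ n) : ∃ θ : ℂ, ‖θ‖ = 1 ∧ ‖L.E r (V m L.Om) - θ • L.E r L.Om‖ ^ 2
      ≤ L.mu.real r * (4 * ∑ i ∈ Finset.range m, ‖q i‖ ^ 2 * (1 + 4 * ‖v i‖ ^ 2)) := by
  have h1 : ∀ k ≤ n, ∀ x, L.E r (V k x)
      = L.E r (B.LKS.cmp (fun i => L.kick (c i) (v i) (q i)) k x) := by
    intro k
    induction k with
    | zero => intro _ x; exact h0 x
    | succ k ih =>
      intro hk x
      rw [hs k (by omega), ih (by omega), ← L.kick_E]
      rfl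
  have h2 : ∀ k ≤ n, B.LKS.cmp (fun i => L.kick (c i) (v i) (q i)) k L.Om ∈ B.LKS.SW L.toSys := by
    intro k hk
    exact B.LKS.SW.cmp (n := n) (fun i _ x hx => L.kick_SW _ _ _ hx) B.LKS.SW.Om k hk
  obtain ⟨θ, hθ, h3⟩ := B.LKS.leakage (S := L.toSys) (L := fun i => L.res_modes (b i)) (n := n)
    (U := fun i => L.kick (c i) (v i) (q i))
    (fun i j hij hj v' hv' w' hw' => L.res_orth (hb i (by omega)) (hb j hj) (hd i j hij hj) hv' hw')
    (fun i hi => L.kick_par (c i) (hv i hi) (hq i hi)) (fun i hi x => L.norm_kick (hc i hi) _ _ x)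
    c m hm
  refine ⟨θ, hθ, ?_⟩
  rw [h1 m hm, ← map_smul, ← map_sub]
  have h4 : B.LKS.cmp (fun i => L.kick (c i) (v i) (q i)) m L.Om - θ • L.Om ∈ B.LKS.SW L.toSys :=
    Submodule.sub_mem _ (h2 m hm) (Submodule.smul_mem _ _ B.LKS.SW.Om)
  rw [L.norm_E_SW hr h4]
  refine mul_le_mul_of_nonneg_left (h3.trans ?_) measureReal_nonneg
  have h5 : ∑ i ∈ Finset.range m, ‖L.kick (c i) (v i) (q i) L.Om - c i • L.Om‖ ^ 2
      ≤ ∑ i ∈ Finset.range m, 2 * (‖q i‖ ^ 2 * (1 + 4 * ‖v i‖ ^ 2)) := by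
    refine Finset.sum_le_sum fun i hi => ?_
    exact L.norm_kick_Om_sub (hc i (by have := Finset.mem_range.1 hi; omega)) _ _
  rw [← Finset.mul_sum] at h5
  change 2 * ∑ i ∈ Finset.range m, ‖L.kick (c i) (v i) (q i) L.Om - c i • L.Om‖ ^ 2 ≤ _
  linarith

/-- the two quadratures of the reserve are rotated by `-i` -/
lemma res_fv_YZ {r : Set ℝ} {V : H ≃ₗᵢ[ℂ] H} (hV : ∀ x, L.E r (V x) = V (L.E r x)) (θ : ℂ) :
    ‖L.fv (L.pau 1) r V + Complex.I • L.fv (L.pau 2) r V‖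
      ≤ 2 * ‖L.E r (V L.Om) - θ • L.E r L.Om‖ := by
  have hV' : ∀ x, L.E r (V⁻¹ x) = V⁻¹ (L.E r x) := by
    intro x
    apply V.injective
    rw [← hV, Sys.Ainv, Sys.Ainv]
  unfold fv
  rw [← map_smul, ← map_add, L.norm_iota, ← map_smul, ← map_add, ← map_smul, ← map_add, hV',
    LinearIsometryEquiv.norm_map]
  have e : L.pau 1 (V L.Om) + Complex.I • L.pau 2 (V L.Om)
      = Complex.I • L.Z (V L.Om - L.X (V L.Om)) := by
    rw [L.pau_one, L.pau_two, L.Zt_apply, L.xr_apply, L.XZ,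
      show 2 * -(Real.pi / 4) = -(Real.pi / 2) by ring, Real.cos_neg, Real.sin_neg,
      Real.cos_pi_div_two, Real.sin_pi_div_two, map_sub]
    push_cast
    module
  rw [e, map_smul, norm_smul, Complex.norm_I, one_mul, L.E_Z, LinearIsometryEquiv.norm_map]
  have h1 : L.E r (V L.Om - L.X (V L.Om)) = (L.E r (V L.Om) - θ • L.E r L.Om)
      - L.X (L.E r (V L.Om) - θ • L.E r L.Om) := by
    rw [map_sub, L.E_X, map_sub, map_smul, ← L.E_X, ← L.E_X, L.XOm]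
    abel
  rw [h1]
  refine (norm_sub_le _ _).trans ?_
  rw [LinearIsometryEquiv.norm_map, two_mul]

lemma norm_fv {b : Set ℝ} (hb : MeasurableSet b) (Q : H ≃ₗᵢ[ℂ] H) {V : H ≃ₗᵢ[ℂ] H}
    (hV : ∀ x, L.E b (V x) = V (L.E b x)) (hQ : ∀ x, L.E b (Q x) = Q (L.E b x)) :
    ‖L.fv Q b V‖ ^ 2 = L.mu.real b := by
  have hV' : ∀ x, L.E b (V⁻¹ x) = V⁻¹ (L.E b x) := by
    intro x
    apply V.injective
    rw [← hV, Sys.Ainv, Sys.Ainv]
  unfold fv
  rw [L.norm_iota, hV', LinearIsometryEquiv.norm_map, hQ, LinearIsometryEquiv.norm_map, hV,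
    LinearIsometryEquiv.norm_map, L.norm_E_Om hb]

end LSys

end Vale.Agent.P367.A
end

section

/-! P367, block B: reserve estimates along a chain (RES). -/

namespace Vale.Agent.P367.B.LKS

open Complex
open Vale.Agent.P367.A

variable {H K : Type*} [NormedAddCommGroup H] [InnerProductSpace ℂ H]
  [NormedAddCommGroup K] [InnerProductSpace ℂ K] {S : Sys H K}

/-- factorization over orthogonal modes, three factors -/
lemma Eo.factor3 {L N : Submodule ℂ K} (hL : ∀ v ∈ N, ∀ w ∈ L, inner ℂ v w = 0) {s t s' : ℂ}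
    {A B P : H →ₗ[ℂ] H} (hA : A ∈ Eo S L s) (hB : B ∈ Eo S L t) (hP : P ∈ Eo S N s') :
    inner ℂ (A S.Om) (P (B S.Om)) = inner ℂ S.Om (P S.Om) * inner ℂ (A S.Om) (B S.Om) := by
  have h0 : ∀ u ∈ L, ∀ v ∈ N, ∀ w ∈ L, inner ℂ (S.W u S.Om) (S.W v (S.W w S.Om))
      = inner ℂ S.Om (S.W v S.Om) * inner ℂ (S.W u S.Om) (S.W w S.Om) := by
    intro u hu v hv w hw
    have e1 : (inner ℂ v w : ℂ) = 0 := hL v hv w hw
    have e2 : ∀ z : K, inner ℂ (S.W u S.Om) (S.W z S.Om)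
        = Complex.exp (-(Complex.I * (th (-u) z : ℂ)))
          * Complex.exp (-((‖-u + z‖ ^ 2 / 2 : ℝ) : ℂ)) := by
      intro z
      rw [S.inner_W, S.WW', inner_smul_right, S.vac]
    have e3 : th (-u) (v + w) = th (-u) w := by
      rw [th_add_right]
      have : th (-u) v = 0 := by
        unfold th
        rw [inner_neg_left, ← inner_conj_symm u v, hL v hv u hu]
        simp
      rw [this, zero_add]
    have e4 : ‖-u + (v + w)‖ ^ 2 = ‖v‖ ^ 2 + ‖-u + w‖ ^ 2 := by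
      rw [show -u + (v + w) = v + (-u + w) by abel, @norm_add_sq ℂ K, inner_add_right,
        inner_neg_right, hL v hv u hu, hL v hv w hw]
      simp
    have e5 : th v w = 0 := by unfold th; rw [e1]; simp
    rw [S.WW', e5, inner_smul_right, e2, e2, e3, e4, S.vac, ← Complex.exp_add, ← Complex.exp_add,
      ← Complex.exp_add, ← Complex.exp_add]
    congr 1
    push_cast
    ring
  induction hA using Submodule.span_induction with
  | mem A hA =>
    obtain ⟨u, hu, rfl⟩ := hA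
    induction hB using Submodule.span_induction with
    | mem B hB =>
      obtain ⟨w, hw, rfl⟩ := hB
      induction hP using Submodule.span_induction with
      | mem P hP =>
        obtain ⟨v, hv, rfl⟩ := hP
        simp only [LinearMap.add_apply, LinearMap.smul_apply, Wl_apply, inner_add_right,
          inner_smul_right, inner_add_left, inner_smul_left, map_add, map_smul]
        rw [h0 u hu v hv w hw, h0 u hu v hv (-w) (L.neg_mem hw), h0 u hu (-v) (N.neg_mem hv) w hw,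
          h0 u hu (-v) (N.neg_mem hv) (-w) (L.neg_mem hw), h0 (-u) (L.neg_mem hu) v hv w hw,
          h0 (-u) (L.neg_mem hu) v hv (-w) (L.neg_mem hw),
          h0 (-u) (L.neg_mem hu) (-v) (N.neg_mem hv) w hw,
          h0 (-u) (L.neg_mem hu) (-v) (N.neg_mem hv) (-w) (L.neg_mem hw)]
        ring
      | zero => simp
      | add P Q _ _ hP hQ =>
        simp only [LinearMap.add_apply, inner_add_right] at *
        rw [hP, hQ]; ring
      | smul c P _ hP =>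
        simp only [LinearMap.smul_apply, inner_smul_right] at *
        rw [hP]; ring
    | zero => simp
    | add B C _ _ hB hC =>
      simp only [LinearMap.add_apply, inner_add_right, map_add] at *
      rw [hB, hC]; ring
    | smul c B _ hB =>
      simp only [LinearMap.smul_apply, inner_smul_right, map_smul] at *
      rw [hB]; ring
  | zero => simp
  | add A C _ _ hA hC =>
    simp only [LinearMap.add_apply, inner_add_left] at *
    rw [hA, hC]; ring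
  | smul c A _ hA =>
    simp only [LinearMap.smul_apply, inner_smul_left] at *
    rw [hA]; ring

lemma inner_Z_of {x y : H} (hx : S.X x = x) (hy : S.X y = y) : inner ℂ x (S.Z y) = 0 := by
  have h1 : inner ℂ x (S.Z y) = -inner ℂ x (S.Z y) := by
    conv_lhs => rw [← hx, S.inner_X, S.XZ, hy, inner_neg_right]
  have h2 : (2 : ℂ) * inner ℂ x (S.Z y) = 0 := by linear_combination h1
  exact (mul_eq_zero.1 h2).resolve_left two_ne_zero

/-- quadratic form of a new-mode unitary at a vector made from orthogonal modes -/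
lemma par_quad {L N : Submodule ℂ K} (hL : ∀ v ∈ N, ∀ w ∈ L, inner ℂ v w = 0)
    {V T : H → H} (hV : IsPar S L V) (hT : IsPar S N T) : ∃ α β : ℝ, 0 ≤ α ∧ 0 ≤ β ∧
      α + β = ‖V S.Om‖ ^ 2 ∧ inner ℂ (V S.Om) (T (V S.Om))
        = (α : ℂ) * inner ℂ S.Om (T S.Om) + (β : ℂ) * inner ℂ (S.Z S.Om) (T (S.Z S.Om)) := by
  obtain ⟨a, b, c, d, hV⟩ := hV
  obtain ⟨a', b', c', d', hT⟩ := hT
  have hab : a + b ∈ Eo S L 1 := Submodule.add_mem _ hV.ha hV.hb
  have hcd : c + d ∈ Eo S L (-1) := Submodule.add_mem _ hV.hc hV.hd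
  have habp : a' + b' ∈ Eo S N 1 := Submodule.add_mem _ hT.ha hT.hb
  have habm : a' - b' ∈ Eo S N 1 := Submodule.sub_mem _ hT.ha hT.hb
  have hcdp : c' + d' ∈ Eo S N (-1) := Submodule.add_mem _ hT.hc hT.hd
  have hcdm : c' - d' ∈ Eo S N (-1) := Submodule.sub_mem _ hT.hc hT.hd
  have X1 : ∀ {s : ℂ} {A : H →ₗ[ℂ] H}, A ∈ Eo S L s → S.X (A S.Om) = A S.Om := by
    intro s A hA; rw [← Eo_X hA, S.XOm]
  have X2 : ∀ {s t : ℂ} {A P : H →ₗ[ℂ] H}, A ∈ Eo S L s → P ∈ Eo S N t →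
      S.X (P (A S.Om)) = P (A S.Om) := by
    intro s t A P hA hP; rw [← Eo_X hP, X1 hA]
  have X3 : ∀ {t : ℂ} {P : H →ₗ[ℂ] H}, P ∈ Eo S N t → S.X (P S.Om) = P S.Om := by
    intro t P hP; rw [← Eo_X hP, S.XOm]
  set x := (a + b) S.Om with hx
  set y := (c + d) S.Om with hy
  have hXx : S.X x = x := X1 hab
  have hXy : S.X y = y := X1 hcd
  have eV : V S.Om = x + S.Z y := by
    rw [hV.eq, ← Eo_X hV.hb, S.XOm, ← Eo_X hV.hd, S.XOm, hx, hy, LinearMap.add_apply,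
      LinearMap.add_apply, map_add]
    abel
  have eT : T (x + S.Z y) = ((a' + b') x + (c' - d') y) + S.Z ((c' + d') x + (a' - b') y) := by
    rw [hT.eq]
    simp only [map_add, LinearMap.add_apply, LinearMap.sub_apply, map_sub]
    rw [← Eo_X hT.hb, hXx, ← Eo_X hT.hb (S.Z y), ← Eo_X hT.hd x, hXx, ← Eo_X hT.hd (S.Z y)]
    rw [S.XZ, hXy, Eo_Z hT.ha, Eo_Z hT.hc, map_neg, map_neg, Eo_Z hT.hb, Eo_Z hT.hd, S.ZZ,
      map_neg, S.ZZ]
    abel
  have XT1 : S.X ((a' + b') x + (c' - d') y) = (a' + b') x + (c' - d') y := by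
    rw [map_add, hx, hy, X2 hab habp, X2 hcd hcdm]
  have XT2 : S.X ((c' + d') x + (a' - b') y) = (c' + d') x + (a' - b') y := by
    rw [map_add, hx, hy, X2 hab hcdp, X2 hcd habm]
  refine ⟨‖x‖ ^ 2, ‖y‖ ^ 2, by positivity, by positivity, ?_, ?_⟩
  · rw [eV, @norm_add_sq ℂ H, inner_Z_of hXx hXy, LinearIsometryEquiv.norm_map]
    simp
  · have z1 : inner ℂ x (S.Z ((c' + d') x + (a' - b') y)) = 0 := inner_Z_of hXx XT2
    have z2 : inner ℂ (S.Z y) ((a' + b') x + (c' - d') y) = 0 := by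
      rw [S.inner_Z]
      exact inner_Z_of hXy XT1
    have z3 : inner ℂ (S.Z y) (S.Z ((c' + d') x + (a' - b') y))
        = inner ℂ y ((c' + d') x + (a' - b') y) := S.Z.inner_map_map _ _
    have f1 : inner ℂ x ((a' + b') x) = inner ℂ S.Om ((a' + b') S.Om) * inner ℂ x x :=
      Eo.factor3 hL hab hab habp
    have f2 : inner ℂ x ((c' - d') y) = inner ℂ S.Om ((c' - d') S.Om) * inner ℂ x y :=
      Eo.factor3 hL hab hcd hcdm
    have f3 : inner ℂ y ((c' + d') x) = inner ℂ S.Om ((c' + d') S.Om) * inner ℂ y x :=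
      Eo.factor3 hL hcd hab hcdp
    have f4 : inner ℂ y ((a' - b') y) = inner ℂ S.Om ((a' - b') S.Om) * inner ℂ y y :=
      Eo.factor3 hL hcd hcd habm
    rw [Eo.odd hcdm, zero_mul] at f2
    rw [Eo.odd hcdp, zero_mul] at f3
    have g1 : inner ℂ S.Om (T S.Om) = inner ℂ S.Om ((a' + b') S.Om) := by
      rw [hT.exp, LinearMap.add_apply, inner_add_right]
    have g2 : inner ℂ (S.Z S.Om) (T (S.Z S.Om)) = inner ℂ S.Om ((a' - b') S.Om) := by
      have e : T (S.Z S.Om) = (c' - d') S.Om + S.Z ((a' - b') S.Om) := by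
        rw [hT.eq, ← Eo_X hT.hb, ← Eo_X hT.hd, S.XZ, S.XOm, Eo_Z hT.ha, Eo_Z hT.hc, map_neg,
          map_neg, Eo_Z hT.hb, Eo_Z hT.hd, S.ZZ, map_neg, S.ZZ]
        simp only [LinearMap.sub_apply, map_sub]
        abel
      rw [e, inner_add_right, S.Z.inner_map_map, S.inner_Z,
        inner_Z_of S.XOm (X3 hcdm), zero_add]
    rw [eV, eT, inner_add_left, inner_add_right, inner_add_right (S.Z y), z1, z2, z3,
      inner_add_right, inner_add_right, f1, f2, f3, f4, g1, g2, inner_self_eq_norm_sq_to_K,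
      inner_self_eq_norm_sq_to_K]
    push_cast
    simp only [add_zero, zero_add]
    ring_nf
    rfl

/-- a unitary of new modes moves a vector of the old modes as little as it moves the vacuum -/
theorem par_near {L N : Submodule ℂ K} (hL : ∀ v ∈ N, ∀ w ∈ L, inner ℂ v w = 0)
    {V T : H → H} (hV : IsPar S L V) (hT : IsPar S N T) (hTn : ∀ x, ‖T x‖ = ‖x‖) {B : ℝ}
    (h1 : ‖T S.Om - S.Om‖ ^ 2 ≤ B) (h2 : ‖T (S.Z S.Om) - S.Z S.Om‖ ^ 2 ≤ B) :
    ‖T (V S.Om) - V S.Om‖ ^ 2 ≤ B * ‖V S.Om‖ ^ 2 := by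
  obtain ⟨α, β, hα, hβ, hs, hq⟩ := par_quad hL hV hT
  have key : ∀ z : H, ‖T z - z‖ ^ 2 = 2 * ‖z‖ ^ 2 - 2 * (inner ℂ z (T z) : ℂ).re := by
    intro z
    rw [@norm_sub_sq ℂ H, hTn, ← inner_conj_symm (T z) z]
    have : RCLike.re ((starRingEnd ℂ) (inner ℂ z (T z) : ℂ)) = (inner ℂ z (T z) : ℂ).re :=
      Complex.conj_re _
    rw [this]
    ring
  rw [key, hq, ← hs]
  rw [key, S.nOm] at h1
  rw [key, LinearIsometryEquiv.norm_map, S.nOm] at h2
  simp only [Complex.add_re, Complex.re_ofReal_mul]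
  nlinarith

end Vale.Agent.P367.B.LKS

namespace Vale.Agent.P367.A

open Complex Filter Topology MeasureTheory
open Vale.Agent.P367.B.LKS (IsPar par_near cmp isPar_cmp norm_cmp leakage SW)

namespace LSys

variable {H K : Type*} [NormedAddCommGroup H] [InnerProductSpace ℂ H]
  [NormedAddCommGroup K] [InnerProductSpace ℂ K] (L : LSys H K)

lemma res_Z_pw1 (v : K) (x : H) : L.Z (L.pw (L.pau 1) v x) = L.pw (L.pau 1) (-v) (L.Z x) := by
  have h : ∀ y, L.Z (L.pau 1 y) = -L.pau 1 (L.Z y) := by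
    intro y
    rw [L.pau_one, L.Zt_apply, L.Zt_apply, L.Z_xr, L.xr_apply, L.xr_apply,
      show 2 * -(Real.pi / 4) = -(Real.pi / 2) by ring, neg_neg, Real.cos_neg, Real.sin_neg,
      Real.cos_pi_div_two, Real.sin_pi_div_two]
    push_cast
    module
  simp only [pw, map_add, map_smul, map_sub, ← L.WZ, neg_neg, h, map_neg]
  module

lemma res_pau1_zr (v : K) (x : H) : L.pau 1 (L.zr v x) = L.zr (-v) (L.pau 1 x) := by
  have h : ∀ y, L.pau 1 (L.Z y) = -L.Z (L.pau 1 y) := by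
    intro y
    rw [L.pau_one, L.Zt_apply, L.Zt_apply, L.Z_xr, L.xr_apply, L.xr_apply,
      show 2 * -(Real.pi / 4) = -(Real.pi / 2) by ring, neg_neg, Real.cos_neg, Real.sin_neg,
      Real.cos_pi_div_two, Real.sin_pi_div_two]
    push_cast
    module
  rw [L.zr_apply, L.zr_apply]
  simp only [map_add, map_smul, map_sub, ← L.W_pau, neg_neg, h, map_neg]
  module

lemma res_comm_inv {U : H ≃ₗᵢ[ℂ] H} {r : Set ℝ} (h : ∀ x, L.E r (U x) = U (L.E r x)) (x : H) :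
    L.E r (U⁻¹ x) = U⁻¹ (L.E r x) := by
  apply U.injective
  rw [← h, Sys.Ainv, Sys.Ainv]

/-- change of the state on the reserve -/
lemma res_blk {r : Set ℝ} (hr : MeasurableSet r) {U U' T : H ≃ₗᵢ[ℂ] H} {c : ℂ} (hc0 : ‖c‖ = 1)
    (hU : ∀ x, L.E r (U x) = U (L.E r x)) (hU' : ∀ x, L.E r (U' x) = U' (L.E r x))
    (hT : ∀ x, L.E r (T x) = T (L.E r x)) (h : ∀ x, L.E r (U' x) = c • T (L.E r (U x)))
    (Q : Fin 3) : L.fv (L.pau Q) r U' = L.iota (U⁻¹ (T⁻¹ (L.pau Q (T (L.E r (U L.Om)))))) := by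
  have hc : c ≠ 0 := by
    intro h0; rw [h0, norm_zero] at hc0; exact zero_ne_one hc0
  have key : ∀ z, L.E r z = z → U'⁻¹ z = c⁻¹ • U⁻¹ (T⁻¹ z) := by
    intro z hz
    have hw : L.E r (c⁻¹ • U⁻¹ (T⁻¹ z)) = c⁻¹ • U⁻¹ (T⁻¹ z) := by
      rw [map_smul, L.res_comm_inv hU, L.res_comm_inv hT, hz]
    apply Sys.inv_apply_eq
    rw [← hw, ← hU', h, map_smul, map_smul, map_smul, Sys.Ainv, ← hT, Sys.Ainv, hz,
      smul_smul, mul_inv_cancel₀ hc, one_smul]
  unfold fv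
  congr 1
  rw [L.res_comm_inv hU', L.E_pau, h, map_smul, map_smul, key, smul_smul,
    mul_inv_cancel₀ hc, one_smul]
  rw [L.E_pau, hT, L.E_E hr]

lemma res_fv {r : Set ℝ} {U : H ≃ₗᵢ[ℂ] H}
    (hU : ∀ x, L.E r (U x) = U (L.E r x)) (Q : Fin 3) :
    L.fv (L.pau Q) r U = L.iota (U⁻¹ (L.pau Q (L.E r (U L.Om)))) := by
  unfold fv
  rw [L.res_comm_inv hU, L.E_pau]

/-- modes of one batch -/
def res_sp (u p : K) : Submodule ℂ K := Submodule.span ℂ {u, p}

lemma res_sp_orth {u p u' p' : K} (h1 : inner ℂ u u' = (0 : ℂ)) (h2 : inner ℂ u p' = (0 : ℂ))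
    (h3 : inner ℂ p u' = (0 : ℂ)) (h4 : inner ℂ p p' = (0 : ℂ)) :
    ∀ v ∈ res_sp u p, ∀ w ∈ res_sp u' p', inner ℂ v w = (0 : ℂ) := by
  intro v hv w hw
  obtain ⟨a, b, rfl⟩ := Submodule.mem_span_pair.1 hv
  obtain ⟨a', b', rfl⟩ := Submodule.mem_span_pair.1 hw
  simp only [inner_add_left, inner_add_right, inner_smul_left, inner_smul_right, h1, h2, h3, h4]
  ring

/-- small moves of the reserve vector by unitaries of the modes `u, p` -/
def ResSmall (r : Set ℝ) (u p : K) (ζ : H) : Prop :=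
  ∀ (T : H → H), IsPar L.toSys (res_sp u p) T → (∀ x, ‖T x‖ = ‖x‖) →
      (∀ x, L.E r (T x) = T (L.E r x)) → (∀ x ∈ SW L.toSys, T x ∈ SW L.toSys) → ∀ B : ℝ,
      ‖T L.Om - L.Om‖ ^ 2 ≤ B → ‖T (L.Z L.Om) - L.Z L.Om‖ ^ 2 ≤ B →
      ‖T ζ - ζ‖ ^ 2 ≤ L.mu.real r * B

lemma res_mzr (v : K) : ‖L.zr v L.Om - L.Om‖ ^ 2 ≤ 2 * ‖v‖ ^ 2 := by
  have h := B.LKS.norm_pul_sub_sq (S := L.toSys) 0 v L.Om
  rw [L.pul_time_zero] at h
  have a1 := L.us_norm_W_Om_sub v
  have a2 := L.us_norm_W_Om_sub (-v)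
  rw [norm_neg] at a2
  have a3 := norm_nonneg (L.W v L.Om - L.Om)
  have a4 := norm_nonneg (L.W (-v) L.Om - L.Om)
  nlinarith

lemma res_zr2 {r : Set ℝ} {u p : K} {ζ : H} (hs : L.ResSmall r u p ζ) :
    ‖L.zr (-u) (L.zr (-u) ζ) - ζ‖ ≤ 4 * (Real.sqrt (L.mu.real r) * ‖u‖) := by
  have hρ0 : 0 ≤ L.mu.real r := measureReal_nonneg
  have hu : u ∈ res_sp u p := Submodule.subset_span (by simp)
  have b1 : ‖L.zr (-u) (L.zr (-u) L.Om) - L.Om‖ ^ 2 ≤ 8 * ‖u‖ ^ 2 := by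
    have : L.zr (-u) (L.zr (-u) L.Om) = L.zr (-u + -u) L.Om := by
      rw [L.zr_zr, th_self]; simp
    rw [this]
    refine (L.res_mzr _).trans ?_
    have : ‖-u + -u‖ ≤ 2 * ‖u‖ := by
      refine (norm_add_le _ _).trans ?_
      rw [norm_neg]; linarith
    have := norm_nonneg (-u + -u)
    have := norm_nonneg u
    nlinarith
  have e4 : ‖L.zr (-u) (L.zr (-u) ζ) - ζ‖ ^ 2 ≤ L.mu.real r * (8 * ‖u‖ ^ 2) := by
    refine hs (fun x => L.zr (-u) (L.zr (-u) x)) ?_ ?_ ?_ ?_ _ b1 ?_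
    · exact IsPar.comp (U := L.zr (-u)) (V := L.zr (-u))
        (IsPar.zr (Submodule.neg_mem _ hu)) (IsPar.zr (Submodule.neg_mem _ hu))
    · intro x
      rw [LinearIsometryEquiv.norm_map, LinearIsometryEquiv.norm_map]
    · intro x
      rw [L.E_zr, L.E_zr]
    · intro x hx; exact SW.mapzr (SW.mapzr hx _) _
    · have : L.zr (-u) (L.zr (-u) (L.Z L.Om)) - L.Z L.Om
          = L.Z (L.zr (-u) (L.zr (-u) L.Om) - L.Om) := by
        rw [map_sub, L.Z_zr, L.Z_zr]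
      rw [this, LinearIsometryEquiv.norm_map]
      exact b1
  refine abs_le_of_sq_le_sq' ?_ (by positivity) |>.2
  have : (4 * (Real.sqrt (L.mu.real r) * ‖u‖)) ^ 2 = 16 * L.mu.real r * ‖u‖ ^ 2 := by
    rw [mul_pow, mul_pow, Real.sq_sqrt hρ0]; ring
  rw [this]
  have := mul_nonneg hρ0 (sq_nonneg ‖u‖)
  nlinarith

lemma res_kick_small {r : Set ℝ} {u p : K} {ζ : H} (hs : L.ResSmall r u p ζ) (q : K)
    (hq : q ∈ res_sp u p) (hqn : ‖q‖ = ‖p‖) :
    ‖L.kick 1 u q ζ - ζ‖ ≤ 2 * Real.sqrt (L.mu.real r) * ‖p‖ * (1 + 2 * ‖u‖) := by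
  have hρ0 : 0 ≤ L.mu.real r := measureReal_nonneg
  have hu : u ∈ res_sp u p := Submodule.subset_span (by simp)
  have b1 : ‖L.kick 1 u q L.Om - L.Om‖ ^ 2 ≤ 2 * (‖p‖ ^ 2 * (1 + 4 * ‖u‖ ^ 2)) := by
    have := L.norm_kick_Om_sub (c := 1) (by simp) u q
    rwa [one_smul, hqn] at this
  have b2 : ‖L.kick 1 u (-q) L.Om - L.Om‖ ^ 2 ≤ 2 * (‖p‖ ^ 2 * (1 + 4 * ‖u‖ ^ 2)) := by
    have := L.norm_kick_Om_sub (c := 1) (by simp) u (-q)
    rwa [one_smul, norm_neg, hqn] at this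
  have b3 : ‖L.kick 1 u q ζ - ζ‖ ^ 2 ≤ L.mu.real r * (2 * (‖p‖ ^ 2 * (1 + 4 * ‖u‖ ^ 2))) := by
    refine hs _ (L.kick_par 1 hu hq) (fun x => L.norm_kick (by simp) _ _ x)
      (fun x => L.kick_E _ _ _ _ _) (fun x hx => L.kick_SW _ _ _ hx) _ b1 ?_
    have : L.kick 1 u q (L.Z L.Om) - L.Z L.Om = L.Z (L.kick 1 u (-q) L.Om - L.Om) := by
      unfold kick
      rw [one_smul, one_smul, map_sub, L.Z_zr, L.res_Z_pw1, neg_neg, L.Z_zr]
    rw [this, LinearIsometryEquiv.norm_map]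
    exact b2
  refine abs_le_of_sq_le_sq' (b3.trans ?_) (by positivity) |>.2
  have b4 : (2 * Real.sqrt (L.mu.real r) * ‖p‖ * (1 + 2 * ‖u‖)) ^ 2
      = 4 * L.mu.real r * (‖p‖ ^ 2 * (1 + 2 * ‖u‖) ^ 2) := by
    rw [mul_pow, mul_pow, mul_pow, Real.sq_sqrt hρ0]; ring
  rw [b4]
  have b5 : 1 + 4 * ‖u‖ ^ 2 ≤ (1 + 2 * ‖u‖) ^ 2 := by nlinarith [norm_nonneg u]
  have b6 : L.mu.real r * (‖p‖ ^ 2 * (1 + 4 * ‖u‖ ^ 2))
      ≤ L.mu.real r * (‖p‖ ^ 2 * (1 + 2 * ‖u‖) ^ 2) := by gcongr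
  have b7 : 0 ≤ L.mu.real r * (‖p‖ ^ 2 * (1 + 2 * ‖u‖) ^ 2) := by positivity
  linarith

/-- (R1) for one step -/
lemma res_R1 {r : Set ℝ} (hr : MeasurableSet r) {V V1 : H ≃ₗᵢ[ℂ] H} {u p : K} {ζ : H}
    (cV : ∀ x, L.E r (V x) = V (L.E r x)) (cV1 : ∀ x, L.E r (V1 x) = V1 (L.E r x))
    (h1 : ∀ x, L.E r (V1 x) = L.zr (-u) (L.E r (V x))) (hζ : L.E r (V L.Om) = ζ)
    (hn : ‖ζ‖ ^ 2 = L.mu.real r) (hs : L.ResSmall r u p ζ) {D : ℝ} {t : ℂ}
    (ht : ‖ζ - t • L.E r L.Om‖ ^ 2 ≤ L.mu.real r * (4 * D)) :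
    |th (L.fv (L.pau 2) r V) (L.fv (L.pau 1) r V1) + L.mu.real r|
        ≤ L.mu.real r * (8 * D + 4 * ‖u‖) := by
  have hρ0 : 0 ≤ L.mu.real r := measureReal_nonneg
  have hnn : ‖ζ‖ = Real.sqrt (L.mu.real r) := by rw [← hn, Real.sqrt_sq (norm_nonneg _)]
  have sq4 : Real.sqrt (L.mu.real r) * Real.sqrt (L.mu.real r) = L.mu.real r :=
    Real.mul_self_sqrt hρ0
  have hX : ‖ζ - L.X ζ‖ ≤ 2 * ‖ζ - t • L.E r L.Om‖ := by
    have e : ζ - L.X ζ = (ζ - t • L.E r L.Om) - L.X (ζ - t • L.E r L.Om) := by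
      have e0 : L.X (L.E r L.Om) = L.E r L.Om := by rw [← L.E_X, L.XOm]
      rw [map_sub, map_smul, e0]; abel
    rw [e]
    refine (norm_sub_le _ _).trans ?_
    rw [LinearIsometryEquiv.norm_map, two_mul]
  have hX2 : ‖ζ - L.X ζ‖ ^ 2 ≤ 16 * L.mu.real r * D := by
    have := norm_nonneg (ζ - L.X ζ)
    have := norm_nonneg (ζ - t • L.E r L.Om)
    nlinarith
  have hX3 : ‖ζ - L.X ζ‖ ^ 2 = 2 * L.mu.real r - 2 * (inner ℂ ζ (L.X ζ) : ℂ).re := by
    rw [@norm_sub_sq ℂ H, LinearIsometryEquiv.norm_map, hn]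
    change L.mu.real r - 2 * (inner ℂ ζ (L.X ζ) : ℂ).re + L.mu.real r = _
    ring
  have e1 : L.fv (L.pau 1) r V1 = L.iota (V⁻¹ (L.pau 1 (L.zr (-u) (L.zr (-u) ζ)))) := by
    rw [L.res_blk hr (c := 1) (by simp) cV cV1 (T := L.zr (-u))
      (fun x => L.E_zr _ _ x) (fun x => by rw [one_smul]; exact h1 x) 1, hζ]
    congr 2
    apply Sys.inv_apply_eq
    rw [← L.res_pau1_zr u, L.zr_zr_neg]
  have e2 : L.fv (L.pau 2) r V = L.iota (V⁻¹ (L.Z ζ)) := by
    rw [L.res_fv cV, hζ]; rfl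
  have e3 : (inner ℂ (L.fv (L.pau 2) r V) (L.fv (L.pau 1) r V1) : ℂ)
      = -(Complex.I * inner ℂ ζ (L.X ζ))
        + inner ℂ (L.Z ζ) (L.pau 1 (L.zr (-u) (L.zr (-u) ζ) - ζ)) := by
    rw [e1, e2, L.iota.inner_map_map, LinearIsometryEquiv.inner_map_map]
    have : L.pau 1 ζ = Complex.I • L.X (L.Z ζ) := by
      rw [L.pau_one, L.Zt_apply, show 2 * -(Real.pi / 4) = -(Real.pi / 2) by ring,
        L.xr_neg_pi_div_two]
    have h6 : (inner ℂ (L.Z ζ) (L.pau 1 ζ) : ℂ) = -(Complex.I * inner ℂ ζ (L.X ζ)) := by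
      rw [this, inner_smul_right, L.XZ, inner_neg_right, L.Z.inner_map_map]
      ring
    rw [← h6, map_sub, inner_sub_right]
    ring
  have e5 := L.res_zr2 hs
  have e6 : |(inner ℂ (L.Z ζ) (L.pau 1 (L.zr (-u) (L.zr (-u) ζ) - ζ)) : ℂ).im|
      ≤ L.mu.real r * (4 * ‖u‖) := by
    refine (Complex.abs_im_le_norm _).trans ((norm_inner_le_norm _ _).trans ?_)
    rw [LinearIsometryEquiv.norm_map, LinearIsometryEquiv.norm_map, hnn]
    calc Real.sqrt (L.mu.real r) * ‖L.zr (-u) (L.zr (-u) ζ) - ζ‖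
        ≤ Real.sqrt (L.mu.real r) * (4 * (Real.sqrt (L.mu.real r) * ‖u‖)) := by gcongr
      _ = (Real.sqrt (L.mu.real r) * Real.sqrt (L.mu.real r)) * (4 * ‖u‖) := by ring
      _ = _ := by rw [sq4]
  unfold th
  rw [e3, Complex.add_im, Complex.neg_im, Complex.I_mul_im]
  have e7 : 0 ≤ L.mu.real r - (inner ℂ ζ (L.X ζ) : ℂ).re := by
    have := sq_nonneg ‖ζ - L.X ζ‖
    linarith
  have e8 : L.mu.real r - (inner ℂ ζ (L.X ζ) : ℂ).re ≤ 8 * L.mu.real r * D := by linarith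
  rw [abs_le] at e6 ⊢
  constructor <;> nlinarith [e6.1, e6.2]

/-- (R2) for one step -/
lemma res_R2 {r : Set ℝ} (hr : MeasurableSet r) {V V1 V2 : H ≃ₗᵢ[ℂ] H} {u p : K} {ζ : H}
    {c : ℂ} (hc : ‖c‖ = 1)
    (cV : ∀ x, L.E r (V x) = V (L.E r x)) (cV2 : ∀ x, L.E r (V2 x) = V2 (L.E r x))
    (h1 : ∀ x, L.E r (V1 x) = L.zr (-u) (L.E r (V x)))
    (h2 : ∀ x, L.E r (V2 x) = c • L.pw (L.pau 1) (-p) (L.E r (V1 x)))
    (hζ : L.E r (V L.Om) = ζ) (hs : L.ResSmall r u p ζ) :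
    ‖L.fv (L.pau 2) r V2 - L.fv (L.pau 2) r V‖
        ≤ 4 * Real.sqrt (L.mu.real r) * ‖p‖ * (1 + 2 * ‖u‖) := by
  have hp : p ∈ res_sp u p := Submodule.subset_span (by simp)
  have e1 : L.fv (L.pau 2) r V2
      = L.iota (V⁻¹ ((L.pwU 1 (-p) * L.zr (-u))⁻¹ (L.Z ((L.pwU 1 (-p) * L.zr (-u)) ζ)))) := by
    rw [L.res_blk hr hc cV cV2 (T := L.pwU 1 (-p) * L.zr (-u))
      (fun x => by
        change L.E r (L.pw (L.pau 1) (-p) (L.zr (-u) x))
          = L.pw (L.pau 1) (-p) (L.zr (-u) (L.E r x))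
        rw [L.E_pw, L.E_zr])
      (fun x => by rw [h2, h1]; rfl) 2, hζ]
    rfl
  have e2 : L.fv (L.pau 2) r V = L.iota (V⁻¹ (L.Z ζ)) := by
    rw [L.res_fv cV, hζ]; rfl
  have e3 : ‖L.fv (L.pau 2) r V2 - L.fv (L.pau 2) r V‖
      = ‖L.Z (L.pw (L.pau 1) (-p) (L.zr (-u) ζ)) - L.pw (L.pau 1) (-p) (L.zr (-u) (L.Z ζ))‖ := by
    rw [e1, e2, ← map_sub, L.norm_iota, ← map_sub, LinearIsometryEquiv.norm_map,
      ← LinearIsometryEquiv.norm_map (L.pwU 1 (-p) * L.zr (-u)), map_sub, Sys.Ainv]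
    rfl
  obtain ⟨y, hy⟩ : ∃ y, y = L.zr (-u) ζ := ⟨_, rfl⟩
  have e4 : L.Z (L.pw (L.pau 1) (-p) (L.zr (-u) ζ)) - L.pw (L.pau 1) (-p) (L.zr (-u) (L.Z ζ))
      = (L.pw (L.pau 1) p (L.Z y) - L.Z y) - (L.pw (L.pau 1) (-p) (L.Z y) - L.Z y) := by
    rw [L.res_Z_pw1, neg_neg, ← L.Z_zr, hy]
    abel
  have e5 : ∀ q : K, L.pw (L.pau 1) q (L.Z y) = L.Z (L.pw (L.pau 1) (-q) y) := by
    intro q; rw [L.res_Z_pw1, neg_neg]
  have e6 : ∀ q : K, ‖L.pw (L.pau 1) q y - y‖ = ‖L.kick 1 u q ζ - ζ‖ := by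
    intro q
    unfold kick
    rw [one_smul, ← LinearIsometryEquiv.norm_map (L.zr u) (L.pw (L.pau 1) q y - y), map_sub,
      hy, L.zr_zr_neg]
  rw [e3, e4]
  refine (norm_sub_le _ _).trans ?_
  rw [e5, e5, ← map_sub, ← map_sub, LinearIsometryEquiv.norm_map, LinearIsometryEquiv.norm_map,
    e6, e6, neg_neg]
  have c1 := L.res_kick_small hs (-p) (Submodule.neg_mem _ hp) (norm_neg _)
  have c2 := L.res_kick_small hs p hp rfl
  linarith

variable {r : Set ℝ} {N : ℕ} {V V1 V2 : ℕ → (H ≃ₗᵢ[ℂ] H)} {u p : ℕ → K} {c : ℕ → ℂ}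

/-- **(RES)** reserve estimates along a chain -/
theorem res (hr : MeasurableSet r)
    (cV : ∀ i ≤ N, ∀ x, L.E r (V i x) = V i (L.E r x))
    (cV1 : ∀ i < N, ∀ x, L.E r (V1 i x) = V1 i (L.E r x))
    (cV2 : ∀ i < N, ∀ x, L.E r (V2 i x) = V2 i (L.E r x))
    (h0 : ∀ x, L.E r (V 0 x) = L.E r x)
    (h1 : ∀ i < N, ∀ x, L.E r (V1 i x) = L.zr (-(u i)) (L.E r (V i x)))
    (hcn : ∀ i < N, ‖c i‖ = 1)
    (h2 : ∀ i < N, ∀ x, L.E r (V2 i x) = c i • L.pw (L.pau 1) (-(p i)) (L.E r (V1 i x)))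
    (h3 : ∀ i < N, ∀ x, L.E r (V (i + 1) x) = L.zr (u i) (L.E r (V2 i x)))
    (huu : ∀ i < N, ∀ j < N, i ≠ j → inner ℂ (u i) (u j) = (0 : ℂ))
    (hup : ∀ i < N, ∀ j < N, i ≠ j → inner ℂ (u i) (p j) = (0 : ℂ))
    (hpp : ∀ i < N, ∀ j < N, i ≠ j → inner ℂ (p i) (p j) = (0 : ℂ)) :
    ∀ i < N,
      |th (L.fv (L.pau 2) r (V i)) (L.fv (L.pau 1) r (V1 i)) + L.mu.real r|
        ≤ L.mu.real r * (8 * ∑ j ∈ Finset.range i, ‖p j‖ ^ 2 * (1 + 4 * ‖u j‖ ^ 2) + 4 * ‖u i‖) ∧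
      ‖L.fv (L.pau 2) r (V2 i) - L.fv (L.pau 2) r (V i)‖
        ≤ 4 * Real.sqrt (L.mu.real r) * ‖p i‖ * (1 + 2 * ‖u i‖) := by
  intro i hi
  -- modes
  have hL : ∀ j k, j < k → k < N → ∀ v ∈ res_sp (u j) (p j), ∀ w ∈ res_sp (u k) (p k),
      inner ℂ v w = (0 : ℂ) := by
    intro j k hjk hk
    refine res_sp_orth (huu j (by omega) k hk (by omega)) (hup j (by omega) k hk (by omega)) ?_
      (hpp j (by omega) k hk (by omega))
    rw [← inner_conj_symm, hup k hk j (by omega) (by omega), map_zero]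
  have hmu : ∀ j, u j ∈ res_sp (u j) (p j) := fun j => Submodule.subset_span (by simp)
  have hmp : ∀ j, p j ∈ res_sp (u j) (p j) := fun j => Submodule.subset_span (by simp)
  set U : ℕ → H → H := fun j => L.kick (c j) (u j) (-(p j)) with hUd
  have hUp : ∀ j < N, IsPar L.toSys (res_sp (u j) (p j)) (U j) := fun j _ =>
    L.kick_par (c j) (hmu j) (Submodule.neg_mem _ (hmp j))
  have hUn : ∀ j < N, ∀ x, ‖U j x‖ = ‖x‖ := fun j hj x => L.norm_kick (hcn j hj) _ _ x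
  -- the reserve state
  have hst : ∀ k ≤ N, ∀ x, L.E r (V k x) = L.E r (cmp U k x) := by
    intro k
    induction k with
    | zero => intro _ x; exact h0 x
    | succ k ih =>
      intro hk x
      rw [h3 k (by omega), h2 k (by omega), h1 k (by omega), ih (by omega), map_smul]
      change c k • L.zr (u k) (L.pw (L.pau 1) (-(p k)) (L.zr (-(u k)) (L.E r (cmp U k x)))) = _
      exact (L.kick_E (c k) (u k) (-(p k)) r (cmp U k x)).symm
  have hSW : ∀ k ≤ N, cmp U k L.Om ∈ SW L.toSys := fun k hk =>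
    SW.cmp (n := N) (fun j _ x hx => L.kick_SW _ _ _ hx) SW.Om k hk
  obtain ⟨z, hz⟩ : ∃ z, z = cmp U i L.Om := ⟨_, rfl⟩
  have hSWz : z ∈ SW L.toSys := by rw [hz]; exact hSW i hi.le
  have hz1 : ‖z‖ = 1 := by rw [hz, norm_cmp (n := N) hUn L.Om i hi.le, L.nOm]
  have hzr : L.E r (V i L.Om) = L.E r z := by rw [hz]; exact hst i hi.le L.Om
  have hρ0 : 0 ≤ L.mu.real r := measureReal_nonneg
  have hEz : ‖L.E r z‖ ^ 2 = L.mu.real r := by
    rw [L.norm_E_SW hr hSWz, hz1, one_pow, mul_one]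
  have hzP : IsPar L.toSys (⨆ j ∈ Finset.range i, res_sp (u j) (p j)) (cmp U i) :=
    isPar_cmp (n := N) hUp i hi.le
  have hLi : ∀ v ∈ res_sp (u i) (p i), ∀ w ∈ (⨆ j ∈ Finset.range i, res_sp (u j) (p j)),
      inner ℂ v w = (0 : ℂ) := by
    intro v hv w hw
    have hle : (⨆ j ∈ Finset.range i, res_sp (u j) (p j)) ≤ (ℂ ∙ v)ᗮ := by
      refine iSup₂_le fun j hj => ?_
      intro x hx
      rw [Submodule.mem_orthogonal_singleton_iff_inner_right, ← inner_conj_symm,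
        hL j i (Finset.mem_range.1 hj) hi x hx v hv, map_zero]
    exact Submodule.mem_orthogonal_singleton_iff_inner_right.1 (hle hw)
  -- small moves by the new modes
  have small : L.ResSmall r (u i) (p i) (L.E r z) := by
    intro T hT hTn hTE hTS B hB1 hB2
    rw [← hTE, ← map_sub, L.norm_E_SW hr (Submodule.sub_mem _ (hTS _ hSWz) hSWz)]
    refine mul_le_mul_of_nonneg_left ?_ hρ0
    have := par_near hLi hzP hT hTn hB1 hB2
    rwa [← hz, hz1, one_pow, mul_one] at this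
  obtain ⟨t, ht, hleak⟩ := leakage (S := L.toSys) (L := fun j => res_sp (u j) (p j)) (n := N)
    (U := U) hL hUp hUn c i hi.le
  rw [← hz] at hleak
  have hleak2 : ‖z - t • L.Om‖ ^ 2
      ≤ 4 * ∑ j ∈ Finset.range i, ‖p j‖ ^ 2 * (1 + 4 * ‖u j‖ ^ 2) := by
    refine hleak.trans ?_
    have h5 : ∑ j ∈ Finset.range i, ‖U j L.Om - c j • L.Om‖ ^ 2
        ≤ ∑ j ∈ Finset.range i, 2 * (‖p j‖ ^ 2 * (1 + 4 * ‖u j‖ ^ 2)) := by
      refine Finset.sum_le_sum fun j hj => ?_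
      have := L.norm_kick_Om_sub (hcn j (by have := Finset.mem_range.1 hj; omega)) (u j) (-(p j))
      rwa [norm_neg] at this
    rw [← Finset.mul_sum] at h5
    change 2 * ∑ j ∈ Finset.range i, ‖U j L.Om - c j • L.Om‖ ^ 2 ≤ _
    linarith
  have hζt : ‖L.E r z - t • L.E r L.Om‖ ^ 2
      ≤ L.mu.real r * (4 * ∑ j ∈ Finset.range i, ‖p j‖ ^ 2 * (1 + 4 * ‖u j‖ ^ 2)) := by
    rw [← map_smul, ← map_sub, L.norm_E_SW hr (Submodule.sub_mem _ hSWz
      (Submodule.smul_mem _ _ SW.Om))]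
    exact mul_le_mul_of_nonneg_left hleak2 hρ0
  exact ⟨L.res_R1 hr (cV i hi.le) (cV1 i hi) (h1 i hi) hzr hEz small hζt,
    L.res_R2 hr (hcn i hi) (cV i hi.le) (cV2 i hi) (h1 i hi) (h2 i hi) hzr small⟩

end LSys

end Vale.Agent.P367.A
end

section

/-! P367, block B, T2: orthogonal block sums (helper739). -/

namespace Vale.Agent.P367.A

open Complex Filter Topology MeasureTheory

namespace LSys

variable {H K : Type*} [NormedAddCommGroup H] [InnerProductSpace ℂ H]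
  [NormedAddCommGroup K] [InnerProductSpace ℂ K] (L : LSys H K)

/-- orthogonality of block sums, in the one-particle space -/
lemma ci_norm_sq_sum {N : ℕ} {b : ℕ → Set ℝ} (mb : ∀ i < N, MeasurableSet (b i))
    (bb : ∀ i < N, ∀ j < N, i ≠ j → Disjoint (b i) (b j)) (y : ℕ → H) :
    ‖∑ j ∈ Finset.range N, L.iota (L.E (b j) (y j))‖ ^ 2
      = ∑ j ∈ Finset.range N, ‖L.E (b j) (y j)‖ ^ 2 := by
  rw [← map_sum, LinearIsometry.norm_map]
  exact L.fa_pyth mb bb y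

/-- the same for vectors given up to equality -/
lemma ci_norm_sq_sum' {N : ℕ} {b : ℕ → Set ℝ} (mb : ∀ i < N, MeasurableSet (b i))
    (bb : ∀ i < N, ∀ j < N, i ≠ j → Disjoint (b i) (b j)) {w : ℕ → K} {y : ℕ → H}
    (hw : ∀ i < N, w i = L.iota (L.E (b i) (y i))) :
    ‖∑ j ∈ Finset.range N, w j‖ ^ 2 = ∑ j ∈ Finset.range N, ‖w j‖ ^ 2 := by
  rw [Finset.sum_congr rfl fun i hi => hw i (Finset.mem_range.1 hi), L.ci_norm_sq_sum mb bb]
  refine Finset.sum_congr rfl fun i hi => ?_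
  rw [hw i (Finset.mem_range.1 hi), LinearIsometry.norm_map]

/-- partial sums are bounded by total sums -/
lemma ci_norm_sq_subsum {N : ℕ} {b : ℕ → Set ℝ} (mb : ∀ i < N, MeasurableSet (b i))
    (bb : ∀ i < N, ∀ j < N, i ≠ j → Disjoint (b i) (b j)) {w : ℕ → K} {y : ℕ → H}
    (hw : ∀ i < N, w i = L.iota (L.E (b i) (y i))) {s : Finset ℕ} (hs : s ⊆ Finset.range N) :
    ‖∑ j ∈ s, w j‖ ^ 2 ≤ ∑ j ∈ Finset.range N, ‖w j‖ ^ 2 := by
  classical
  have h1 : ∑ j ∈ s, w j = ∑ j ∈ Finset.range N, (if j ∈ s then w j else 0) := by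
    rw [← Finset.sum_filter]
    refine Finset.sum_congr ?_ fun _ _ => rfl
    ext j
    simp only [Finset.mem_filter]
    exact ⟨fun h => ⟨hs h, h⟩, fun h => h.2⟩
  rw [h1]
  have h2 : ∀ i < N, (fun j => if j ∈ s then w j else 0) i
      = L.iota (L.E (b i) ((fun j => if j ∈ s then y j else 0) i)) := by
    intro i hi
    by_cases h : i ∈ s
    · simp only [h, if_true]
      exact hw i hi
    · simp only [h, if_false, map_zero]
  rw [L.ci_norm_sq_sum' mb bb h2]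
  refine Finset.sum_le_sum fun i _ => ?_
  by_cases h : i ∈ s
  · simp only [h, if_true]
    exact le_rfl
  · simp only [h, if_false, norm_zero]
    rw [zero_pow two_ne_zero]
    exact sq_nonneg _

lemma ci_sg_E {G : Set ℝ} (hG : MeasurableSet G) {𝔄 : Set (H →L[ℂ] H)} {sg : H →L[ℂ] H}
    (h : L.Sgn G 𝔄 sg) (x : H) : sg (L.E G x) = sg x := by
  have h1 : sg (sg (x - L.E G x)) = 0 := by
    have := congrArg (fun T : H →L[ℂ] H => T (x - L.E G x)) h.2.2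
    change sg (sg (x - L.E G x)) = L.E G (x - L.E G x) at this
    rw [this, map_sub, L.o_E_idem hG, sub_self]
  have h2 : (inner ℂ (sg (x - L.E G x)) (sg (x - L.E G x)) : ℂ) = 0 := by
    rw [h.2.1, h1, inner_zero_right]
  rw [inner_self_eq_zero, map_sub, sub_eq_zero] at h2
  exact h2.symm

lemma ci_E_sg {G : Set ℝ} (hG : MeasurableSet G) {𝔄 : Set (H →L[ℂ] H)} {sg : H →L[ℂ] H}
    (h : L.Sgn G 𝔄 sg) (x : H) : L.E G (sg x) = sg x := by
  have h1 := congrArg (fun T : H →L[ℂ] H => T (sg x)) h.2.2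
  change sg (sg (sg x)) = L.E G (sg x) at h1
  have h2 := congrArg (fun T : H →L[ℂ] H => T x) h.2.2
  change sg (sg x) = L.E G x at h2
  rw [← h1, h2, L.ci_sg_E hG h]

lemma ci_norm_sg_le {G : Set ℝ} (hG : MeasurableSet G) {𝔄 : Set (H →L[ℂ] H)} {sg : H →L[ℂ] H}
    (h : L.Sgn G 𝔄 sg) (x : H) : ‖sg x‖ = ‖L.E G x‖ := by
  have h2 := congrArg (fun T : H →L[ℂ] H => T x) h.2.2
  change sg (sg x) = L.E G x at h2
  have h3 : (inner ℂ (sg x) (sg x) : ℂ) = inner ℂ (L.E G x) (L.E G x) := by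
    rw [h.2.1, h2, L.o_E_sa G hG, L.o_E_idem hG]
  rw [inner_self_eq_norm_sq_to_K, inner_self_eq_norm_sq_to_K] at h3
  have h4 : ‖sg x‖ ^ 2 = ‖L.E G x‖ ^ 2 := by exact_mod_cast h3
  exact (sq_eq_sq₀ (norm_nonneg _) (norm_nonneg _)).1 h4

/-- the field vector of a sign control is the sum of its batches -/
lemma ci_iota_sg {G : Set ℝ} {𝔄 : Set (H →L[ℂ] H)} {sg : H →L[ℂ] H}
    (h : L.Sgn G 𝔄 sg) {N : ℕ} {b : ℕ → Set ℝ} (mb : ∀ i < N, MeasurableSet (b i))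
    (bb : ∀ i < N, ∀ j < N, i ≠ j → Disjoint (b i) (b j))
    (hG : (⋃ i ∈ Finset.range N, b i) = G) (x : H) :
    L.iota (sg x) = ∑ j ∈ Finset.range N, L.iota (L.E (b j) (sg x)) := by
  have hGm : MeasurableSet G := by
    rw [← hG]
    exact Finset.measurableSet_biUnion _ fun i hi => mb i (Finset.mem_range.1 hi)
  rw [← map_sum, ← L.fa_E_sum mb bb hG.symm, L.ci_E_sg hGm h]

/-- sums of the block masses -/
lemma ci_sum_sq_E {G : Set ℝ} {N : ℕ} {b : ℕ → Set ℝ} (mb : ∀ i < N, MeasurableSet (b i))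
    (bb : ∀ i < N, ∀ j < N, i ≠ j → Disjoint (b i) (b j))
    (hG : (⋃ i ∈ Finset.range N, b i) = G) (x : H) :
    ∑ j ∈ Finset.range N, ‖L.E (b j) x‖ ^ 2 = ‖L.E G x‖ ^ 2 := by
  rw [L.fa_E_sum mb bb hG.symm, L.fa_pyth mb bb fun _ => x]

lemma ci_sum_sq_E_le {N : ℕ} {b : ℕ → Set ℝ} (mb : ∀ i < N, MeasurableSet (b i))
    (bb : ∀ i < N, ∀ j < N, i ≠ j → Disjoint (b i) (b j)) (x : H) :
    ∑ j ∈ Finset.range N, ‖L.E (b j) x‖ ^ 2 ≤ ‖x‖ ^ 2 := by
  have hGm : MeasurableSet (⋃ i ∈ Finset.range N, b i) :=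
    Finset.measurableSet_biUnion _ fun i hi => mb i (Finset.mem_range.1 hi)
  rw [L.ci_sum_sq_E mb bb rfl x]
  have h := L.o_norm_E_le hGm x
  gcongr

/-- Minkowski for block sums -/
lemma ci_minkowski {N : ℕ} (u v : ℕ → H) {A B : ℝ} (hA : 0 ≤ A) (hB : 0 ≤ B)
    (hu : ∑ i ∈ Finset.range N, ‖u i‖ ^ 2 ≤ A ^ 2) (hv : ∑ i ∈ Finset.range N, ‖v i‖ ^ 2 ≤ B ^ 2) :
    ∑ i ∈ Finset.range N, ‖u i + v i‖ ^ 2 ≤ (A + B) ^ 2 := by
  have h1 : ∑ i ∈ Finset.range N, ‖u i‖ * ‖v i‖ ≤ A * B := by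
    have h2 := Finset.sum_mul_sq_le_sq_mul_sq (Finset.range N) (fun i => ‖u i‖) (fun i => ‖v i‖)
    have h3 : (∑ i ∈ Finset.range N, ‖u i‖ * ‖v i‖) ^ 2 ≤ (A * B) ^ 2 := by
      refine h2.trans ?_
      rw [mul_pow]
      exact mul_le_mul hu hv (Finset.sum_nonneg fun i _ => by positivity) (by positivity)
    exact abs_le_of_sq_le_sq' h3 (by positivity) |>.2
  calc ∑ i ∈ Finset.range N, ‖u i + v i‖ ^ 2
      ≤ ∑ i ∈ Finset.range N, (‖u i‖ ^ 2 + 2 * (‖u i‖ * ‖v i‖) + ‖v i‖ ^ 2) := by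
        refine Finset.sum_le_sum fun i _ => ?_
        have h4 := norm_add_le (u i) (v i)
        have h5 : ‖u i + v i‖ ^ 2 ≤ (‖u i‖ + ‖v i‖) ^ 2 := by gcongr
        nlinarith
    _ = ∑ i ∈ Finset.range N, ‖u i‖ ^ 2 + 2 * ∑ i ∈ Finset.range N, ‖u i‖ * ‖v i‖
          + ∑ i ∈ Finset.range N, ‖v i‖ ^ 2 := by
        rw [Finset.sum_add_distrib, Finset.sum_add_distrib, Finset.mul_sum]
    _ ≤ (A + B) ^ 2 := by nlinarith

end LSys

end Vale.Agent.P367.A
end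

section

/-! P367 block B, T2CORE part 6: bookkeeping. -/

namespace Vale.Agent.P367.A

open Complex Filter Topology MeasureTheory
open Vale.Agent.P367.B (famS cl exU ex gb ga WFam)

namespace LSys

variable {H K : Type} [NormedAddCommGroup H] [InnerProductSpace ℂ H] [CompleteSpace H]
  [NormedAddCommGroup K] [InnerProductSpace ℂ K] {L : LSys H K} {𝔄 : Set (H →L[ℂ] H)}
  {hc : ∀ x : H, Tendsto (fun a => L.W a x) (𝓝 0) (𝓝 x)}
  {G r : Set ℝ} {sg : H →L[ℂ] H} {s μ a la : ℝ} {N : ℕ} {b : ℕ → Set ℝ}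
  {V V1 V2 : ℕ → (H ≃ₗᵢ[ℂ] H)} {co cr : ℕ → ℂ}

omit [CompleteSpace H] in
lemma cf_Cch (s μ : ℝ) (sg : H →L[ℂ] H) (b : Set ℝ) : L.Cch s μ sg b = L.stC b sg s μ := by
  unfold Cch stC
  rw [ofReal_neg]

/-- a sequence of steps is a chain -/
lemma cf_chain (hG : MeasurableSet G) (hr : MeasurableSet r) (hGr : Disjoint G r)
    (hb : ∀ i, MeasurableSet (b i)) (hbd : ∀ i j, i ≠ j → Disjoint (b i) (b j))
    (hbs : ∀ i, b i ⊆ G) (hV : ∀ i, ∀ a ∈ 𝔄, ∀ x, a (V i x) = V i (a x))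
    (hV1 : ∀ i, ∀ a ∈ 𝔄, ∀ x, a (V1 i x) = V1 i (a x))
    (hV2 : ∀ i, ∀ a ∈ 𝔄, ∀ x, a (V2 i x) = V2 i (a x))
    (hst : ∀ i, L.StepRel hc G r (b i) sg s μ a la (V i) (V1 i) (V2 i) (V (i + 1)) (co i) (cr i))
    (N : ℕ) : L.Chain hc 𝔄 G r sg s μ a la N b V V1 V2 co cr where
  mG := hG
  mr := hr
  Gr := hGr
  mb i _ := hb i
  bG i _ := hbs i
  bb i _ j _ hij := hbd i j hij
  cV i _ := hV i
  cV1 i _ := hV1 i
  cV2 i _ := hV2 i
  nco i _ := (hst i).nco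
  ncr i _ := (hst i).ncr
  r1 i _ := (hst i).h1
  r2 i _ x := by
    rw [cf_Cch]
    exact (hst i).h2 x
  r3 i _ := (hst i).h3

/-- the product unitary on a block -/
lemma cf_prod (hA : L.Ctl 𝔄) (hG : MeasurableSet G) (hsg : sg ∈ 𝔄) {V0 U : H ≃ₗᵢ[ℂ] H}
    (hU : L.IsProd G sg s V0 U) {e : Set ℝ} (he : MeasurableSet e) (heG : e ⊆ G) (y : H) :
    L.E e (U y) = L.zr ((s : ℂ) • L.iota (sg L.Om))
      ((1 / 2 : ℂ) • (L.W (-((s : ℂ) • L.fv (L.pau 2) G V0)) (L.E e y + sg (L.E e y))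
        + L.W ((s : ℂ) • L.fv (L.pau 2) G V0) (L.E e y - sg (L.E e y)))) := by
  have hE := E_mem (L := L) hA he
  rw [hU y, (L.E e).map_add, (L.E e).map_sub y, L.E_sub he hG heG, sub_self, add_zero, L.E_zr,
    (L.E e).map_smul, (L.E e).map_add, L.E_W, L.E_W, (L.E e).map_add, (L.E e).map_sub,
    L.E_sub he hG heG, ctl_comm hA hE hsg]
  rfl

omit [CompleteSpace H] in
/-- splitting of a displacement up to a phase -/
lemma cf_phase (c : ℂ) (hc1 : ‖c‖ = 1) (w0 δ : K) :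
    ∃ c' : ℂ, ‖c'‖ = 1 ∧ ∀ y : H, c' • c • L.zr (w0 + δ) y = L.zr w0 (L.zr δ y) := by
  have hne : c ≠ 0 := by
    intro h0
    rw [h0, norm_zero] at hc1
    exact zero_ne_one hc1
  refine ⟨Complex.exp (-(Complex.I * (th w0 δ : ℂ))) * c⁻¹, ?_, fun y => ?_⟩
  · rw [norm_mul, norm_inv, hc1, inv_one, mul_one,
      show -(Complex.I * (th w0 δ : ℂ)) = ((-(th w0 δ) : ℝ) : ℂ) * Complex.I by push_cast; ring,
      Complex.norm_exp_ofReal_mul_I]
  · rw [smul_smul, mul_assoc, inv_mul_cancel₀ hne, mul_one, L.zr_zr]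

/-- bound for the shift -/
lemma cf_theta {ρ μ T η θ a la : ℝ} (hρ : 0 < ρ) (hμ : 0 < μ)
    (ha : a = Real.pi / (4 * μ ^ 2 * Real.sqrt ρ)) (hla : la = -(μ ^ 2 / Real.sqrt ρ))
    (hθ' : θ = 2 * a * la * T)
    (hT : |T + ρ| ≤ ρ * η) : |θ - Real.pi / 2| ≤ 2 * η := by
  have hθ : θ = 2 * (Real.pi / (4 * μ ^ 2 * Real.sqrt ρ)) * (-(μ ^ 2 / Real.sqrt ρ)) * T := by
    rw [hθ', ha, hla]
  have hs : 0 < Real.sqrt ρ := Real.sqrt_pos.2 hρ
  have hs2 : Real.sqrt ρ * Real.sqrt ρ = ρ := Real.mul_self_sqrt hρ.le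
  have e1 : θ - Real.pi / 2 = -(Real.pi / (2 * ρ)) * (T + ρ) := by
    rw [hθ]
    have : 2 * (Real.pi / (4 * μ ^ 2 * Real.sqrt ρ)) * (-(μ ^ 2 / Real.sqrt ρ))
        = -(Real.pi / (2 * ρ)) := by
      have e2 : 2 * (Real.pi / (4 * μ ^ 2 * Real.sqrt ρ)) * (-(μ ^ 2 / Real.sqrt ρ))
          = -(Real.pi / (2 * (Real.sqrt ρ * Real.sqrt ρ))) := by
        field_simp
        ring
      rw [e2, hs2]
    rw [this]
    field_simp
    ring
  have hη : 0 ≤ η := by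
    have := (abs_nonneg _).trans hT
    by_contra h
    push Not at h
    nlinarith
  rw [e1, abs_mul, abs_neg, abs_of_pos (by positivity)]
  calc Real.pi / (2 * ρ) * |T + ρ| ≤ Real.pi / (2 * ρ) * (ρ * η) := by gcongr
    _ = Real.pi / 2 * η := by field_simp
    _ ≤ 2 * η := by
      have := Real.pi_le_four
      gcongr
      linarith

namespace Chain

variable (h : L.Chain hc 𝔄 G r sg s μ a la N b V V1 V2 co cr) (hA : L.Ctl 𝔄)

/-- reserve displacement -/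
noncomputable def cf_u (_h : L.Chain hc 𝔄 G r sg s μ a la N b V V1 V2 co cr) (i : ℕ) : K :=
  (a : ℂ) • L.fv (L.pau 2) (b i) (V i)

/-- reserve kick -/
noncomputable def cf_p (_h : L.Chain hc 𝔄 G r sg s μ a la N b V V1 V2 co cr) (i : ℕ) : K :=
  (la : ℂ) • L.qch hc (L.vch μ la (G \ b i) r (V1 i)) (L.Cch s μ sg (b i)) (b i) (V1 i)

lemma cf_p_eq (i : ℕ) : h.cf_p i = (la : ℂ) • L.iota (L.E (b i) ((V1 i)⁻¹
    (L.Cch s μ sg (b i) (L.Z ((famS L.toSys hc).sn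
      (L.vch μ la (G \ b i) r (V1 i)) (V1 i L.Om)))))) := rfl

lemma cf_norm_p (hμ : 0 < μ) (i : ℕ) : ‖h.cf_p i‖ = |la| / μ * ‖h.w i‖ := by
  unfold cf_p w
  rw [norm_neg, norm_smul, norm_smul, norm_real, norm_real, Real.norm_eq_abs, Real.norm_eq_abs,
    abs_of_pos hμ]
  field_simp

include h hA in
lemma cf_norm_u (ha : 0 ≤ a) {i : ℕ} (hi : i < N) :
    ‖h.cf_u i‖ = a * Real.sqrt (L.mu.real (b i)) := by
  unfold cf_u
  rw [norm_smul, norm_real, Real.norm_eq_abs, abs_of_nonneg ha,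
    num_norm_fv (h.mb i hi) (h.cV i hi.le _ (E_mem hA (h.mb i hi)))]

include h hA in
/-- reserve estimates for a chain -/
lemma cf_res (hsg : L.Sgn G 𝔄 sg) (h0 : ∀ x, L.E r (V 0 x) = L.E r x) {i : ℕ} (hi : i < N) :
    |th (L.fv (L.pau 2) r (V i)) (L.fv (L.pau 1) r (V1 i)) + L.mu.real r|
        ≤ L.mu.real r * (8 * ∑ j ∈ Finset.range i, ‖h.cf_p j‖ ^ 2 * (1 + 4 * ‖h.cf_u j‖ ^ 2)
          + 4 * ‖h.cf_u i‖) ∧
      ‖L.fv (L.pau 2) r (V2 i) - L.fv (L.pau 2) r (V i)‖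
        ≤ 4 * Real.sqrt (L.mu.real r) * ‖h.cf_p i‖ * (1 + 2 * ‖h.cf_u i‖) := by
  have hE := E_mem (L := L) hA h.mr
  refine L.res (u := h.cf_u) (p := h.cf_p) (c := cr) h.mr (fun i hi => h.cV i hi _ hE)
    (fun i hi => h.cV1 i hi _ hE) (fun i hi => h.cV2 i hi _ hE) h0
    (fun i hi x => h.one_r hi x) h.ncr (fun i hi x => h.two_r hA hsg.1 hi x)
    (fun i hi x => ?_) ?_ ?_ ?_ i hi
  · rw [h.three_r hi, h.fv2 hA hsg.1 hsg.2.1 hi (h.mb i hi) (h.bG i hi),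
      h.fv1 hA hi (h.mb i hi) (h.bG i hi)]
    rfl
  · intro i hi j hj hij
    unfold cf_u
    rw [inner_smul_left, inner_smul_right, num_fv_orth (h.mb i hi) (h.mb j hj) (h.bb i hi j hj hij)]
    simp
  · intro i hi j hj hij
    rw [cf_p_eq]
    unfold cf_u fv
    rw [inner_smul_left, inner_smul_right, num_orth (h.mb i hi) (h.mb j hj) (h.bb i hi j hj hij)]
    simp
  · intro i hi j hj hij
    rw [cf_p_eq, cf_p_eq, inner_smul_left, inner_smul_right,
      num_orth (h.mb i hi) (h.mb j hj) (h.bb i hi j hj hij)]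
    simp

include h hA in
/-- the total reaction is close to its limit -/
lemma cf_Wv (hsg : L.Sgn G 𝔄 sg) (hμ : μ ≠ 0) (hU : (⋃ i ∈ Finset.range N, b i) = G)
    {t κ : ℝ} (ht0 : 0 ≤ t) (hκ0 : 0 ≤ κ) (ht : ∀ k < N, |h.θ k - Real.pi / 2| ≤ t) {k : ℕ → ℝ}
    (hk : ∑ i ∈ Finset.range N, k i ^ 2 ≤ κ ^ 2)
    (hkb : ∀ i < N, ‖L.E (b i) (L.W (L.vch μ la (G \ b i) r (V1 i)) (V 0 L.Om))
      - L.E (b i) (V 0 L.Om)‖ ≤ k i) :
    ‖h.Wv N - (s : ℂ) • L.iota (sg L.Om)‖ ≤ |s| * (3 * t + 2 * κ) := by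
  have h1 := h.num_Wv_sub_sq (k := N) le_rfl
  rw [num_sum_sg hA h.mG hsg h.mb h.bb hU] at h1
  refine (sq_le_sq₀ (norm_nonneg _) (by positivity)).1 ?_
  rw [h1]
  have hm := L.ci_sum_sq_E_le h.mb h.bb L.Om
  rw [L.nOm, one_pow] at hm
  have h2 : ∀ j ∈ Finset.range N, ‖h.w j - (s : ℂ) • L.iota (L.E (b j) (sg L.Om))‖ ^ 2
      ≤ |s| ^ 2 * (8 * t ^ 2 * ‖L.E (b j) L.Om‖ ^ 2 + 2 * k j ^ 2) := by
    intro j hj
    have hj' := Finset.mem_range.1 hj
    have h3 := h.num_w_sub_le hA hsg hμ hj'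
    have h4 : Real.sqrt (L.mu.real (b j)) = ‖L.E (b j) L.Om‖ := by
      rw [← L.norm_E_Om (h.mb j hj'), Real.sqrt_sq (norm_nonneg _)]
    rw [h4] at h3
    have h5 := ht j hj'
    have h6 := hkb j hj'
    have h7 : ‖h.w j - (s : ℂ) • L.iota (L.E (b j) (sg L.Om))‖
        ≤ |s| * (2 * t * ‖L.E (b j) L.Om‖ + k j) := by
      refine h3.trans ?_
      gcongr
    calc _ ≤ (|s| * (2 * t * ‖L.E (b j) L.Om‖ + k j)) ^ 2 := by gcongr
      _ = |s| ^ 2 * (2 * t * ‖L.E (b j) L.Om‖ + k j) ^ 2 := by ring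
      _ ≤ _ := by
        gcongr
        nlinarith [sq_nonneg (2 * t * ‖L.E (b j) L.Om‖ - k j)]
  refine (Finset.sum_le_sum h2).trans ?_
  rw [← Finset.mul_sum, Finset.sum_add_distrib, ← Finset.mul_sum, ← Finset.mul_sum, mul_pow]
  gcongr
  have h8 : 8 * t ^ 2 * ∑ j ∈ Finset.range N, ‖L.E (b j) L.Om‖ ^ 2 ≤ 8 * t ^ 2 * 1 := by gcongr
  nlinarith [mul_nonneg ht0 hκ0]

include h hA in
/-- the batches at the end of the chain, against the product unitary -/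
lemma cf_fin (hsg : L.Sgn G 𝔄 sg) (hμ : μ ≠ 0) {U : H ≃ₗᵢ[ℂ] H} (hU : L.IsProd G sg s (V 0) U)
    {del : ℕ → K} (hdel : ∀ k < N, h.Wv N - h.w k
      + (a : ℂ) • (L.fv (L.pau 2) r (V2 k) - L.fv (L.pau 2) r (V k))
        = (s : ℂ) • L.iota (sg L.Om) + del k) :
    ∃ c : ℕ → ℂ, (∀ i < N, ‖c i‖ = 1) ∧ ∀ i < N, ∀ x,
      ‖c i • L.E (b i) (V N x) - L.E (b i) (U (V 0 x))‖
        = ‖L.zr (del i) (ex (ga L.toSys hc (L.Cch s μ sg (b i))
            ((μ : ℂ) • ((μ⁻¹ : ℝ) : ℂ) • L.vch μ la (G \ b i) r (V1 i)) (h.θ i))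
            (L.E (b i) (V 0 x)))
          - (1 / 2 : ℂ) • (L.W (-((s : ℂ) • L.fv (L.pau 2) G (V 0)))
              (L.E (b i) (V 0 x) + sg (L.E (b i) (V 0 x)))
            + L.W ((s : ℂ) • L.fv (L.pau 2) G (V 0))
              (L.E (b i) (V 0 x) - sg (L.E (b i) (V 0 x))))‖ := by
  have key : ∀ i, ∃ c : ℂ, i < N → ‖c‖ = 1 ∧ ∀ x,
      ‖c • L.E (b i) (V N x) - L.E (b i) (U (V 0 x))‖
        = ‖L.zr (del i) (ex (ga L.toSys hc (L.Cch s μ sg (b i))
            ((μ : ℂ) • ((μ⁻¹ : ℝ) : ℂ) • L.vch μ la (G \ b i) r (V1 i)) (h.θ i))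
            (L.E (b i) (V 0 x)))
          - (1 / 2 : ℂ) • (L.W (-((s : ℂ) • L.fv (L.pau 2) G (V 0)))
              (L.E (b i) (V 0 x) + sg (L.E (b i) (V 0 x)))
            + L.W ((s : ℂ) • L.fv (L.pau 2) G (V 0))
              (L.E (b i) (V 0 x) - sg (L.E (b i) (V 0 x))))‖ := by
    intro i
    by_cases hi : i < N
    · obtain ⟨c, hc1, hc2⟩ := h.own hA hsg.1 hsg.2.1 hi
      rw [hdel i hi] at hc2
      obtain ⟨c', hc1', hc2'⟩ := cf_phase (L := L) c hc1 ((s : ℂ) • L.iota (sg L.Om)) (del i)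
      refine ⟨c', fun _ => ⟨hc1', fun x => ?_⟩⟩
      have hv : (μ : ℂ) • ((μ⁻¹ : ℝ) : ℂ) • L.vch μ la (G \ b i) r (V1 i)
          = L.vch μ la (G \ b i) r (V1 i) := by
        rw [smul_smul]
        have : (μ : ℂ) * ((μ⁻¹ : ℝ) : ℂ) = 1 := by
          push_cast
          exact mul_inv_cancel₀ (by exact_mod_cast hμ)
        rw [this, one_smul]
      rw [hv, hc2, hc2', cf_prod hA h.mG hsg.1 hU (h.mb i hi) (h.bG i hi), ← map_sub,
        LinearIsometryEquiv.norm_map]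
    · exact ⟨1, fun h' => absurd h' hi⟩
  choose c hc using key
  exact ⟨c, fun i hi => (hc i hi).1, fun i hi => (hc i hi).2⟩

include h hA in
/-- quantitative reserve estimates -/
lemma cf_num (hsg : L.Sgn G 𝔄 sg) (h0 : ∀ x, L.E r (V 0 x) = L.E r x) (hμ : 0 < μ)
    (hρ : 0 < L.mu.real r) (ha : a = Real.pi / (4 * μ ^ 2 * Real.sqrt (L.mu.real r)))
    (hla : la = -(μ ^ 2 / Real.sqrt (L.mu.real r))) {τ : ℝ} (hτ2 : τ ≤ 1 / 2)
    (hτ : ∀ i < N, a * Real.sqrt (L.mu.real (b i)) ≤ τ) {k : ℕ} (hk : k < N) :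
    |h.θ k - Real.pi / 2| ≤ 32 * |s| ^ 2 * μ ^ 2 / L.mu.real r + 8 * τ ∧
      ‖(a : ℂ) • (L.fv (L.pau 2) r (V2 k) - L.fv (L.pau 2) r (V k))‖ ≤ 8 * |s| * μ * τ := by
  obtain ⟨R1, R2⟩ := h.cf_res hA hsg h0 hk
  have hθ := h.num_θ hA hsg.1 hsg.2.1 hk
  set ρ := L.mu.real r with hρd
  have hsρ : 0 < Real.sqrt ρ := Real.sqrt_pos.2 hρ
  have hs2 : Real.sqrt ρ * Real.sqrt ρ = ρ := Real.mul_self_sqrt hρ.le
  have ha0 : 0 < a := by rw [ha]; positivity
  have hτ0 : 0 ≤ τ := le_trans (by positivity) (hτ k hk)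
  have hu : ∀ i < N, ‖h.cf_u i‖ ≤ τ := fun i hi => by
    rw [h.cf_norm_u hA ha0.le hi]; exact hτ i hi
  have hp : ∀ i < N, ‖h.cf_p i‖ ≤ μ / Real.sqrt ρ * (|s| * Real.sqrt (L.mu.real (b i))) := by
    intro i hi
    rw [h.cf_norm_p hμ]
    have h1 : |la| / μ = μ / Real.sqrt ρ := by
      rw [hla, abs_neg, abs_of_pos (by positivity)]
      field_simp
    rw [h1]
    have := h.num_w_le hA hsg hi
    gcongr
  have hm := L.ci_sum_sq_E_le h.mb h.bb L.Om
  rw [L.nOm, one_pow] at hm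
  have hsum : ∑ j ∈ Finset.range k, ‖h.cf_p j‖ ^ 2 * (1 + 4 * ‖h.cf_u j‖ ^ 2)
      ≤ 2 * |s| ^ 2 * μ ^ 2 / ρ := by
    have h1 : ∀ j ∈ Finset.range k, ‖h.cf_p j‖ ^ 2 * (1 + 4 * ‖h.cf_u j‖ ^ 2)
        ≤ 2 * |s| ^ 2 * μ ^ 2 / ρ * ‖L.E (b j) L.Om‖ ^ 2 := by
      intro j hj
      have hj' : j < N := lt_trans (Finset.mem_range.1 hj) hk
      have h2 : ‖h.cf_p j‖ ^ 2 ≤ |s| ^ 2 * μ ^ 2 / ρ * ‖L.E (b j) L.Om‖ ^ 2 := by
        calc ‖h.cf_p j‖ ^ 2
            ≤ (μ / Real.sqrt ρ * (|s| * Real.sqrt (L.mu.real (b j)))) ^ 2 := by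
              have := hp j hj'
              gcongr
          _ = |s| ^ 2 * μ ^ 2 / (Real.sqrt ρ * Real.sqrt ρ) * (Real.sqrt (L.mu.real (b j))) ^ 2 := by
              field_simp
          _ = _ := by
              rw [hs2, Real.sq_sqrt measureReal_nonneg, L.norm_E_Om (h.mb j hj')]
      have h3 : 1 + 4 * ‖h.cf_u j‖ ^ 2 ≤ 2 := by
        have := hu j hj'
        have := norm_nonneg (h.cf_u j)
        nlinarith
      calc _ ≤ |s| ^ 2 * μ ^ 2 / ρ * ‖L.E (b j) L.Om‖ ^ 2 * 2 := by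
            refine mul_le_mul h2 h3 (by positivity) (by positivity)
        _ = _ := by ring
    refine (Finset.sum_le_sum h1).trans ?_
    rw [← Finset.mul_sum]
    have h4 : ∑ j ∈ Finset.range k, ‖L.E (b j) L.Om‖ ^ 2 ≤ 1 := by
      refine le_trans (Finset.sum_le_sum_of_subset_of_nonneg ?_ fun _ _ _ => by positivity) hm
      intro j hj
      rw [Finset.mem_range] at hj ⊢
      omega
    calc _ ≤ 2 * |s| ^ 2 * μ ^ 2 / ρ * 1 := by gcongr
      _ = _ := mul_one _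
  constructor
  · refine (cf_theta hρ hμ ha hla hθ R1).trans ?_
    have := hu k hk
    calc _ ≤ 2 * (8 * (2 * |s| ^ 2 * μ ^ 2 / ρ) + 4 * τ) := by gcongr
      _ = _ := by ring
  · rw [norm_smul, norm_real, Real.norm_eq_abs, abs_of_pos ha0]
    have h5 := hu k hk
    have h6 := hp k hk
    calc a * ‖L.fv (L.pau 2) r (V2 k) - L.fv (L.pau 2) r (V k)‖
        ≤ a * (4 * Real.sqrt ρ * (μ / Real.sqrt ρ * (|s| * Real.sqrt (L.mu.real (b k))))
            * (1 + 2 * (1 / 2))) := by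
          refine mul_le_mul_of_nonneg_left (R2.trans ?_) ha0.le
          gcongr
          linarith
      _ = 8 * |s| * μ * (a * Real.sqrt (L.mu.real (b k))) := by
          field_simp
          ring
      _ ≤ _ := by
          have := hτ k hk
          gcongr

end Chain

omit [NormedAddCommGroup H] [InnerProductSpace ℂ H] [CompleteSpace H] in
lemma cf_min (F : Finset H) (R : H → ℝ) (hR : ∀ x, 0 < R x) : ∃ r > 0, ∀ x ∈ F, r ≤ R x := by
  classical
  induction F using Finset.induction_on with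
  | empty => exact ⟨1, one_pos, fun x hx => absurd hx (Finset.notMem_empty x)⟩
  | insert y F _ ih =>
    obtain ⟨r, hr, h⟩ := ih
    refine ⟨min r (R y), lt_min hr (hR y), fun x hx => ?_⟩
    rcases Finset.mem_insert.1 hx with rfl | hx
    · exact min_le_right _ _
    · exact (min_le_left _ _).trans (h x hx)

/-- **(CORE)** -/
theorem coreStmt (L : LSys H K) (hc : ∀ x : H, Tendsto (fun a => L.W a x) (𝓝 0) (𝓝 x)) :
    L.CoreStmt hc := by
  intro G r 𝔄 sg s V0 U hG hr hGr hr0 hA hsg hV0 hV0r hU F ε hε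
  have hown := fun x : H => own_est hc hA hG hsg.1 hsg.2.1 hsg.2.2 hV0 s (V0 x) hε
  choose R0 hR0 M0 hM0 hown using hown
  obtain ⟨r0, hr00, hr0F⟩ := cf_min F R0 hR0
  obtain ⟨m0, hm00, hm0F⟩ := cf_min F M0 hM0
  have hprob := L.prob
  have hρ : 0 < L.mu.real r := by
    rw [measureReal_def]
    exact ENNReal.toReal_pos hr0 (measure_ne_top _ _)
  have hS : 0 < |s| + 1 := by positivity
  obtain ⟨rU, hrU, hus⟩ := L.us_N (V0 L.Om) (κ := r0 / (16 * (|s| + 1))) (by positivity)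
  obtain ⟨mu0, hmu0, hmu⟩ : ∃ mu0 : ℝ, 0 < mu0 ∧ mu0 ≤ m0 ∧ mu0 ≤ 1 ∧ mu0 ≤ r0 / 4 ∧
      mu0 ≤ rU / 2 ∧ mu0 ≤ r0 / (24 * (|s| + 1)) * L.mu.real r / (64 * (|s| + 1) ^ 2) := by
    refine ⟨min m0 (min 1 (min (r0 / 4) (min (rU / 2)
      (r0 / (24 * (|s| + 1)) * L.mu.real r / (64 * (|s| + 1) ^ 2))))), ?_, min_le_left _ _,
      (min_le_right _ _).trans (min_le_left _ _),
      (min_le_right _ _).trans ((min_le_right _ _).trans (min_le_left _ _)),
      (min_le_right _ _).trans ((min_le_right _ _).trans ((min_le_right _ _).trans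
        (min_le_left _ _))),
      (min_le_right _ _).trans ((min_le_right _ _).trans ((min_le_right _ _).trans
        (min_le_right _ _)))⟩
    refine lt_min hm00 (lt_min one_pos (lt_min (by positivity) (lt_min (by positivity)
      (by positivity))))
  obtain ⟨hmu1, hmu2, hmu3, hmu4, hmu5⟩ := hmu
  refine ⟨mu0, hmu0, fun μ hμ hμlt => ?_⟩
  have ha0 : 0 < Real.pi / (4 * μ ^ 2 * Real.sqrt (L.mu.real r)) := by
    have := Real.sqrt_pos.2 hρ
    positivity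
  set a : ℝ := Real.pi / (4 * μ ^ 2 * Real.sqrt (L.mu.real r)) with had
  set la : ℝ := -(μ ^ 2 / Real.sqrt (L.mu.real r)) with hlad
  set q : ℝ := r0 / (24 * (|s| + 1)) with hq
  have hq0 : 0 < q := by positivity
  -- the mesh
  obtain ⟨d, hd0, hd1, hd2⟩ : ∃ d : ℝ, 0 < d ∧ d ≤ r0 / (8 * (|s| + 1)) ∧
      a * d ≤ min (1 / 2) (min (q * μ / 16) (q / (16 * (|s| + 1)))) := by
    refine ⟨min (r0 / (8 * (|s| + 1)))
      (min (1 / 2) (min (q * μ / 16) (q / (16 * (|s| + 1)))) / a), ?_, min_le_left _ _, ?_⟩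
    · refine lt_min (by positivity) (div_pos (lt_min (by norm_num) (lt_min (by positivity)
        (by positivity))) ha0)
    · rw [mul_comm, ← le_div_iff₀ ha0]
      exact min_le_right _ _
  refine ⟨d ^ 2, by positivity, ?_⟩
  intro N b hb hbd hbG hbs hbde V V1 V2 co cr hV hcV hcV1 hcV2 hst
  have hch := cf_chain (co := co) (cr := cr) hG hr hGr hb hbd hbs hcV hcV1 hcV2 hst N
  have hVm : ∀ i, Real.sqrt (L.mu.real (b i)) ≤ d := by
    intro i
    rw [Real.sqrt_le_left hd0.le]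
    exact hbde i
  set τ : ℝ := a * d with hτd
  have hτ1 : τ ≤ 1 / 2 := hd2.trans (min_le_left _ _)
  have hτ2 : τ ≤ q * μ / 16 := hd2.trans ((min_le_right _ _).trans (min_le_left _ _))
  have hτ3 : τ ≤ q / (16 * (|s| + 1)) := hd2.trans ((min_le_right _ _).trans (min_le_right _ _))
  have hτ0 : 0 ≤ τ := by positivity
  have hμ1 : μ ≤ 1 := by linarith
  have h0r : ∀ x, L.E r (V 0 x) = L.E r x := fun x => by rw [hV]; exact hV0r x
  have hs0 := abs_nonneg s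
  -- numbers
  have num : ∀ k < N, |hch.θ k - Real.pi / 2| < q * μ ∧
      ‖(a : ℂ) • (L.fv (L.pau 2) r (V2 k) - L.fv (L.pau 2) r (V k))‖ ≤ q := by
    intro k hk
    obtain ⟨h1, h2⟩ := hch.cf_num hA hsg h0r hμ hρ had hlad hτ1
      (fun i _ => mul_le_mul_of_nonneg_left (hVm i) ha0.le) hk
    constructor
    · have h3 : 32 * |s| ^ 2 * μ ^ 2 / L.mu.real r < q * μ / 2 := by
        have h4 : μ < q * L.mu.real r / (64 * (|s| + 1) ^ 2) := by linarith
        rw [lt_div_iff₀ (by positivity)] at h4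
        rw [div_lt_iff₀ hρ]
        have h5 : |s| ^ 2 ≤ (|s| + 1) ^ 2 := by gcongr; linarith
        nlinarith [mul_pos hμ hμ]
      linarith
    · refine h2.trans ?_
      rw [le_div_iff₀ (by positivity)] at hτ3
      have h5 : |s| * μ * τ ≤ (|s| + 1) * 1 * τ := by gcongr; linarith
      nlinarith
  -- total reaction
  obtain ⟨kk, hkk0, hkk, hkb⟩ := hus N b (fun i _ => hb i) (fun i _ j _ hij => hbd i j hij)
  have hlaμ : |la| * Real.sqrt (L.mu.real r) = μ ^ 2 := by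
    rw [hlad, abs_neg, abs_of_pos (by have := Real.sqrt_pos.2 hρ; positivity)]
    have := (Real.sqrt_pos.2 hρ).ne'
    field_simp
  have hvn : ∀ k < N, ‖L.vch μ la (G \ b k) r (V1 k)‖ < rU := by
    intro k hk
    refine lt_of_le_of_lt (hch.num_v_le hA hk) ?_
    rw [hlaμ, abs_of_pos hμ]
    nlinarith
  have hWv := hch.cf_Wv hA hsg hμ.ne' hbG (t := q * μ) (κ := r0 / (16 * (|s| + 1)))
    (by positivity) (by positivity) (fun k hk => (num k hk).1.le) hkk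
    (fun i hi => by rw [hV]; exact hkb i hi _ (hvn i hi))
  have hWv2 : ‖hch.Wv N - (s : ℂ) • L.iota (sg L.Om)‖ ≤ r0 / 4 := by
    refine hWv.trans ?_
    have e1 : 3 * (q * μ) ≤ r0 / (8 * (|s| + 1)) := by
      calc 3 * (q * μ) ≤ 3 * (q * 1) := by gcongr
        _ = _ := by rw [hq]; field_simp; ring
    calc |s| * (3 * (q * μ) + 2 * (r0 / (16 * (|s| + 1))))
        ≤ (|s| + 1) * (r0 / (8 * (|s| + 1)) + 2 * (r0 / (16 * (|s| + 1)))) := by
          gcongr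
          linarith
      _ = r0 / 4 := by field_simp; ring
  set del : ℕ → K := fun k => hch.Wv N - hch.w k
    + (a : ℂ) • (L.fv (L.pau 2) r (V2 k) - L.fv (L.pau 2) r (V k))
    - (s : ℂ) • L.iota (sg L.Om) with hdel
  have hdn : ∀ k < N, ‖del k‖ < r0 := by
    intro k hk
    have e : del k = (hch.Wv N - (s : ℂ) • L.iota (sg L.Om)) - hch.w k
        + (a : ℂ) • (L.fv (L.pau 2) r (V2 k) - L.fv (L.pau 2) r (V k)) := by
      simp only [hdel]
      abel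
    rw [e]
    refine lt_of_le_of_lt ((norm_add_le _ _).trans (add_le_add (norm_sub_le _ _) le_rfl)) ?_
    have h1 := (num k hk).2
    have h2 := hch.num_w_le hA hsg hk
    have h3 : |s| * Real.sqrt (L.mu.real (b k)) ≤ r0 / 8 := by
      calc _ ≤ (|s| + 1) * (r0 / (8 * (|s| + 1))) := by
            gcongr
            · linarith
            · exact (hVm k).trans hd1
        _ = r0 / 8 := by field_simp
    have h4 : q ≤ r0 / 24 := by
      rw [hq]
      gcongr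
      linarith
    linarith
  have hU' : L.IsProd G sg s (V 0) U := by rw [hV]; exact hU
  obtain ⟨c, hc1, hc2⟩ := hch.cf_fin hA hsg hμ.ne' hU' (del := del)
    (fun k _ => (add_sub_cancel _ _).symm)
  refine ⟨c, hc1, fun x hx => ?_⟩
  have hfin := hown x μ hμ (by have := hm0F x hx; linarith) N b (fun i _ => hb i)
    (fun i _ j _ hij => hbd i j hij) (fun i _ => hbs i)
    (fun k => ((μ⁻¹ : ℝ) : ℂ) • L.vch μ la (G \ b k) r (V1 k)) del hch.θ
    (fun k hk => RR.smul (hch.vmem hA hk) _)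
    (fun k hk => ?_) (fun k hk => ?_) (fun k hk => ?_) (fun k hk => ?_)
  · refine le_trans (le_of_eq (Finset.sum_congr rfl fun i hi => ?_)) hfin
    have := hc2 i (Finset.mem_range.1 hi) x
    rw [hV] at this
    rw [this]
  · have h1 := hch.num_v_real hA hsg hk hG (subset_refl G)
    rw [hV] at h1
    change th (L.fv (L.pau 2) G V0) (((μ⁻¹ : ℝ) : ℂ) • L.vch μ la (G \ b k) r (V1 k)) = 0
    rw [th_smul_right, h1, mul_zero]
  · have h1 := hch.num_v_sub_le hA hsg hμ.ne' hk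
    rw [hV] at h1
    refine lt_of_le_of_lt h1 ?_
    have h2 : |la / μ| * Real.sqrt (L.mu.real r) = μ := by
      rw [abs_div, abs_of_pos hμ, div_mul_eq_mul_div, hlaμ]
      field_simp
    have h3 : r0 / (8 * (|s| + 1)) ≤ r0 / 8 := by
      gcongr
      linarith
    have h4 := hVm k
    have h5 := hr0F x hx
    rw [h2]
    linarith
  · refine lt_of_lt_of_le (num k hk).1 ?_
    have h4 : q ≤ r0 / 24 := by
      rw [hq]
      gcongr
      linarith
    have h5 := hr0F x hx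
    gcongr
    linarith
  · exact lt_of_lt_of_le (hdn k hk) (hr0F x hx)

end LSys

end Vale.Agent.P367.A
end
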