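import Mathlib
import Vale.Agent.P367.Bd3.B2
import Vale.Agent.P367.Bd3.B3
import Vale.Agent.P367.Bd3.B1

set_option linter.all false

section

namespace Vale.Agent.P367.Lim

open Finset ComplexConjugate MeasureTheory ProbabilityTheory Filter Topology Vale.Agent.P367.Gap

/-- marginal of `m` sites in a system of `m + N` sites -/
noncomputable def Mg (γ β : ℕ → ℝ) (p m N : ℕ) (s : ℝ) (y : Fin m → CP p) : ℂ :=
  FF (V := Fin m ⊕ Fin N) γ β p s (fun _ _ => 0)
    (Sum.elim (fun i x => if x = y i then 1 else 0) (fun _ _ => 1))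

lemma indicator_prod {p : ℕ} (x y : CP p) : (if x = y then (1 : ℂ) else 0)
    = (∏ k, if x.1 k = y.1 k then (1 : ℂ) else 0) * ∏ k, if x.2 k = y.2 k then (1 : ℂ) else 0 := by
  by_cases h : x = y
  · subst h; simp
  · rw [if_neg h]
    symm
    by_cases h1 : x.1 = y.1
    · have h2 : x.2 ≠ y.2 := fun h2 => h (Prod.ext h1 h2)
      obtain ⟨k, hk⟩ := Function.ne_iff.1 h2
      rw [prod_eq_zero (s := univ) (f := fun k => if x.2 k = y.2 k then (1 : ℂ) else 0)
        (mem_univ k) (if_neg hk), mul_zero]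
    · obtain ⟨k, hk⟩ := Function.ne_iff.1 h1
      rw [prod_eq_zero (s := univ) (f := fun k => if x.1 k = y.1 k then (1 : ℂ) else 0)
        (mem_univ k) (if_neg hk), zero_mul]

lemma norm_Mg_le (γ β : ℕ → ℝ) (p m N : ℕ) (s : ℝ) (y : Fin m → CP p) :
    ‖Mg γ β p m N s y‖ ≤ 1 := by
  refine norm_FF_le γ β p s _ _
    (Sum.elim (fun i k b => if b = (y i).1 k then 1 else 0) (fun _ _ _ => 1))
    (Sum.elim (fun i k b => if b = (y i).2 k then 1 else 0) (fun _ _ _ => 1)) ?_ ?_ ?_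
  · rintro (i | j) k b
    · simp only [Sum.elim_inl]; split_ifs <;> simp
    · simp
  · rintro (i | j) k b
    · simp only [Sum.elim_inl]; split_ifs <;> simp
    · simp
  · rintro (i | j) x
    · simp only [Sum.elim_inl]
      exact indicator_prod x (y i)
    · simp

lemma FF_inl (γ β : ℕ → ℝ) (p r N : ℕ) (s : ℝ) (u : CP p → ℂ) :
    FF (V := Fin r ⊕ Fin N) γ β p s (fun _ _ => 0) (Sum.elim (fun _ => u) (fun _ _ => 1))
      = ∑ y : Fin r → CP p, (∏ i, u (y i)) * Mg γ β p r N s y := by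
  unfold Mg FF
  simp_rw [mul_sum]
  rw [sum_comm]
  refine sum_congr rfl fun X _ => ?_
  simp_rw [Fintype.prod_sum_type, Sum.elim_inl, Sum.elim_inr, prod_mul_distrib]
  have h1 : ∑ y : Fin r → CP p, (∏ i, u (y i)) * (∏ i, if X (Sum.inl i) = y i then (1 : ℂ) else 0)
      = ∏ i, u (X (Sum.inl i)) := by
    rw [sum_eq_single (fun i => X (Sum.inl i))]
    · simp
    · intro y _ hy
      obtain ⟨i, hi⟩ := Function.ne_iff.1 hy
      rw [prod_eq_zero (s := univ) (f := fun i => if X (Sum.inl i) = y i then (1 : ℂ) else 0)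
        (mem_univ i) (if_neg (fun h => hi h.symm)), mul_zero]
    · intro h; exact absurd (mem_univ _) h
  rw [← h1, mul_sum, sum_mul, sum_mul]
  refine sum_congr rfl fun y _ => ?_
  ring

lemma FF_powerset (γ β : ℕ → ℝ) (p N : ℕ) (s : ℝ) (u : CP p → ℂ) :
    FF (V := Fin N) γ β p s (fun _ _ => 0) (fun _ x => 1 + u x)
      = ∑ T ∈ (univ : Finset (Fin N)).powerset,
        FF (V := Fin N) γ β p s (fun _ _ => 0) (fun j x => if j ∈ T then u x else 1) := by
  unfold FF
  rw [sum_comm]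
  refine sum_congr rfl fun X _ => ?_
  rw [prod_mul_distrib, prod_one_add, mul_sum, sum_mul]
  refine sum_congr rfl fun T _ => ?_
  rw [prod_mul_distrib, prod_ite_mem, univ_inter]

lemma FF_subset (γ β : ℕ → ℝ) (p N : ℕ) (s : ℝ) (u : CP p → ℂ) (T : Finset (Fin N)) :
    FF (V := Fin N) γ β p s (fun _ _ => 0) (fun j x => if j ∈ T then u x else 1)
      = FF (V := Fin T.card ⊕ Fin (N - T.card)) γ β p s (fun _ _ => 0)
        (Sum.elim (fun _ => u) (fun _ _ => 1)) := by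
  have hn : Tᶜ.card = N - T.card := by
    rw [card_compl, Fintype.card_fin]
  rw [FF_equiv γ β p s (finSumEquivOfFinset (rfl : T.card = T.card) hn)]
  congr 1
  funext j
  rcases j with i | j
  · funext x
    rw [finSumEquivOfFinset_inl, if_pos (orderEmbOfFin_mem T rfl i)]
    rfl
  · funext x
    have := orderEmbOfFin_mem Tᶜ hn j
    rw [finSumEquivOfFinset_inr, if_neg (mem_compl.1 this)]
    rfl

lemma FF_one_add (γ β : ℕ → ℝ) (p N : ℕ) (s : ℝ) (u : CP p → ℂ) :
    FF (V := Fin N) γ β p s (fun _ _ => 0) (fun _ x => 1 + u x)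
      = ∑ r ∈ range (N + 1), (N.choose r : ℂ) *
        ∑ y : Fin r → CP p, (∏ i, u (y i)) * Mg γ β p r (N - r) s y := by
  rw [FF_powerset]
  simp_rw [FF_subset, FF_inl]
  have := sum_powerset_apply_card (fun r => ∑ y : Fin r → CP p, (∏ i, u (y i))
    * Mg γ β p r (N - r) s y) (x := (univ : Finset (Fin N)))
  rw [this, card_univ, Fintype.card_fin]
  refine sum_congr rfl fun r _ => ?_
  rw [nsmul_eq_mul]

/-- limiting one-site weights -/
noncomputable def gg (γ β : ℕ → ℝ) : (p : ℕ) → CP p → ℂ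
  | 0, x => wgt β 0 x
  | p + 1, x => wgt β (p + 1) x *
      Complex.exp (-(1 / 2 * ∑ y : CP p, gg γ β p y * ((qh γ p (ini x) y ^ 2 : ℝ) : ℂ)))

/-- convergence of all marginals -/
def LT (γ β : ℕ → ℝ) (p : ℕ) : Prop :=
  ∀ (m : ℕ) (y : Fin m → CP p) (s : ℕ → ℝ), Tendsto (fun N : ℕ => (N : ℝ) * s N ^ 2) atTop (𝓝 1) →
    Tendsto (fun N => Mg γ β p m N (s N) y) atTop (𝓝 (∏ i, gg γ β p (y i)))

lemma tendsto_shift_s (s : ℕ → ℝ) (hs : Tendsto (fun N : ℕ => (N : ℝ) * s N ^ 2) atTop (𝓝 1))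
    (r : ℕ) : Tendsto (fun N : ℕ => (N : ℝ) * s (N + r) ^ 2) atTop (𝓝 1) := by
  have h1 : Tendsto (fun N : ℕ => ((N + r : ℕ) : ℝ) * s (N + r) ^ 2) atTop (𝓝 1) :=
    hs.comp (tendsto_add_atTop_nat r)
  have h2 : Tendsto (fun N : ℕ => (N : ℝ) / ((N + r : ℕ) : ℝ)) atTop (𝓝 1) := by
    have := tendsto_natCast_div_add_atTop (𝕜 := ℝ) (r : ℝ)
    refine this.congr fun N => ?_
    push_cast; rfl
  have h3 := h2.mul h1
  rw [one_mul] at h3
  refine (h3.congr' ?_)
  filter_upwards [eventually_gt_atTop 0] with N hN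
  have : ((N + r : ℕ) : ℝ) ≠ 0 := by positivity
  field_simp

lemma tendsto_Mg_sub (γ β : ℕ → ℝ) (p : ℕ) (h : LT γ β p) (r : ℕ) (y : Fin r → CP p) (s : ℕ → ℝ)
    (hs : Tendsto (fun N : ℕ => (N : ℝ) * s N ^ 2) atTop (𝓝 1)) :
    Tendsto (fun N => Mg γ β p r (N - r) (s N) y) atTop (𝓝 (∏ i, gg γ β p (y i))) := by
  have h1 := h r y (fun N => s (N + r)) (tendsto_shift_s s hs r)
  have h2 : Tendsto (fun N : ℕ => N - r) atTop atTop := tendsto_sub_atTop_nat r
  refine (h1.comp h2).congr' ?_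
  filter_upwards [eventually_ge_atTop r] with N hN
  simp only [Function.comp]
  rw [Nat.sub_add_cancel hN]

/-- exponential functionals converge -/
theorem tendsto_FF_exp (γ β : ℕ → ℝ) (p : ℕ) (h : LT γ β p) (s : ℕ → ℝ)
    (hs : Tendsto (fun N : ℕ => (N : ℝ) * s N ^ 2) atTop (𝓝 1))
    (u : ℕ → CP p → ℂ) (t : CP p → ℂ)
    (hu : ∀ y, Tendsto (fun N : ℕ => (N : ℂ) * u N y) atTop (𝓝 (t y))) :
    Tendsto (fun N => FF (V := Fin N) γ β p (s N) (fun _ _ => 0) (fun _ x => 1 + u N x)) atTop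
      (𝓝 (Complex.exp (∑ y, gg γ β p y * t y))) := by
  -- termwise description
  let a : ℕ → ℕ → ℂ := fun N r => (N.choose r : ℂ) *
        ∑ y : Fin r → CP p, (∏ i, u N (y i)) * Mg γ β p r (N - r) (s N) y
  have ha : ∀ N, FF (V := Fin N) γ β p (s N) (fun _ _ => 0) (fun _ x => 1 + u N x)
      = ∑' r, a N r := by
    intro N
    rw [FF_one_add, tsum_eq_sum (s := range (N + 1))]
    intro r hr
    have : N < r := by
      by_contra h'
      exact hr (mem_range.2 (by omega))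
    simp only [a, Nat.choose_eq_zero_of_lt this, Nat.cast_zero, zero_mul]
  simp_rw [ha]
  let A : ℂ := ∑ y, gg γ β p y * t y
  have hexp : Complex.exp A = ∑' r : ℕ, A ^ r / (r.factorial : ℂ) := by
    rw [Complex.exp_eq_exp_ℂ, NormedSpace.exp_eq_tsum_div]
  change Tendsto (fun N => ∑' r, a N r) atTop (𝓝 (Complex.exp A))
  rw [hexp]
  -- uniform bound
  obtain ⟨C, hC0, hC⟩ : ∃ C : ℝ, 0 ≤ C ∧ ∀ᶠ N : ℕ in atTop, ∀ y, ‖(N : ℂ) * u N y‖ ≤ C := by
    refine ⟨∑ y, (‖t y‖ + 1), sum_nonneg fun _ _ => by positivity, ?_⟩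
    rw [eventually_all]
    intro y
    have h1 : ∀ᶠ N : ℕ in atTop, ‖(N : ℂ) * u N y‖ < ‖t y‖ + 1 :=
      (hu y).norm.eventually_lt_const (by linarith)
    filter_upwards [h1] with N hN
    refine hN.le.trans ?_
    exact single_le_sum (f := fun y => ‖t y‖ + 1) (fun _ _ => by positivity) (mem_univ y)
  refine tendsto_tsum_of_dominated_convergence
    (bound := fun r : ℕ => (C * Fintype.card (CP p)) ^ r / r.factorial)
    (Real.summable_pow_div_factorial _) ?_ ?_
  · intro r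
    have h1 : Tendsto (fun N : ℕ => (N.choose r : ℂ) * ((1 : ℂ) / N) ^ r) atTop
        (𝓝 (1 / (r.factorial : ℂ))) := by
      have h2 : Tendsto (fun n : ℕ => (n : ℝ) * (1 / n)) atTop (𝓝 1) := by
        refine tendsto_const_nhds.congr' ?_
        filter_upwards [eventually_gt_atTop 0] with n hn
        have : (n : ℝ) ≠ 0 := by positivity
        field_simp
      have h3 := tendsto_choose_mul_pow_atTop (k := r) h2
      rw [one_pow] at h3
      have h4 := (Complex.continuous_ofReal.tendsto _).comp h3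
      refine (h4.congr fun n => ?_).trans (le_of_eq ?_)
      · simp
      · simp
    have h5 : ∀ y : Fin r → CP p, Tendsto (fun N : ℕ => (∏ i, ((N : ℂ) * u N (y i)))
        * Mg γ β p r (N - r) (s N) y) atTop
        (𝓝 ((∏ i, t (y i)) * ∏ i, gg γ β p (y i))) := fun y =>
      (tendsto_finsetProd _ fun i _ => hu (y i)).mul (tendsto_Mg_sub γ β p h r y s hs)
    have h6 := h1.mul (tendsto_finsetSum univ fun y _ => h5 y)
    have h7 : 1 / (r.factorial : ℂ) * ∑ y : Fin r → CP p, (∏ i, t (y i)) * ∏ i, gg γ β p (y i)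
        = A ^ r / (r.factorial : ℂ) := by
      have : A ^ r = ∑ y : Fin r → CP p, (∏ i, t (y i)) * ∏ i, gg γ β p (y i) := by
        have h8 := (Finset.prod_univ_sum (fun _ : Fin r => (univ : Finset (CP p)))
          (fun _ y => gg γ β p y * t y))
        rw [Fintype.piFinset_univ, prod_const, card_univ, Fintype.card_fin] at h8
        rw [h8]
        refine sum_congr rfl fun y _ => ?_
        rw [prod_mul_distrib, mul_comm]
      rw [this]
      ring
    rw [h7] at h6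
    refine h6.congr' ?_
    filter_upwards [eventually_gt_atTop 0] with N hN
    have hN' : (N : ℂ) ≠ 0 := by exact_mod_cast hN.ne'
    simp only [a, mul_sum]
    refine sum_congr rfl fun y _ => ?_
    rw [prod_mul_distrib, prod_const, card_univ, Fintype.card_fin, one_div, inv_pow]
    field_simp
  · filter_upwards [hC, eventually_gt_atTop 0] with N hN hN0 r
    have hN' : (0 : ℝ) < N := by exact_mod_cast hN0
    have hub : ∀ y, ‖u N y‖ ≤ C / N := by
      intro y
      rw [le_div_iff₀ hN', mul_comm]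
      simpa using hN y
    simp only [a, norm_mul, Complex.norm_natCast]
    have h1 : ‖∑ y : Fin r → CP p, (∏ i, u N (y i)) * Mg γ β p r (N - r) (s N) y‖
        ≤ (Fintype.card (CP p) : ℝ) ^ r * (C / N) ^ r := by
      refine (norm_sum_le _ _).trans ?_
      calc ∑ y : Fin r → CP p, ‖(∏ i, u N (y i)) * Mg γ β p r (N - r) (s N) y‖
          ≤ ∑ _y : Fin r → CP p, (C / N) ^ r := by
            refine sum_le_sum fun y _ => ?_
            rw [norm_mul, norm_prod]
            have h2 : ∏ i, ‖u N (y i)‖ ≤ (C / N) ^ r := by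
              calc ∏ i, ‖u N (y i)‖ ≤ ∏ _i : Fin r, (C / N) :=
                    prod_le_prod (fun _ _ => norm_nonneg _) fun i _ => hub (y i)
                _ = (C / N) ^ r := by rw [prod_const, card_univ, Fintype.card_fin]
            calc (∏ i, ‖u N (y i)‖) * ‖Mg γ β p r (N - r) (s N) y‖
                ≤ (C / N) ^ r * 1 := by
                  gcongr
                  exact norm_Mg_le _ _ _ _ _ _ _
              _ = _ := mul_one _
        _ = _ := by
            rw [sum_const, card_univ, Fintype.card_fun, Fintype.card_fin, nsmul_eq_mul]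
            push_cast
            rfl
    have h3 : (N.choose r : ℝ) ≤ (N : ℝ) ^ r / r.factorial := Nat.choose_le_pow_div r N
    calc (N.choose r : ℝ) * ‖∑ y : Fin r → CP p, (∏ i, u N (y i)) * Mg γ β p r (N - r) (s N) y‖
        ≤ ((N : ℝ) ^ r / r.factorial) * ((Fintype.card (CP p) : ℝ) ^ r * (C / N) ^ r) := by
          gcongr
      _ = (C * Fintype.card (CP p)) ^ r / r.factorial := by
          rw [mul_pow, div_pow]
          field_simp

end Vale.Agent.P367.Lim
end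

section

namespace Vale.Agent.P367.Lim

open Finset ComplexConjugate MeasureTheory ProbabilityTheory Filter Topology Vale.Agent.P367.Gap

lemma tendsto_nat_mul_exp_sub_one (c : ℕ → ℂ) (c0 : ℂ)
    (hc : Tendsto (fun N : ℕ => (N : ℂ) * c N) atTop (𝓝 c0)) :
    Tendsto (fun N : ℕ => (N : ℂ) * (Complex.exp (c N) - 1)) atTop (𝓝 c0) := by
  have hinv : Tendsto (fun N : ℕ => ((N : ℂ))⁻¹) atTop (𝓝 0) := by
    have := tendsto_inv_atTop_nhds_zero_nat (𝕜 := ℂ)
    exact this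
  have hc1 : Tendsto c atTop (𝓝 0) := by
    have := hinv.mul hc
    rw [zero_mul] at this
    refine this.congr' ?_
    filter_upwards [eventually_gt_atTop 0] with N hN
    have : (N : ℂ) ≠ 0 := by exact_mod_cast hN.ne'
    field_simp
  have hrem : Tendsto (fun N : ℕ => (N : ℂ) * (Complex.exp (c N) - 1 - c N)) atTop (𝓝 0) := by
    rw [tendsto_zero_iff_norm_tendsto_zero]
    have hb : Tendsto (fun N : ℕ => ‖(N : ℂ) * c N‖ * ‖c N‖) atTop (𝓝 0) := by
      have := hc.norm.mul hc1.norm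
      simpa using this
    refine squeeze_zero' (Eventually.of_forall fun _ => norm_nonneg _) ?_ hb
    have h1 : ∀ᶠ N in atTop, ‖c N‖ < 1 := by
      have := hc1.norm
      rw [norm_zero] at this
      exact this.eventually_lt_const one_pos
    filter_upwards [h1] with N hN
    rw [norm_mul, norm_mul, mul_assoc]
    have := Complex.norm_exp_sub_one_sub_id_le hN.le
    rw [pow_two] at this
    gcongr
  have := hrem.add hc
  rw [zero_add] at this
  refine this.congr fun N => ?_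
  ring

/-- convergence of exponential functionals -/
theorem tendsto_FF_T (γ β : ℕ → ℝ) (p : ℕ) (h : LT γ β p) (s : ℕ → ℝ)
    (hs : Tendsto (fun N : ℕ => (N : ℝ) * s N ^ 2) atTop (𝓝 1)) (T : CP p → ℝ) :
    Tendsto (fun N => FF (V := Fin N) γ β p (s N) (fun _ _ => 0)
      (fun _ x => Complex.exp (-((s N ^ 2 / 2 * T x : ℝ) : ℂ)))) atTop
      (𝓝 (Complex.exp (-(1 / 2 * ∑ y, gg γ β p y * ((T y : ℝ) : ℂ))))) := by
  have h1 := tendsto_FF_exp γ β p h s hs
    (fun N x => Complex.exp (-((s N ^ 2 / 2 * T x : ℝ) : ℂ)) - 1)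
    (fun x => -(1 / 2 * ((T x : ℝ) : ℂ))) (by
      intro y
      refine tendsto_nat_mul_exp_sub_one _ _ ?_
      have h2 : Tendsto (fun N : ℕ => -((((N : ℝ) * s N ^ 2) * (1 / 2 * T y) : ℝ) : ℂ)) atTop
          (𝓝 (-(((1 : ℝ) * (1 / 2 * T y) : ℝ) : ℂ))) := by
        refine Tendsto.neg ?_
        exact (Complex.continuous_ofReal.tendsto _).comp (hs.mul_const _)
      refine (h2.congr fun N => ?_).trans (le_of_eq ?_)
      · push_cast; ring
      · congr 1; push_cast; ring)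
  have h3 : ∑ y, gg γ β p y * (-(1 / 2 * ((T y : ℝ) : ℂ)))
      = -(1 / 2 * ∑ y, gg γ β p y * ((T y : ℝ) : ℂ)) := by
    rw [mul_sum, ← sum_neg_distrib]
    refine sum_congr rfl fun y _ => ?_
    ring
  rw [h3] at h1
  refine h1.congr fun N => ?_
  congr 1
  funext j x
  ring

lemma sum_wgt_zero (β : ℕ → ℝ) : ∑ x : CP 0, wgt β 0 x = 1 := by
  rw [Fintype.sum_prod_type]
  have h : ∀ a b : Pth 0, wgt β 0 (a, b) = if a = b then (1 / 2 : ℂ) else 0 := by
    intro a b
    have hs : (((Real.sqrt 2)⁻¹ : ℝ) : ℂ) * (((Real.sqrt 2)⁻¹ : ℝ) : ℂ) = 1 / 2 := by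
      rw [← Complex.ofReal_mul, ← mul_inv, Real.mul_self_sqrt (by norm_num)]
      norm_num
    by_cases hab : a = b
    · subst hab
      simp only [wgt, kap, Complex.conj_ofReal, if_true, mul_one]
      exact hs
    · have : a (Fin.last 0) ≠ b (Fin.last 0) := by
        intro h'
        apply hab
        funext k
        rw [Subsingleton.elim (α := Fin 1) k (Fin.last 0)]
        exact h'
      simp only [wgt]
      rw [if_neg this, if_neg hab, mul_zero]
  simp_rw [h]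
  simp only [sum_ite_eq, mem_univ, if_true]
  rw [sum_const, card_univ, Fintype.card_fun, Fintype.card_fin, Fintype.card_bool]
  norm_num

lemma LT_zero (γ β : ℕ → ℝ) : LT γ β 0 := by
  intro m y s _
  have h : ∀ N, Mg γ β 0 m N (s N) y = ∏ i, gg γ β 0 (y i) := by
    intro N
    unfold Mg FF
    have hq : ∀ X : Fin m ⊕ Fin N → CP 0, QI γ 0 (fun _ _ => 0) X = 0 := by
      intro X
      unfold QI
      refine sum_eq_zero fun i _ => sum_eq_zero fun j _ => ?_
      simp [qq]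
    simp_rw [hq]
    simp only [mul_zero, Complex.ofReal_zero, neg_zero, Complex.exp_zero, mul_one]
    have h4 := (Finset.prod_univ_sum (fun _ : Fin m ⊕ Fin N => (univ : Finset (CP 0)))
      (fun j x => wgt β 0 x * (Sum.elim (fun i x => if x = y i then (1 : ℂ) else 0)
        (fun _ _ => 1) j : CP 0 → ℂ) x))
    rw [Fintype.piFinset_univ] at h4
    rw [← h4, Fintype.prod_sum_type]
    simp only [Sum.elim_inl, Sum.elim_inr, mul_one, sum_wgt_zero, prod_const_one, mul_ite,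
      mul_zero, sum_ite_eq', mem_univ, if_true]
    rfl
  simp_rw [h]
  exact tendsto_const_nhds

lemma Mg_succ (γ β : ℕ → ℝ) (p m N : ℕ) (s : ℝ) (y : Fin m → CP (p + 1)) :
    Mg γ β (p + 1) m N s y = (∏ i, wgt β (p + 1) (y i)) *
      (Complex.exp (-((s ^ 2 / 4 * QI γ (p + 1) (fun _ _ => 0) y : ℝ) : ℂ)) *
      FF (V := Fin N) γ β p s (fun _ _ => 0)
        (fun _ x => Complex.exp (-((s ^ 2 / 2 * ∑ i, qh γ p (ini (y i)) x ^ 2 : ℝ) : ℂ)))) := by
  unfold Mg
  rw [FF_sum _ _ _ _ _ (fun _ _ => rfl)]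
  rw [sum_eq_single y]
  · simp only [Sum.elim_inl, Sum.elim_inr, if_true, mul_one, zero_mul, add_zero, one_mul]
    congr 2
    have h := FF_succ (V := Fin N) γ β p s (fun _ x =>
      Complex.exp (-((s ^ 2 / 2 * ∑ i, qh γ p (ini (y i)) x ^ 2 : ℝ) : ℂ)))
    refine Eq.trans ?_ h
    rfl
  · intro X _ hX
    obtain ⟨i, hi⟩ := Function.ne_iff.1 hX
    rw [prod_eq_zero (mem_univ i), zero_mul]
    simp only [Sum.elim_inl]
    rw [if_neg hi, mul_zero]
  · intro h; exact absurd (mem_univ _) h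

theorem LT_succ (γ β : ℕ → ℝ) (p : ℕ) (h : LT γ β p) : LT γ β (p + 1) := by
  intro m y s hs
  simp_rw [Mg_succ]
  have h1 := tendsto_FF_T γ β p h s hs (fun x => ∑ i, qh γ p (ini (y i)) x ^ 2)
  have hs0 : Tendsto (fun N : ℕ => s N ^ 2) atTop (𝓝 0) := by
    have h2 : Tendsto (fun N : ℕ => ((N : ℝ))⁻¹) atTop (𝓝 0) := tendsto_inv_atTop_nhds_zero_nat
    have h3 := h2.mul hs
    rw [zero_mul] at h3
    refine h3.congr' ?_
    filter_upwards [eventually_gt_atTop 0] with N hN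
    have : (N : ℝ) ≠ 0 := by exact_mod_cast hN.ne'
    field_simp
  have h2 : Tendsto (fun N : ℕ => Complex.exp
      (-((s N ^ 2 / 4 * QI γ (p + 1) (fun _ _ => 0) y : ℝ) : ℂ))) atTop (𝓝 1) := by
    have h3 : Tendsto (fun N : ℕ => (-((s N ^ 2 / 4 * QI γ (p + 1) (fun _ _ => 0) y : ℝ) : ℂ)))
        atTop (𝓝 (-(((0 : ℝ) / 4 * QI γ (p + 1) (fun _ _ => 0) y : ℝ) : ℂ))) := by
      refine Tendsto.neg ?_
      exact (Complex.continuous_ofReal.tendsto _).comp ((hs0.div_const 4).mul_const _)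
    have h4 := (Complex.continuous_exp.tendsto _).comp h3
    refine h4.trans (le_of_eq ?_)
    simp
  have h3 := (h2.mul h1).const_mul (∏ i, wgt β (p + 1) (y i))
  refine h3.trans (le_of_eq ?_)
  congr 1
  rw [one_mul]
  have h5 : Complex.exp (-(1 / 2 * ∑ x, gg γ β p x * ((∑ i, qh γ p (ini (y i)) x ^ 2 : ℝ) : ℂ)))
      = ∏ i, Complex.exp (-(1 / 2 * ∑ x : CP p, gg γ β p x
        * ((qh γ p (ini (y i)) x ^ 2 : ℝ) : ℂ))) := by
    rw [← Complex.exp_sum]
    congr 1
    rw [sum_neg_distrib, ← mul_sum, sum_comm]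
    congr 2
    refine sum_congr rfl fun x _ => ?_
    push_cast
    rw [mul_sum]
  rw [h5, ← prod_mul_distrib]
  rfl

theorem LT_all (γ β : ℕ → ℝ) (p : ℕ) : LT γ β p := by
  induction p with
  | zero => exact LT_zero γ β
  | succ p ih => exact LT_succ γ β p ih

end Vale.Agent.P367.Lim
end

section

namespace Vale.Agent.P367.NI

open Finset ComplexConjugate MeasureTheory ProbabilityTheory Filter Topology
open Vale.Agent.P367.Gap Vale.Agent.P367.Lim

lemma integrable_lin {ι : Type*} [Fintype ι] (d : ι → ℝ) :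
    Integrable (fun J : ι → ℝ => ∑ e, d e * J e) (Measure.pi fun _ => gaussianReal 0 1) := by
  refine integrable_finsetSum _ fun e _ => Integrable.const_mul ?_ _
  have h : Integrable (fun x : ℝ => x) (gaussianReal 0 1) := by
    have := memLp_id_gaussianReal (μ := 0) (v := 1) 1
    exact memLp_one_iff_integrable.1 this
  exact integrable_comp_eval (μ := fun _ : ι => gaussianReal 0 1) (i := e) h

/-- Gaussian integration by parts against an exponential -/
lemma gauss_ibp {ι : Type*} [Fintype ι] (c d : ι → ℝ) :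
    ∫ J : ι → ℝ, ((∑ e, d e * J e : ℝ) : ℂ) * Complex.exp (-(Complex.I * ((∑ e, c e * J e : ℝ) : ℂ)))
      ∂(Measure.pi fun _ => gaussianReal 0 1)
      = -(Complex.I * ((∑ e, d e * c e : ℝ) : ℂ)) * Complex.exp (-((1 / 2 * ∑ e, c e ^ 2 : ℝ) : ℂ)) := by
  set ν : Measure (ι → ℝ) := Measure.pi fun _ => gaussianReal 0 1 with hν
  let F : ℝ → (ι → ℝ) → ℂ := fun t J =>
    Complex.exp (-(Complex.I * ((∑ e, (c e + t * d e) * J e : ℝ) : ℂ)))
  let F' : ℝ → (ι → ℝ) → ℂ := fun t J =>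
    -(Complex.I * ((∑ e, d e * J e : ℝ) : ℂ)) * F t J
  have hF : ∀ t, Integrable (F t) ν := fun t => integrable_exp_lin _
  have hnorm : ∀ t J, ‖F t J‖ = 1 := fun t J => norm_exp_neg_I _
  have hderiv : ∀ t J, HasDerivAt (fun t => F t J) (F' t J) t := by
    intro t J
    have h1 : HasDerivAt (fun t : ℝ => -(Complex.I * ((∑ e, (c e + t * d e) * J e : ℝ) : ℂ)))
        (-(Complex.I * ((∑ e, d e * J e : ℝ) : ℂ))) t := by
      have h2 : HasDerivAt (fun t : ℝ => ∑ e, (c e + t * d e) * J e) (∑ e, d e * J e) t := by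
        refine HasDerivAt.fun_sum fun e _ => ?_
        have := ((hasDerivAt_id t).mul_const (d e)).const_add (c e)
        simpa using this.mul_const (J e)
      exact (h2.ofReal_comp.const_mul Complex.I).neg
    have h3 := h1.cexp
    simp only [F', F]
    rw [mul_comm]
    exact h3
  have hmain := (hasDerivAt_integral_of_dominated_loc_of_deriv_le (μ := ν) (F := F) (F' := F')
    (x₀ := 0) (s := Set.univ) (bound := fun J => ‖(∑ e, d e * J e : ℝ)‖) Filter.univ_mem
    (Filter.Eventually.of_forall fun t => (hF t).aestronglyMeasurable) (hF 0)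
    (by
      have hc : Continuous (F' 0) := by
        simp only [F', F]
        fun_prop
      exact hc.aestronglyMeasurable)
    (Filter.Eventually.of_forall fun J t _ => by
      simp only [F']
      rw [norm_mul, hnorm, mul_one, norm_neg, norm_mul, Complex.norm_I, one_mul,
        Complex.norm_real])
    (integrable_lin d).norm
    (Filter.Eventually.of_forall fun J t _ => hderiv t J)).2
  have hval : ∀ t, ∫ J, F t J ∂ν = Complex.exp (-((1 / 2 * ∑ e, (c e + t * d e) ^ 2 : ℝ) : ℂ)) :=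
    fun t => gauss_char _
  have hd2 : HasDerivAt (fun t : ℝ => Complex.exp (-((1 / 2 * ∑ e, (c e + t * d e) ^ 2 : ℝ) : ℂ)))
      (-((∑ e, d e * c e : ℝ) : ℂ) * Complex.exp (-((1 / 2 * ∑ e, c e ^ 2 : ℝ) : ℂ))) 0 := by
    have h2 : HasDerivAt (fun t : ℝ => 1 / 2 * ∑ e, (c e + t * d e) ^ 2) (∑ e, d e * c e) 0 := by
      have h3 : HasDerivAt (fun t : ℝ => ∑ e, (c e + t * d e) ^ 2) (∑ e, 2 * (d e * c e)) 0 := by
        refine HasDerivAt.fun_sum fun e _ => ?_
        have h4 := (((hasDerivAt_id (0 : ℝ)).mul_const (d e)).const_add (c e)).pow 2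
        refine h4.congr_deriv ?_
        simp
        ring
      refine (h3.const_mul (1 / 2)).congr_deriv ?_
      rw [← mul_sum]
      ring
    have h5 := (h2.ofReal_comp.neg).cexp
    refine h5.congr_deriv ?_
    have h10 : ∑ e, (c e + 0 * d e) ^ 2 = ∑ e, c e ^ 2 := by simp
    rw [mul_comm]
    congr 1
    rw [Pi.neg_apply, h10]
  have h6 : HasDerivAt (fun t : ℝ => ∫ J, F t J ∂ν)
      (-((∑ e, d e * c e : ℝ) : ℂ) * Complex.exp (-((1 / 2 * ∑ e, c e ^ 2 : ℝ) : ℂ))) 0 := by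
    refine hd2.congr_of_eventuallyEq (Filter.Eventually.of_forall fun t => hval t)
  have h7 := hmain.unique h6
  have h8 : ∫ J, F' 0 J ∂ν = -Complex.I * ∫ J : ι → ℝ, ((∑ e, d e * J e : ℝ) : ℂ) *
      Complex.exp (-(Complex.I * ((∑ e, c e * J e : ℝ) : ℂ))) ∂ν := by
    rw [← integral_const_mul]
    congr 1
    funext J
    simp only [F', F, zero_mul, add_zero]
    ring
  rw [h8] at h7
  have h9 : (-Complex.I) * Complex.I = 1 := by rw [neg_mul, Complex.I_mul_I, neg_neg]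
  calc _ = Complex.I * (-Complex.I * ∫ J : ι → ℝ, ((∑ e, d e * J e : ℝ) : ℂ) *
      Complex.exp (-(Complex.I * ((∑ e, c e * J e : ℝ) : ℂ))) ∂ν) := by
        rw [← mul_assoc, mul_comm Complex.I (-Complex.I), h9, one_mul]
    _ = _ := by rw [h7]; ring

end Vale.Agent.P367.NI
end

section

namespace Vale.Agent.P367.Lim

open Finset ComplexConjugate MeasureTheory ProbabilityTheory Filter Topology Vale.Agent.P367.Gap

variable {n : ℕ}

/-- the circuit state as a path amplitude -/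
lemma qaoa_amp (J : Pair n → ℝ) (u : ℕ → Conf n → ℂ) (γ' β' : ℕ → ℝ) (p : ℕ) :
    ∀ (γ β : Fin p → ℝ), (∀ k : Fin p, γ' k = γ k) → (∀ k : Fin p, β' k = β k) →
    (∀ k < p, ∀ z, u k z = Complex.exp (-(Complex.I * γ' k * ((skEnergy J z : ℝ) : ℂ)))) →
    ∀ z, amp β' p u z = u p z * qaoaState J p γ β z := by
  induction p with
  | zero =>
    intro γ β _ _ _ z
    simp only [amp, qaoaState, plusState, prod_const, card_univ, Fintype.card_fin]
    push_cast
    rfl
  | succ p ih =>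
    intro γ β hγ hβ hu z
    have h1 : γ' p = γ (Fin.last p) := by have := hγ (Fin.last p); simpa using this
    have h2 : β' p = β (Fin.last p) := by have := hβ (Fin.last p); simpa using this
    rw [amp, qaoaState, exp_cost]
    congr 1
    have h3 : NormedSpace.exp ((-(Complex.I * (β (Fin.last p) : ℂ))) • mixer n)
        = mixU n (β (Fin.last p)) := rfl
    rw [h3, Matrix.mulVec, dotProduct]
    refine sum_congr rfl fun z' _ => ?_
    rw [mixU_apply, h2, ih (fun k => γ k.castSucc) (fun k => β k.castSucc)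
      (fun k => by have := hγ k.castSucc; simpa using this)
      (fun k => by have := hβ k.castSucc; simpa using this)
      (fun k hk z => hu k (by omega) z), hu p (by omega), h1]

lemma sum_sym (f : Fin n → Fin n → ℝ) (hf : ∀ a b, f a b = f b a) :
    ∑ i, ∑ j, (if i = j then 0 else f i j) = 2 * ∑ e : Pair n, f e.1.1 e.1.2 := by
  rw [sum_pair, two_mul]
  have h1 : ∀ i j : Fin n, (if i = j then 0 else f i j)
      = (if i < j then f i j else 0) + (if j < i then f j i else 0) := by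
    intro i j
    rcases lt_trichotomy i j with h | h | h
    · rw [if_neg h.ne, if_pos h, if_neg h.not_gt, add_zero]
    · subst h; simp
    · rw [if_neg h.ne', if_neg h.not_gt, if_pos h, zero_add, hf]
  simp_rw [h1, sum_add_distrib]
  congr 1
  rw [sum_comm]

/-- source matrix of site `i` -/
noncomputable def xim (i : Fin n) (ξ : ℝ) (a b : Fin n) : ℝ := if a = i ∨ b = i then ξ else 0

lemma xim_symm (i : Fin n) (ξ : ℝ) (a b : Fin n) : xim i ξ a b = xim i ξ b a := by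
  unfold xim
  simp only [or_comm]

/-- Gaussian integration of the contour sum over pair couplings -/
lemma pair_char (γ β : ℕ → ℝ) (p : ℕ) (ξ : Fin n → Fin n → ℝ) (hξ : ∀ a b, ξ a b = ξ b a)
    (φ : Fin n → CP p → ℂ) :
    ∫ J : Pair n → ℝ, (∑ X : Fin n → CP p, (∏ j, wgt β p (X j) * φ j (X j)) *
      Complex.exp (-(Complex.I * ((∑ e : Pair n, ((Real.sqrt n)⁻¹ * (qq γ p (X e.1.1) (X e.1.2)
        + ξ e.1.1 e.1.2 * (lst (X e.1.1) * lst (X e.1.2)))) * J e : ℝ) : ℂ)))) ∂(couplingLaw n)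
      = FF (V := Fin n) γ β p (Real.sqrt n)⁻¹ ξ φ := by
  unfold couplingLaw
  rw [integral_finsetSum]
  · unfold FF
    refine sum_congr rfl fun X _ => ?_
    rw [integral_const_mul, gauss_char]
    congr 4
    have h := sum_sym (n := n) (fun a b => (qq γ p (X a) (X b)
        + ξ a b * (lst (X a) * lst (X b))) ^ 2) (fun a b => by
          rw [qq_comm, hξ, mul_comm (lst (X a))])
    unfold QI
    rw [h]
    have h2 : ∀ e : Pair n, ((Real.sqrt n)⁻¹ * (qq γ p (X e.1.1) (X e.1.2)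
        + ξ e.1.1 e.1.2 * (lst (X e.1.1) * lst (X e.1.2)))) ^ 2
        = (Real.sqrt n)⁻¹ ^ 2 * (qq γ p (X e.1.1) (X e.1.2)
        + ξ e.1.1 e.1.2 * (lst (X e.1.1) * lst (X e.1.2))) ^ 2 := fun e => by rw [mul_pow]
    simp_rw [h2]
    rw [← mul_sum]
    ring
  · intro X _
    exact (integrable_exp_lin _).const_mul _

lemma exp_weight (a b : ℝ) : Complex.exp (-(Complex.I * (a : ℂ) * (b : ℂ)))
    = Complex.exp (-(Complex.I * ((a * b : ℝ) : ℂ))) := by
  congr 1; push_cast; ring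

/-- the characteristic function of an aligned field, exactly -/
theorem char_eq (p : ℕ) (γ β : Fin p → ℝ) (γ' β' : ℕ → ℝ)
    (hγ : ∀ k : Fin p, γ' k = γ k) (hβ : ∀ k : Fin p, β' k = β k) (i : Fin n) (ξ : ℝ) :
    ∫ J, (∑ s, ((‖qaoaState J p γ β s‖ ^ 2 : ℝ) : ℂ) *
      Complex.exp (-(Complex.I * ((ξ * tt (uvec i) s J : ℝ) : ℂ)))) ∂(couplingLaw n)
      = FF (V := Fin n) γ' β' p (Real.sqrt n)⁻¹ (xim i ξ) (fun _ _ => 1) := by
  rw [← pair_char γ' β' p (xim i ξ) (xim_symm i ξ)]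
  congr 1
  funext J
  let u : ℕ → Conf n → ℂ := fun k z =>
    if k < p then Complex.exp (-(Complex.I * γ' k * ((skEnergy J z : ℝ) : ℂ)))
    else Complex.exp (-(Complex.I * ((ξ * tt (uvec i) z J : ℝ) : ℂ)))
  let v : ℕ → Conf n → ℂ := fun k z =>
    if k < p then Complex.exp (-(Complex.I * γ' k * ((skEnergy J z : ℝ) : ℂ)))
    else 1
  have hu := qaoa_amp J u γ' β' p γ β hγ hβ (fun k hk z => by simp [u, hk])
  have hv := qaoa_amp J v γ' β' p γ β hγ hβ (fun k hk z => by simp [v, hk])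
  have h1 : ∑ s, ((‖qaoaState J p γ β s‖ ^ 2 : ℝ) : ℂ) *
      Complex.exp (-(Complex.I * ((ξ * tt (uvec i) s J : ℝ) : ℂ)))
      = ∑ z, amp β' p u z * conj (amp β' p v z) := by
    refine sum_congr rfl fun z _ => ?_
    rw [hu, hv]
    have e1 : u p z = Complex.exp (-(Complex.I * ((ξ * tt (uvec i) z J : ℝ) : ℂ))) := by simp [u]
    have e2 : v p z = 1 := by simp [v]
    rw [e1, e2, one_mul]
    have e3 : ((‖qaoaState J p γ β z‖ ^ 2 : ℝ) : ℂ)
        = qaoaState J p γ β z * conj (qaoaState J p γ β z) := by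
      rw [Complex.mul_conj, Complex.normSq_eq_norm_sq]
    rw [e3]
    ring
  rw [h1, sum_amp_mul_conj]
  refine sum_congr rfl fun X _ => ?_
  simp only [mul_one]
  congr 1
  have e1 : ∏ k : Fin (p + 1), u k (fun j => (X j).1 k)
      = Complex.exp (-(Complex.I * ((∑ k : Fin p, γ' k * skEnergy J (fun j => (X j).1 k.castSucc)
          + ξ * tt (uvec i) (fun j => (X j).1 (Fin.last p)) J : ℝ) : ℂ))) := by
    rw [Fin.prod_univ_castSucc]
    have e2 : ∀ k : Fin p, u k.castSucc (fun j => (X j).1 k.castSucc)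
        = Complex.exp (-(Complex.I * ((γ' k * skEnergy J (fun j => (X j).1 k.castSucc) : ℝ) : ℂ))) := by
      intro k
      simp only [u, Fin.val_castSucc, k.2, if_true]
      exact exp_weight _ _
    have e3 : u (Fin.last p) (fun j => (X j).1 (Fin.last p))
        = Complex.exp (-(Complex.I * ((ξ * tt (uvec i) (fun j => (X j).1 (Fin.last p)) J : ℝ) : ℂ))) := by
      simp [u]
    rw [e3]
    simp_rw [e2]
    rw [← Complex.exp_sum, ← Complex.exp_add]
    congr 1
    rw [sum_neg_distrib, ← mul_sum]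
    push_cast
    ring
  have e2 : ∏ k : Fin (p + 1), conj (v k (fun j => (X j).2 k))
      = Complex.exp (Complex.I * ((∑ k : Fin p, γ' k * skEnergy J (fun j => (X j).2 k.castSucc)
          : ℝ) : ℂ)) := by
    rw [Fin.prod_univ_castSucc]
    have e2 : ∀ k : Fin p, conj (v k.castSucc (fun j => (X j).2 k.castSucc))
        = Complex.exp (Complex.I * ((γ' k * skEnergy J (fun j => (X j).2 k.castSucc) : ℝ) : ℂ)) := by
      intro k
      simp only [v, Fin.val_castSucc, k.2, if_true]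
      rw [exp_weight, ← Complex.exp_conj, map_neg, map_mul, Complex.conj_I, Complex.conj_ofReal]
      congr 1
      ring
    have e3 : conj (v (Fin.last p) (fun j => (X j).2 (Fin.last p))) = 1 := by
      simp [v]
    rw [e3]
    simp_rw [e2]
    rw [← Complex.exp_sum, ← mul_sum, mul_one]
    push_cast
    ring_nf
  rw [e1, e2, ← Complex.exp_add]
  congr 1
  have key : ∑ e : Pair n, ((Real.sqrt n)⁻¹ * (qq γ' p (X e.1.1) (X e.1.2)
        + xim i ξ e.1.1 e.1.2 * (lst (X e.1.1) * lst (X e.1.2)))) * J e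
      = ∑ k : Fin p, γ' k * skEnergy J (fun j => (X j).1 k.castSucc)
          + ξ * tt (uvec i) (fun j => (X j).1 (Fin.last p)) J
        - ∑ k : Fin p, γ' k * skEnergy J (fun j => (X j).2 k.castSucc) := by
    unfold skEnergy tt uvec
    simp_rw [mul_sum]
    rw [sum_comm, sum_comm (s := (univ : Finset (Fin p)))
      (f := fun k e => γ' ↑k * ((Real.sqrt n)⁻¹ * (J e *
        (spin ((X e.1.1).2 k.castSucc) * spin ((X e.1.2).2 k.castSucc)))))]
    rw [← sum_add_distrib, ← sum_sub_distrib]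
    refine sum_congr rfl fun e _ => ?_
    unfold qq chi inc xim lst
    rw [mul_add, add_mul, mul_sum, sum_mul, add_sub_right_comm, ← sum_sub_distrib]
    congr 1
    · refine sum_congr rfl fun k _ => ?_
      ring
    · by_cases h : e.1.1 = i ∨ e.1.2 = i
      · simp only [h, if_true]; ring
      · simp only [h, if_false]; ring
  rw [key]
  push_cast
  ring

end Vale.Agent.P367.Lim
end

section

namespace Vale.Agent.P367.Lim

open Finset ComplexConjugate MeasureTheory ProbabilityTheory Filter Topology Vale.Agent.P367.Gap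

/-- total mass one -/
lemma FF_one (γ β : ℕ → ℝ) (V : Type) [Fintype V] [DecidableEq V] (p : ℕ) (s : ℝ) :
    FF (V := V) γ β p s (fun _ _ => 0) (fun _ _ => 1) = 1 := by
  induction p with
  | zero =>
    unfold FF
    have hq : ∀ X : V → CP 0, QI γ 0 (fun _ _ => 0) X = 0 := by
      intro X
      unfold QI
      refine sum_eq_zero fun i _ => sum_eq_zero fun j _ => ?_
      simp [qq]
    simp_rw [hq]
    simp only [mul_zero, Complex.ofReal_zero, neg_zero, Complex.exp_zero, mul_one]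
    have h4 := (Finset.prod_univ_sum (fun _ : V => (univ : Finset (CP 0)))
      (fun _ x => wgt β 0 x))
    rw [Fintype.piFinset_univ] at h4
    rw [← h4]
    simp only [sum_wgt_zero, prod_const_one]
  | succ p ih =>
    have h := FF_succ (V := V) γ β p s (fun _ _ => 1)
    rw [h, ih]

lemma seq_s (r : ℕ) : Tendsto (fun N : ℕ => (N : ℝ) * ((Real.sqrt ((N + r : ℕ) : ℝ))⁻¹) ^ 2) atTop
    (𝓝 1) := by
  have h2 : Tendsto (fun N : ℕ => (N : ℝ) / ((N + r : ℕ) : ℝ)) atTop (𝓝 1) := by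
    have := tendsto_natCast_div_add_atTop (𝕜 := ℝ) (r : ℝ)
    refine this.congr fun N => ?_
    push_cast; rfl
  refine h2.congr fun N => ?_
  rw [inv_pow, Real.sq_sqrt (Nat.cast_nonneg _), div_eq_mul_inv]

lemma sum_gg (γ β : ℕ → ℝ) (p : ℕ) : ∑ y : CP p, gg γ β p y = 1 := by
  have h1 : ∀ N : ℕ, ∑ y : CP p, Mg γ β p 1 N (Real.sqrt ((N + 1 : ℕ) : ℝ))⁻¹ (fun _ => y) = 1 := by
    intro N
    have h := FF_inl γ β p 1 N (Real.sqrt ((N + 1 : ℕ) : ℝ))⁻¹ (fun _ => 1)
    have h2 : (Sum.elim (fun _ : Fin 1 => fun _ : CP p => (1 : ℂ)) (fun _ : Fin N => fun _ => 1))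
        = fun _ _ => 1 := by
      funext j
      rcases j with j | j <;> rfl
    rw [h2, FF_one] at h
    rw [h]
    simp only [prod_const_one, one_mul]
    exact ((Equiv.funUnique (Fin 1) (CP p)).symm.sum_comp (fun y => Mg γ β p 1 N _ y))
  have h2 : Tendsto (fun N : ℕ => ∑ y : CP p, Mg γ β p 1 N (Real.sqrt ((N + 1 : ℕ) : ℝ))⁻¹
      (fun _ => y)) atTop (𝓝 (∑ y : CP p, gg γ β p y)) := by
    refine tendsto_finsetSum _ fun y _ => ?_
    have h3 := LT_all γ β p 1 (fun _ => y) (fun N => (Real.sqrt ((N + 1 : ℕ) : ℝ))⁻¹) (seq_s 1)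
    simpa using h3
  simp_rw [h1] at h2
  exact tendsto_nhds_unique h2 tendsto_const_nhds |>.symm ▸ rfl

lemma lst_sq {p : ℕ} (x : CP p) : lst x * lst x = 1 := by
  unfold lst spin
  split_ifs <;> norm_num

/-- source matrix after splitting off a site -/
def xiU (m : ℕ) (ξ : ℝ) : Unit ⊕ Fin m → Unit ⊕ Fin m → ℝ :=
  Sum.elim (fun _ _ => ξ) (fun _ => Sum.elim (fun _ => ξ) (fun _ => 0))

lemma FF_unit (γ β : ℕ → ℝ) (p m : ℕ) (s ξ : ℝ) (φ : CP p → ℂ) :
    FF (V := Unit ⊕ Fin m) γ β p s (xiU m ξ) (Sum.elim (fun _ => φ) (fun _ _ => 1))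
      = ∑ x : CP p, wgt β p x * φ x * FF (V := Fin m) γ β p s (fun _ _ => 0)
        (fun _ y => Complex.exp (-((s ^ 2 / 2 * (qq γ p x y + ξ * (lst x * lst y)) ^ 2
          : ℝ) : ℂ))) := by
  rw [FF_sum _ _ _ _ _ (fun _ _ => rfl)]
  rw [← (Equiv.funUnique Unit (CP p)).symm.sum_comp]
  refine sum_congr rfl fun x _ => ?_
  have h0 : QI γ p (fun i j => xiU m ξ (Sum.inl i) (Sum.inl j))
      ((Equiv.funUnique Unit (CP p)).symm x) = 0 := by
    unfold QI
    refine sum_eq_zero fun i _ => sum_eq_zero fun j _ => ?_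
    rw [if_pos (Subsingleton.elim i j)]
  rw [h0]
  simp only [mul_zero, Complex.ofReal_zero, neg_zero, Complex.exp_zero, one_mul]
  congr 1
  · simp [Equiv.funUnique]
  · have h1 : (fun i j => xiU m ξ (Sum.inr i) (Sum.inr j)) = fun _ _ => (0 : ℝ) := by
      funext i j; rfl
    rw [h1]
    congr 1
    funext j y
    simp only [Sum.elim_inr, one_mul, univ_unique, sum_singleton]
    rfl

lemma FF_site (γ β : ℕ → ℝ) (p m : ℕ) (s ξ : ℝ) (i : Fin (m + 1)) (f : Fin (m + 1) → Fin (m + 1) → ℝ)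
    (hf : ∀ a b, f a b = if a = i ∨ b = i then ξ else 0) :
    FF (V := Fin (m + 1)) γ β p s f (fun _ _ => 1)
      = FF (V := Unit ⊕ Fin m) γ β p s (xiU m ξ) (Sum.elim (fun _ _ => 1) (fun _ _ => 1)) := by
  let e : Unit ⊕ Fin m ≃ Fin (m + 1) := (Equiv.sumComm Unit (Fin m)).trans
    ((Equiv.optionEquivSumPUnit (Fin m)).symm.trans (finSuccEquiv' i).symm)
  have e1 : ∀ a, e (Sum.inl a) = i := by
    intro a
    simp [e]
  have e2 : ∀ j, e (Sum.inr j) = i.succAbove j := by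
    intro j
    simp [e]
  rw [FF_equiv γ β p s e]
  congr 1
  · funext a b
    rw [hf]
    rcases a with a | a
    · rw [e1, if_pos (Or.inl rfl)]; rfl
    · rcases b with b | b
      · rw [e1, if_pos (Or.inr rfl)]; rfl
      · rw [e2, e2, if_neg]
        · rfl
        · rintro (h | h)
          · exact Fin.succAbove_ne i a h
          · exact Fin.succAbove_ne i b h
  · funext a
    rcases a with a | a <;> rfl

/-- limit coefficients -/
noncomputable def cx (γ β : ℕ → ℝ) (p : ℕ) (x : CP p) : ℂ :=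
  wgt β p x * Complex.exp (-(1 / 2 * ∑ y : CP p, gg γ β p y * ((qq γ p x y ^ 2 : ℝ) : ℂ)))

/-- limit drifts -/
noncomputable def mx (γ β : ℕ → ℝ) (p : ℕ) (x : CP p) : ℂ :=
  ∑ y : CP p, gg γ β p y * ((qq γ p x y * (lst x * lst y) : ℝ) : ℂ)

lemma tendsto_site (γ β : ℕ → ℝ) (p : ℕ) (ξ : ℝ) (x : CP p) :
    Tendsto (fun m : ℕ => wgt β p x * FF (V := Fin m) γ β p (Real.sqrt ((m + 1 : ℕ) : ℝ))⁻¹
      (fun _ _ => 0) (fun _ y => Complex.exp (-((((Real.sqrt ((m + 1 : ℕ) : ℝ))⁻¹) ^ 2 / 2 *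
        (qq γ p x y + ξ * (lst x * lst y)) ^ 2 : ℝ) : ℂ)))) atTop
      (𝓝 (cx γ β p x * Complex.exp (-(ξ * mx γ β p x) - (ξ : ℂ) ^ 2 / 2))) := by
  have h := (tendsto_FF_T γ β p (LT_all γ β p) (fun N => (Real.sqrt ((N + 1 : ℕ) : ℝ))⁻¹) (seq_s 1)
    (fun y => (qq γ p x y + ξ * (lst x * lst y)) ^ 2)).const_mul (wgt β p x)
  refine h.trans (le_of_eq ?_)
  congr 1
  unfold cx mx
  rw [mul_assoc, ← Complex.exp_add]
  congr 2
  have h1 : ∀ y : CP p, gg γ β p y * (((qq γ p x y + ξ * (lst x * lst y)) ^ 2 : ℝ) : ℂ)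
      = gg γ β p y * ((qq γ p x y ^ 2 : ℝ) : ℂ)
        + 2 * ξ * (gg γ β p y * ((qq γ p x y * (lst x * lst y) : ℝ) : ℂ))
        + (ξ : ℂ) ^ 2 * gg γ β p y := by
    intro y
    have h2 : (qq γ p x y + ξ * (lst x * lst y)) ^ 2
        = qq γ p x y ^ 2 + 2 * ξ * (qq γ p x y * (lst x * lst y)) + ξ ^ 2 := by
      have h3 := lst_sq x
      have h4 := lst_sq y
      calc (qq γ p x y + ξ * (lst x * lst y)) ^ 2
          = qq γ p x y ^ 2 + 2 * ξ * (qq γ p x y * (lst x * lst y))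
            + ξ ^ 2 * ((lst x * lst x) * (lst y * lst y)) := by ring
        _ = _ := by rw [h3, h4]; ring
    rw [h2]
    push_cast
    ring
  simp_rw [h1, sum_add_distrib, ← mul_sum, sum_gg]
  ring

/-- limit of the characteristic function -/
theorem tendsto_char (γ β : ℕ → ℝ) (p : ℕ) (ξ : ℝ) :
    Tendsto (fun m : ℕ => FF (V := Unit ⊕ Fin m) γ β p (Real.sqrt ((m + 1 : ℕ) : ℝ))⁻¹
      (xiU m ξ) (Sum.elim (fun _ _ => 1) (fun _ _ => 1))) atTop
      (𝓝 (∑ x : CP p, cx γ β p x * Complex.exp (-(ξ * mx γ β p x) - (ξ : ℂ) ^ 2 / 2))) := by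
  have h := tendsto_finsetSum (univ : Finset (CP p)) fun x _ => tendsto_site γ β p ξ x
  refine h.congr fun m => ?_
  rw [FF_unit]
  refine sum_congr rfl fun x _ => ?_
  rw [mul_one]

/-- unitarity bound on the limit terms -/
theorem norm_cx_le (γ β : ℕ → ℝ) (p : ℕ) (x : CP p) (ξ : ℝ) :
    ‖cx γ β p x‖ * Real.exp (-(ξ * (mx γ β p x).re) - ξ ^ 2 / 2) ≤ 1 := by
  have h := (tendsto_site γ β p ξ x).norm
  have h1 : ‖cx γ β p x * Complex.exp (-(ξ * mx γ β p x) - (ξ : ℂ) ^ 2 / 2)‖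
      = ‖cx γ β p x‖ * Real.exp (-(ξ * (mx γ β p x).re) - ξ ^ 2 / 2) := by
    rw [norm_mul, Complex.norm_exp]
    congr 2
    have h2 : ((ξ : ℂ) ^ 2 / 2) = ((ξ ^ 2 / 2 : ℝ) : ℂ) := by push_cast; ring
    rw [h2, Complex.sub_re, Complex.neg_re, Complex.ofReal_re, Complex.re_ofReal_mul]
  rw [← h1]
  refine le_of_tendsto h (Eventually.of_forall fun m => ?_)
  have h3 := FF_unit γ β p m (Real.sqrt ((m + 1 : ℕ) : ℝ))⁻¹ ξ (fun z => if z = x then 1 else 0)
  have h4 : ∑ z : CP p, wgt β p z * (if z = x then (1 : ℂ) else 0) * FF (V := Fin m) γ β p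
        (Real.sqrt ((m + 1 : ℕ) : ℝ))⁻¹ (fun _ _ => 0)
        (fun _ y => Complex.exp (-((((Real.sqrt ((m + 1 : ℕ) : ℝ))⁻¹) ^ 2 / 2 *
          (qq γ p z y + ξ * (lst z * lst y)) ^ 2 : ℝ) : ℂ)))
      = wgt β p x * FF (V := Fin m) γ β p (Real.sqrt ((m + 1 : ℕ) : ℝ))⁻¹
      (fun _ _ => 0) (fun _ y => Complex.exp (-((((Real.sqrt ((m + 1 : ℕ) : ℝ))⁻¹) ^ 2 / 2 *
        (qq γ p x y + ξ * (lst x * lst y)) ^ 2 : ℝ) : ℂ))) := by
    rw [sum_eq_single x]
    · simp
    · intro z _ hz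
      rw [if_neg hz]
      ring
    · intro h; exact absurd (mem_univ x) h
  rw [h4] at h3
  rw [← h3]
  refine norm_FF_le γ β p _ _ _
    (Sum.elim (fun _ k b => if b = x.1 k then 1 else 0) (fun _ _ _ => 1))
    (Sum.elim (fun _ k b => if b = x.2 k then 1 else 0) (fun _ _ _ => 1)) ?_ ?_ ?_
  · rintro (i | j) k b
    · simp only [Sum.elim_inl]; split_ifs <;> simp
    · simp
  · rintro (i | j) k b
    · simp only [Sum.elim_inl]; split_ifs <;> simp
    · simp
  · rintro (i | j) z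
    · simp only [Sum.elim_inl]
      exact indicator_prod z x
    · simp

end Vale.Agent.P367.Lim
end

section

namespace Vale.Agent.P367.Lim

open Finset ComplexConjugate MeasureTheory ProbabilityTheory Filter Topology ENNReal
  Vale.Agent.P367.Gap

variable {n : ℕ}

/-- extension of finitely many angles -/
noncomputable def extA {p : ℕ} (γ : Fin p → ℝ) : ℕ → ℝ := fun k => if h : k < p then γ ⟨k, h⟩ else 0

lemma extA_apply {p : ℕ} (γ : Fin p → ℝ) (k : Fin p) : extA γ k = γ k := by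
  simp [extA, k.2]

lemma state_circ (J : Pair n → ℝ) (p : ℕ) (γ β : Fin p → ℝ) (s : Conf n) :
    qaoaState J p γ β s
      = circ (fun k => matL (mixU n (extA β k))) (extA γ) (cE J) (plusH n) p s := by
  rw [circ_eq_qaoa J p γ β (extA γ) (extA β) (extA_apply γ) (extA_apply β)]

lemma continuous_state (p : ℕ) (γ β : Fin p → ℝ) (s : Conf n) :
    Continuous fun J : Pair n → ℝ => qaoaState J p γ β s := by
  have h1 := continuous_circ (fun k => matL (mixU n (extA β k))) (extA γ) (plusH n) p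
  have h2 : Continuous fun J : Pair n → ℝ =>
      (circ (fun k => matL (mixU n (extA β k))) (extA γ) (cE J) (plusH n) p) s :=
    (PiLp.continuous_apply 2 _ s).comp h1
  refine h2.congr fun J => ?_
  exact (state_circ J p γ β s).symm

lemma sum_state_sq (J : Pair n → ℝ) (p : ℕ) (γ β : Fin p → ℝ) :
    ∑ s, ‖qaoaState J p γ β s‖ ^ 2 = 1 := by
  have h1 := norm_circ_real (fun k => matL (mixU n (extA β k)))
    (fun k v => norm_matL _ (mixU_unitary _) v) (extA γ) J (plusH n) p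
  rw [norm_plusH, EuclideanSpace.norm_eq] at h1
  have h2 : ∑ s, ‖circ (fun k => matL (mixU n (extA β k))) (extA γ) (cE J) (plusH n) p s‖ ^ 2
      = 1 := by
    have h3 := congrArg (fun x : ℝ => x ^ 2) h1
    simp only at h3
    rw [Real.sq_sqrt (Finset.sum_nonneg fun s _ => by positivity)] at h3
    rw [h3]; norm_num
  simp only [state_circ]
  exact h2

lemma state_sq_le (J : Pair n → ℝ) (p : ℕ) (γ β : Fin p → ℝ) (s : Conf n) :
    ‖qaoaState J p γ β s‖ ^ 2 ≤ 1 := by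
  rw [← sum_state_sq J p γ β]
  exact single_le_sum (f := fun s => ‖qaoaState J p γ β s‖ ^ 2) (fun _ _ => by positivity)
    (mem_univ s)

/-- one-configuration part of the aligned field law -/
noncomputable def alf1 (p : ℕ) (γ β : Fin p → ℝ) (i : Fin n) (s : Conf n) : Measure ℝ :=
  ((couplingLaw n).withDensity (fun J => ENNReal.ofReal (‖qaoaState J p γ β s‖ ^ 2))).map
    (fun J => tt (uvec i) s J)

/-- law of the aligned field of a uniformly chosen site -/
noncomputable def alf (n p : ℕ) (γ β : Fin p → ℝ) : Measure ℝ :=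
  ((n : ℝ≥0∞)⁻¹) • ∑ i : Fin n, ∑ s : Conf n, alf1 p γ β i s

instance : IsProbabilityMeasure (couplingLaw n) := by
  unfold couplingLaw
  infer_instance

lemma measurable_w (p : ℕ) (γ β : Fin p → ℝ) (s : Conf n) :
    Measurable fun J : Pair n → ℝ => ENNReal.ofReal (‖qaoaState J p γ β s‖ ^ 2) :=
  ((continuous_state p γ β s).norm.pow 2).measurable.ennreal_ofReal

instance (p : ℕ) (γ β : Fin p → ℝ) (s : Conf n) : IsFiniteMeasure
    ((couplingLaw n).withDensity (fun J => ENNReal.ofReal (‖qaoaState J p γ β s‖ ^ 2))) := by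
  refine isFiniteMeasure_withDensity ?_
  refine ne_of_lt (lt_of_le_of_lt (lintegral_mono (g := fun _ => 1) fun J => ?_) ?_)
  · simp only
    exact ENNReal.ofReal_le_one.2 (state_sq_le J p γ β s)
  · simp

instance (p : ℕ) (γ β : Fin p → ℝ) (i : Fin n) (s : Conf n) : IsFiniteMeasure (alf1 p γ β i s) := by
  unfold alf1
  infer_instance

lemma integral_alf1 {E : Type*} [NormedAddCommGroup E] [NormedSpace ℝ E]
    (p : ℕ) (γ β : Fin p → ℝ) (i : Fin n) (s : Conf n) (f : ℝ → E) (hf : StronglyMeasurable f) :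
    ∫ x, f x ∂(alf1 p γ β i s)
      = ∫ J, (‖qaoaState J p γ β s‖ ^ 2) • f (tt (uvec i) s J) ∂(couplingLaw n) := by
  unfold alf1
  rw [integral_map (measurable_tt _ _).aemeasurable hf.aestronglyMeasurable,
    integral_withDensity_eq_integral_toReal_smul (measurable_w p γ β s)
      (Eventually.of_forall fun J => ENNReal.ofReal_lt_top)]
  congr 1
  funext J
  rw [ENNReal.toReal_ofReal (by positivity)]

lemma integrable_alf1_term {E : Type*} [NormedAddCommGroup E] [NormedSpace ℝ E]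
    (p : ℕ) (γ β : Fin p → ℝ) (i : Fin n) (s : Conf n) (f : ℝ → E) (hf : StronglyMeasurable f)
    (C : ℝ) (hC : ∀ x, ‖f x‖ ≤ C) :
    Integrable (fun J => (‖qaoaState J p γ β s‖ ^ 2) • f (tt (uvec i) s J)) (couplingLaw n) := by
  refine (integrable_const C).mono' ?_ (Eventually.of_forall fun J => ?_)
  · refine StronglyMeasurable.aestronglyMeasurable ?_
    exact ((continuous_state p γ β s).norm.pow 2).stronglyMeasurable.smul
      (hf.comp_measurable (measurable_tt _ _))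
  · rw [norm_smul]
    have h1 := state_sq_le J p γ β s
    have h2 := hC (tt (uvec i) s J)
    have h3 : ‖(‖qaoaState J p γ β s‖ ^ 2)‖ ≤ 1 := by
      rw [Real.norm_eq_abs, abs_of_nonneg (by positivity)]
      exact h1
    calc ‖(‖qaoaState J p γ β s‖ ^ 2)‖ * ‖f (tt (uvec i) s J)‖ ≤ 1 * C :=
          mul_le_mul h3 h2 (norm_nonneg _) (by norm_num)
      _ = C := one_mul C

/-- integrals against the aligned field law -/
theorem integral_alf {E : Type*} [NormedAddCommGroup E] [NormedSpace ℝ E]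
    (p : ℕ) (γ β : Fin p → ℝ) (f : ℝ → E) (hf : StronglyMeasurable f)
    (C : ℝ) (hC : ∀ x, ‖f x‖ ≤ C) :
    ∫ x, f x ∂(alf n p γ β) = ((n : ℝ)⁻¹) • ∑ i : Fin n,
      ∫ J, (∑ s, (‖qaoaState J p γ β s‖ ^ 2) • f (tt (uvec i) s J)) ∂(couplingLaw n) := by
  have hint : ∀ (i : Fin n) (s : Conf n), Integrable f (alf1 p γ β i s) := by
    intro i s
    exact (integrable_const C).mono' hf.aestronglyMeasurable (Eventually.of_forall hC)
  unfold alf
  rw [integral_smul_measure, integral_finsetSum_measure]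
  · congr 1
    · simp
    · refine sum_congr rfl fun i _ => ?_
      rw [integral_finsetSum_measure fun s _ => hint i s, integral_finsetSum]
      · refine sum_congr rfl fun s _ => ?_
        exact integral_alf1 p γ β i s f hf
      · intro s _
        exact integrable_alf1_term p γ β i s f hf C hC
  · intro i _
    exact integrable_finsetSum_measure.2 fun s _ => hint i s

lemma isFinite_alf (p : ℕ) (γ β : Fin p → ℝ) (hn : 0 < n) : IsFiniteMeasure (alf n p γ β) := by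
  unfold alf
  have h1 : IsFiniteMeasure (∑ i : Fin n, ∑ s : Conf n, alf1 p γ β i s) := by infer_instance
  have h2 : ((n : ℝ≥0∞)⁻¹) ≠ ∞ := by
    rw [Ne, ENNReal.inv_eq_top]
    exact_mod_cast hn.ne'
  exact Measure.smul_finite _ h2

lemma isProb_alf (p : ℕ) (γ β : Fin p → ℝ) (hn : 0 < n) : IsProbabilityMeasure (alf n p γ β) := by
  have hfin := isFinite_alf p γ β hn
  have h := integral_alf (n := n) p γ β (fun _ => (1 : ℝ)) stronglyMeasurable_const 1 (by simp)
  have h1 : ∫ J, (∑ s, (‖qaoaState J p γ β s‖ ^ 2) • (1 : ℝ)) ∂(couplingLaw n) = 1 := by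
    simp only [smul_eq_mul, mul_one, sum_state_sq]
    simp
  simp only [h1] at h
  rw [integral_const, sum_const, card_univ, Fintype.card_fin, nsmul_eq_mul, smul_eq_mul,
    smul_eq_mul, mul_one, mul_one, inv_mul_cancel₀ (by exact_mod_cast hn.ne')] at h
  refine ⟨?_⟩
  rw [Measure.real, ENNReal.toReal_eq_one_iff] at h
  exact h

/-- probabilities under the aligned field law -/
theorem real_alf (p : ℕ) (γ β : Fin p → ℝ) (S : Set ℝ) (hS : MeasurableSet S) :
    (alf n p γ β).real S = ((n : ℝ)⁻¹) * ∑ i : Fin n,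
      ∫ J, (∑ s, (‖qaoaState J p γ β s‖ ^ 2) * S.indicator (fun _ => (1 : ℝ)) (tt (uvec i) s J))
        ∂(couplingLaw n) := by
  have h := integral_alf (n := n) p γ β (S.indicator (fun _ => (1 : ℝ)))
    (stronglyMeasurable_const.indicator hS) 1 (by
      intro x
      refine (norm_indicator_le_norm_self _ _).trans ?_
      simp)
  rw [integral_indicator hS] at h
  simp only [integral_const, smul_eq_mul, mul_one] at h
  rw [← h]
  simp [Measure.real]

/-- exact characteristic function of the aligned field law -/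
theorem char_alf (m p : ℕ) (γ β : Fin p → ℝ) (ξ : ℝ) :
    ∫ x, Complex.exp (-(Complex.I * ξ * x)) ∂(alf (m + 1) p γ β)
      = FF (V := Unit ⊕ Fin m) (extA γ) (extA β) p (Real.sqrt ((m + 1 : ℕ) : ℝ))⁻¹
        (xiU m ξ) (Sum.elim (fun _ _ => 1) (fun _ _ => 1)) := by
  have hcont : Continuous fun x : ℝ => Complex.exp (-(Complex.I * ξ * x)) := by fun_prop
  have h := integral_alf (n := m + 1) p γ β (fun x : ℝ => Complex.exp (-(Complex.I * ξ * x)))
    hcont.stronglyMeasurable 1 (by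
      intro x
      have : -(Complex.I * (ξ : ℂ) * (x : ℂ)) = -(Complex.I * ((ξ * x : ℝ) : ℂ)) := by
        push_cast; ring
      rw [this, norm_exp_neg_I])
  rw [h]
  have h1 : ∀ i : Fin (m + 1), ∫ J, (∑ s, (‖qaoaState J p γ β s‖ ^ 2) •
      Complex.exp (-(Complex.I * ξ * ((tt (uvec i) s J : ℝ) : ℂ)))) ∂(couplingLaw (m + 1))
      = FF (V := Unit ⊕ Fin m) (extA γ) (extA β) p (Real.sqrt ((m + 1 : ℕ) : ℝ))⁻¹
        (xiU m ξ) (Sum.elim (fun _ _ => 1) (fun _ _ => 1)) := by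
    intro i
    rw [← FF_site (extA γ) (extA β) p m _ ξ i (xim i ξ) (fun a b => rfl),
      ← char_eq p γ β (extA γ) (extA β) (extA_apply γ) (extA_apply β) i ξ]
    congr 1
    funext J
    refine sum_congr rfl fun s _ => ?_
    rw [exp_weight, Complex.real_smul]
  simp only [h1, sum_const, card_univ, Fintype.card_fin, nsmul_eq_mul]
  rw [Complex.real_smul]
  push_cast
  have : ((m : ℂ) + 1) ≠ 0 := by exact_mod_cast Nat.succ_ne_zero m
  field_simp

/-- convergence of the characteristic function of the aligned field law -/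
theorem tendsto_char_alf (p : ℕ) (γ β : Fin p → ℝ) (ξ : ℝ) :
    Tendsto (fun m : ℕ => ∫ x, Complex.exp (-(Complex.I * ξ * x)) ∂(alf (m + 1) p γ β)) atTop
      (𝓝 (∑ x : CP p, cx (extA γ) (extA β) p x *
        Complex.exp (-(ξ * mx (extA γ) (extA β) p x) - (ξ : ℂ) ^ 2 / 2))) := by
  simp_rw [char_alf]
  exact tendsto_char (extA γ) (extA β) p ξ

end Vale.Agent.P367.Lim
end

section

open MeasureTheory ProbabilityTheory Finset Matrix Filter Topology

namespace Vale.Agent.P367.Gap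

variable {n : ℕ}

/-- Flip lemma with the total misalignment. -/
theorem flip_gain2 (K : Fin n × Fin n → ℝ) (σ : Conf n) (q : ℝ) (hq0 : 0 ≤ q) (hq1 : q ≤ 1) :
    skEq K σ + 2 * q * ∑ i, max (-(afld K σ i)) 0
      ≤ (⨆ τ : Conf n, skEq K τ) + 4 * q ^ 2 * ⨆ τ : Conf n, skEq (fun e => - K e) τ := by
  classical
  set S := univ.filter fun i => afld K σ i < 0 with hS
  set x : Fin n → ℝ := fun i => spin (σ i) with hx
  have hx1 : ∀ i, |x i| = 1 := fun i => abs_spin _
  set m : Fin n → ℝ := fun i => if i ∈ S then x i else 0 with hm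
  have hm1 : ∀ i, |m i| ≤ 1 := by
    intro i
    simp only [hm]
    split_ifs
    · exact (hx1 i).le
    · simp
  have hscale : Hq K (fun i => (-(2 * q)) * m i) = 4 * q ^ 2 * Hq K m := by
    rw [Hq_eq, Hq_eq]
    have : ∑ i, ∑ j, Ksym K i j * (-(2 * q) * m i) * (-(2 * q) * m j)
        = 4 * q ^ 2 * ∑ i, ∑ j, Ksym K i j * m i * m j := by
      rw [mul_sum]
      refine sum_congr rfl fun i _ => ?_
      rw [mul_sum]
      refine sum_congr rfl fun j _ => ?_
      ring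
    rw [this]; ring
  have hadd := Hq_add K x (fun i => (-(2 * q)) * m i)
  rw [hscale] at hadd
  have hlin : ∑ i, (-(2 * q)) * m i * fld K x i = 2 * q * ∑ i, max (-(afld K σ i)) 0 := by
    rw [mul_sum]
    refine sum_congr rfl fun i _ => ?_
    by_cases hi : i ∈ S
    · have h1 : afld K σ i < 0 := (mem_filter.1 hi).2
      rw [max_eq_left (by linarith)]
      simp only [hm, hi, if_true, afld, hx]
      ring
    · have h1 : ¬ afld K σ i < 0 := fun h => hi (mem_filter.2 ⟨mem_univ i, h⟩)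
      rw [max_eq_right (by linarith)]
      simp [hm, hi]
  have hcube : ∀ i, |x i + (-(2 * q)) * m i| ≤ 1 := by
    intro i
    simp only [hm]
    split_ifs
    · have : x i + -(2 * q) * x i = x i * (1 - 2 * q) := by ring
      rw [this, abs_mul, hx1, one_mul, abs_le]
      constructor <;> linarith
    · simp [hx1]
  obtain ⟨τ, hτ⟩ := exists_vertex K _ hcube
  obtain ⟨τ', hτ'⟩ := exists_vertex (fun e => - K e) m hm1
  have hM : Hq K (fun i => spin (τ i)) ≤ ⨆ τ : Conf n, skEq K τ :=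
    le_ciSup (f := fun τ : Conf n => skEq K τ) (Set.finite_range _).bddAbove τ
  have hM' : Hq (fun e => - K e) (fun i => spin (τ' i)) ≤ ⨆ τ : Conf n, skEq (fun e => - K e) τ :=
    le_ciSup (f := fun τ : Conf n => skEq (fun e => - K e) τ) (Set.finite_range _).bddAbove τ'
  rw [Hq_neg] at hτ'
  have h5 : - Hq K m ≤ ⨆ τ : Conf n, skEq (fun e => - K e) τ := hτ'.trans hM'
  have h6 : -(4 * q ^ 2 * Hq K m) ≤ 4 * q ^ 2 * ⨆ τ : Conf n, skEq (fun e => - K e) τ := by
    have := mul_le_mul_of_nonneg_left h5 (show (0 : ℝ) ≤ 4 * q ^ 2 by positivity)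
    linarith
  have h7 : skEq K σ = Hq K x := rfl
  have h8 := hτ.trans hM
  rw [hadd] at h8
  rw [h7, ← hlin]
  linarith

lemma ext_neg (J : Pair n → ℝ) : (fun e => - ext J e) = ext (-J) := by
  funext e
  unfold ext
  split_ifs <;> simp

/-- The averaged form of the flip lemma, in terms of the pair couplings. -/
lemma flip_avg (J : Pair n → ℝ) (w : Conf n → ℝ) (hw : ∀ s, 0 ≤ w s) (hw1 : ∑ s, w s = 1)
    (q : ℝ) (hq0 : 0 ≤ q) (hq1 : q ≤ 1) :
    ∑ s, w s * skEnergy J s + 2 * q * ∑ i, ∑ s, w s * max (-(tt (uvec i) s J)) 0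
      ≤ (⨆ s : Conf n, skEnergy J s) + 4 * q ^ 2 * ⨆ s : Conf n, skEnergy (-J) s := by
  have h1 : ∀ s, w s * (skEnergy J s + 2 * q * ∑ i, max (-(tt (uvec i) s J)) 0)
      ≤ w s * ((⨆ s : Conf n, skEnergy J s) + 4 * q ^ 2 * ⨆ s : Conf n, skEnergy (-J) s) := by
    intro s
    apply mul_le_mul_of_nonneg_left _ (hw s)
    have h := flip_gain2 (ext J) s q hq0 hq1
    rw [ext_neg] at h
    simp only [skEq_ext] at h
    simp only [tt_eq]
    exact h
  have h2 := Finset.sum_le_sum (s := univ) fun s _ => h1 s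
  rw [← Finset.sum_mul, hw1, one_mul] at h2
  refine le_trans (le_of_eq ?_) h2
  simp only [mul_add, Finset.sum_add_distrib]
  congr 1
  rw [Finset.sum_comm, Finset.mul_sum]
  apply Finset.sum_congr rfl
  intro s _
  rw [Finset.mul_sum, Finset.mul_sum, Finset.mul_sum]
  apply Finset.sum_congr rfl
  intro i _
  ring

/-- Exponential moment of the energy. -/
lemma integral_exp_energy (s : Conf n) :
    ∫ J : Pair n → ℝ, Real.exp (skEnergy (-J) s) ∂(gLaw (Pair n)) ≤ Real.exp (n / 2) := by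
  have h1 : ∀ J : Pair n → ℝ, skEnergy (-J) s = ∑ e, (-((Real.sqrt n)⁻¹ * chi s e)) * J e := by
    intro J
    unfold skEnergy chi
    rw [Finset.mul_sum]
    apply Finset.sum_congr rfl
    intro e _
    simp only [Pi.neg_apply]
    ring
  simp only [h1]
  rw [integral_exp_linear]
  apply Real.exp_le_exp.mpr
  have h2 : ∀ e : Pair n, (-((Real.sqrt n)⁻¹ * chi s e)) ^ 2 = (n : ℝ)⁻¹ := by
    intro e
    calc (-((Real.sqrt n)⁻¹ * chi s e)) ^ 2
        = ((Real.sqrt n)⁻¹ * (Real.sqrt n)⁻¹) * (chi s e * chi s e) := by ring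
      _ = _ := by rw [inv_sqrt_mul, chi_sq, mul_one]
  simp only [h2, Finset.sum_const, Finset.card_univ, nsmul_eq_mul]
  have h3 : (Fintype.card (Pair n) : ℝ) ≤ n * n := by
    have : Fintype.card (Pair n) ≤ Fintype.card (Fin n × Fin n) := Fintype.card_subtype_le _
    rw [Fintype.card_prod, Fintype.card_fin] at this
    exact_mod_cast this
  rcases Nat.eq_zero_or_pos n with hn | hn
  · subst hn; simp
  · have hn' : (0 : ℝ) < n := by exact_mod_cast hn
    have : (Fintype.card (Pair n) : ℝ) * (n : ℝ)⁻¹ ≤ n := by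
      rw [← div_eq_mul_inv, div_le_iff₀ hn']
      exact h3
    linarith

lemma integrable_exp_energy (s : Conf n) :
    Integrable (fun J : Pair n → ℝ => Real.exp (skEnergy (-J) s)) (gLaw (Pair n)) := by
  have h1 : ∀ J : Pair n → ℝ, skEnergy (-J) s = ∑ e, (-((Real.sqrt n)⁻¹ * chi s e)) * J e := by
    intro J
    unfold skEnergy chi
    rw [Finset.mul_sum]
    apply Finset.sum_congr rfl
    intro e _
    simp only [Pi.neg_apply]
    ring
  simp only [h1]
  exact integrable_exp_linear _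

lemma integrable_energy (s : Conf n) :
    Integrable (fun J : Pair n → ℝ => skEnergy J s) (gLaw (Pair n)) := by
  unfold skEnergy
  apply Integrable.const_mul
  apply integrable_finsetSum
  intro e _
  apply Integrable.mul_const
  exact integrable_comp_eval (μ := fun _ : Pair n => gaussianReal 0 1) (i := e) (f := fun x => x)
    ((memLp_id_gaussianReal 1).integrable le_rfl)

lemma integrable_energy_neg (s : Conf n) :
    Integrable (fun J : Pair n → ℝ => skEnergy (-J) s) (gLaw (Pair n)) := by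
  have h : (fun J : Pair n → ℝ => skEnergy (-J) s) = fun J => - skEnergy J s := by
    funext J
    unfold skEnergy
    rw [← mul_neg, ← Finset.sum_neg_distrib]
    congr 1
    apply Finset.sum_congr rfl
    intro e _
    simp only [Pi.neg_apply]
    ring
  rw [h]
  exact (integrable_energy s).neg

lemma integrable_iSup {Ω : Type*} [MeasurableSpace Ω] {μ : Measure Ω} {S : Type*} [Fintype S]
    [Nonempty S] (f : S → Ω → ℝ) (hf : ∀ s, Integrable (f s) μ) (hm : ∀ s, Measurable (f s)) :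
    Integrable (fun ω => ⨆ s, f s ω) μ := by
  have h1 : Integrable (fun ω => ∑ s, |f s ω|) μ :=
    integrable_finsetSum _ fun s _ => (hf s).abs
  refine h1.mono' ?_ (Filter.Eventually.of_forall fun ω => ?_)
  · apply Measurable.aestronglyMeasurable
    exact Measurable.iSup hm
  · rw [Real.norm_eq_abs, abs_le]
    obtain ⟨s0⟩ := (inferInstance : Nonempty S)
    have hb : BddAbove (Set.range fun s => f s ω) := (Set.finite_range _).bddAbove
    have h2 : ∀ s, |f s ω| ≤ ∑ s, |f s ω| := fun s =>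
      Finset.single_le_sum (f := fun s => |f s ω|) (fun _ _ => abs_nonneg _) (mem_univ s)
    constructor
    · have h3 : f s0 ω ≤ ⨆ s, f s ω := le_ciSup hb s0
      have h4 := neg_abs_le (f s0 ω)
      have h5 := h2 s0
      linarith
    · exact ciSup_le fun s => (le_abs_self _).trans (h2 s)

lemma integral_sup_neg_le (hn : 0 < n) :
    ∫ J : Pair n → ℝ, (⨆ s : Conf n, skEnergy (-J) s) ∂(gLaw (Pair n)) ≤ 2 * n := by
  have hn' : (0 : ℝ) < n := by exact_mod_cast hn
  set A : ℝ := 2 ^ n * Real.exp (n / 2) with hA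
  have hA0 : 0 < A := by positivity
  have hpt : ∀ J : Pair n → ℝ, (⨆ s : Conf n, skEnergy (-J) s)
      ≤ Real.log A - 1 + A⁻¹ * ∑ s : Conf n, Real.exp (skEnergy (-J) s) := by
    intro J
    apply ciSup_le
    intro s
    have h1 := Real.add_one_le_exp (skEnergy (-J) s - Real.log A)
    rw [Real.exp_sub, Real.exp_log hA0] at h1
    have h2 : Real.exp (skEnergy (-J) s) ≤ ∑ s : Conf n, Real.exp (skEnergy (-J) s) :=
      Finset.single_le_sum (f := fun s : Conf n => Real.exp (skEnergy (-J) s))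
        (fun _ _ => (Real.exp_pos _).le) (mem_univ s)
    have h3 : Real.exp (skEnergy (-J) s) / A ≤ A⁻¹ * ∑ s : Conf n, Real.exp (skEnergy (-J) s) := by
      rw [div_eq_inv_mul]
      exact mul_le_mul_of_nonneg_left h2 (by positivity)
    linarith
  have hi1 : Integrable (fun J : Pair n → ℝ => ⨆ s : Conf n, skEnergy (-J) s)
      (gLaw (Pair n)) := by
    apply integrable_iSup (fun (s : Conf n) (J : Pair n → ℝ) => skEnergy (-J) s)
    · intro s; exact integrable_energy_neg s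
    · intro s
      have := continuous_skEnergy (n := n) s
      exact (this.comp continuous_neg).measurable
  have hi2 : Integrable (fun J : Pair n → ℝ => ∑ s : Conf n, Real.exp (skEnergy (-J) s))
      (gLaw (Pair n)) := integrable_finsetSum _ fun s _ => integrable_exp_energy s
  calc ∫ J : Pair n → ℝ, (⨆ s : Conf n, skEnergy (-J) s) ∂(gLaw (Pair n))
      ≤ ∫ J : Pair n → ℝ, (Real.log A - 1 + A⁻¹ * ∑ s : Conf n, Real.exp (skEnergy (-J) s))
          ∂(gLaw (Pair n)) := by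
        apply integral_mono hi1
        · exact (integrable_const _).add (hi2.const_mul _)
        · exact hpt
    _ = Real.log A - 1 + A⁻¹ * ∑ s : Conf n,
          ∫ J : Pair n → ℝ, Real.exp (skEnergy (-J) s) ∂(gLaw (Pair n)) := by
        rw [integral_add (integrable_const _) (hi2.const_mul _), integral_const_mul,
          integral_finsetSum _ fun s _ => integrable_exp_energy s]
        simp
    _ ≤ Real.log A - 1 + A⁻¹ * ∑ s : Conf n, Real.exp (n / 2) := by
        have := Finset.sum_le_sum (s := (univ : Finset (Conf n)))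
          fun s _ => integral_exp_energy s
        have := mul_le_mul_of_nonneg_left this (show 0 ≤ A⁻¹ by positivity)
        linarith
    _ = Real.log A := by
        rw [Finset.sum_const, Finset.card_univ, nsmul_eq_mul, Fintype.card_fun,
          Fintype.card_bool, Fintype.card_fin]
        push_cast
        rw [← hA, inv_mul_cancel₀ hA0.ne']
        ring
    _ ≤ 2 * n := by
        rw [hA, Real.log_mul (by positivity) (Real.exp_pos _).ne', Real.log_exp, Real.log_pow]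
        have := Real.log_two_lt_d9
        nlinarith

lemma qaoaMean_eq (J : Pair n → ℝ) (p : ℕ) (γ β : Fin p → ℝ) :
    qaoaMean J p γ β = ∑ s, ‖qaoaState J p γ β s‖ ^ 2 * skEnergy J s := by
  unfold qaoaMean
  have h : star (qaoaState J p γ β) ⬝ᵥ (costOp J *ᵥ qaoaState J p γ β)
      = ((∑ s, ‖qaoaState J p γ β s‖ ^ 2 * skEnergy J s : ℝ) : ℂ) := by
    rw [costOp_eq, dotProduct]
    push_cast
    apply Finset.sum_congr rfl
    intro s _
    rw [Matrix.mulVec_diagonal]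
    simp only [Pi.star_apply, RCLike.star_def]
    rw [mul_left_comm, mul_comm ((starRingEnd ℂ) _), Complex.mul_conj,
      Complex.normSq_eq_norm_sq]
    push_cast
    ring
  rw [h, Complex.ofReal_re]

/-- The constant coming from the misalignment lemma. -/
noncomputable def d0 (T : ℝ) : ℝ :=
  Real.exp (-(18 * (1200 * (1 + T)) ^ 2 + 12 * T * (1200 * (1 + T)))) / (4 * (1200 * (1 + T)))

lemma d0_pos {T : ℝ} (hT : 0 ≤ T) : 0 < d0 T := by
  unfold d0
  have := Real.exp_pos (-(18 * (1200 * (1 + T)) ^ 2 + 12 * T * (1200 * (1 + T))))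
  positivity

lemma d0_le_one {T : ℝ} (hT : 0 ≤ T) : d0 T ≤ 1 := by
  unfold d0
  rw [div_le_one (by positivity)]
  have h1 : Real.exp (-(18 * (1200 * (1 + T)) ^ 2 + 12 * T * (1200 * (1 + T)))) ≤ 1 := by
    apply Real.exp_le_one_iff.mpr
    have : 0 ≤ 18 * (1200 * (1 + T)) ^ 2 + 12 * T * (1200 * (1 + T)) := by positivity
    linarith
  linarith

lemma d0_sq_lower {T : ℝ} (hT : 0 ≤ T) :
    Real.exp (-(10 ^ 8 * (1 + T) ^ 2)) ≤ d0 T ^ 2 / 8 := by
  set a : ℝ := 1 + T with ha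
  have ha1 : 1 ≤ a := by rw [ha]; linarith
  have h1 : Real.exp (-(3 * 10 ^ 7 * a ^ 2)) ≤ d0 T := by
    unfold d0
    rw [← ha, le_div_iff₀ (by positivity)]
    have h2 : 4 * (1200 * a) ≤ Real.exp (4 * (1200 * a)) := by
      have := Real.add_one_le_exp (4 * (1200 * a))
      linarith
    calc Real.exp (-(3 * 10 ^ 7 * a ^ 2)) * (4 * (1200 * a))
        ≤ Real.exp (-(3 * 10 ^ 7 * a ^ 2)) * Real.exp (4 * (1200 * a)) :=
          mul_le_mul_of_nonneg_left h2 (Real.exp_pos _).le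
      _ = Real.exp (-(3 * 10 ^ 7 * a ^ 2) + 4 * (1200 * a)) := (Real.exp_add _ _).symm
      _ ≤ _ := by
          apply Real.exp_le_exp.mpr
          have hT' : T = a - 1 := by rw [ha]; ring
          rw [hT']
          nlinarith
  have h3 : (8 : ℝ) ≤ Real.exp 3 := by
    have h4 : Real.exp 3 = Real.exp 1 ^ 3 := by
      rw [← Real.exp_nat_mul]; norm_num
    rw [h4]
    have h5 := Real.exp_one_gt_d9
    have h6 : (2.7 : ℝ) ≤ Real.exp 1 := by linarith
    calc (8 : ℝ) ≤ 2.7 ^ 3 := by norm_num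
      _ ≤ Real.exp 1 ^ 3 := pow_le_pow_left₀ (by norm_num) h6 3
  rw [le_div_iff₀ (by norm_num)]
  calc Real.exp (-(10 ^ 8 * a ^ 2)) * 8 ≤ Real.exp (-(10 ^ 8 * a ^ 2)) * Real.exp 3 :=
        mul_le_mul_of_nonneg_left h3 (Real.exp_pos _).le
    _ = Real.exp (-(10 ^ 8 * a ^ 2) + 3) := (Real.exp_add _ _).symm
    _ ≤ Real.exp (-(3 * 10 ^ 7 * a ^ 2) + -(3 * 10 ^ 7 * a ^ 2)) := by
        apply Real.exp_le_exp.mpr
        nlinarith
    _ = Real.exp (-(3 * 10 ^ 7 * a ^ 2)) ^ 2 := by rw [Real.exp_add]; ring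
    _ ≤ d0 T ^ 2 := pow_le_pow_left₀ (Real.exp_pos _).le h1 2

/-- **Main theorem**, finite size. -/
theorem gap_finite (T : ℝ) (n : ℕ) (hn : 2 ≤ n) (p : ℕ) (γ β : Fin p → ℝ)
    (hγ : ∑ k, |γ k| ≤ T) :
    qaoaValue n p γ β ≤ groundValue n - Real.exp (-(10 ^ 8 * (1 + T) ^ 2)) := by
  have hT : 0 ≤ T := le_trans (Finset.sum_nonneg fun k _ => abs_nonneg _) hγ
  have hn0 : 0 < n := by omega
  have hnr : (0 : ℝ) < n := by exact_mod_cast hn0
  have hn2 : (2 : ℝ) ≤ n := by exact_mod_cast hn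
  -- extended angle sequences
  set γ' : ℕ → ℝ := fun k => if h : k < p then γ ⟨k, h⟩ else 0 with hγ'
  set β' : ℕ → ℝ := fun k => if h : k < p then β ⟨k, h⟩ else 0 with hβ'
  have hγe : ∀ k : Fin p, γ' k = γ k := by
    intro k; simp [hγ', k.2]
  have hβe : ∀ k : Fin p, β' k = β k := by
    intro k; simp [hβ', k.2]
  set D : ℕ → Hil n →ₗ[ℂ] Hil n := fun k => matL (mixU n (β' k)) with hD
  have hDn : ∀ k v, ‖D k v‖ = ‖v‖ := fun k v => norm_matL _ (mixU_unitary _) v
  have hsumγ : ∑ l ∈ range p, |γ' l| ≤ T := by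
    rw [← Fin.sum_univ_eq_sum_range (fun l => |γ' l|) p]
    simp only [hγe]
    exact hγ
  have hstate : ∀ J : Pair n → ℝ, circ D γ' (cE J) (plusH n) p
      = WithLp.toLp 2 (qaoaState J p γ β) := fun J =>
    circ_eq_qaoa J p γ β γ' β' hγe hβe
  set ψ : (Pair n → ℝ) → Conf n → ℂ := fun J => qaoaState J p γ β with hψ
  have hψc : ∀ J s, ψ J s = circ D γ' (cE J) (plusH n) p s := by
    intro J s
    rw [hstate J]
  have hmeas : ∀ s, Measurable fun J => ψ J s := by
    intro s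
    have h1 := continuous_circ D γ' (plusH n) p
    have h2 : Continuous fun J : Pair n → ℝ => (circ D γ' (cE J) (plusH n) p) s :=
      (PiLp.continuous_apply 2 _ s).comp h1
    have h3 : (fun J => ψ J s) = fun J => circ D γ' (cE J) (plusH n) p s := by
      funext J; exact hψc J s
    rw [h3]
    exact h2.measurable
  have hnorm : ∀ J, ∑ s, ‖ψ J s‖ ^ 2 = 1 := by
    intro J
    have h1 := norm_circ_real D hDn γ' J (plusH n) p
    rw [norm_plusH, EuclideanSpace.norm_eq] at h1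
    have h2 : ∑ s, ‖circ D γ' (cE J) (plusH n) p s‖ ^ 2 = 1 := by
      have h3 := congrArg (fun x : ℝ => x ^ 2) h1
      simp only at h3
      rw [Real.sq_sqrt (Finset.sum_nonneg fun s _ => by positivity)] at h3
      rw [h3]; norm_num
    simp only [hψc]
    exact h2
  have hκ : (1 : ℝ) / 2 ≤ 1 - (n : ℝ)⁻¹ := by
    have : (n : ℝ)⁻¹ ≤ 1 / 2 := by
      rw [inv_le_comm₀ hnr (by norm_num)]
      linarith
    linarith
  have hκ1 : 1 - (n : ℝ)⁻¹ ≤ 1 := by
    have : 0 < (n : ℝ)⁻¹ := by positivity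
    linarith
  have hmis : ∀ i : Fin n, d0 T ≤ Dmis ψ (uvec i) := by
    intro i
    apply Dmis_lower hκ hκ1 (fun s => uvec_sq hn0 i s) hmeas hnorm hT
    intro J
    refine ⟨fun z => Fsh D γ' (skEnergy J) i (plusH n) p z, ?_, ?_, ?_⟩
    · intro s
      exact (differentiable_euclidean.1 (differentiable_Fsh D γ' (skEnergy J) i (plusH n) p)) s
    · intro r s
      rw [hψc]
      have h1 : (fun z => ((skEnergy J z : ℝ) : ℂ) - (r : ℂ) * ((Rov i s z : ℝ) : ℂ))
          = cE (J - r • uvec i s) := by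
        funext z
        unfold cE
        rw [skEnergy_shift]
        push_cast
        ring
      show circ D γ' (fun z => ((skEnergy J z : ℝ) : ℂ) - (r : ℂ) * ((Rov i s z : ℝ) : ℂ))
        (plusH n) p s = _
      rw [h1]
    · intro z y hy
      refine le_trans (cs_pairing y _ hy) ?_
      have h1 := norm_Fsh_le D (fun k v => (hDn k v).le) γ' (skEnergy J) i (plusH n) p z
      rw [norm_plusH, mul_one, EuclideanSpace.norm_eq] at h1
      refine le_trans h1 ?_
      apply Real.exp_le_exp.mpr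
      exact mul_le_mul_of_nonneg_right hsumγ (norm_nonneg _)
  -- pointwise inequality
  set q : ℝ := d0 T / 8 with hq
  have hd0 := d0_pos hT
  have hd1 := d0_le_one hT
  have hq0 : 0 ≤ q := by positivity
  have hq1 : q ≤ 1 := by rw [hq]; linarith
  have hpt : ∀ J : Pair n → ℝ,
      qaoaMean J p γ β + 2 * q * ∑ i, ∑ s, ‖ψ J s‖ ^ 2 * max (-(tt (uvec i) s J)) 0
        ≤ (⨆ s : Conf n, skEnergy J s) + 4 * q ^ 2 * ⨆ s : Conf n, skEnergy (-J) s := by
    intro J
    rw [qaoaMean_eq]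
    exact flip_avg J (fun s => ‖ψ J s‖ ^ 2) (fun s => by positivity) (hnorm J) q hq0 hq1
  have iE : Integrable (fun J : Pair n → ℝ => qaoaMean J p γ β) (gLaw (Pair n)) := by
    have h1 : (fun J : Pair n → ℝ => qaoaMean J p γ β)
        = fun J => ∑ s, ‖ψ J s‖ ^ 2 * skEnergy J s := by
      funext J; exact qaoaMean_eq J p γ β
    rw [h1]
    apply integrable_finsetSum
    intro s _
    refine (integrable_energy s).abs.mono' ?_ (Filter.Eventually.of_forall fun J => ?_)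
    · apply Measurable.aestronglyMeasurable
      exact ((hmeas s).norm.pow_const 2).mul (continuous_skEnergy s).measurable
    · rw [norm_mul, Real.norm_eq_abs, Real.norm_eq_abs, abs_of_nonneg (by positivity)]
      calc ‖ψ J s‖ ^ 2 * |skEnergy J s| ≤ 1 * |skEnergy J s| :=
            mul_le_mul_of_nonneg_right (norm_sq_le_one (hnorm J) s) (abs_nonneg _)
        _ = _ := one_mul _
  have iM : ∀ i : Fin n, Integrable
      (fun J : Pair n → ℝ => ∑ s, ‖ψ J s‖ ^ 2 * max (-(tt (uvec i) s J)) 0) (gLaw (Pair n)) :=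
    fun i => integrable_finsetSum _ fun s _ => integrable_mis ψ (uvec i) hmeas hnorm s
  have iS1 : Integrable (fun J : Pair n → ℝ => ⨆ s : Conf n, skEnergy J s) (gLaw (Pair n)) :=
    integrable_iSup (fun (s : Conf n) (J : Pair n → ℝ) => skEnergy J s)
      (fun s => integrable_energy s) (fun s => (continuous_skEnergy s).measurable)
  have iS2 : Integrable (fun J : Pair n → ℝ => ⨆ s : Conf n, skEnergy (-J) s)
      (gLaw (Pair n)) :=
    integrable_iSup (fun (s : Conf n) (J : Pair n → ℝ) => skEnergy (-J) s)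
      (fun s => integrable_energy_neg s)
      (fun s => ((continuous_skEnergy s).comp continuous_neg).measurable)
  have hint : ∫ J, (qaoaMean J p γ β
        + 2 * q * ∑ i, ∑ s, ‖ψ J s‖ ^ 2 * max (-(tt (uvec i) s J)) 0) ∂(gLaw (Pair n))
      ≤ ∫ J : Pair n → ℝ, ((⨆ s : Conf n, skEnergy J s)
        + 4 * q ^ 2 * ⨆ s : Conf n, skEnergy (-J) s) ∂(gLaw (Pair n)) := by
    apply integral_mono
    · exact iE.add ((integrable_finsetSum _ fun i _ => iM i).const_mul _)
    · exact iS1.add (iS2.const_mul _)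
    · exact hpt
  rw [integral_add iE ((integrable_finsetSum _ fun i _ => iM i).const_mul _),
    integral_add iS1 (iS2.const_mul _), integral_const_mul, integral_const_mul,
    integral_finsetSum _ fun i _ => iM i] at hint
  have hsumD : (n : ℝ) * d0 T ≤ ∑ i : Fin n,
      ∫ J : Pair n → ℝ, ∑ s, ‖ψ J s‖ ^ 2 * max (-(tt (uvec i) s J)) 0 ∂(gLaw (Pair n)) := by
    calc (n : ℝ) * d0 T = ∑ _i : Fin n, d0 T := by simp
      _ ≤ _ := Finset.sum_le_sum fun i _ => hmis i
  have hneg := integral_sup_neg_le hn0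
  have hQ : (n : ℝ) * qaoaValue n p γ β = ∫ J, qaoaMean J p γ β ∂(gLaw (Pair n)) := by
    unfold qaoaValue couplingLaw
    rw [← mul_assoc, mul_inv_cancel₀ hnr.ne', one_mul]
  have hP : (n : ℝ) * groundValue n
      = ∫ J : Pair n → ℝ, (⨆ s : Conf n, skEnergy J s) ∂(gLaw (Pair n)) := by
    unfold groundValue couplingLaw
    rw [← mul_assoc, mul_inv_cancel₀ hnr.ne', one_mul]
  rw [← hQ, ← hP] at hint
  have h1 : 2 * q * ((n : ℝ) * d0 T) ≤ 2 * q * ∑ i : Fin n,
      ∫ J : Pair n → ℝ, ∑ s, ‖ψ J s‖ ^ 2 * max (-(tt (uvec i) s J)) 0 ∂(gLaw (Pair n)) :=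
    mul_le_mul_of_nonneg_left hsumD (by positivity)
  have h2 : 4 * q ^ 2 * ∫ J : Pair n → ℝ, (⨆ s : Conf n, skEnergy (-J) s) ∂(gLaw (Pair n))
      ≤ 4 * q ^ 2 * (2 * n) := mul_le_mul_of_nonneg_left hneg (by positivity)
  have h3 : (n : ℝ) * qaoaValue n p γ β + (n : ℝ) * (d0 T ^ 2 / 8) ≤ (n : ℝ) * groundValue n := by
    have h4 : 2 * q * ((n : ℝ) * d0 T) - 4 * q ^ 2 * (2 * n) = (n : ℝ) * (d0 T ^ 2 / 8) := by
      rw [hq]; ring
    linarith
  have h5 : qaoaValue n p γ β + d0 T ^ 2 / 8 ≤ groundValue n := by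
    have : (n : ℝ) * (qaoaValue n p γ β + d0 T ^ 2 / 8) ≤ (n : ℝ) * groundValue n := by
      rw [mul_add]; exact h3
    exact le_of_mul_le_mul_left this hnr
  have h6 := d0_sq_lower hT
  exact le_sub_iff_add_le.mpr (le_trans (add_le_add le_rfl h6) h5)

/-- **Main theorem**, limit form. -/
theorem gap_limit (T : ℝ) (p : ℕ) (γ β : Fin p → ℝ) (hγ : ∑ k, |γ k| ≤ T) (v P : ℝ)
    (hv : Tendsto (fun n => qaoaValue n p γ β) atTop (𝓝 v))
    (hP : Tendsto groundValue atTop (𝓝 P)) :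
    v ≤ P - Real.exp (-(10 ^ 8 * (1 + T) ^ 2)) := by
  apply le_of_tendsto_of_tendsto hv (hP.sub_const _)
  filter_upwards [eventually_ge_atTop 2] with n hn
  exact gap_finite T n hn p γ β hγ

end Vale.Agent.P367.Gap
end

section

namespace Vale.Agent.P367.Lim

open Finset Filter Topology MeasureTheory ProbabilityTheory
open scoped NNReal

lemma grid_lower (K : ℕ) (hK : 1 ≤ K) (x : ℝ) (hx : |x| ≤ 24) :
    Real.exp (-(1 / 8)) ≤ ∑ m ∈ Icc (-(24 * K : ℤ)) (24 * K),
      Real.exp (-((K : ℝ) ^ 2 * (x - (m : ℝ) / K) ^ 2 / 2)) := by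
  have hK0 : (0 : ℝ) < K := by exact_mod_cast (by omega : 0 < K)
  set m : ℤ := round (x * K) with hm
  have h1 : |x * K - m| ≤ 1 / 2 := abs_sub_round (x * K)
  have hmem : m ∈ Icc (-(24 * K : ℤ)) (24 * K) := by
    have h2 := abs_le.1 hx
    have h3 := abs_le.1 h1
    rw [mem_Icc]
    constructor
    · have h4 : (-(24 * K : ℤ) : ℝ) - 1 < m := by
        push_cast
        nlinarith
      have : (-(24 * K : ℤ)) - 1 < m := by exact_mod_cast h4
      omega
    · have h4 : (m : ℝ) < (24 * K : ℤ) + 1 := by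
        push_cast
        nlinarith
      have : m < 24 * K + 1 := by exact_mod_cast h4
      omega
  refine le_trans ?_ (single_le_sum (f := fun m : ℤ =>
    Real.exp (-((K : ℝ) ^ 2 * (x - (m : ℝ) / K) ^ 2 / 2))) (fun _ _ => (Real.exp_pos _).le) hmem)
  apply Real.exp_le_exp.2
  have h5 : (K : ℝ) ^ 2 * (x - (m : ℝ) / K) ^ 2 = (x * K - m) ^ 2 := by
    field_simp
  rw [h5]
  have h6 : (x * K - m) ^ 2 ≤ (1 / 2) ^ 2 := by
    rw [← sq_abs]
    exact pow_le_pow_left₀ (abs_nonneg _) h1 2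
  linarith

theorem misalign_of_charFun (N : ℕ) : ∃ ε : ℝ, 0 < ε ∧ ∀ (ι : Type) [Fintype ι],
    Fintype.card ι ≤ N → ∀ (c μ : ι → ℂ),
    (∀ j (ξ : ℝ), ‖c j‖ * Real.exp (-(ξ * (μ j).re) - ξ ^ 2 / 2) ≤ 1) →
    ∀ (lam : ℕ → Measure ℝ), (∀ n, IsProbabilityMeasure (lam n)) →
    (∀ ξ : ℝ, Tendsto (fun n => ∫ x, Complex.exp (-(Complex.I * ξ * x)) ∂(lam n)) atTop
      (𝓝 (∑ j, c j * Complex.exp (-(ξ * μ j) - (ξ : ℂ) ^ 2 / 2)))) →
    (∀ᶠ n in atTop, 3 / 4 ≤ (lam n).real {x | |x| ≤ 24}) →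
    ∀ᶠ n in atTop, ε ≤ (lam n).real {x | x < -1} := by
  set Y : ℝ := 24 + 30 * N with hY
  have hN0 : (0 : ℝ) ≤ N := Nat.cast_nonneg N
  obtain ⟨K, hK1, hYK, hKs⟩ := exists_K N Y (by positivity)
  have hK0 : (0 : ℝ) < K := by exact_mod_cast (by omega : 0 < K)
  have hK1' : (1 : ℝ) ≤ K := by exact_mod_cast hK1
  set A : ℝ := (1 + Real.exp (30 * K)) ^ N * Real.exp (Y ^ 2 / 2) with hA
  have hA1 : 1 ≤ A := by
    rw [hA]
    have h1 : 1 ≤ (1 + Real.exp (30 * K)) ^ N := one_le_pow₀ (by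
      have := Real.exp_pos (30 * (K : ℝ)); linarith)
    have h2 : 1 ≤ Real.exp (Y ^ 2 / 2) := Real.one_le_exp (by positivity)
    nlinarith
  set B : ℝ := N * Real.exp (-((K - Y) ^ 2 / 4)) with hB
  have hB0 : 0 ≤ B := by positivity
  set E : ℝ := Real.exp (-(25 * K ^ 2 / 2)) with hE
  have hE0 : 0 < E := Real.exp_pos _
  set Z : ℝ := 49 * K * A with hZ
  have hZ0 : 0 < Z := by positivity
  refine ⟨1 / (4 * Z), by positivity, ?_⟩
  intro ι _ hcard c μ hb lam hlam hconv htight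
  set V : ℝ≥0 := (K : ℝ≥0) ^ 2 with hV
  have hVr : (V : ℝ) = (K : ℝ) ^ 2 := by rw [hV]; push_cast; rfl
  have hV0 : V ≠ 0 := by
    rw [hV]
    have : (K : ℝ≥0) ≠ 0 := by exact_mod_cast (by omega : K ≠ 0)
    positivity
  have hV1 : 1 ≤ (V : ℝ) := by rw [hVr]; nlinarith
  obtain ⟨κ, hκ0, hκ1, hκ⟩ := gauss_exp_quadratic V hV0
  -- limiting smoothed density
  set h : ℝ → ℂ := fun y => ∑ j, c j * (κ * Complex.exp (((V / (2 * (1 + V)) : ℝ) : ℂ)
        * (Complex.I * y - μ j) ^ 2)) with hh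
  set hn : ℕ → ℝ → ℝ := fun n y => ∫ x, Real.exp (-(V * (x - y) ^ 2 / 2)) ∂(lam n) with hhn
  have hnorm : ∀ y : ℝ, Tendsto (fun n => hn n y) atTop (𝓝 ‖h y‖) := by
    intro y
    have h1 := (tendsto_smooth V κ hκ c μ lam hlam hconv y).norm
    refine h1.congr fun n => ?_
    rw [Complex.norm_real, Real.norm_eq_abs, abs_of_nonneg]
    exact integral_nonneg fun x => (Real.exp_pos _).le
  set e1 : ℝ := 1 / (16 * Z) with he1
  have he1p : 0 < e1 := by positivity
  set grid := Icc (-(24 * K : ℤ)) (24 * K) with hgrid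
  have hev1 : ∀ᶠ n in atTop, ∀ m ∈ grid, hn n ((m : ℝ) / K) ≤ ‖h ((m : ℝ) / K)‖ + e1 := by
    rw [Filter.eventually_all_finset]
    intro m _
    have := (hnorm ((m : ℝ) / K)).eventually_lt_const
      (show ‖h ((m : ℝ) / K)‖ < ‖h ((m : ℝ) / K)‖ + e1 by linarith)
    exact this.mono fun n hn => hn.le
  have hev2 : ∀ᶠ n in atTop, ∀ m ∈ grid, ∀ ν ∈ Ico 1 (N + 1),
      ‖h ((m : ℝ) / K - ν * 30)‖ ≤ hn n ((m : ℝ) / K - ν * 30) + e1 := by
    rw [Filter.eventually_all_finset]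
    intro m _
    rw [Filter.eventually_all_finset]
    intro ν _
    have := (hnorm ((m : ℝ) / K - ν * 30)).eventually_const_lt
      (show ‖h ((m : ℝ) / K - ν * 30)‖ - e1 < ‖h ((m : ℝ) / K - ν * 30)‖ by linarith)
    exact this.mono fun n hn => by linarith
  filter_upwards [hev1, hev2, htight] with n hg hnode ht
  have := hlam n
  set pn : ℝ := (lam n).real {x | x < -1} with hpn
  have hpn0 : 0 ≤ pn := measureReal_nonneg
  -- integrability of the Gaussian bumps
  have hint : ∀ y : ℝ, Integrable (fun x : ℝ => Real.exp (-(V * (x - y) ^ 2 / 2))) (lam n) := by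
    intro y
    refine (integrable_const (1 : ℝ)).mono' ?_ ?_
    · exact (Continuous.aestronglyMeasurable (by fun_prop))
    · refine Eventually.of_forall fun x => ?_
      rw [Real.norm_eq_abs, Real.abs_exp]
      exact Real.exp_le_one_iff.2 (by
        have := mul_nonneg V.coe_nonneg (sq_nonneg (x - y)); linarith)
  have hgridabs : ∀ m ∈ grid, |(m : ℝ) / K| ≤ 24 := by
    intro m hm
    rw [hgrid, mem_Icc] at hm
    rw [abs_div, abs_of_pos hK0, div_le_iff₀ hK0, abs_le]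
    constructor
    · have : ((-(24 * K : ℤ) : ℤ) : ℝ) ≤ m := by exact_mod_cast hm.1
      push_cast at this
      linarith
    · have : (m : ℝ) ≤ ((24 * K : ℤ) : ℝ) := by exact_mod_cast hm.2
      push_cast at this
      linarith
  -- nodes are small
  have hsmall : ∀ y : ℝ, y ≤ -6 → hn n y ≤ pn + E := by
    intro y hy
    have h1 : hn n y ≤ ∫ x, ({x : ℝ | x < -1}.indicator (fun _ => (1 : ℝ)) x + E) ∂(lam n) := by
      refine integral_mono (hint y) ?_ ?_
      · refine Integrable.add ?_ (integrable_const _)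
        exact (integrable_const (1 : ℝ)).indicator measurableSet_Iio
      · intro x
        simp only
        by_cases hx : x < -1
        · have hx' : x ∈ {x : ℝ | x < -1} := hx
          rw [Set.indicator_of_mem hx']
          have : Real.exp (-(V * (x - y) ^ 2 / 2)) ≤ 1 := Real.exp_le_one_iff.2 (by
            have := mul_nonneg V.coe_nonneg (sq_nonneg (x - y)); linarith)
          linarith
        · have hx' : x ∉ {x : ℝ | x < -1} := hx
          rw [Set.indicator_of_notMem hx', zero_add, hE]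
          apply Real.exp_le_exp.2
          push Not at hx
          rw [hVr]
          have h2 : 5 ≤ x - y := by linarith
          have h3 : (25 : ℝ) ≤ (x - y) ^ 2 := by nlinarith
          have h4 : 0 ≤ (K : ℝ) ^ 2 := by positivity
          nlinarith
    refine h1.trans (le_of_eq ?_)
    have hms : MeasurableSet {x : ℝ | x < -1} := measurableSet_Iio
    have hI : Integrable ({x : ℝ | x < -1}.indicator (fun _ => (1 : ℝ))) (lam n) :=
      (integrable_const (1 : ℝ)).indicator hms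
    rw [integral_add hI (integrable_const _), integral_indicator hms]
    simp only [integral_const, MeasurableSet.univ, measureReal_restrict_apply, Set.univ_inter,
      smul_eq_mul, mul_one, probReal_univ, one_mul]
    rfl
  -- bound of the limit density on the grid
  have hbound : ∀ m ∈ grid, ‖h ((m : ℝ) / K)‖ ≤ A * (pn + E + e1 + B) + B := by
    intro m hm
    refine extrap_smooth N K V hV1 κ hκ0 hκ1 Y hYK le_rfl hcard c μ hb _ (hgridabs m hm) _
      (by positivity) ?_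
    intro ν hν
    have h1 := hnode m hm ν hν
    have h2 := hsmall ((m : ℝ) / K - ν * 30) (by
      have := (abs_le.1 (hgridabs m hm)).2
      have : (1 : ℝ) ≤ ν := by exact_mod_cast (mem_Ico.1 hν).1
      linarith)
    exact h1.trans (by linarith)
  -- lower bound
  have hlow : 1 / 2 ≤ ∑ m ∈ grid, hn n ((m : ℝ) / K) := by
    have h1 : ∫ x, ({x : ℝ | |x| ≤ 24}.indicator (fun _ => Real.exp (-(1 / 8))) x) ∂(lam n)
        ≤ ∫ x, ∑ m ∈ grid, Real.exp (-(V * (x - (m : ℝ) / K) ^ 2 / 2)) ∂(lam n) := by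
      refine integral_mono ?_ ?_ ?_
      · exact (integrable_const _).indicator (measurableSet_le (by fun_prop) (by fun_prop))
      · exact integrable_finsetSum _ fun m _ => hint _
      · intro x
        simp only
        by_cases hx : |x| ≤ 24
        · have hx' : x ∈ {x : ℝ | |x| ≤ 24} := hx
          rw [Set.indicator_of_mem hx', hVr]
          exact grid_lower K hK1 x hx
        · have hx' : x ∉ {x : ℝ | |x| ≤ 24} := hx
          rw [Set.indicator_of_notMem hx']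
          exact sum_nonneg fun _ _ => (Real.exp_pos _).le
    rw [integral_finsetSum _ fun m _ => hint _] at h1
    refine le_trans ?_ h1
    rw [integral_indicator (measurableSet_le (by fun_prop) (by fun_prop))]
    simp only [integral_const, MeasurableSet.univ, measureReal_restrict_apply, Set.univ_inter,
      smul_eq_mul]
    have h2 : (7 / 8 : ℝ) ≤ Real.exp (-(1 / 8)) := by
      have := Real.add_one_le_exp (-(1 / 8 : ℝ))
      linarith
    calc (1 / 2 : ℝ) ≤ 3 / 4 * (7 / 8) := by norm_num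
      _ ≤ (lam n).real {x | |x| ≤ 24} * Real.exp (-(1 / 8)) := by gcongr
  have hcardgrid : (grid.card : ℝ) ≤ 49 * K := by
    rw [hgrid, Int.card_Icc]
    have : ((24 * K + 1 - -(24 * K : ℤ)).toNat : ℝ) = 48 * K + 1 := by
      have h1 : (24 * (K : ℤ) + 1 - -(24 * K : ℤ)).toNat = 48 * K + 1 := by omega
      rw [h1]
      push_cast
      ring
    rw [this]
    linarith
  have hup : ∑ m ∈ grid, hn n ((m : ℝ) / K) ≤ 49 * K * (A * (pn + E + e1 + B) + B + e1) := by
    calc ∑ m ∈ grid, hn n ((m : ℝ) / K) ≤ ∑ _m ∈ grid, (A * (pn + E + e1 + B) + B + e1) := by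
          refine sum_le_sum fun m hm => ?_
          have := hg m hm
          have := hbound m hm
          linarith
      _ = (grid.card : ℝ) * (A * (pn + E + e1 + B) + B + e1) := by
          rw [sum_const, nsmul_eq_mul]
      _ ≤ 49 * K * (A * (pn + E + e1 + B) + B + e1) := by
          gcongr
  have hfin : 1 / 2 ≤ Z * pn + Z * (E + 2 * B) + 2 * (Z * e1) := by
    have h1 := hlow.trans hup
    have h2 : A * (pn + E + e1 + B) + B + e1 ≤ A * pn + A * (E + 2 * B) + 2 * (A * e1) := by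
      nlinarith
    have h3 : 49 * K * (A * (pn + E + e1 + B) + B + e1)
        ≤ 49 * K * (A * pn + A * (E + 2 * B) + 2 * (A * e1)) := by gcongr
    calc (1 / 2 : ℝ) ≤ 49 * K * (A * pn + A * (E + 2 * B) + 2 * (A * e1)) := h1.trans h3
      _ = _ := by rw [hZ]; ring
  have hZe : Z * e1 = 1 / 16 := by
    rw [he1]; field_simp
  have hZEB : Z * (E + 2 * B) ≤ 1 / 8 := by
    rw [hZ, hA, hE, hB]
    exact hKs
  have : 1 / 4 ≤ Z * pn := by linarith
  rw [div_le_iff₀ (by positivity)]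
  linarith

end Vale.Agent.P367.Lim
end

section

namespace Vale.Agent.P367.Lim

open Finset ComplexConjugate MeasureTheory ProbabilityTheory Filter Topology ENNReal
  Vale.Agent.P367.Gap

/-- uniform misalignment at fixed depth, given tightness -/
theorem misalign_qaoa (p : ℕ)
    (hB : ∀ (n : ℕ), 1 ≤ n → ∀ (γ β : Fin p → ℝ), 3 / 4 ≤ (alf n p γ β).real {x | |x| ≤ 24}) :
    ∃ ε : ℝ, 0 < ε ∧ ∀ γ β : Fin p → ℝ,
      ∀ᶠ n : ℕ in atTop, ε ≤ (alf n p γ β).real {x | x < -1} := by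
  obtain ⟨ε, hε, h⟩ := misalign_of_charFun (Fintype.card (CP p))
  refine ⟨ε, hε, fun γ β => ?_⟩
  have h1 := h (CP p) le_rfl (cx (extA γ) (extA β) p) (mx (extA γ) (extA β) p)
    (fun x ξ => norm_cx_le (extA γ) (extA β) p x ξ) (fun m => alf (m + 1) p γ β)
    (fun m => isProb_alf p γ β (Nat.succ_pos m)) (fun ξ => tendsto_char_alf p γ β ξ)
    (Eventually.of_forall fun m => hB (m + 1) (by omega) γ β)
  rw [eventually_atTop] at h1 ⊢
  obtain ⟨M, hM⟩ := h1
  refine ⟨M + 1, fun n hn => ?_⟩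
  obtain ⟨m, rfl⟩ : ∃ m, n = m + 1 := ⟨n - 1, by omega⟩
  exact hM m (by omega)

end Vale.Agent.P367.Lim
end

section

open MeasureTheory ProbabilityTheory Finset Matrix Filter Topology

namespace Vale.Agent.P367.Gap

variable {n : ℕ}

lemma two_card_pair_le (n : ℕ) : 2 * (Fintype.card (Pair n) : ℝ) ≤ n * n := by
  have h := sum_pair (n := n) (fun _ _ => (1 : ℝ))
  have h1 : (Fintype.card (Pair n) : ℝ) = ∑ a : Fin n, ∑ b : Fin n, if a < b then (1 : ℝ) else 0 := by
    rw [← h]; simp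
  have h2 : ∑ a : Fin n, ∑ b : Fin n, (if a < b then (1 : ℝ) else 0)
      = ∑ a : Fin n, ∑ b : Fin n, (if b < a then (1 : ℝ) else 0) := Finset.sum_comm
  have h3 : 2 * (Fintype.card (Pair n) : ℝ) = ∑ a : Fin n, ∑ b : Fin n,
      ((if a < b then (1 : ℝ) else 0) + (if b < a then (1 : ℝ) else 0)) := by
    rw [two_mul]
    nth_rewrite 2 [h1]
    rw [h2, h1, ← Finset.sum_add_distrib]
    apply Finset.sum_congr rfl
    intro a _
    rw [← Finset.sum_add_distrib]
  rw [h3]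
  calc ∑ a : Fin n, ∑ b : Fin n, ((if a < b then (1 : ℝ) else 0) + (if b < a then (1 : ℝ) else 0))
      ≤ ∑ _a : Fin n, ∑ _b : Fin n, (1 : ℝ) := by
        apply Finset.sum_le_sum; intro a _
        apply Finset.sum_le_sum; intro b _
        rcases lt_trichotomy a b with h | h | h
        · simp [h, h.not_gt]
        · simp [h]
        · simp [h, h.not_gt]
    _ = n * n := by simp

lemma integral_exp_energy2 (s : Conf n) :
    ∫ J : Pair n → ℝ, Real.exp (skEnergy (-J) s) ∂(gLaw (Pair n)) ≤ Real.exp (n / 4) := by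
  have h1 : ∀ J : Pair n → ℝ, skEnergy (-J) s = ∑ e, (-((Real.sqrt n)⁻¹ * chi s e)) * J e := by
    intro J
    unfold skEnergy chi
    rw [Finset.mul_sum]
    apply Finset.sum_congr rfl
    intro e _
    simp only [Pi.neg_apply]
    ring
  simp only [h1]
  rw [integral_exp_linear]
  apply Real.exp_le_exp.mpr
  have h2 : ∀ e : Pair n, (-((Real.sqrt n)⁻¹ * chi s e)) ^ 2 = (n : ℝ)⁻¹ := by
    intro e
    calc (-((Real.sqrt n)⁻¹ * chi s e)) ^ 2
        = ((Real.sqrt n)⁻¹ * (Real.sqrt n)⁻¹) * (chi s e * chi s e) := by ring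
      _ = _ := by rw [inv_sqrt_mul, chi_sq, mul_one]
  simp only [h2, Finset.sum_const, Finset.card_univ, nsmul_eq_mul]
  have h3 := two_card_pair_le n
  rcases Nat.eq_zero_or_pos n with hn | hn
  · subst hn; simp
  · have hn' : (0 : ℝ) < n := by exact_mod_cast hn
    have : (Fintype.card (Pair n) : ℝ) * (n : ℝ)⁻¹ ≤ n / 2 := by
      rw [← div_eq_mul_inv, div_le_iff₀ hn']
      linarith
    linarith

lemma integral_sup_neg_le_one (n : ℕ) :
    ∫ J : Pair n → ℝ, (⨆ s : Conf n, skEnergy (-J) s) ∂(gLaw (Pair n)) ≤ n := by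
  set A : ℝ := 2 ^ n * Real.exp (n / 4) with hA
  have hA0 : 0 < A := by positivity
  have hpt : ∀ J : Pair n → ℝ, (⨆ s : Conf n, skEnergy (-J) s)
      ≤ Real.log A - 1 + A⁻¹ * ∑ s : Conf n, Real.exp (skEnergy (-J) s) := by
    intro J
    apply ciSup_le
    intro s
    have h1 := Real.add_one_le_exp (skEnergy (-J) s - Real.log A)
    rw [Real.exp_sub, Real.exp_log hA0] at h1
    have h2 : Real.exp (skEnergy (-J) s) ≤ ∑ s : Conf n, Real.exp (skEnergy (-J) s) :=
      Finset.single_le_sum (f := fun s : Conf n => Real.exp (skEnergy (-J) s))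
        (fun _ _ => (Real.exp_pos _).le) (mem_univ s)
    have h3 : Real.exp (skEnergy (-J) s) / A ≤ A⁻¹ * ∑ s : Conf n, Real.exp (skEnergy (-J) s) := by
      rw [div_eq_inv_mul]
      exact mul_le_mul_of_nonneg_left h2 (by positivity)
    linarith
  have hi1 : Integrable (fun J : Pair n → ℝ => ⨆ s : Conf n, skEnergy (-J) s)
      (gLaw (Pair n)) := by
    apply integrable_iSup (fun (s : Conf n) (J : Pair n → ℝ) => skEnergy (-J) s)
    · intro s; exact integrable_energy_neg s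
    · intro s
      have := continuous_skEnergy (n := n) s
      exact (this.comp continuous_neg).measurable
  have hi2 : Integrable (fun J : Pair n → ℝ => ∑ s : Conf n, Real.exp (skEnergy (-J) s))
      (gLaw (Pair n)) := integrable_finsetSum _ fun s _ => integrable_exp_energy s
  calc ∫ J : Pair n → ℝ, (⨆ s : Conf n, skEnergy (-J) s) ∂(gLaw (Pair n))
      ≤ ∫ J : Pair n → ℝ, (Real.log A - 1 + A⁻¹ * ∑ s : Conf n, Real.exp (skEnergy (-J) s))
          ∂(gLaw (Pair n)) := by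
        apply integral_mono hi1
        · exact (integrable_const _).add (hi2.const_mul _)
        · exact hpt
    _ = Real.log A - 1 + A⁻¹ * ∑ s : Conf n,
          ∫ J : Pair n → ℝ, Real.exp (skEnergy (-J) s) ∂(gLaw (Pair n)) := by
        rw [integral_add (integrable_const _) (hi2.const_mul _), integral_const_mul,
          integral_finsetSum _ fun s _ => integrable_exp_energy s]
        simp
    _ ≤ Real.log A - 1 + A⁻¹ * ∑ s : Conf n, Real.exp (n / 4) := by
        have := Finset.sum_le_sum (s := (univ : Finset (Conf n)))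
          fun s _ => integral_exp_energy2 s
        have := mul_le_mul_of_nonneg_left this (show 0 ≤ A⁻¹ by positivity)
        linarith
    _ = Real.log A := by
        rw [Finset.sum_const, Finset.card_univ, nsmul_eq_mul, Fintype.card_fun,
          Fintype.card_bool, Fintype.card_fin]
        push_cast
        rw [← hA, inv_mul_cancel₀ hA0.ne']
        ring
    _ ≤ n := by
        rw [hA, Real.log_mul (by positivity) (Real.exp_pos _).ne', Real.log_exp, Real.log_pow]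
        have := Real.log_two_lt_d9
        have hn0 : (0 : ℝ) ≤ n := Nat.cast_nonneg n
        nlinarith

lemma gLaw_neg (ι : Type*) [Fintype ι] (f : (ι → ℝ) → ℝ) :
    ∫ J, f (-J) ∂(gLaw ι) = ∫ J, f J ∂(gLaw ι) := by
  have hmap : (gLaw ι).map (fun J => -J) = gLaw ι := by
    have e : (fun J : ι → ℝ => -J) = fun J i => (fun x => -x) (J i) := by
      funext J i; rfl
    have hm : (gaussianReal 0 1).map (fun x => -x) = gaussianReal 0 1 := by
      rw [gaussianReal_map_neg]; simp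
    have : ∀ _ : ι, SigmaFinite ((gaussianReal 0 1).map (fun x => -x)) := by
      intro _; rw [hm]; infer_instance
    rw [e, Measure.pi_map_pi (μ := fun _ : ι => gaussianReal 0 1) (f := fun _ x => -x)
      (fun i => by fun_prop)]
    rw [hm]
  have hemb : MeasurableEmbedding (fun J : ι → ℝ => -J) :=
    (MeasurableEquiv.neg (ι → ℝ)).measurableEmbedding
  rw [← hemb.integral_map (μ := gLaw ι) f, hmap]

lemma integral_sup_le_one (n : ℕ) :
    ∫ J : Pair n → ℝ, (⨆ s : Conf n, skEnergy J s) ∂(gLaw (Pair n)) ≤ n := by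
  rw [← gLaw_neg (Pair n) (fun J => ⨆ s : Conf n, skEnergy J s)]
  exact integral_sup_neg_le_one n

/-- Pointwise bound of the total local field by the extreme energies. -/
lemma sum_abs_field_le (J : Pair n → ℝ) (s : Conf n) :
    ∑ i, |tt (uvec i) s J| ≤ 4 * (⨆ s : Conf n, skEnergy J s)
      + 2 * ⨆ s : Conf n, skEnergy (-J) s := by
  set K := ext J with hK
  set x : Fin n → ℝ := fun i => spin (s i) with hx
  set y : Fin n → ℝ := fun i => if 0 ≤ fld K x i then 1 else -1 with hy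
  have h1 : ∑ i, |tt (uvec i) s J| = ∑ i, y i * fld K x i := by
    apply Finset.sum_congr rfl
    intro i _
    rw [tt_eq]
    unfold afld
    rw [abs_mul, abs_spin, one_mul]
    simp only [hy]
    split_ifs with h
    · rw [abs_of_nonneg h, one_mul]
    · rw [abs_of_neg (not_le.mp h)]; ring
  have hadd := Hq_add K x y
  have hscale : Hq K (fun i => x i + y i) = 4 * Hq K (fun i => (x i + y i) / 2) := by
    rw [Hq_eq, Hq_eq]
    have : ∑ i, ∑ j, Ksym K i j * (x i + y i) * (x j + y j)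
        = 4 * ∑ i, ∑ j, Ksym K i j * ((x i + y i) / 2) * ((x j + y j) / 2) := by
      rw [mul_sum]
      refine sum_congr rfl fun i _ => ?_
      rw [mul_sum]
      refine sum_congr rfl fun j _ => ?_
      ring
    rw [this]; ring
  have hx1 : ∀ i, |x i| ≤ 1 := fun i => (abs_spin _).le
  have hy1 : ∀ i, |y i| ≤ 1 := by
    intro i
    simp only [hy]
    split_ifs <;> simp
  have hz1 : ∀ i, |(x i + y i) / 2| ≤ 1 := by
    intro i
    rw [abs_div, abs_two, div_le_one (by norm_num)]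
    have := abs_add_le (x i) (y i)
    have := hx1 i
    have := hy1 i
    linarith
  obtain ⟨τ, hτ⟩ := exists_vertex K _ hz1
  obtain ⟨τ1, hτ1⟩ := exists_vertex (fun e => - K e) x hx1
  obtain ⟨τ2, hτ2⟩ := exists_vertex (fun e => - K e) y hy1
  rw [Hq_neg] at hτ1 hτ2
  have b1 : Hq K (fun i => spin (τ i)) ≤ ⨆ s : Conf n, skEnergy J s := by
    have := le_ciSup (f := fun τ : Conf n => skEnergy J τ) (Set.finite_range _).bddAbove τ
    rwa [← skEq_ext] at this
  have b2 : ∀ τ : Conf n, Hq (fun e => - K e) (fun i => spin (τ i))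
      ≤ ⨆ s : Conf n, skEnergy (-J) s := by
    intro τ
    have := le_ciSup (f := fun τ : Conf n => skEnergy (-J) τ) (Set.finite_range _).bddAbove τ
    rw [← skEq_ext, ← ext_neg] at this
    exact this
  have b21 := b2 τ1
  have b22 := b2 τ2
  rw [h1]
  have h3 : ∑ i, y i * fld K x i = Hq K (fun i => x i + y i) - Hq K x - Hq K y := by
    rw [hadd]; ring
  rw [h3, hscale]
  linarith

/-- Averaged first moment of the aligned fields. -/
theorem first_moment (p : ℕ) (γ β : Fin p → ℝ)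
    (hmeas : ∀ s, Measurable fun J : Pair n → ℝ => qaoaState J p γ β s)
    (hnorm : ∀ J : Pair n → ℝ, ∑ s, ‖qaoaState J p γ β s‖ ^ 2 = 1) :
    ∑ i : Fin n, ∫ J : Pair n → ℝ, ∑ s, ‖qaoaState J p γ β s‖ ^ 2 * |tt (uvec i) s J|
      ∂(gLaw (Pair n)) ≤ 6 * n := by
  have iT : ∀ (i : Fin n) (s : Conf n), Integrable
      (fun J : Pair n → ℝ => ‖qaoaState J p γ β s‖ ^ 2 * |tt (uvec i) s J|) (gLaw (Pair n)) := by
    intro i s
    have h1 : Integrable (fun J : Pair n → ℝ => tt (uvec i) s J) (gLaw (Pair n)) := by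
      unfold tt
      apply integrable_finsetSum
      intro e _
      apply Integrable.const_mul
      exact integrable_comp_eval (μ := fun _ : Pair n => gaussianReal 0 1) (i := e)
        (f := fun x => x) ((memLp_id_gaussianReal 1).integrable le_rfl)
    refine h1.abs.mono' ?_ (Filter.Eventually.of_forall fun J => ?_)
    · apply Measurable.aestronglyMeasurable
      have h3 := measurable_tt (S := Conf n) (uvec i) s
      exact ((hmeas s).norm.pow_const 2).mul h3.abs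
    · rw [norm_mul, Real.norm_eq_abs, Real.norm_eq_abs, abs_abs, abs_of_nonneg (by positivity)]
      calc ‖qaoaState J p γ β s‖ ^ 2 * |tt (uvec i) s J| ≤ 1 * |tt (uvec i) s J| :=
            mul_le_mul_of_nonneg_right (norm_sq_le_one (hnorm J) s) (abs_nonneg _)
        _ = _ := one_mul _
  rw [← integral_finsetSum _ fun i _ => integrable_finsetSum _ fun s _ => iT i s]
  have iS1 : Integrable (fun J : Pair n → ℝ => ⨆ s : Conf n, skEnergy J s) (gLaw (Pair n)) :=
    integrable_iSup (fun (s : Conf n) (J : Pair n → ℝ) => skEnergy J s)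
      (fun s => integrable_energy s) (fun s => (continuous_skEnergy s).measurable)
  have iS2 : Integrable (fun J : Pair n → ℝ => ⨆ s : Conf n, skEnergy (-J) s)
      (gLaw (Pair n)) :=
    integrable_iSup (fun (s : Conf n) (J : Pair n → ℝ) => skEnergy (-J) s)
      (fun s => integrable_energy_neg s)
      (fun s => ((continuous_skEnergy s).comp continuous_neg).measurable)
  calc ∫ J : Pair n → ℝ, ∑ i, ∑ s, ‖qaoaState J p γ β s‖ ^ 2 * |tt (uvec i) s J|
      ∂(gLaw (Pair n))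
      ≤ ∫ J : Pair n → ℝ, (4 * (⨆ s : Conf n, skEnergy J s)
      + 2 * ⨆ s : Conf n, skEnergy (-J) s) ∂(gLaw (Pair n)) := by
        apply integral_mono
        · exact integrable_finsetSum _ fun i _ => integrable_finsetSum _ fun s _ => iT i s
        · exact (iS1.const_mul _).add (iS2.const_mul _)
        · intro J
          show ∑ i, ∑ s, ‖qaoaState J p γ β s‖ ^ 2 * |tt (uvec i) s J| ≤ _
          rw [Finset.sum_comm]
          calc ∑ s, ∑ i, ‖qaoaState J p γ β s‖ ^ 2 * |tt (uvec i) s J|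
              ≤ ∑ s, ‖qaoaState J p γ β s‖ ^ 2 * (4 * (⨆ s : Conf n, skEnergy J s)
                + 2 * ⨆ s : Conf n, skEnergy (-J) s) := by
                apply Finset.sum_le_sum
                intro s _
                rw [← Finset.mul_sum]
                exact mul_le_mul_of_nonneg_left (sum_abs_field_le J s) (by positivity)
            _ = _ := by rw [← Finset.sum_mul, hnorm J, one_mul]
    _ = 4 * ∫ J : Pair n → ℝ, (⨆ s : Conf n, skEnergy J s) ∂(gLaw (Pair n))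
        + 2 * ∫ J : Pair n → ℝ, (⨆ s : Conf n, skEnergy (-J) s) ∂(gLaw (Pair n)) := by
        rw [integral_add (iS1.const_mul _) (iS2.const_mul _), integral_const_mul,
          integral_const_mul]
    _ ≤ 6 * n := by
        have h1 := integral_sup_le_one n
        have h2 := integral_sup_neg_le_one n
        linarith

/-- Measurability of the state. -/
lemma measurable_qaoaState (p : ℕ) (γ β : Fin p → ℝ) (s : Conf n) :
    Measurable fun J : Pair n → ℝ => qaoaState J p γ β s := by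
  set γ' : ℕ → ℝ := fun k => if h : k < p then γ ⟨k, h⟩ else 0 with hγ'
  set β' : ℕ → ℝ := fun k => if h : k < p then β ⟨k, h⟩ else 0 with hβ'
  have hγe : ∀ k : Fin p, γ' k = γ k := by
    intro k; simp [hγ', k.2]
  have hβe : ∀ k : Fin p, β' k = β k := by
    intro k; simp [hβ', k.2]
  have h1 := continuous_circ (fun k => matL (mixU n (β' k))) γ' (plusH n) p
  have h2 : Continuous fun J : Pair n → ℝ =>
      (circ (fun k => matL (mixU n (β' k))) γ' (cE J) (plusH n) p) s :=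
    (PiLp.continuous_apply 2 _ s).comp h1
  have h3 : (fun J : Pair n → ℝ => qaoaState J p γ β s)
      = fun J => circ (fun k => matL (mixU n (β' k))) γ' (cE J) (plusH n) p s := by
    funext J
    rw [circ_eq_qaoa J p γ β γ' β' hγe hβe]
  rw [h3]
  exact h2.measurable

/-- Normalisation of the state. -/
lemma norm_qaoaState (J : Pair n → ℝ) (p : ℕ) (γ β : Fin p → ℝ) :
    ∑ s, ‖qaoaState J p γ β s‖ ^ 2 = 1 := by
  set γ' : ℕ → ℝ := fun k => if h : k < p then γ ⟨k, h⟩ else 0 with hγ'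
  set β' : ℕ → ℝ := fun k => if h : k < p then β ⟨k, h⟩ else 0 with hβ'
  have hγe : ∀ k : Fin p, γ' k = γ k := by
    intro k; simp [hγ', k.2]
  have hβe : ∀ k : Fin p, β' k = β k := by
    intro k; simp [hβ', k.2]
  have h0 := circ_eq_qaoa J p γ β γ' β' hγe hβe
  have h1 := norm_circ_real (fun k => matL (mixU n (β' k)))
    (fun k v => norm_matL _ (mixU_unitary _) v) γ' J (plusH n) p
  rw [norm_plusH, h0, EuclideanSpace.norm_eq] at h1
  have h3 := congrArg (fun x : ℝ => x ^ 2) h1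
  simp only at h3
  rw [Real.sq_sqrt (Finset.sum_nonneg fun s _ => by positivity)] at h3
  simpa using h3

/-- **Gain from misalignment.** -/
theorem gain_of_misalign (hn0 : 0 < n) (p : ℕ) (γ β : Fin p → ℝ) (ε : ℝ) (hε0 : 0 ≤ ε)
    (hε1 : ε ≤ 1)
    (hmis : (n : ℝ) * ε ≤ ∑ i : Fin n, ∫ J : Pair n → ℝ,
      ∑ s, ‖qaoaState J p γ β s‖ ^ 2 * max (-(tt (uvec i) s J)) 0 ∂(gLaw (Pair n))) :
    qaoaValue n p γ β ≤ groundValue n - ε ^ 2 / 4 := by
  have hnr : (0 : ℝ) < n := by exact_mod_cast hn0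
  have hmeas := fun s => measurable_qaoaState (n := n) p γ β s
  have hnorm := fun J : Pair n → ℝ => norm_qaoaState J p γ β
  set ψ : (Pair n → ℝ) → Conf n → ℂ := fun J => qaoaState J p γ β with hψ
  set q : ℝ := ε / 4 with hq
  have hq0 : 0 ≤ q := by positivity
  have hq1 : q ≤ 1 := by rw [hq]; linarith
  have hpt : ∀ J : Pair n → ℝ,
      qaoaMean J p γ β + 2 * q * ∑ i, ∑ s, ‖ψ J s‖ ^ 2 * max (-(tt (uvec i) s J)) 0
        ≤ (⨆ s : Conf n, skEnergy J s) + 4 * q ^ 2 * ⨆ s : Conf n, skEnergy (-J) s := by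
    intro J
    rw [qaoaMean_eq]
    exact flip_avg J (fun s => ‖ψ J s‖ ^ 2) (fun s => by positivity) (hnorm J) q hq0 hq1
  have iE : Integrable (fun J : Pair n → ℝ => qaoaMean J p γ β) (gLaw (Pair n)) := by
    have h1 : (fun J : Pair n → ℝ => qaoaMean J p γ β)
        = fun J => ∑ s, ‖ψ J s‖ ^ 2 * skEnergy J s := by
      funext J; exact qaoaMean_eq J p γ β
    rw [h1]
    apply integrable_finsetSum
    intro s _
    refine (integrable_energy s).abs.mono' ?_ (Filter.Eventually.of_forall fun J => ?_)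
    · apply Measurable.aestronglyMeasurable
      exact ((hmeas s).norm.pow_const 2).mul (continuous_skEnergy s).measurable
    · rw [norm_mul, Real.norm_eq_abs, Real.norm_eq_abs, abs_of_nonneg (by positivity)]
      calc ‖ψ J s‖ ^ 2 * |skEnergy J s| ≤ 1 * |skEnergy J s| :=
            mul_le_mul_of_nonneg_right (norm_sq_le_one (hnorm J) s) (abs_nonneg _)
        _ = _ := one_mul _
  have iM : ∀ i : Fin n, Integrable
      (fun J : Pair n → ℝ => ∑ s, ‖ψ J s‖ ^ 2 * max (-(tt (uvec i) s J)) 0) (gLaw (Pair n)) :=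
    fun i => integrable_finsetSum _ fun s _ => integrable_mis ψ (uvec i) hmeas hnorm s
  have iS1 : Integrable (fun J : Pair n → ℝ => ⨆ s : Conf n, skEnergy J s) (gLaw (Pair n)) :=
    integrable_iSup (fun (s : Conf n) (J : Pair n → ℝ) => skEnergy J s)
      (fun s => integrable_energy s) (fun s => (continuous_skEnergy s).measurable)
  have iS2 : Integrable (fun J : Pair n → ℝ => ⨆ s : Conf n, skEnergy (-J) s)
      (gLaw (Pair n)) :=
    integrable_iSup (fun (s : Conf n) (J : Pair n → ℝ) => skEnergy (-J) s)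
      (fun s => integrable_energy_neg s)
      (fun s => ((continuous_skEnergy s).comp continuous_neg).measurable)
  have hint : ∫ J, (qaoaMean J p γ β
        + 2 * q * ∑ i, ∑ s, ‖ψ J s‖ ^ 2 * max (-(tt (uvec i) s J)) 0) ∂(gLaw (Pair n))
      ≤ ∫ J : Pair n → ℝ, ((⨆ s : Conf n, skEnergy J s)
        + 4 * q ^ 2 * ⨆ s : Conf n, skEnergy (-J) s) ∂(gLaw (Pair n)) := by
    apply integral_mono
    · exact iE.add ((integrable_finsetSum _ fun i _ => iM i).const_mul _)
    · exact iS1.add (iS2.const_mul _)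
    · exact hpt
  rw [integral_add iE ((integrable_finsetSum _ fun i _ => iM i).const_mul _),
    integral_add iS1 (iS2.const_mul _), integral_const_mul, integral_const_mul,
    integral_finsetSum _ fun i _ => iM i] at hint
  have hneg := integral_sup_neg_le_one n
  have hQ : (n : ℝ) * qaoaValue n p γ β = ∫ J, qaoaMean J p γ β ∂(gLaw (Pair n)) := by
    unfold qaoaValue couplingLaw
    rw [← mul_assoc, mul_inv_cancel₀ hnr.ne', one_mul]
  have hP : (n : ℝ) * groundValue n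
      = ∫ J : Pair n → ℝ, (⨆ s : Conf n, skEnergy J s) ∂(gLaw (Pair n)) := by
    unfold groundValue couplingLaw
    rw [← mul_assoc, mul_inv_cancel₀ hnr.ne', one_mul]
  rw [← hQ, ← hP] at hint
  have h1 : 2 * q * ((n : ℝ) * ε) ≤ 2 * q * ∑ i : Fin n,
      ∫ J : Pair n → ℝ, ∑ s, ‖ψ J s‖ ^ 2 * max (-(tt (uvec i) s J)) 0 ∂(gLaw (Pair n)) :=
    mul_le_mul_of_nonneg_left hmis (by positivity)
  have h2 : 4 * q ^ 2 * ∫ J : Pair n → ℝ, (⨆ s : Conf n, skEnergy (-J) s) ∂(gLaw (Pair n))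
      ≤ 4 * q ^ 2 * n := mul_le_mul_of_nonneg_left hneg (by positivity)
  have h3 : (n : ℝ) * qaoaValue n p γ β + (n : ℝ) * (ε ^ 2 / 4) ≤ (n : ℝ) * groundValue n := by
    have h4 : 2 * q * ((n : ℝ) * ε) - 4 * q ^ 2 * n = (n : ℝ) * (ε ^ 2 / 4) := by
      rw [hq]; ring
    linarith
  have h5 : (n : ℝ) * (qaoaValue n p γ β + ε ^ 2 / 4) ≤ (n : ℝ) * groundValue n := by
    rw [mul_add]; exact h3
  have h6 := le_of_mul_le_mul_left h5 hnr
  linarith

end Vale.Agent.P367.Gap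
end

section

namespace Vale.Agent.P367.Lim

open Finset ComplexConjugate MeasureTheory ProbabilityTheory Filter Topology ENNReal
  Vale.Agent.P367.Gap

variable {n : ℕ}

lemma integrable_abs_tt (p : ℕ) (γ β : Fin p → ℝ) (i : Fin n) (s : Conf n) : Integrable
    (fun J : Pair n → ℝ => ‖qaoaState J p γ β s‖ ^ 2 * |tt (uvec i) s J|) (couplingLaw n) := by
  have h1 : Integrable (fun J : Pair n → ℝ => tt (uvec i) s J) (couplingLaw n) := by
    unfold tt couplingLaw
    apply integrable_finsetSum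
    intro e _
    apply Integrable.const_mul
    exact integrable_comp_eval (μ := fun _ : Pair n => gaussianReal 0 1) (i := e)
      (f := fun x => x) ((memLp_id_gaussianReal 1).integrable le_rfl)
  refine h1.abs.mono' ?_ (Filter.Eventually.of_forall fun J => ?_)
  · apply Measurable.aestronglyMeasurable
    have h3 := measurable_tt (S := Conf n) (uvec i) s
    exact (((measurable_qaoaState p γ β s)).norm.pow_const 2).mul h3.abs
  · rw [norm_mul, Real.norm_eq_abs, Real.norm_eq_abs, abs_abs, abs_of_nonneg (by positivity)]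
    calc ‖qaoaState J p γ β s‖ ^ 2 * |tt (uvec i) s J| ≤ 1 * |tt (uvec i) s J| :=
          mul_le_mul_of_nonneg_right (state_sq_le J p γ β s) (abs_nonneg _)
      _ = _ := one_mul _

/-- comparison of probabilities with integrals -/
lemma integrable_ind (p : ℕ) (γ β : Fin p → ℝ) (i : Fin n) (s : Conf n) (S : Set ℝ)
    (hS : MeasurableSet S) : Integrable (fun J : Pair n → ℝ =>
      ‖qaoaState J p γ β s‖ ^ 2 * S.indicator (fun _ => (1 : ℝ)) (tt (uvec i) s J))
      (couplingLaw n) :=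
  integrable_alf1_term p γ β i s (S.indicator (fun _ => (1 : ℝ)))
    (stronglyMeasurable_const.indicator hS) 1 (by
      intro x
      refine (norm_indicator_le_norm_self _ _).trans ?_
      simp)

theorem tight_alf (p : ℕ) (n : ℕ) (hn : 1 ≤ n) (γ β : Fin p → ℝ) :
    3 / 4 ≤ (alf n p γ β).real {x | |x| ≤ 24} := by
  have hnr : (0 : ℝ) < n := by exact_mod_cast hn
  have hS : MeasurableSet {x : ℝ | |x| ≤ 24} := measurableSet_le measurable_abs measurable_const
  rw [real_alf p γ β _ hS]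
  have hm := first_moment (n := n) p γ β (fun s => measurable_qaoaState p γ β s)
    (fun J => norm_qaoaState J p γ β)
  have h1 : ∀ i : Fin n, 1 - (1 / 24) * ∫ J : Pair n → ℝ,
      (∑ s, ‖qaoaState J p γ β s‖ ^ 2 * |tt (uvec i) s J|) ∂(couplingLaw n)
      ≤ ∫ J, (∑ s, (‖qaoaState J p γ β s‖ ^ 2) *
        ({x : ℝ | |x| ≤ 24}).indicator (fun _ => (1 : ℝ)) (tt (uvec i) s J)) ∂(couplingLaw n) := by
    intro i
    have e1 : 1 - (1 / 24) * ∫ J : Pair n → ℝ,
        (∑ s, ‖qaoaState J p γ β s‖ ^ 2 * |tt (uvec i) s J|) ∂(couplingLaw n)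
        = ∫ J : Pair n → ℝ, (1 - (1 / 24) *
          (∑ s, ‖qaoaState J p γ β s‖ ^ 2 * |tt (uvec i) s J|)) ∂(couplingLaw n) := by
      rw [integral_sub (integrable_const _), integral_const_mul]
      · simp
      · exact (integrable_finsetSum _ fun s _ => integrable_abs_tt p γ β i s).const_mul _
    rw [e1]
    refine integral_mono ?_ ?_ ?_
    · exact (integrable_const _).sub
        ((integrable_finsetSum _ fun s _ => integrable_abs_tt p γ β i s).const_mul _)
    · exact integrable_finsetSum _ fun s _ => integrable_ind p γ β i s _ hS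
    · intro J
      simp only
      have e2 : 1 - 1 / 24 * ∑ s, ‖qaoaState J p γ β s‖ ^ 2 * |tt (uvec i) s J|
          = ∑ s, (‖qaoaState J p γ β s‖ ^ 2
            - 1 / 24 * (‖qaoaState J p γ β s‖ ^ 2 * |tt (uvec i) s J|)) := by
        rw [sum_sub_distrib, sum_state_sq, mul_sum]
      rw [e2]
      refine sum_le_sum fun s _ => ?_
      have h2 : 1 - (1 / 24) * |tt (uvec i) s J|
          ≤ ({x : ℝ | |x| ≤ 24}).indicator (fun _ => (1 : ℝ)) (tt (uvec i) s J) := by
        by_cases h : |tt (uvec i) s J| ≤ 24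
        · rw [Set.indicator_of_mem (by exact h)]
          have := abs_nonneg (tt (uvec i) s J)
          linarith
        · rw [Set.indicator_of_notMem (by exact h)]
          push Not at h
          linarith
      have h3 := mul_le_mul_of_nonneg_left h2 (show 0 ≤ ‖qaoaState J p γ β s‖ ^ 2 by positivity)
      linarith
  have h2 := sum_le_sum fun (i : Fin n) (_ : i ∈ univ) => h1 i
  rw [sum_sub_distrib, ← mul_sum] at h2
  have h3 : ∑ i : Fin n, ∫ J : Pair n → ℝ,
      (∑ s, ‖qaoaState J p γ β s‖ ^ 2 * |tt (uvec i) s J|) ∂(couplingLaw n) ≤ 6 * n := hm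
  have h4 : (3 / 4 : ℝ) * n ≤ ∑ i : Fin n, ∫ J, (∑ s, (‖qaoaState J p γ β s‖ ^ 2) *
        ({x : ℝ | |x| ≤ 24}).indicator (fun _ => (1 : ℝ)) (tt (uvec i) s J)) ∂(couplingLaw n) := by
    refine le_trans ?_ h2
    simp only [sum_const, card_univ, Fintype.card_fin, nsmul_eq_mul, mul_one]
    linarith
  calc (3 / 4 : ℝ) = (n : ℝ)⁻¹ * (3 / 4 * n) := by field_simp
    _ ≤ _ := mul_le_mul_of_nonneg_left h4 (by positivity)

/-- from misalignment probability to an energy gap -/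
theorem gap_of_alf (p : ℕ) (n : ℕ) (hn : 1 ≤ n) (γ β : Fin p → ℝ) (ε : ℝ) (hε : 0 ≤ ε)
    (h : ε ≤ (alf n p γ β).real {x | x < -1}) :
    qaoaValue n p γ β ≤ groundValue n - ε ^ 2 / 4 := by
  have hnr : (0 : ℝ) < n := by exact_mod_cast hn
  have hS : MeasurableSet {x : ℝ | x < -1} := measurableSet_lt measurable_id measurable_const
  have hprob := isProb_alf p γ β (n := n) hn
  have hε1 : ε ≤ 1 := h.trans measureReal_le_one
  refine gain_of_misalign (by omega) p γ β ε hε hε1 ?_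
  rw [real_alf p γ β _ hS] at h
  have h1 : ∀ i : Fin n, ∫ J, (∑ s, (‖qaoaState J p γ β s‖ ^ 2) *
        ({x : ℝ | x < -1}).indicator (fun _ => (1 : ℝ)) (tt (uvec i) s J)) ∂(couplingLaw n)
      ≤ ∫ J : Pair n → ℝ, ∑ s, ‖qaoaState J p γ β s‖ ^ 2 * max (-(tt (uvec i) s J)) 0
        ∂(gLaw (Pair n)) := by
    intro i
    refine integral_mono ?_ ?_ ?_
    · exact integrable_finsetSum _ fun s _ => integrable_ind p γ β i s _ hS
    · exact integrable_finsetSum _ fun s _ => integrable_mis (fun J => qaoaState J p γ β) (uvec i)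
        (fun s => measurable_qaoaState p γ β s) (fun J => norm_qaoaState J p γ β) s
    · intro J
      simp only
      refine sum_le_sum fun s _ => ?_
      refine mul_le_mul_of_nonneg_left ?_ (by positivity)
      by_cases h : tt (uvec i) s J < -1
      · rw [Set.indicator_of_mem (by exact h)]
        exact le_max_of_le_left (by linarith)
      · rw [Set.indicator_of_notMem (by exact h)]
        exact le_max_right _ _
  have h2 := sum_le_sum fun (i : Fin n) (_ : i ∈ univ) => h1 i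
  refine le_trans ?_ h2
  have h3 := mul_le_mul_of_nonneg_left h hnr.le
  rwa [← mul_assoc, mul_inv_cancel₀ hnr.ne', one_mul] at h3

/-- **Uniform gap at fixed depth.** -/
theorem depth_gap (p : ℕ) : ∃ η : ℝ, 0 < η ∧ ∀ γ β : Fin p → ℝ,
    ∀ᶠ n : ℕ in atTop, qaoaValue n p γ β ≤ groundValue n - η := by
  obtain ⟨ε, hε, h⟩ := misalign_qaoa p (fun n hn γ β => tight_alf p n hn γ β)
  refine ⟨ε ^ 2 / 4, by positivity, fun γ β => ?_⟩
  filter_upwards [h γ β, eventually_ge_atTop 1] with n hn hn1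
  exact gap_of_alf p n hn1 γ β ε hε.le hn

end Vale.Agent.P367.Lim
end

section

open Finset

namespace Vale.Agent.P367.Fin

/-- Turan-type recurrence: the value at time 0 of an exponential sum with `M` terms is controlled
by its values at times `1, ..., M`. -/
lemma recur {κ : Type*} [DecidableEq κ] (R : ℝ) (hR : 0 ≤ R) (s : Finset κ) :
    ∀ (b w : κ → ℂ) (A : ℝ), 0 ≤ A → (∀ k ∈ s, w k ≠ 0) → (∀ k ∈ s, ‖(w k)⁻¹‖ ≤ R) →
    (∀ v ∈ Finset.Icc 1 s.card, ‖∑ k ∈ s, b k * w k ^ v‖ ≤ A) →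
    ‖∑ k ∈ s, b k‖ ≤ ((1 + R) ^ s.card - 1) * A := by
  induction s using Finset.induction_on with
  | empty =>
    intro b w A hA _ _ _
    simp
  | insert a s ha ih =>
    intro b w A hA hw hwR hv
    have hwa : w a ≠ 0 := hw a (mem_insert_self a s)
    have hcard : (insert a s).card = s.card + 1 := card_insert_of_notMem ha
    set b' : κ → ℂ := fun k => b k * (1 - (w a)⁻¹ * w k) with hb'
    have hrec : ∀ v : ℕ, ∑ k ∈ s, b' k * w k ^ v
        = ∑ k ∈ insert a s, b k * w k ^ v - (w a)⁻¹ * ∑ k ∈ insert a s, b k * w k ^ (v + 1) := by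
      intro v
      rw [sum_insert ha, sum_insert ha, mul_add, mul_sum]
      have h1 : (w a)⁻¹ * (b a * w a ^ (v + 1)) = b a * w a ^ v := by
        rw [pow_succ]
        field_simp
      rw [h1]
      have h2 : ∑ k ∈ s, b' k * w k ^ v
          = ∑ k ∈ s, b k * w k ^ v - ∑ k ∈ s, (w a)⁻¹ * (b k * w k ^ (v + 1)) := by
        rw [← sum_sub_distrib]
        apply sum_congr rfl
        intro k _
        simp only [hb']
        rw [pow_succ]
        ring
      rw [h2]
      ring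
    have hRa : ‖(w a)⁻¹‖ ≤ R := hwR a (mem_insert_self a s)
    have h1 : ∀ v ∈ Finset.Icc 1 s.card, ‖∑ k ∈ s, b' k * w k ^ v‖ ≤ (1 + R) * A := by
      intro v hv'
      rw [Finset.mem_Icc] at hv'
      rw [hrec v]
      have e1 := hv v (by rw [Finset.mem_Icc, hcard]; omega)
      have e2 := hv (v + 1) (by rw [Finset.mem_Icc, hcard]; omega)
      calc ‖∑ k ∈ insert a s, b k * w k ^ v
            - (w a)⁻¹ * ∑ k ∈ insert a s, b k * w k ^ (v + 1)‖
          ≤ ‖∑ k ∈ insert a s, b k * w k ^ v‖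
            + ‖(w a)⁻¹ * ∑ k ∈ insert a s, b k * w k ^ (v + 1)‖ := norm_sub_le _ _
        _ ≤ A + R * A := by
            rw [norm_mul]
            exact add_le_add e1 (mul_le_mul hRa e2 (norm_nonneg _) hR)
        _ = (1 + R) * A := by ring
    have h2 := ih b' w ((1 + R) * A) (by positivity)
      (fun k hk => hw k (mem_insert_of_mem hk)) (fun k hk => hwR k (mem_insert_of_mem hk)) h1
    have h3 := hrec 0
    simp only [pow_zero, mul_one, zero_add, pow_one] at h3
    have h4 : ∑ k ∈ insert a s, b k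
        = ∑ k ∈ s, b' k + (w a)⁻¹ * ∑ k ∈ insert a s, b k * w k := by
      rw [h3]; ring
    have e2 := hv 1 (by rw [Finset.mem_Icc, hcard]; omega)
    simp only [pow_one] at e2
    rw [h4]
    calc ‖∑ k ∈ s, b' k + (w a)⁻¹ * ∑ k ∈ insert a s, b k * w k‖
        ≤ ‖∑ k ∈ s, b' k‖ + ‖(w a)⁻¹ * ∑ k ∈ insert a s, b k * w k‖ := norm_add_le _ _
      _ ≤ ((1 + R) ^ s.card - 1) * ((1 + R) * A) + R * A := by
          rw [norm_mul]
          exact add_le_add h2 (mul_le_mul hRa e2 (norm_nonneg _) hR)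
      _ = ((1 + R) ^ (insert a s).card - 1) * A := by
          rw [hcard, pow_succ]; ring

end Vale.Agent.P367.Fin
end

section

open MeasureTheory Filter Topology Finset Complex

namespace Vale.Agent.P367.Fin

/-- Gaussian integral with a real quadratic coefficient. -/
lemma gauss_int (B : ℝ) (hB : 0 < B) (c : ℂ) :
    ∫ x : ℝ, cexp (-(B : ℂ) * x ^ 2 + c * x) = ((Real.sqrt (Real.pi / B) : ℝ) : ℂ)
      * cexp (c ^ 2 / (4 * B)) := by
  have h := integral_cexp_quadratic (b := -(B : ℂ)) (by simpa using hB) c 0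
  simp only [add_zero] at h
  rw [h]
  congr 1
  · rw [neg_neg, ← Complex.ofReal_div, Real.sqrt_eq_rpow,
      Complex.ofReal_cpow (by positivity)]
    norm_num
  · congr 1
    have : (B : ℂ) ≠ 0 := by exact_mod_cast hB.ne'
    field_simp
    ring

lemma gauss_integrable (B : ℝ) (hB : 0 < B) (c : ℂ) :
    Integrable (fun x : ℝ => cexp (-(B : ℂ) * x ^ 2 + c * x)) := by
  have h := integrable_cexp_quadratic (b := (B : ℂ)) (by simpa using hB) c 0
  simpa only [add_zero] using h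

/-- A Gaussian bump of width `1/m`. -/
noncomputable def bump (m x0 x : ℝ) : ℝ := Real.exp (-(m ^ 2 * (x - x0) ^ 2 / 2))

lemma bump_le_one (m x0 x : ℝ) : bump m x0 x ≤ 1 := by
  unfold bump
  apply Real.exp_le_one_iff.mpr
  have : 0 ≤ m ^ 2 * (x - x0) ^ 2 / 2 := by positivity
  linarith

lemma bump_nonneg (m x0 x : ℝ) : 0 ≤ bump m x0 x := (Real.exp_pos _).le

lemma continuous_bump (m x0 : ℝ) : Continuous (bump m x0) := by
  unfold bump
  fun_prop

lemma bump_fourier (m : ℝ) (hm : 0 < m) (x0 x : ℝ) :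
    ∫ ξ : ℝ, cexp (-((1 / (2 * m ^ 2) : ℝ) : ℂ) * ξ ^ 2 + (I * x0) * ξ) * cexp (-(I * ξ * x))
      = ((Real.sqrt (Real.pi / (1 / (2 * m ^ 2))) : ℝ) : ℂ) * ((bump m x0 x : ℝ) : ℂ) := by
  have hB : 0 < 1 / (2 * m ^ 2) := by positivity
  have h := gauss_int (1 / (2 * m ^ 2)) hB (I * (x0 - x))
  have e1 : ∀ ξ : ℝ, cexp (-((1 / (2 * m ^ 2) : ℝ) : ℂ) * ξ ^ 2 + (I * x0) * ξ)
      * cexp (-(I * ξ * x)) = cexp (-((1 / (2 * m ^ 2) : ℝ) : ℂ) * ξ ^ 2 + (I * (x0 - x)) * ξ) := by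
    intro ξ
    rw [← Complex.exp_add]
    congr 1
    ring
  simp only [e1]
  rw [h]
  congr 1
  unfold bump
  rw [Complex.ofReal_exp]
  congr 1
  push_cast
  have hm' : (m : ℂ) ≠ 0 := by exact_mod_cast hm.ne'
  field_simp
  rw [Complex.I_sq]
  ring

/-- The limit profile. -/
noncomputable def prof {N : ℕ} (m : ℝ) (c μ : Fin N → ℂ) (x0 : ℝ) : ℂ :=
  ∑ k, c k * cexp ((I * x0 - μ k) ^ 2 / (2 * (1 + (((m ^ 2)⁻¹ : ℝ) : ℂ))))

lemma bump_tendsto {N : ℕ} (ρ : ℕ → Measure ℝ) [∀ n, IsProbabilityMeasure (ρ n)]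
    (c μ : Fin N → ℂ)
    (hφ : ∀ ξ : ℝ, Tendsto (fun n => ∫ x : ℝ, cexp (-(I * ξ * x)) ∂(ρ n)) atTop
      (𝓝 (cexp (-(ξ : ℂ) ^ 2 / 2) * ∑ k, c k * cexp (-(ξ * μ k)))))
    (m : ℝ) (hm : 0 < m) (x0 : ℝ) :
    Tendsto (fun n => ((Real.sqrt (1 + m ^ 2) * ∫ x, bump m x0 x ∂(ρ n) : ℝ) : ℂ)) atTop
      (𝓝 (prof m c μ x0)) := by
  set B : ℝ := 1 / (2 * m ^ 2) with hBdef
  have hB : 0 < B := by positivity
  set K : ℝ → ℂ := fun ξ => cexp (-(B : ℂ) * ξ ^ 2 + (I * x0) * ξ) with hK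
  have hKi : Integrable K := gauss_integrable B hB (I * x0)
  have hKn : ∀ ξ, ‖K ξ‖ = Real.exp (-B * ξ ^ 2) := by
    intro ξ
    simp only [hK]
    rw [Complex.norm_exp]
    congr 1
    simp only [add_re, mul_re, neg_re, ofReal_re, I_re, ofReal_im, I_im, neg_im, mul_im]
    have : ((ξ : ℂ) ^ 2).re = ξ ^ 2 := by
      rw [← Complex.ofReal_pow, Complex.ofReal_re]
    rw [this]
    ring
  have hcn : ∀ (ξ x : ℝ), ‖cexp (-(I * ξ * x))‖ = 1 := by
    intro ξ x
    rw [Complex.norm_exp]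
    simp
  -- Fubini
  have hfub : ∀ n, ∫ ξ : ℝ, K ξ * ∫ x : ℝ, cexp (-(I * ξ * x)) ∂(ρ n)
      = ((Real.sqrt (Real.pi / B) : ℝ) : ℂ) * ((∫ x, bump m x0 x ∂(ρ n) : ℝ) : ℂ) := by
    intro n
    have h1 : ∀ ξ : ℝ, K ξ * ∫ x : ℝ, cexp (-(I * ξ * x)) ∂(ρ n)
        = ∫ x : ℝ, K ξ * cexp (-(I * ξ * x)) ∂(ρ n) := fun ξ => (integral_const_mul _ _).symm
    simp only [h1]
    rw [integral_integral_swap]
    · have h2 : ∀ x : ℝ, ∫ ξ : ℝ, K ξ * cexp (-(I * ξ * x))
          = ((Real.sqrt (Real.pi / B) : ℝ) : ℂ) * ((bump m x0 x : ℝ) : ℂ) :=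
        fun x => bump_fourier m hm x0 x
      simp only [h2]
      rw [integral_const_mul, integral_complex_ofReal]
    · have h3 : Integrable (fun z : ℝ × ℝ => K z.1 * (1 : ℂ)) (volume.prod (ρ n)) :=
        hKi.mul_prod (integrable_const (1 : ℂ))
      refine h3.mono ?_ (Filter.Eventually.of_forall fun z => ?_)
      · apply Continuous.aestronglyMeasurable
        simp only [hK, Function.uncurry_def]
        fun_prop
      · simp only [Function.uncurry]
        rw [norm_mul, norm_mul, hcn, norm_one]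
  have hlim : Tendsto (fun n => ∫ ξ : ℝ, K ξ * ∫ x : ℝ, cexp (-(I * ξ * x)) ∂(ρ n)) atTop
      (𝓝 (∫ ξ : ℝ, K ξ * (cexp (-(ξ : ℂ) ^ 2 / 2) * ∑ k, c k * cexp (-(ξ * μ k))))) := by
    apply tendsto_integral_of_dominated_convergence (fun ξ => ‖K ξ‖)
    · intro n
      have h4 : AEStronglyMeasurable (fun ξ : ℝ => ∫ x : ℝ, cexp (-(I * ξ * x)) ∂(ρ n))
          volume := by
        have h5 : Continuous (Function.uncurry fun (ξ x : ℝ) => cexp (-(I * (ξ : ℂ) * x))) := by
          simp only [Function.uncurry_def]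
          fun_prop
        exact (h5.stronglyMeasurable.integral_prod_right).aestronglyMeasurable
      exact hKi.aestronglyMeasurable.mul h4
    · exact hKi.norm
    · intro n
      refine Filter.Eventually.of_forall fun ξ => ?_
      rw [norm_mul]
      have h6 : ‖∫ x : ℝ, cexp (-(I * ξ * x)) ∂(ρ n)‖ ≤ 1 := by
        refine le_trans (norm_integral_le_integral_norm _) ?_
        simp only [hcn]
        simp
      calc ‖K ξ‖ * ‖∫ x : ℝ, cexp (-(I * ξ * x)) ∂(ρ n)‖ ≤ ‖K ξ‖ * 1 :=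
            mul_le_mul_of_nonneg_left h6 (norm_nonneg _)
        _ = ‖K ξ‖ := mul_one _
    · refine Filter.Eventually.of_forall fun ξ => ?_
      exact (hφ ξ).const_mul _
  -- evaluate the limit integral
  have hval : ∫ ξ : ℝ, K ξ * (cexp (-(ξ : ℂ) ^ 2 / 2) * ∑ k, c k * cexp (-(ξ * μ k)))
      = ((Real.sqrt (Real.pi / (B + 1 / 2)) : ℝ) : ℂ) * prof m c μ x0 := by
    have hB2 : 0 < B + 1 / 2 := by positivity
    have e1 : ∀ ξ : ℝ, K ξ * (cexp (-(ξ : ℂ) ^ 2 / 2) * ∑ k, c k * cexp (-(ξ * μ k)))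
        = ∑ k, c k * cexp (-((B + 1 / 2 : ℝ) : ℂ) * ξ ^ 2 + (I * x0 - μ k) * ξ) := by
      intro ξ
      rw [← mul_assoc, Finset.mul_sum]
      apply Finset.sum_congr rfl
      intro k _
      simp only [hK]
      rw [← Complex.exp_add, mul_left_comm, ← Complex.exp_add]
      congr 2
      push_cast
      ring
    simp only [e1]
    rw [integral_finsetSum]
    · unfold prof
      rw [Finset.mul_sum]
      apply Finset.sum_congr rfl
      intro k _
      rw [integral_const_mul, gauss_int (B + 1 / 2) hB2]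
      have e2 : (4 : ℂ) * ((B + 1 / 2 : ℝ) : ℂ) = 2 * (1 + (((m ^ 2)⁻¹ : ℝ) : ℂ)) := by
        have : 4 * (B + 1 / 2) = 2 * (1 + (m ^ 2)⁻¹) := by
          rw [hBdef]; field_simp; ring
        exact_mod_cast this
      rw [e2]
      ring
    · intro k _
      exact (gauss_integrable (B + 1 / 2) hB2 _).const_mul _
  rw [hval] at hlim
  simp only [hfub] at hlim
  have hs1 : 0 < Real.sqrt (Real.pi / B) := Real.sqrt_pos.mpr (by positivity)
  have hs2 : 0 < Real.sqrt (Real.pi / (B + 1 / 2)) := Real.sqrt_pos.mpr (by positivity)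
  have hratio : Real.sqrt (Real.pi / B) = Real.sqrt (Real.pi / (B + 1 / 2)) *
      Real.sqrt (1 + m ^ 2) := by
    rw [← Real.sqrt_mul (by positivity)]
    congr 1
    rw [hBdef]
    field_simp
  have hlim2 := hlim.const_mul (((Real.sqrt (Real.pi / (B + 1 / 2)))⁻¹ : ℝ) : ℂ)
  have e3 : (((Real.sqrt (Real.pi / (B + 1 / 2)))⁻¹ : ℝ) : ℂ)
      * (((Real.sqrt (Real.pi / (B + 1 / 2)) : ℝ) : ℂ) * prof m c μ x0) = prof m c μ x0 := by
    rw [← mul_assoc, ← Complex.ofReal_mul, inv_mul_cancel₀ hs2.ne', Complex.ofReal_one, one_mul]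
  rw [e3] at hlim2
  refine hlim2.congr fun n => ?_
  rw [hratio]
  generalize Real.sqrt (Real.pi / (B + 1 / 2)) = a at hs2
  have ha : (a : ℂ) ≠ 0 := by exact_mod_cast hs2.ne'
  push_cast
  rw [mul_assoc, ← mul_assoc, inv_mul_cancel₀ ha, one_mul]

/-- Size of a single term of the profile. -/
lemma term_bound (c μ : ℂ) (hc : ‖c‖ * Real.exp (μ.re ^ 2 / 2) ≤ 1) (r x : ℝ) (hr : 0 ≤ r) :
    ‖c * cexp ((I * x - μ) ^ 2 / (2 * (1 + (r : ℂ))))‖
      ≤ Real.exp (-((x - μ.im) ^ 2 / (2 * (1 + r)))) := by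
  rw [norm_mul, Complex.norm_exp]
  have e1 : ((I * x - μ) ^ 2 / (2 * (1 + (r : ℂ)))).re
      = μ.re ^ 2 / (2 * (1 + r)) - (x - μ.im) ^ 2 / (2 * (1 + r)) := by
    have e2 : (2 * (1 + (r : ℂ))) = ((2 * (1 + r) : ℝ) : ℂ) := by push_cast; ring
    rw [e2, Complex.div_ofReal_re]
    have e3 : ((I * x - μ) ^ 2).re = μ.re ^ 2 - (x - μ.im) ^ 2 := by
      rw [sq, Complex.mul_re]
      simp only [sub_re, mul_re, I_re, ofReal_re, I_im, ofReal_im, sub_im, mul_im]
      ring
    rw [e3]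
    ring
  rw [e1, sub_eq_add_neg, Real.exp_add, ← mul_assoc]
  have h2 : ‖c‖ * Real.exp (μ.re ^ 2 / (2 * (1 + r))) ≤ 1 := by
    refine le_trans ?_ hc
    apply mul_le_mul_of_nonneg_left _ (norm_nonneg _)
    apply Real.exp_le_exp.mpr
    apply div_le_div_of_nonneg_left (by positivity) (by norm_num)
    linarith
  calc ‖c‖ * Real.exp (μ.re ^ 2 / (2 * (1 + r))) * Real.exp (-((x - μ.im) ^ 2 / (2 * (1 + r))))
      ≤ 1 * Real.exp (-((x - μ.im) ^ 2 / (2 * (1 + r)))) :=
        mul_le_mul_of_nonneg_right h2 (Real.exp_pos _).le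
    _ = _ := one_mul _

end Vale.Agent.P367.Fin
end

section

open MeasureTheory Filter Topology Finset Complex

namespace Vale.Agent.P367.Fin

/-- One term of the profile. -/
noncomputable def tm (r : ℝ) (c μ : ℂ) (x : ℝ) : ℂ :=
  c * cexp ((I * x - μ) ^ 2 / (2 * (1 + (r : ℂ))))

lemma prof_eq {N : ℕ} (m : ℝ) (c μ : Fin N → ℂ) (x : ℝ) :
    prof m c μ x = ∑ k, tm ((m ^ 2)⁻¹) (c k) (μ k) x := rfl

lemma tm_shift (r : ℝ) (hr : 0 ≤ r) (c μ : ℂ) (x0 : ℝ) (v : ℕ) :
    tm r c μ x0 * (cexp (20 * I * μ / (1 + (r : ℂ)))) ^ v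
      = ((Real.exp (((x0 - 20 * v) ^ 2 - x0 ^ 2) / (2 * (1 + r))) : ℝ) : ℂ)
        * tm r c μ (x0 - 20 * v) := by
  unfold tm
  rw [← Complex.exp_nat_mul, Complex.ofReal_exp, mul_assoc, mul_left_comm (cexp _),
    ← Complex.exp_add, ← Complex.exp_add]
  congr 2
  have h1 : (1 + (r : ℂ)) ≠ 0 := by
    have : (1 + r : ℝ) ≠ 0 := by positivity
    exact_mod_cast this
  push_cast
  field_simp
  ring_nf
  simp only [Complex.I_sq]
  ring

lemma bump_far (m x0 x : ℝ) (h : 7 ≤ |x - x0|) : bump m x0 x ≤ Real.exp (-(24 * m ^ 2)) := by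
  unfold bump
  apply Real.exp_le_exp.mpr
  have h1 : (7 : ℝ) ^ 2 ≤ (x - x0) ^ 2 := by
    rw [← sq_abs (x - x0)]
    exact pow_le_pow_left₀ (by norm_num) h 2
  have h2 : 0 ≤ m ^ 2 := sq_nonneg m
  nlinarith

lemma bump_integrable (ρ : Measure ℝ) [IsProbabilityMeasure ρ] (m x0 : ℝ) :
    Integrable (bump m x0) ρ := by
  refine (integrable_const (1 : ℝ)).mono' (continuous_bump m x0).aestronglyMeasurable
    (Filter.Eventually.of_forall fun x => ?_)
  rw [Real.norm_eq_abs, abs_of_nonneg (bump_nonneg _ _ _)]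
  exact bump_le_one _ _ _

/-- The grid. -/
noncomputable def gr (m : ℕ) (j : ℕ) : ℝ := -12 + (j : ℝ) / m

lemma gr_mem (m : ℕ) (hm : 0 < m) (j : ℕ) (hj : j ∈ Finset.range (24 * m + 1)) :
    -12 ≤ gr m j ∧ gr m j ≤ 12 := by
  have hm0 : (0 : ℝ) < m := by exact_mod_cast hm
  have hj1 : (j : ℝ) ≤ 24 * m := by
    exact_mod_cast Nat.lt_succ_iff.mp (Finset.mem_range.mp hj)
  have h1 : 0 ≤ (j : ℝ) / m := by positivity
  have h2 : (j : ℝ) / m ≤ 24 := (div_le_iff₀ hm0).mpr hj1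
  unfold gr
  constructor <;> linarith

lemma exp_half_lower : (0.6 : ℝ) ≤ Real.exp (-(1 / 2)) := by
  have h5 : (Real.exp (-(1 / 2))) ^ 2 = (Real.exp 1)⁻¹ := by
    rw [← Real.exp_nat_mul, ← Real.exp_neg]
    norm_num
  have h6 := Real.exp_one_lt_d9
  have h7 : (0.36 : ℝ) ≤ (Real.exp 1)⁻¹ := by
    rw [le_inv_comm₀ (by norm_num) (Real.exp_pos 1)]
    norm_num
    linarith
  have h8 : (0.6 : ℝ) ^ 2 ≤ (Real.exp (-(1 / 2))) ^ 2 := by
    rw [h5]; norm_num; linarith
  exact le_of_sq_le_sq h8 (Real.exp_pos _).le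

lemma grid_lower (m : ℕ) (hm : 0 < m) (ρ : Measure ℝ) [IsProbabilityMeasure ρ]
    (h : 1 / 2 ≤ ρ.real (Set.Icc (-12) 12)) :
    0.3 ≤ ∑ j ∈ Finset.range (24 * m + 1), ∫ x, bump m (gr m j) x ∂ρ := by
  have hm0 : (0 : ℝ) < m := by exact_mod_cast hm
  rw [← integral_finsetSum _ (fun j _ => bump_integrable ρ m (gr m j))]
  have h1 : ∀ x, (Set.Icc (-12 : ℝ) 12).indicator (fun _ => Real.exp (-(1 / 2))) x
      ≤ ∑ j ∈ Finset.range (24 * m + 1), bump m (gr m j) x := by
    intro x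
    by_cases hx : x ∈ Set.Icc (-12 : ℝ) 12
    · rw [Set.indicator_of_mem hx]
      obtain ⟨hx1, hx2⟩ := hx
      obtain ⟨j, hj⟩ : ∃ j : ℕ, j = ⌊(x + 12) * m⌋₊ := ⟨_, rfl⟩
      have hj0 : 0 ≤ (x + 12) * m := mul_nonneg (by linarith) hm0.le
      have hj1 : (j : ℝ) ≤ (x + 12) * m := by rw [hj]; exact Nat.floor_le hj0
      have hj2 : (x + 12) * m < j + 1 := by rw [hj]; exact Nat.lt_floor_add_one _
      have hjr : j ∈ Finset.range (24 * m + 1) := by
        rw [Finset.mem_range, Nat.lt_succ_iff]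
        have h2 : (j : ℝ) ≤ 24 * m := by
          calc (j : ℝ) ≤ (x + 12) * m := hj1
            _ ≤ 24 * m := mul_le_mul_of_nonneg_right (by linarith) hm0.le
        exact_mod_cast h2
      have hb : Real.exp (-(1 / 2)) ≤ bump m (gr m j) x := by
        unfold bump
        apply Real.exp_le_exp.mpr
        have e1 : m * (x - gr m j) = (x + 12) * m - j := by
          unfold gr
          field_simp
          ring
        have e2 : (m : ℝ) ^ 2 * (x - gr m j) ^ 2 = ((x + 12) * m - j) ^ 2 := by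
          rw [← mul_pow, e1]
        rw [e2]
        have e3 : ((x + 12) * m - j) ^ 2 ≤ 1 := by
          have a1 : 0 ≤ (x + 12) * m - j := by linarith
          have a2 : (x + 12) * m - j ≤ 1 := by linarith
          nlinarith
        linarith
      refine le_trans hb ?_
      exact Finset.single_le_sum (f := fun j => bump m (gr m j) x)
        (fun i _ => bump_nonneg _ _ _) hjr
    · rw [Set.indicator_of_notMem hx]
      exact Finset.sum_nonneg fun j _ => bump_nonneg _ _ _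
  have h3 : ∫ x, (Set.Icc (-12 : ℝ) 12).indicator (fun _ => Real.exp (-(1 / 2))) x ∂ρ
      ≤ ∫ x, ∑ j ∈ Finset.range (24 * m + 1), bump m (gr m j) x ∂ρ := by
    apply integral_mono
    · exact (integrable_const _).indicator measurableSet_Icc
    · exact integrable_finsetSum _ fun j _ => bump_integrable ρ m (gr m j)
    · exact h1
  rw [integral_indicator measurableSet_Icc, setIntegral_const, smul_eq_mul] at h3
  have h9 : (0.3 : ℝ) ≤ ρ.real (Set.Icc (-12) 12) * Real.exp (-(1 / 2)) := by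
    calc (0.3 : ℝ) = 1 / 2 * 0.6 := by norm_num
      _ ≤ _ := mul_le_mul h exp_half_lower (by norm_num) measureReal_nonneg
  linarith

lemma bump_left (m x0 : ℝ) (hx0 : x0 ≤ -8) (ρ : Measure ℝ) [IsProbabilityMeasure ρ] :
    ∫ x, bump m x0 x ∂ρ ≤ ρ.real (Set.Iio (-1)) + Real.exp (-(24 * m ^ 2)) := by
  have h2 : ∀ x, bump m x0 x ≤ (Set.Iio (-1 : ℝ)).indicator (fun _ => (1 : ℝ)) x
      + Real.exp (-(24 * m ^ 2)) := by
    intro x
    by_cases hx : x < -1
    · rw [Set.indicator_of_mem (Set.mem_Iio.mpr hx)]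
      have := bump_le_one m x0 x
      have := Real.exp_pos (-(24 * m ^ 2))
      linarith
    · rw [Set.indicator_of_notMem (by simpa using hx), zero_add]
      apply bump_far
      rw [not_lt] at hx
      rw [abs_of_nonneg (by linarith)]
      linarith
  calc ∫ x, bump m x0 x ∂ρ
      ≤ ∫ x, ((Set.Iio (-1 : ℝ)).indicator (fun _ => (1 : ℝ)) x
        + Real.exp (-(24 * m ^ 2))) ∂ρ := by
        apply integral_mono (bump_integrable ρ m x0)
        · exact ((integrable_const (1 : ℝ)).indicator measurableSet_Iio).add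
            (integrable_const _)
        · exact h2
    _ = _ := by
        rw [integral_add ((integrable_const (1 : ℝ)).indicator measurableSet_Iio)
          (integrable_const _), integral_indicator measurableSet_Iio]
        simp

/-- Deterministic part: extrapolation of the profile from far left. -/
lemma prof_extrap (N : ℕ) (c μ : Fin N → ℂ) (hc : ∀ k, ‖c k‖ * Real.exp ((μ k).re ^ 2 / 2) ≤ 1)
    (m M : ℝ) (hM : M = (N : ℝ) + 1) (hm1 : 1 ≤ m) (hs : ℝ) (hs0 : 0 ≤ hs)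
    (hup : ∀ x0 : ℝ, x0 ≤ -8 → ‖prof m c μ x0‖ ≤ hs) (x0 : ℝ) (h1x : -12 ≤ x0) (h2x : x0 ≤ 12) :
    ‖prof m c μ x0‖ ≤ Real.exp (8401 * M ^ 2) * (Real.exp ((20 * M) ^ 2 / 2)
      * (hs + N * Real.exp (-(40000 * M ^ 2)))) + N * Real.exp (-(40000 * M ^ 2)) := by
  have hN0 : (0 : ℝ) ≤ N := Nat.cast_nonneg N
  have hM1 : 1 ≤ M := by rw [hM]; linarith
  have hNM : (N : ℝ) ≤ M := by rw [hM]; linarith
  obtain ⟨r, hr⟩ : ∃ r : ℝ, r = (m ^ 2)⁻¹ := ⟨_, rfl⟩
  have hr0 : 0 ≤ r := by rw [hr]; positivity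
  have hr1 : r ≤ 1 := by
    rw [hr]
    apply inv_le_one_of_one_le₀
    nlinarith
  obtain ⟨L, hL⟩ : ∃ L : ℝ, L = 20 * M := ⟨_, rfl⟩
  obtain ⟨K, hK⟩ : ∃ K : ℝ, K = 420 * M := ⟨_, rfl⟩
  obtain ⟨η, hη⟩ : ∃ η : ℝ, η = N * Real.exp (-(40000 * M ^ 2)) := ⟨_, rfl⟩
  rw [← hL, ← hη]
  have hη0 : 0 ≤ η := by rw [hη]; positivity
  set S : Finset (Fin N) := univ.filter fun k => |(μ k).im| ≤ K with hS
  have hdrop : ∀ x : ℝ, |x| ≤ L → ‖∑ k ∈ Sᶜ, tm r (c k) (μ k) x‖ ≤ η := by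
    intro x hx
    calc ‖∑ k ∈ Sᶜ, tm r (c k) (μ k) x‖ ≤ ∑ k ∈ Sᶜ, ‖tm r (c k) (μ k) x‖ := norm_sum_le _ _
      _ ≤ ∑ _k ∈ Sᶜ, Real.exp (-(40000 * M ^ 2)) := by
          apply Finset.sum_le_sum
          intro k hk
          have hk' : K < |(μ k).im| := by
            rw [Finset.mem_compl, hS, Finset.mem_filter] at hk
            simpa using hk
          refine le_trans (term_bound (c k) (μ k) (hc k) r x hr0) ?_
          apply Real.exp_le_exp.mpr
          have h1 : 400 * M ≤ |x - (μ k).im| := by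
            have := abs_sub_abs_le_abs_sub (μ k).im x
            rw [abs_sub_comm] at this
            have h2 : K - L = 400 * M := by rw [hK, hL]; ring
            linarith
          have h2 : (400 * M) ^ 2 ≤ (x - (μ k).im) ^ 2 := by
            rw [← sq_abs (x - (μ k).im)]
            exact pow_le_pow_left₀ (by positivity) h1 2
          have h3 : 40000 * M ^ 2 ≤ (x - (μ k).im) ^ 2 / (2 * (1 + r)) := by
            rw [le_div_iff₀ (by positivity)]
            have : 40000 * M ^ 2 * (2 * (1 + r)) ≤ 40000 * M ^ 2 * (2 * (1 + 1)) := by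
              apply mul_le_mul_of_nonneg_left _ (by positivity)
              linarith
            nlinarith
          linarith
      _ ≤ η := by
          rw [Finset.sum_const, nsmul_eq_mul, hη]
          apply mul_le_mul_of_nonneg_right _ (Real.exp_pos _).le
          have : (Sᶜ).card ≤ N := by
            simpa using Finset.card_le_univ (Sᶜ)
          exact_mod_cast this
  have hsplit : ∀ x : ℝ, prof m c μ x
      = ∑ k ∈ S, tm r (c k) (μ k) x + ∑ k ∈ Sᶜ, tm r (c k) (μ k) x := by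
    intro x
    rw [prof_eq, Finset.sum_add_sum_compl, hr]
  have hkeep : ∀ x : ℝ, |x| ≤ L → ‖∑ k ∈ S, tm r (c k) (μ k) x‖ ≤ ‖prof m c μ x‖ + η := by
    intro x hx
    have h1 : ∑ k ∈ S, tm r (c k) (μ k) x = prof m c μ x - ∑ k ∈ Sᶜ, tm r (c k) (μ k) x := by
      rw [hsplit]; ring
    rw [h1]
    exact (norm_sub_le _ _).trans (by have := hdrop x hx; linarith)
  have hx0L : |x0| ≤ L := by
    rw [abs_le, hL]
    constructor <;> linarith
  have hA0 : 0 ≤ Real.exp (L ^ 2 / 2) * (hs + η) := by positivity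
  have hrec := recur (Real.exp (20 * K)) (Real.exp_pos _).le S (fun k => tm r (c k) (μ k) x0)
    (fun k => cexp (20 * I * μ k / (1 + (r : ℂ)))) (Real.exp (L ^ 2 / 2) * (hs + η)) hA0
    (fun k _ => Complex.exp_ne_zero _)
    (by
      intro k hk
      rw [← Complex.exp_neg, Complex.norm_exp]
      apply Real.exp_le_exp.mpr
      have e1 : (-(20 * I * μ k / (1 + (r : ℂ)))).re = 20 * (μ k).im / (1 + r) := by
        have e2 : (1 + (r : ℂ)) = ((1 + r : ℝ) : ℂ) := by push_cast; ring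
        rw [e2, Complex.neg_re, Complex.div_ofReal_re]
        have e3 : (20 * I * μ k).re = -(20 * (μ k).im) := by
          simp [Complex.mul_re]
        rw [e3]
        ring
      rw [e1]
      have hk' : |(μ k).im| ≤ K := by
        rw [hS, Finset.mem_filter] at hk
        exact hk.2
      have h1 : (μ k).im ≤ K := le_trans (le_abs_self _) hk'
      rw [div_le_iff₀ (by positivity)]
      have hK0 : 0 ≤ K := by rw [hK]; positivity
      nlinarith)
    (by
      intro v hv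
      rw [Finset.mem_Icc] at hv
      have hvN : v ≤ N := hv.2.trans (by simpa using Finset.card_le_univ S)
      have hvr : (v : ℝ) ≤ N := by exact_mod_cast hvN
      have hv1 : (1 : ℝ) ≤ v := by exact_mod_cast hv.1
      have hxv : |x0 - 20 * v| ≤ L := by
        rw [abs_le, hL, hM]
        constructor <;> linarith
      have hxv8 : x0 - 20 * v ≤ -8 := by linarith
      have e1 : ∑ k ∈ S, tm r (c k) (μ k) x0 * cexp (20 * I * μ k / (1 + (r : ℂ))) ^ v
          = ((Real.exp (((x0 - 20 * v) ^ 2 - x0 ^ 2) / (2 * (1 + r))) : ℝ) : ℂ)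
            * ∑ k ∈ S, tm r (c k) (μ k) (x0 - 20 * v) := by
        rw [Finset.mul_sum]
        apply Finset.sum_congr rfl
        intro k _
        exact tm_shift r hr0 (c k) (μ k) x0 v
      rw [e1, norm_mul, Complex.norm_real, Real.norm_eq_abs, abs_of_pos (Real.exp_pos _)]
      apply mul_le_mul
      · apply Real.exp_le_exp.mpr
        have h1 : (x0 - 20 * v) ^ 2 ≤ L ^ 2 := by
          rw [← sq_abs (x0 - 20 * v)]
          exact pow_le_pow_left₀ (abs_nonneg _) hxv 2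
        calc ((x0 - 20 * v) ^ 2 - x0 ^ 2) / (2 * (1 + r)) ≤ L ^ 2 / (2 * (1 + r)) := by
              apply div_le_div_of_nonneg_right _ (by positivity)
              have := sq_nonneg x0
              linarith
          _ ≤ L ^ 2 / 2 := by
              apply div_le_div_of_nonneg_left (by positivity) (by norm_num)
              linarith
      · refine le_trans (hkeep _ hxv) ?_
        have := hup _ hxv8
        linarith
      · exact norm_nonneg _
      · positivity)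
  have hRN : (1 + Real.exp (20 * K)) ^ S.card - 1 ≤ Real.exp (8401 * M ^ 2) := by
    have hR0 : 0 < Real.exp (20 * K) := Real.exp_pos _
    have h1 : 1 + Real.exp (20 * K) ≤ Real.exp (20 * K + 1) := by
      rw [Real.exp_add]
      have h2 : (2 : ℝ) ≤ Real.exp 1 := by
        have := Real.exp_one_gt_d9
        linarith
      have h3 : (1 : ℝ) ≤ Real.exp (20 * K) := Real.one_le_exp (by rw [hK]; positivity)
      nlinarith
    have h2 : (1 + Real.exp (20 * K)) ^ S.card ≤ (1 + Real.exp (20 * K)) ^ N := by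
      apply pow_le_pow_right₀
      · linarith
      · simpa using Finset.card_le_univ S
    have h3 : (1 + Real.exp (20 * K)) ^ N ≤ Real.exp (20 * K + 1) ^ N := by
      apply pow_le_pow_left₀ _ h1
      linarith
    have h4 : Real.exp (20 * K + 1) ^ N ≤ Real.exp (8401 * M ^ 2) := by
      rw [← Real.exp_nat_mul]
      apply Real.exp_le_exp.mpr
      rw [hK]
      nlinarith
    linarith
  have hfin : ‖∑ k ∈ S, tm r (c k) (μ k) x0‖
      ≤ Real.exp (8401 * M ^ 2) * (Real.exp (L ^ 2 / 2) * (hs + η)) := by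
    refine le_trans hrec ?_
    exact mul_le_mul_of_nonneg_right hRN hA0
  rw [hsplit]
  refine (norm_add_le _ _).trans ?_
  have := hdrop x0 hx0L
  linarith

end Vale.Agent.P367.Fin
end

section

open MeasureTheory Filter Topology Finset Complex

namespace Vale.Agent.P367.Fin

lemma exp_small (a : ℝ) (ha : 10 ≤ a) (q : ℝ) (hq : 1 ≤ q) : Real.exp (-(a * q)) ≤ 0.001 := by
  have h1 : Real.exp (-(a * q)) ≤ Real.exp (-10) := by
    apply Real.exp_le_exp.mpr
    nlinarith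
  have h2 : Real.exp (-10) = (Real.exp 1)⁻¹ ^ 10 := by
    rw [← Real.exp_neg, ← Real.exp_nat_mul]
    norm_num
  have h3 : (Real.exp 1)⁻¹ ≤ 0.5 := by
    rw [inv_le_comm₀ (Real.exp_pos 1) (by norm_num)]
    have := Real.exp_one_gt_d9
    norm_num
    linarith
  have h4 : (Real.exp 1)⁻¹ ^ 10 ≤ (0.5 : ℝ) ^ 10 :=
    pow_le_pow_left₀ (by positivity) h3 10
  rw [h2] at h1
  have h5 : ((0.5 : ℝ) ^ 10) ≤ 0.001 := by norm_num
  linarith

lemma numeric (N : ℕ) (M : ℝ) (hM : M = (N : ℝ) + 1) :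
    Real.exp (8401 * M ^ 2) * (Real.exp ((20 * M) ^ 2 / 2)
      * (2 * (40 * M) * (Real.exp (-(9000 * M ^ 2)) + Real.exp (-(24 * (40 * M) ^ 2)))
        + N * Real.exp (-(40000 * M ^ 2)))) + N * Real.exp (-(40000 * M ^ 2)) < 0.012 := by
  have hN0 : (0 : ℝ) ≤ N := Nat.cast_nonneg N
  have hM1 : 1 ≤ M := by rw [hM]; linarith
  have hNM : (N : ℝ) ≤ M := by rw [hM]; linarith
  obtain ⟨q, hq⟩ : ∃ q : ℝ, q = M ^ 2 := ⟨_, rfl⟩
  have hMq : M ≤ q := by rw [hq]; nlinarith
  have hq1 : 1 ≤ q := by linarith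
  have e1 : (20 * M) ^ 2 / 2 = 200 * q := by rw [hq]; ring
  have e2 : 24 * (40 * M) ^ 2 = 38400 * q := by rw [hq]; ring
  rw [e1, e2, ← hq]
  have hηs : N * Real.exp (-(40000 * q)) ≤ Real.exp (-(39999 * q)) := by
    have h1 : (N : ℝ) ≤ Real.exp q := by
      have := Real.add_one_le_exp q
      linarith
    calc (N : ℝ) * Real.exp (-(40000 * q)) ≤ Real.exp q * Real.exp (-(40000 * q)) :=
          mul_le_mul_of_nonneg_right h1 (Real.exp_pos _).le
      _ = Real.exp (-(39999 * q)) := by rw [← Real.exp_add]; ring_nf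
  have h2m : 2 * (40 * M) ≤ Real.exp (80 * q) := by
    have := Real.add_one_le_exp (80 * q)
    linarith
  have hhs : 2 * (40 * M) * (Real.exp (-(9000 * q)) + Real.exp (-(38400 * q)))
      ≤ Real.exp (-(8920 * q)) + Real.exp (-(38320 * q)) := by
    calc 2 * (40 * M) * (Real.exp (-(9000 * q)) + Real.exp (-(38400 * q)))
        ≤ Real.exp (80 * q) * (Real.exp (-(9000 * q)) + Real.exp (-(38400 * q))) :=
          mul_le_mul_of_nonneg_right h2m (by positivity)
      _ = _ := by rw [mul_add, ← Real.exp_add, ← Real.exp_add]; ring_nf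
  have hA : Real.exp (8401 * q) * (Real.exp (200 * q)
      * (2 * (40 * M) * (Real.exp (-(9000 * q)) + Real.exp (-(38400 * q)))
        + N * Real.exp (-(40000 * q)))) ≤ 0.003 := by
    calc Real.exp (8401 * q) * (Real.exp (200 * q)
      * (2 * (40 * M) * (Real.exp (-(9000 * q)) + Real.exp (-(38400 * q)))
        + N * Real.exp (-(40000 * q))))
        ≤ Real.exp (8401 * q) * (Real.exp (200 * q)
          * (Real.exp (-(8920 * q)) + Real.exp (-(38320 * q)) + Real.exp (-(39999 * q)))) := by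
          apply mul_le_mul_of_nonneg_left _ (Real.exp_pos _).le
          apply mul_le_mul_of_nonneg_left _ (Real.exp_pos _).le
          linarith
      _ = Real.exp (-(319 * q)) + Real.exp (-(29719 * q)) + Real.exp (-(31398 * q)) := by
          rw [mul_add, mul_add, mul_add, mul_add, ← Real.exp_add, ← Real.exp_add,
            ← Real.exp_add, ← Real.exp_add, ← Real.exp_add, ← Real.exp_add]
          ring_nf
      _ ≤ 0.003 := by
          have a1 := exp_small 319 (by norm_num) q hq1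
          have a2 := exp_small 29719 (by norm_num) q hq1
          have a3 := exp_small 31398 (by norm_num) q hq1
          linarith
  have a4 := exp_small 39999 (by norm_num) q hq1
  linarith

/-- **Tail lemma.** If the characteristic functions converge to a Gaussian times a sum of `N`
exponentials with the indicated normalisation, and half of the mass stays in `[-12, 12]`, then a
definite mass stays in `(-∞, -1)`. -/
theorem tail_lower (N : ℕ) (ρ : ℕ → Measure ℝ) [∀ n, IsProbabilityMeasure (ρ n)]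
    (h12 : ∀ᶠ n in atTop, 1 / 2 ≤ (ρ n).real (Set.Icc (-12) 12))
    (c μ : Fin N → ℂ) (hc : ∀ k, ‖c k‖ * Real.exp ((μ k).re ^ 2 / 2) ≤ 1)
    (hφ : ∀ ξ : ℝ, Tendsto (fun n => ∫ x : ℝ, cexp (-(I * ξ * x)) ∂(ρ n)) atTop
      (𝓝 (cexp (-(ξ : ℂ) ^ 2 / 2) * ∑ k, c k * cexp (-(ξ * μ k))))) :
    ∀ᶠ n in atTop, Real.exp (-(9000 * ((N : ℝ) + 1) ^ 2)) ≤ (ρ n).real (Set.Iio (-1)) := by
  by_contra hcon
  rw [Filter.not_eventually] at hcon
  obtain ⟨M, hM⟩ : ∃ M : ℝ, M = (N : ℝ) + 1 := ⟨_, rfl⟩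
  rw [← hM] at hcon
  have hN0 : (0 : ℝ) ≤ N := Nat.cast_nonneg N
  have hM1 : 1 ≤ M := by rw [hM]; linarith
  obtain ⟨mN, hmN⟩ : ∃ mN : ℕ, mN = 40 * (N + 1) := ⟨_, rfl⟩
  have hmN0 : 0 < mN := by rw [hmN]; omega
  obtain ⟨m, hm⟩ : ∃ m : ℝ, m = 40 * M := ⟨_, rfl⟩
  have hmm : (mN : ℝ) = m := by rw [hmN, hm, hM]; push_cast; ring
  have hm1 : 1 ≤ m := by rw [hm]; linarith
  have hm0 : 0 < m := by linarith
  have hlim : ∀ x0, Tendsto (fun n => Real.sqrt (1 + m ^ 2) * ∫ x, bump m x0 x ∂(ρ n)) atTop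
      (𝓝 ‖prof m c μ x0‖) := by
    intro x0
    have h := (bump_tendsto ρ c μ hφ m hm0 x0).norm
    refine h.congr fun n => ?_
    rw [Complex.norm_real, Real.norm_eq_abs, abs_of_nonneg]
    exact mul_nonneg (Real.sqrt_nonneg _) (integral_nonneg fun x => bump_nonneg _ _ _)
  have hsq1 : Real.sqrt (1 + m ^ 2) ≤ 2 * m := by
    rw [Real.sqrt_le_left (by positivity)]
    nlinarith
  have hsq2 : m ≤ Real.sqrt (1 + m ^ 2) := by
    apply Real.le_sqrt_of_sq_le
    linarith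
  obtain ⟨hs, hhs⟩ : ∃ hs : ℝ, hs = 2 * m * (Real.exp (-(9000 * M ^ 2))
    + Real.exp (-(24 * m ^ 2))) := ⟨_, rfl⟩
  have hs0 : 0 ≤ hs := by rw [hhs]; positivity
  have hup : ∀ x0 : ℝ, x0 ≤ -8 → ‖prof m c μ x0‖ ≤ hs := by
    intro x0 hx0
    have hfreq : ∃ᶠ n in atTop, Real.sqrt (1 + m ^ 2) * ∫ x, bump m x0 x ∂(ρ n) ≤ hs := by
      refine hcon.mono fun n hn => ?_
      rw [not_le] at hn
      have h1 := bump_left m x0 hx0 (ρ n)
      rw [hhs]
      apply mul_le_mul hsq1 _ (integral_nonneg fun x => bump_nonneg _ _ _) (by positivity)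
      linarith
    by_contra hc'
    rw [not_le] at hc'
    have hev := (hlim x0).eventually (lt_mem_nhds hc')
    obtain ⟨n, hn1, hn2⟩ := (hfreq.and_eventually hev).exists
    linarith
  obtain ⟨x0, hx0a, hx0b, hx0c⟩ : ∃ x0 : ℝ, -12 ≤ x0 ∧ x0 ≤ 12 ∧ 0.012 ≤ ‖prof m c μ x0‖ := by
    by_contra hne
    have hne' : ∀ x0 : ℝ, -12 ≤ x0 → x0 ≤ 12 → ‖prof m c μ x0‖ ≤ 0.012 := by
      intro x0 h1 h2
      by_contra h3
      exact hne ⟨x0, h1, h2, (not_le.mp h3).le⟩
    have hsum : Tendsto (fun n => ∑ j ∈ Finset.range (24 * mN + 1),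
        Real.sqrt (1 + m ^ 2) * ∫ x, bump m (gr mN j) x ∂(ρ n)) atTop
        (𝓝 (∑ j ∈ Finset.range (24 * mN + 1), ‖prof m c μ (gr mN j)‖)) :=
      tendsto_finsetSum _ fun j _ => hlim (gr mN j)
    have hlow : ∀ᶠ n in atTop, m * 0.3 ≤ ∑ j ∈ Finset.range (24 * mN + 1),
        Real.sqrt (1 + m ^ 2) * ∫ x, bump m (gr mN j) x ∂(ρ n) := by
      filter_upwards [h12] with n hn
      rw [← Finset.mul_sum]
      have h2 := grid_lower mN hmN0 (ρ n) hn
      rw [hmm] at h2
      exact mul_le_mul hsq2 h2 (by norm_num) (Real.sqrt_nonneg _)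
    have hlow2 : m * 0.3 ≤ ∑ j ∈ Finset.range (24 * mN + 1), ‖prof m c μ (gr mN j)‖ :=
      ge_of_tendsto hsum hlow
    have hup2 : ∑ j ∈ Finset.range (24 * mN + 1), ‖prof m c μ (gr mN j)‖
        ≤ ∑ j ∈ Finset.range (24 * mN + 1), (0.012 : ℝ) := by
      apply Finset.sum_le_sum
      intro j hj
      have := gr_mem mN hmN0 j hj
      exact hne' _ this.1 this.2
    rw [Finset.sum_const, card_range, nsmul_eq_mul] at hup2
    push_cast at hup2
    rw [hmm] at hup2
    have : 40 ≤ m := by rw [hm]; linarith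
    nlinarith
  have hfinal := prof_extrap N c μ hc m M hM hm1 hs hs0 hup x0 hx0a hx0b
  have hnum := numeric N M hM
  rw [hhs, hm] at hfinal
  rw [hm] at hx0c
  linarith

end Vale.Agent.P367.Fin
end

section

namespace Vale.Agent.P367.Lim

open Finset MeasureTheory ProbabilityTheory Filter Topology Vale.Agent.P367.Gap

/-- tightness of the aligned field law, at radius 12 -/
theorem tight_alf12 (p n : ℕ) (hn : 1 ≤ n) (γ β : Fin p → ℝ) :
    1 / 2 ≤ (alf n p γ β).real (Set.Icc (-12) 12) := by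
  have hnr : (0 : ℝ) < n := by exact_mod_cast hn
  have hset : (Set.Icc (-12) 12 : Set ℝ) = {x | |x| ≤ 12} := by
    ext x; simp [abs_le]
  rw [hset]
  have hmS : MeasurableSet {x : ℝ | |x| ≤ 12} := measurableSet_le measurable_norm measurable_const
  have hw : ∀ s, Continuous fun J : Pair n → ℝ => ‖qaoaState J p γ β s‖ ^ 2 :=
    fun s => (continuous_state p γ β s).norm.pow 2
  have hmt : ∀ (i : Fin n) (s : Conf n), Measurable (tt (uvec i) s) := fun i s => measurable_tt _ _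
  have iT : ∀ (i : Fin n) (s : Conf n), Integrable (fun J : Pair n → ℝ => tt (uvec i) s J)
      (gLaw (Pair n)) := by
    intro i s
    have h2 : (fun J : Pair n → ℝ => tt (uvec i) s J) = fun J => ∑ e, uvec i s e * J e := by
      funext J; rfl
    rw [h2]
    apply integrable_finsetSum
    intro e _
    apply Integrable.const_mul
    exact integrable_comp_eval (μ := fun _ : Pair n => gaussianReal 0 1) (i := e) (f := fun x => x)
      ((memLp_id_gaussianReal 1).integrable le_rfl)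
  have iA : ∀ (i : Fin n) (s : Conf n), Integrable
      (fun J : Pair n → ℝ => ‖qaoaState J p γ β s‖ ^ 2 * |tt (uvec i) s J|) (gLaw (Pair n)) := by
    intro i s
    refine (iT i s).abs.bdd_mul (c := 1) (hw s).aestronglyMeasurable
      (Eventually.of_forall fun J => ?_)
    rw [Real.norm_eq_abs, abs_of_nonneg (by positivity)]
    exact state_sq_le J p γ β s
  have iI : ∀ (i : Fin n) (s : Conf n), Integrable
      (fun J : Pair n → ℝ => ‖qaoaState J p γ β s‖ ^ 2
        * {x : ℝ | |x| ≤ 12}.indicator (fun _ => (1 : ℝ)) (tt (uvec i) s J)) (gLaw (Pair n)) := by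
    intro i s
    refine (integrable_const (1 : ℝ)).mono' ?_ (Eventually.of_forall fun J => ?_)
    · exact ((hw s).measurable.mul ((measurable_const.indicator hmS).comp
        (hmt i s))).aestronglyMeasurable
    · rw [norm_mul, Real.norm_eq_abs, abs_of_nonneg (by positivity)]
      have h1 := state_sq_le J p γ β s
      have h2 : ‖{x : ℝ | |x| ≤ 12}.indicator (fun _ => (1 : ℝ)) (tt (uvec i) s J)‖ ≤ 1 := by
        refine (norm_indicator_le_norm_self _ _).trans ?_
        simp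
      calc _ ≤ 1 * 1 := mul_le_mul h1 h2 (norm_nonneg _) (by norm_num)
        _ = 1 := one_mul 1
  rw [real_alf p γ β _ hmS]
  have hfm := first_moment p γ β (fun s => measurable_qaoaState p γ β s)
    (fun J : Pair n → ℝ => norm_qaoaState J p γ β)
  have hi : ∀ i : Fin n, 1 - (1 / 12) * ∫ J : Pair n → ℝ,
      ∑ s, ‖qaoaState J p γ β s‖ ^ 2 * |tt (uvec i) s J| ∂(gLaw (Pair n))
      ≤ ∫ J : Pair n → ℝ, (∑ s, (‖qaoaState J p γ β s‖ ^ 2)
        * {x : ℝ | |x| ≤ 12}.indicator (fun _ => (1 : ℝ)) (tt (uvec i) s J)) ∂(couplingLaw n) := by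
    intro i
    have e1 : 1 - (1 / 12) * ∫ J : Pair n → ℝ,
        ∑ s, ‖qaoaState J p γ β s‖ ^ 2 * |tt (uvec i) s J| ∂(gLaw (Pair n))
        = ∫ J : Pair n → ℝ, (1 - (1 / 12) * ∑ s, ‖qaoaState J p γ β s‖ ^ 2 * |tt (uvec i) s J|)
          ∂(gLaw (Pair n)) := by
      rw [integral_sub (integrable_const _)
        ((integrable_finsetSum _ fun s _ => iA i s).const_mul _), integral_const_mul]
      simp
    rw [e1]
    apply integral_mono ((integrable_const _).sub
      ((integrable_finsetSum _ fun s _ => iA i s).const_mul _))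
      (integrable_finsetSum _ fun s _ => iI i s)
    intro J
    simp only [Pi.sub_apply]
    have h1 : (1 : ℝ) - (1 / 12) * ∑ s, ‖qaoaState J p γ β s‖ ^ 2 * |tt (uvec i) s J|
        = ∑ s, ‖qaoaState J p γ β s‖ ^ 2 * (1 - (1 / 12) * |tt (uvec i) s J|) := by
      rw [← norm_qaoaState J p γ β, Finset.mul_sum, ← Finset.sum_sub_distrib]
      apply Finset.sum_congr rfl
      intro s _
      rw [norm_qaoaState]
      ring
    rw [h1]
    apply Finset.sum_le_sum
    intro s _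
    apply mul_le_mul_of_nonneg_left _ (by positivity)
    by_cases h : |tt (uvec i) s J| ≤ 12
    · rw [Set.indicator_of_mem (by exact h)]
      have := abs_nonneg (tt (uvec i) s J)
      linarith
    · rw [Set.indicator_of_notMem (by exact h)]
      push Not at h
      linarith
  have hs := Finset.sum_le_sum (s := (univ : Finset (Fin n))) fun i _ => hi i
  have h1 : ∑ i : Fin n, (1 - (1 / 12) * ∫ J : Pair n → ℝ,
      ∑ s, ‖qaoaState J p γ β s‖ ^ 2 * |tt (uvec i) s J| ∂(gLaw (Pair n)))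
      = n - (1 / 12) * ∑ i : Fin n, ∫ J : Pair n → ℝ,
      ∑ s, ‖qaoaState J p γ β s‖ ^ 2 * |tt (uvec i) s J| ∂(gLaw (Pair n)) := by
    rw [Finset.sum_sub_distrib, ← Finset.mul_sum]
    simp
  rw [h1] at hs
  rw [inv_mul_eq_div, le_div_iff₀ hnr]
  linarith

/-- explicit misalignment bound at fixed depth -/
theorem misalign_explicit (p : ℕ) (γ β : Fin p → ℝ) :
    ∀ᶠ n : ℕ in atTop, Real.exp (-(9000 * ((4 : ℝ) ^ (p + 1) + 1) ^ 2))
      ≤ (alf n p γ β).real (Set.Iio (-1)) := by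
  have hcard : Fintype.card (CP p) = 4 ^ (p + 1) := by
    rw [Fintype.card_prod, Fintype.card_fun, Fintype.card_bool, Fintype.card_fin, ← mul_pow]
    norm_num
  set e : Fin (4 ^ (p + 1)) ≃ CP p := (Fintype.equivFinOfCardEq hcard).symm with he
  have hpr : ∀ m : ℕ, IsProbabilityMeasure (alf (m + 1) p γ β) :=
    fun m => isProb_alf p γ β (Nat.succ_pos m)
  have h := Vale.Agent.P367.Fin.tail_lower (4 ^ (p + 1)) (fun m => alf (m + 1) p γ β)
    (Eventually.of_forall fun m => tight_alf12 p (m + 1) (by omega) γ β)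
    (fun k => cx (extA γ) (extA β) p (e k)) (fun k => mx (extA γ) (extA β) p (e k))
    (by
      intro k
      have h1 := norm_cx_le (extA γ) (extA β) p (e k) (-(mx (extA γ) (extA β) p (e k)).re)
      refine le_trans (le_of_eq ?_) h1
      congr 2
      ring)
    (by
      intro ξ
      have h1 := tendsto_char_alf p γ β ξ
      have h2 : (∑ x : CP p, cx (extA γ) (extA β) p x *
          Complex.exp (-(ξ * mx (extA γ) (extA β) p x) - (ξ : ℂ) ^ 2 / 2))
          = Complex.exp (-(ξ : ℂ) ^ 2 / 2) * ∑ k, cx (extA γ) (extA β) p (e k)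
            * Complex.exp (-(ξ * mx (extA γ) (extA β) p (e k))) := by
        rw [← e.sum_comp, Finset.mul_sum]
        apply Finset.sum_congr rfl
        intro k _
        rw [mul_left_comm, ← Complex.exp_add]
        congr 2
        ring
      rw [h2] at h1
      exact h1)
  push_cast at h
  rw [eventually_atTop] at h ⊢
  obtain ⟨M, hM⟩ := h
  refine ⟨M + 1, fun n hn => ?_⟩
  obtain ⟨m, rfl⟩ : ∃ m, n = m + 1 := ⟨n - 1, by omega⟩
  exact hM m (by omega)

/-- **Explicit uniform gap at fixed depth**, all angles. -/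
theorem gap_explicit (p : ℕ) (γ β : Fin p → ℝ) : ∀ᶠ n : ℕ in atTop,
    qaoaValue n p γ β ≤ groundValue n - Real.exp (-(10 ^ 6 * 16 ^ p)) := by
  filter_upwards [misalign_explicit p γ β, eventually_gt_atTop 0] with n hn hn0
  have h := gap_of_alf p n hn0 γ β _ (Real.exp_pos _).le hn
  refine h.trans ?_
  have h1 : Real.exp (-(10 ^ 6 * 16 ^ p))
      ≤ Real.exp (-(9000 * ((4 : ℝ) ^ (p + 1) + 1) ^ 2)) ^ 2 / 4 := by
    rw [le_div_iff₀ (by norm_num), ← Real.exp_nat_mul]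
    have h4 : (4 : ℝ) ≤ Real.exp 2 := by
      have := Real.exp_one_gt_d9
      have h5 : Real.exp 2 = Real.exp 1 * Real.exp 1 := by rw [← Real.exp_add]; norm_num
      rw [h5]
      nlinarith
    have h16 : (16 : ℝ) ^ p = (4 ^ p) ^ 2 := by
      rw [← pow_mul, mul_comm, pow_mul]; norm_num
    have hq : (1 : ℝ) ≤ 4 ^ p := one_le_pow₀ (by norm_num)
    calc Real.exp (-(10 ^ 6 * 16 ^ p)) * 4
        ≤ Real.exp (-(10 ^ 6 * 16 ^ p)) * Real.exp 2 :=
          mul_le_mul_of_nonneg_left h4 (Real.exp_pos _).le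
      _ = Real.exp (-(10 ^ 6 * 16 ^ p) + 2) := by rw [Real.exp_add]
      _ ≤ _ := by
          apply Real.exp_le_exp.mpr
          obtain ⟨q, hqd⟩ : ∃ q : ℝ, q = 4 ^ p := ⟨_, rfl⟩
          rw [h16, pow_succ (4 : ℝ) p, ← hqd]
          rw [← hqd] at hq
          push_cast
          have h9 : (q * 4 + 1) ^ 2 ≤ 25 * q ^ 2 := by nlinarith
          have h10 : 1 ≤ q ^ 2 := by nlinarith
          nlinarith
  linarith

end Vale.Agent.P367.Lim
end

section

/-! P367, Theorem A: block SG (label gate step). -/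

namespace Vale.Agent.P367.A

open Complex Filter Topology

open Vale.Agent.P367.NI (Gate)

namespace Sys

variable {H K : Type*} [NormedAddCommGroup H] [InnerProductSpace ℂ H]
  [NormedAddCommGroup K] [InnerProductSpace ℂ K] (S : Sys H K)

lemma sg_inv (U : H ≃ₗᵢ[ℂ] H) (x : H) : U (U⁻¹ x) = x := U.apply_symm_apply x

lemma sg_inv' (U : H ≃ₗᵢ[ℂ] H) (x : H) : U⁻¹ (U x) = x := U.symm_apply_apply x

lemma sg_mul (U V : H ≃ₗᵢ[ℂ] H) (x : H) : (U * V) x = U (V x) := rfl

lemma sg_mul_inv (U V : H ≃ₗᵢ[ℂ] H) (x : H) : (U * V)⁻¹ x = V⁻¹ (U⁻¹ x) := rfl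

lemma sg_zr_eq (v : K) (x : H) : S.zr v x = (1 / 2 : ℂ) • S.W (-v) (x + S.Z x) +
    (1 / 2 : ℂ) • S.W v (x - S.Z x) := by
  rw [zr_apply, map_add, map_sub]
  module

lemma sg_Z_zr (v : K) (x : H) : S.Z (S.zr v x) = S.zr v (S.Z x) := by
  rw [sg_zr_eq, sg_zr_eq, map_add, map_smul, map_smul, ← S.WZ, ← S.WZ, map_add, map_sub, S.ZZ]

lemma sg_zr_add (v : K) (x : H) : S.zr v x + S.Z (S.zr v x) = S.W (-v) (x + S.Z x) := by
  rw [sg_Z_zr, sg_zr_eq, sg_zr_eq, S.ZZ, add_comm (S.Z x) x]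
  have h : S.W v (S.Z x - x) = -S.W v (x - S.Z x) := by rw [← map_neg, neg_sub]
  rw [h]
  module

lemma sg_zr_sub (v : K) (x : H) : S.zr v x - S.Z (S.zr v x) = S.W v (x - S.Z x) := by
  rw [sg_Z_zr, sg_zr_eq, sg_zr_eq, S.ZZ, add_comm (S.Z x) x]
  have h : S.W v (S.Z x - x) = -S.W v (x - S.Z x) := by rw [← map_neg, neg_sub]
  rw [h]
  module

lemma sg_zr_zr (v w : K) (x : H) : S.zr v (S.zr w x) =
    Complex.exp (-(Complex.I * ((inner ℂ v w).im : ℂ))) • S.zr (v + w) x := by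
  rw [sg_zr_eq S v, sg_zr_add, sg_zr_sub, S.WW, S.WW, sg_zr_eq S (v + w), inner_neg_left,
    inner_neg_right, neg_neg, neg_add]
  module

lemma sg_zr_inv (v : K) (x : H) : (S.zr v)⁻¹ x = S.zr (-v) x := by
  apply inv_apply_eq
  exact S.zrL_zrL_neg v x

lemma sg_X_zr (v : K) (x : H) : S.X (S.zr v x) = S.zr (-v) (S.X x) := by
  rw [sg_zr_eq, sg_zr_eq, neg_neg, map_add, map_smul, map_smul, ← S.WX, ← S.WX, map_add, map_sub,
    S.ZX, ← sub_eq_add_neg, sub_neg_eq_add]
  abel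

lemma sg_X_comm (a : K) (x : H) : S.W a (S.X x) = S.X (S.W a x) := S.WX a x

lemma sg_W_xr (a : K) (b : ℝ) (x : H) : S.W a (S.xr b x) = S.xr b (S.W a x) := by
  rw [xr_apply, xr_apply, map_sub, map_smul, map_smul, S.WX]

lemma sg_xr_pi (x : H) : S.xr (Real.pi / 2) x = (-I) • S.X x := by
  rw [xr_apply, Real.cos_pi_div_two, Real.sin_pi_div_two, ofReal_zero, zero_smul, ofReal_one,
    mul_one, zero_sub, neg_smul]

lemma sg_xv_zr (v : K) (V : H ≃ₗᵢ[ℂ] H) : S.xv (S.zr v * V) = S.xv V := by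
  change V⁻¹ ((S.zr v)⁻¹ (S.Z (S.zr v (V S.Om)))) = V⁻¹ (S.Z (V S.Om))
  rw [sg_Z_zr, sg_inv']

lemma sg_xt (t : ℝ) (V : H ≃ₗᵢ[ℂ] H) : S.xt t V = (Real.cos (2 * t) : ℂ) • S.xv V +
    (I * (Real.sin (2 * t) : ℂ)) • V⁻¹ (S.Z (S.X (V S.Om))) := by
  have h : S.Zt t (V S.Om) = (Real.cos (2 * t) : ℂ) • S.Z (V S.Om) +
      (I * (Real.sin (2 * t) : ℂ)) • S.Z (S.X (V S.Om)) := by
    change S.xr t (S.Z (S.xr (-t) (V S.Om))) = _
    generalize V S.Om = y
    rw [xr_apply S (-t), map_sub, map_smul, map_smul, xr_apply, map_sub, map_smul, map_smul,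
      Real.cos_neg, Real.sin_neg, S.XZ, S.XZ, S.XX, Real.cos_two_mul, Real.sin_two_mul]
    have h1 : (Real.sin t : ℂ) ^ 2 = 1 - (Real.cos t : ℂ) ^ 2 := by
      rw [← ofReal_pow, ← ofReal_pow, Real.sin_sq]
      push_cast
      ring
    push_cast at h1 ⊢
    have hI := Complex.I_mul_I
    generalize (Complex.cos (t : ℂ)) = c at *
    generalize (Complex.sin (t : ℂ)) = s at *
    have e1 : c * c + I * I * (s * s) = 2 * c ^ 2 - 1 := by
      rw [hI]; linear_combination -h1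
    calc _ = (c * c + I * I * (s * s)) • S.Z y + (I * (2 * s * c)) • S.Z (S.X y) := by module
      _ = _ := by rw [e1]
  change V⁻¹ (S.Zt t (V S.Om)) = _
  rw [h, map_add, map_smul, map_smul]
  rfl

/-! ### Niceness -/

variable {S} in
lemma sg_nonneg {c : ℝ} {x : H} (h : S.Nice c x) : 0 ≤ c := (norm_nonneg x).trans h.m0

variable {S} in
lemma sg_mono {c d : ℝ} {x : H} (h : S.Nice c x) (hcd : c ≤ d) : S.Nice d x where
  m0 := h.m0.trans hcd
  m1 a := (h.m1 a).trans (mul_le_mul_of_nonneg_right hcd (norm_nonneg _))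
  m2 a b := (h.m2 a b).trans (mul_le_mul_of_nonneg_right hcd (by positivity))

variable {S} in
lemma sg_fmono {b : K} {c d : ℝ} {x : H} (h : S.Frm b c x) (hcd : c ≤ d) : S.Frm b d x := by
  obtain ⟨u, v, hu, hv, e⟩ := h
  exact ⟨u, v, sg_mono hu hcd, sg_mono hv hcd, e⟩

variable {S} in
lemma sg_phase (hN : S.NStmt) {c : ℝ} {x : H} {k : ℂ} (hk : ‖k‖ = 1) (h : S.Nice c x) :
    S.Nice c (k • x) := by
  have := hN.smul c x k h
  rwa [hk, one_mul] at this

variable {S} in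
lemma sg_niceZ (hN : S.NStmt) {c : ℝ} {x : H} (h : S.Nice c x) : S.Nice c (S.Z x) :=
  hN.comm S.Z (fun a x => S.WZ a x) c x h

variable {S} in
lemma sg_nice_neg (hN : S.NStmt) {c : ℝ} {x : H} (h : S.Nice c x) : S.Nice c (-x) := by
  have := sg_phase hN (k := -1) (by simp) h
  rwa [neg_one_smul] at this

variable {S} in
lemma sg_frm_zr (hN : S.NStmt) {c : ℝ} {x : H} (b : K) (h : S.Nice c x) :
    S.Frm b c (S.zr (-b) x) := by
  have h1 : S.Nice c ((1 / 2 : ℂ) • (x + S.Z x)) := by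
    have := hN.smul _ _ (1 / 2 : ℂ) (hN.add _ _ _ _ h (sg_niceZ hN h))
    refine sg_mono this (le_of_eq ?_)
    rw [norm_div, norm_one, Complex.norm_ofNat]
    ring
  have h2 : S.Nice c ((1 / 2 : ℂ) • (x - S.Z x)) := by
    have := hN.smul _ _ (1 / 2 : ℂ) (hN.add _ _ _ _ h (sg_nice_neg hN (sg_niceZ hN h)))
    rw [sub_eq_add_neg]
    refine sg_mono this (le_of_eq ?_)
    rw [norm_div, norm_one, Complex.norm_ofNat]
    ring
  refine ⟨_, _, h1, h2, ?_⟩
  rw [sg_zr_eq, neg_neg, map_smul, map_smul]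

variable {S} in
lemma sg_frm_op (hN : S.NStmt) {b : K} {c : ℝ} {z : H} (h : S.Frm b c z) (U : H ≃ₗᵢ[ℂ] H)
    (hU : ∀ a x, S.W a (U x) = U (S.W a x)) : S.Frm b c (U z) := by
  obtain ⟨x, y, hx, hy, e⟩ := h
  refine ⟨U x, U y, hN.comm U hU c x hx, hN.comm U hU c y hy, ?_⟩
  rw [e, map_add, hU, hU]

variable {S} in
lemma sg_frm_smul (hN : S.NStmt) {b : K} {c : ℝ} {z : H} {k : ℂ} (hk : ‖k‖ = 1)
    (h : S.Frm b c z) : S.Frm b c (k • z) := by
  obtain ⟨x, y, hx, hy, e⟩ := h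
  refine ⟨k • x, k • y, sg_phase hN hk hx, sg_phase hN hk hy, ?_⟩
  rw [e, smul_add, map_smul, map_smul]

/-! ### Choice of the pulse angles -/

/-- choice of the angles -/
lemma sg_angles (V : H ≃ₗᵢ[ℂ] H) (c : K) (d h : ℝ) (hd : 0 < d) (hh : 1 / 2 ≤ Real.cos h)
    (hA : d ≤ |(inner ℂ (S.iota (S.xv V)) c : ℂ).im|) :
    ∃ t1 t2 : ℝ, t1 - t2 = h ∧ d ≤ |S.alp t1 V c| ∧ d ≤ |S.alp t2 V c| := by
  set A : ℝ := 2 * (inner ℂ (S.iota (S.xv V)) c : ℂ).im with hAd
  set B : ℝ := 2 * (inner ℂ (S.iota (V⁻¹ (S.Z (S.X (V S.Om))))) c : ℂ).re with hBd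
  have key : ∀ t, S.alp t V c = A * Real.cos (2 * t) - B * Real.sin (2 * t) := by
    intro t
    unfold alp
    rw [sg_xt, map_add, map_smul, map_smul, inner_add_left, inner_smul_left, inner_smul_left,
      map_mul, conj_ofReal, conj_ofReal, conj_I, add_im, hAd, hBd]
    simp only [mul_im, mul_re, ofReal_re, ofReal_im, neg_re, neg_im, I_re, I_im]
    ring
  obtain ⟨z, hz⟩ : ∃ z : ℂ, z = ⟨A, B⟩ := ⟨_, rfl⟩
  have hre : ‖z‖ * Real.cos z.arg = A := by rw [Complex.norm_mul_cos_arg, hz]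
  have him : ‖z‖ * Real.sin z.arg = B := by rw [Complex.norm_mul_sin_arg, hz]
  have hform : ∀ t, S.alp t V c = ‖z‖ * Real.cos (2 * t + z.arg) := by
    intro t
    rw [key, Real.cos_add, ← hre, ← him]
    ring
  have hAz : |A| ≤ ‖z‖ := by
    have := Complex.abs_re_le_norm z
    rw [hz] at this ⊢
    exact this
  have hdz : 2 * d ≤ ‖z‖ := by
    refine le_trans ?_ hAz
    rw [hAd, abs_mul, abs_two]
    linarith
  have fin : ∀ s, Real.cos s = Real.cos h → d ≤ |‖z‖ * Real.cos s| := by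
    intro s hs
    rw [hs, abs_mul, abs_norm, abs_of_pos (by linarith : 0 < Real.cos h)]
    nlinarith [norm_nonneg z]
  refine ⟨-z.arg / 2 + h / 2, -z.arg / 2 - h / 2, by ring, ?_, ?_⟩
  · rw [hform]
    refine fin _ ?_
    congr 1
    ring
  · rw [hform]
    refine fin _ ?_
    rw [← Real.cos_neg]
    congr 1
    ring

/-! ### The label gate step -/

lemma sg_zr_smul (v : K) (k : ℂ) (x : H) : S.zr v (k • x) = k • S.zr v x := map_smul _ _ _

lemma sg_exp_norm (r : ℝ) : ‖Complex.exp (-(Complex.I * (r : ℂ)))‖ = 1 := by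
  rw [← mul_neg, ← ofReal_neg, mul_comm, Complex.norm_exp_ofReal_mul_I]

lemma sg_norm_eps {ε : ℝ} (hε : 0 < ε) (x : H) : ‖(ε : ℂ) • x‖ = ε * ‖x‖ := by
  rw [norm_smul, Complex.norm_real, Real.norm_eq_abs, abs_of_pos hε]

lemma sg_core1 (V1 V2 Q R : H ≃ₗᵢ[ℂ] H) (om ψb φ : H) {ε C Cw : ℝ} (hε : 0 < ε)
    (hQ : ∀ x, V2 x = Q (V1 x)) (b1 : ‖V1 om - ψb - (ε : ℂ) • φ‖ ≤ C * ε ^ 2)
    (b2 : ‖Q ψb - ψb‖ ≤ Cw * (C * 3) * ε ^ 2) (b3 : ‖Q φ - R φ‖ ≤ Cw * C * ε) :
    ‖V2 om - ψb - (ε : ℂ) • R φ‖ ≤ (C + 4 * Cw * C) * ε ^ 2 := by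
  have h1 : V2 om - ψb - (ε : ℂ) • R φ = Q (V1 om - ψb - (ε : ℂ) • φ) + (Q ψb - ψb) +
      (ε : ℂ) • (Q φ - R φ) := by
    rw [hQ, map_sub, map_sub, map_smul, smul_sub]
    abel
  rw [h1]
  refine (norm_add₃_le).trans ?_
  rw [LinearIsometryEquiv.norm_map, sg_norm_eps hε]
  have := mul_le_mul_of_nonneg_left b3 hε.le
  linarith

lemma sg_core2 (V1 V2 Q R : H ≃ₗᵢ[ℂ] H) (ψb φ e : H) {ε C Cw σ : ℝ} (hε : 0 < ε)
    (hQ : ∀ x, V2 x = Q (V1 x)) (b1 : ‖V1 S.Om - ψb - (ε : ℂ) • φ‖ ≤ C * ε ^ 2)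
    (b4 : ‖V2 S.Om - ψb - (ε : ℂ) • R φ‖ ≤ (C + 4 * Cw * C) * ε ^ 2)
    (b5 : ‖Q (S.Z ψb) - S.Z ψb‖ ≤ Cw * (C * 3) * ε ^ 2)
    (b6 : ‖Q (-S.Z φ) - S.Z (R φ)‖ ≤ Cw * C * ε)
    (b10 : ‖V1⁻¹ (S.Z φ) - (σ : ℂ) • e‖ ≤ C * ε) :
    ‖S.xv V2 - S.xv V1 + (2 * ε * σ : ℂ) • e‖ ≤ (4 * C + 8 * Cw * C) * ε ^ 2 := by
  have b7 : ‖S.Z (V2 S.Om) - Q (S.Z ψb - (ε : ℂ) • S.Z φ)‖ ≤ (C + 8 * Cw * C) * ε ^ 2 := by
    have h1 : S.Z (V2 S.Om) - Q (S.Z ψb - (ε : ℂ) • S.Z φ) =
        S.Z (V2 S.Om - ψb - (ε : ℂ) • R φ) - (Q (S.Z ψb) - S.Z ψb) -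
        (ε : ℂ) • (Q (-S.Z φ) - S.Z (R φ)) := by
      simp only [map_sub, map_smul, map_neg, smul_sub, smul_neg]
      abel
    rw [h1]
    refine (norm_sub_le _ _).trans ?_
    refine (add_le_add_left (norm_sub_le _ _) _).trans ?_
    rw [LinearIsometryEquiv.norm_map, sg_norm_eps hε]
    have := mul_le_mul_of_nonneg_left b6 hε.le
    linarith
  have b8 : ‖S.xv V2 - V1⁻¹ (S.Z ψb - (ε : ℂ) • S.Z φ)‖ ≤ (C + 8 * Cw * C) * ε ^ 2 := by
    refine le_trans (le_of_eq ?_) b7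
    rw [← LinearIsometryEquiv.norm_map V2]
    congr 1
    rw [map_sub, hQ (V1⁻¹ _), sg_inv]
    unfold xv
    rw [sg_inv]
  have b9 : ‖S.xv V1 - V1⁻¹ (S.Z ψb + (ε : ℂ) • S.Z φ)‖ ≤ C * ε ^ 2 := by
    refine le_trans (le_of_eq ?_) b1
    rw [← LinearIsometryEquiv.norm_map V1]
    unfold xv
    rw [map_sub, sg_inv, sg_inv, ← LinearIsometryEquiv.norm_map S.Z (V1 S.Om - ψb - _)]
    congr 1
    simp only [map_sub, map_smul]
    abel
  have h1 : S.xv V2 - S.xv V1 + (2 * ε * σ : ℂ) • e =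
      (S.xv V2 - V1⁻¹ (S.Z ψb - (ε : ℂ) • S.Z φ)) -
      (S.xv V1 - V1⁻¹ (S.Z ψb + (ε : ℂ) • S.Z φ)) -
      (2 * ε : ℂ) • (V1⁻¹ (S.Z φ) - (σ : ℂ) • e) := by
    simp only [map_sub, map_add, map_smul, smul_sub, smul_smul]
    module
  rw [h1]
  refine (norm_sub_le _ _).trans ?_
  refine (add_le_add_left (norm_sub_le _ _) _).trans ?_
  have h2 : ‖(2 * ε : ℂ)‖ = 2 * ε := by
    rw [norm_mul, Complex.norm_ofNat, Complex.norm_real, Real.norm_eq_abs, abs_of_pos hε]
  rw [norm_smul, h2]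
  have := mul_le_mul_of_nonneg_left b10 (by positivity : 0 ≤ 2 * ε)
  linarith

lemma sg_core3 {x1 x3 e : H} {ε σ κ τ C D : ℝ} (hε : 0 < ε) (hε1 : ε ≤ 1) (hD0 : 0 ≤ D)
    (hσ2 : σ * σ = 1) (hσa : |σ| = 1) (hτ : τ = -σ * κ / (2 * ε)) (hen : ‖e‖ ≤ 2 * C)
    (b : ‖x3 - x1 + (2 * ε * σ : ℂ) • e‖ ≤ D * ε ^ 2) :
    |τ| * ε = |κ| / 2 ∧ ‖x3 - x1‖ ≤ (4 * C + D) * ε ∧
    ‖(τ : ℂ) • (x3 - x1) - (κ : ℂ) • e‖ ≤ |κ| / 2 * D * ε := by
  have hτa : |τ| * ε = |κ| / 2 := by
    rw [hτ, abs_div, abs_mul, abs_neg, hσa, one_mul, abs_of_pos (by positivity : 0 < 2 * ε)]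
    field_simp
  refine ⟨hτa, ?_, ?_⟩
  · have h1 : x3 - x1 = (x3 - x1 + (2 * ε * σ : ℂ) • e) - (2 * ε * σ : ℂ) • e := by abel
    rw [h1]
    refine (norm_sub_le _ _).trans ?_
    have h2 : ‖(2 * ε * σ : ℂ)‖ = 2 * ε := by
      rw [norm_mul, Complex.norm_real σ, Real.norm_eq_abs, hσa, mul_one, norm_mul,
        Complex.norm_ofNat, Complex.norm_real, Real.norm_eq_abs, abs_of_pos hε]
    rw [norm_smul, h2]
    have h5 : D * ε ^ 2 ≤ D * ε := by nlinarith [mul_nonneg hD0 hε.le]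
    linarith [b, mul_le_mul_of_nonneg_left hen (by positivity : 0 ≤ 2 * ε)]
  · have h0 : τ * (2 * ε * σ) = -κ := by
      rw [hτ]
      field_simp
      linear_combination (-κ) * hσ2
    have h1 : (τ : ℂ) • (x3 - x1) - (κ : ℂ) • e =
        (τ : ℂ) • (x3 - x1 + (2 * ε * σ : ℂ) • e) := by
      have h2 : (τ : ℂ) * (2 * ε * σ : ℂ) = -(κ : ℂ) := by
        rw [← ofReal_neg, ← h0]
        push_cast
        ring
      rw [smul_add, smul_smul, h2, neg_smul, sub_eq_add_neg]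
    rw [h1, norm_smul, Complex.norm_real, Real.norm_eq_abs]
    calc |τ| * _ ≤ |τ| * (D * ε ^ 2) := mul_le_mul_of_nonneg_left b (abs_nonneg _)
      _ = |τ| * ε * D * ε := by ring
      _ = _ := by rw [hτa]

lemma sg_ph (u v : K) : ∃ k : ℂ, ‖k‖ = 1 ∧ ∀ x, S.zr u (S.zr v x) = k • S.zr (u + v) x :=
  ⟨_, sg_exp_norm _, fun x => S.sg_zr_zr u v x⟩

/-- composition of the three displacements of the tagged branch -/
lemma sg_tag (R : H ≃ₗᵢ[ℂ] H) (hR : ∀ x, R x = (-I) • S.X x) (u v w : K) (η : H) :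
    ∃ k : ℂ, ‖k‖ = 1 ∧ S.zr u (R (S.zr v (S.zr w η))) = S.zr (u - v - w) (k • R η) := by
  have h1 : R (S.zr v (S.zr w η)) = S.zr (-v) (S.zr (-w) (R η)) := by
    rw [hR, S.sg_X_zr, S.sg_X_zr, hR, map_smul, map_smul]
  obtain ⟨k1, hk1, hk1'⟩ := S.sg_ph u (-v)
  obtain ⟨k2, hk2, hk2'⟩ := S.sg_ph (u + -v) (-w)
  refine ⟨k1 * k2, by rw [norm_mul, hk1, hk2, one_mul], ?_⟩
  rw [h1, hk1', hk2', smul_smul, map_smul, ← sub_eq_add_neg, ← sub_eq_add_neg]

lemma sg_final (hN : S.NStmt) {C Cw K4 C' ε κ σ τ w₀ : ℝ} {V T V2 V3 Q R : H ≃ₗᵢ[ℂ] H} {θ : ℂ}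
    {a : K} {η e x1 x3 : H} (hε : 0 < ε) (hε1 : ε ≤ 1) (hCw : 0 ≤ Cw) (hC : 0 ≤ C)
    (hSt : S.St C ε V T θ σ a η e) (hτ : τ = -σ * κ / (2 * ε))
    (hx1 : ‖x1‖ = 1) (hx3 : ‖x3‖ = 1)
    (hw : ‖(τ : ℂ) • S.iota (x3 - x1)‖ ≤ w₀)
    (hR : R = S.xr (Real.pi / 2))
    (hV3 : V3 = S.zr ((τ : ℂ) • S.iota x3) * V2)
    (hV2 : ∀ x, V2 x = Q (S.zr (-((τ : ℂ) • S.iota x1)) (V x)))
    (hQ : ∀ c0 z, S.Frm ((τ : ℂ) • S.iota x1) c0 z → ‖Q z - z‖ ≤ Cw * c0 * ε ^ 2)
    {ψb φ : H} (hψb : ψb = S.zr (-((τ : ℂ) • S.iota x1)) (θ • T S.Om))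
    (hφ : φ = S.zr (-((τ : ℂ) • S.iota x1)) (S.zr (-(((σ / ε : ℝ) : ℂ) • a)) η))
    (b4 : ‖V2 S.Om - ψb - (ε : ℂ) • R φ‖ ≤ K4 * ε ^ 2)
    (b6 : ‖Q (-S.Z φ) - S.Z (R φ)‖ ≤ Cw * C * ε)
    (h1 : C + |κ| ≤ C') (h2 : 2 * (1 + 2 * w₀) ^ 2 * C ≤ C') (h3 : K4 ≤ C')
    (h4 : C + Cw * C ≤ C') :
    ∃ θ' η', S.St C' ε V3 (S.zr ((τ : ℂ) • S.iota (x3 - x1)) * T) θ' (-σ)
      (a - ((κ / 2 : ℝ) : ℂ) • S.iota (x1 + x3)) η' e := by
  have hRx : ∀ x, R x = (-I) • S.X x := by intro x; rw [hR]; exact S.sg_xr_pi x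
  have hRW : ∀ a x, S.W a (R x) = R (S.W a x) := by intro a x; rw [hR, sg_W_xr]
  obtain ⟨k1, hk1, hk1'⟩ := S.sg_ph ((τ : ℂ) • S.iota x3) (-((τ : ℂ) • S.iota x1))
  obtain ⟨k2, hk2, hk2'⟩ := S.sg_tag R hRx ((τ : ℂ) • S.iota x3) (-((τ : ℂ) • S.iota x1))
    (-(((σ / ε : ℝ) : ℂ) • a)) η
  have e1 : (τ : ℂ) • S.iota x3 + -((τ : ℂ) • S.iota x1) = (τ : ℂ) • S.iota (x3 - x1) := by
    rw [map_sub, smul_sub, sub_eq_add_neg]
  have e2 : (τ : ℂ) • S.iota x3 - -((τ : ℂ) • S.iota x1) - -(((σ / ε : ℝ) : ℂ) • a) =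
      -((((-σ / ε : ℝ) : ℂ) • (a - ((κ / 2 : ℝ) : ℂ) • S.iota (x1 + x3)))) := by
    have h5 : (((-σ / ε : ℝ) : ℂ)) * ((κ / 2 : ℝ) : ℂ) = (τ : ℂ) := by
      rw [← ofReal_mul, hτ]
      congr 1
      field_simp
    have h6 : ((-σ / ε : ℝ) : ℂ) = -((σ / ε : ℝ) : ℂ) := by rw [neg_div, ofReal_neg]
    rw [smul_sub, smul_smul, h5, h6, map_add]
    module
  rw [e1] at hk1'
  rw [e2] at hk2'
  have hC'0 : C ≤ C' := by linarith [abs_nonneg κ]
  have ha' : ‖a - ((κ / 2 : ℝ) : ℂ) • S.iota (x1 + x3)‖ ≤ C' := by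
    refine (norm_sub_le _ _).trans (le_trans ?_ h1)
    refine add_le_add hSt.a_le ?_
    rw [norm_smul, LinearIsometry.norm_map, Complex.norm_real, Real.norm_eq_abs, abs_div, abs_two]
    have h8 : ‖x1 + x3‖ ≤ 2 := (norm_add_le _ _).trans (by rw [hx1, hx3]; norm_num)
    have h9 := mul_le_mul_of_nonneg_left h8 (by positivity : 0 ≤ |κ| / 2)
    linarith
  generalize (τ : ℂ) • S.iota (x3 - x1) = w at hw hk1' ⊢
  generalize a - ((κ / 2 : ℝ) : ℂ) • S.iota (x1 + x3) = a' at hk2' ha' ⊢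
  have hnn : ∀ {c : ℝ} {x : H} {w : K}, ‖w‖ ≤ w₀ → S.Nice c x →
      S.Nice (2 * (1 + 2 * w₀) ^ 2 * c) (S.zr w x) := by
    intro c x w hw hx
    refine sg_mono (hN.zr c x w hx) ?_
    have := sg_nonneg hx
    have h7 := norm_nonneg w
    gcongr
  have hηn : S.Nice C' (k2 • R η) :=
    sg_mono (sg_phase hN hk2 (hN.comm R hRW C η hSt.eta)) hC'0
  refine ⟨k1 * θ, k2 • R η, ?_, ?_, ha', hηn, ?_, ?_, ?_, ?_⟩
  · rw [norm_mul, hk1, hSt.th, one_mul]
  · rcases hSt.sg with h | h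
    · right; rw [h]
    · left; rw [h, neg_neg]
  · intro c x hx
    have hc := sg_nonneg hx
    constructor
    · have h5 := hnn hw (hSt.T_nice c x hx).1
      refine sg_mono h5 ?_
      calc 2 * (1 + 2 * w₀) ^ 2 * (C * c) = (2 * (1 + 2 * w₀) ^ 2 * C) * c := by ring
        _ ≤ C' * c := mul_le_mul_of_nonneg_right h2 hc
    · have h5 : S.Nice (2 * (1 + 2 * w₀) ^ 2 * c) (S.zr (-w) x) :=
        hnn (by rw [norm_neg]; exact hw) hx
      have h6 := (hSt.T_nice _ _ h5).2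
      rw [sg_mul_inv, sg_zr_inv]
      refine sg_mono h6 ?_
      calc C * (2 * (1 + 2 * w₀) ^ 2 * c) = (2 * (1 + 2 * w₀) ^ 2 * C) * c := by ring
        _ ≤ C' * c := mul_le_mul_of_nonneg_right h2 hc
  · have h5 : V3 S.Om - (k1 * θ) • (S.zr w * T) S.Om -
        (ε : ℂ) • S.zr (-(((-σ / ε : ℝ) : ℂ) • a')) (k2 • R η) =
        S.zr ((τ : ℂ) • S.iota x3) (V2 S.Om - ψb - (ε : ℂ) • R φ) := by
      rw [map_sub, map_sub, map_smul (S.zr ((τ : ℂ) • S.iota x3)) (ε : ℂ), hφ, hk2', hψb,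
        hk1', map_smul (S.zr w), hV3, smul_smul]
      rfl
    rw [h5, LinearIsometryEquiv.norm_map]
    exact b4.trans (mul_le_mul_of_nonneg_right h3 (sq_nonneg _))
  · intro c x hx
    have hc := sg_nonneg hx
    obtain ⟨y, hy⟩ : ∃ y, y = S.zr (-((τ : ℂ) • S.iota x1)) (θ • T x) := ⟨_, rfl⟩
    have h5 : V3 x - (k1 * θ) • (S.zr w * T) x =
        S.zr ((τ : ℂ) • S.iota x3) (Q (S.zr (-((τ : ℂ) • S.iota x1)) (V x - θ • T x)) +
          (Q y - y)) := by
      rw [map_sub (S.zr (-((τ : ℂ) • S.iota x1))), ← hy, map_sub Q, sub_add_sub_cancel,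
        map_sub, ← hV2, hy, hk1', map_smul (S.zr w), hV3, smul_smul]
      rfl
    rw [h5, LinearIsometryEquiv.norm_map]
    refine (norm_add_le _ _).trans ?_
    rw [LinearIsometryEquiv.norm_map, LinearIsometryEquiv.norm_map]
    have h6 := hSt.i2 c x hx
    have h7 : ‖Q y - y‖ ≤ Cw * (C * c) * ε ^ 2 := by
      refine hQ _ _ ?_
      rw [hy]
      exact sg_frm_zr hN _ (sg_phase hN hSt.th (hSt.T_nice c x hx).1)
    have h8 : Cw * (C * c) * ε ^ 2 ≤ Cw * (C * c) * ε := by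
      refine mul_le_mul_of_nonneg_left ?_ (by positivity)
      nlinarith
    have h9 : (C + Cw * C) * (c * ε) ≤ C' * (c * ε) :=
      mul_le_mul_of_nonneg_right h4 (by positivity)
    linarith
  · rw [← hk2', ← hφ, hV3, sg_mul_inv]
    have h5 : (S.zr ((τ : ℂ) • S.iota x3))⁻¹ (S.Z (S.zr ((τ : ℂ) • S.iota x3) (R φ))) =
        S.Z (R φ) := by
      apply inv_apply_eq
      rw [sg_Z_zr]
    rw [h5]
    have h6 : V2 (V⁻¹ (S.Z (S.zr (-(((σ / ε : ℝ) : ℂ) • a)) η))) = Q (S.Z φ) := by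
      rw [hV2, sg_inv, hφ, S.sg_Z_zr (-((τ : ℂ) • S.iota x1))]
    have h7 : V2⁻¹ (S.Z (R φ)) - ((-σ : ℝ) : ℂ) • e =
        -(V2⁻¹ (Q (-S.Z φ) - S.Z (R φ))) -
        (V⁻¹ (S.Z (S.zr (-(((σ / ε : ℝ) : ℂ) • a)) η)) - (σ : ℂ) • e) := by
      have h8 : V2⁻¹ (Q (-S.Z φ)) = -(V⁻¹ (S.Z (S.zr (-(((σ / ε : ℝ) : ℂ) • a)) η))) := by
        rw [map_neg, ← h6, map_neg, sg_inv']
      rw [map_sub, h8, ofReal_neg, neg_smul]
      abel
    rw [h7]
    refine (norm_sub_le _ _).trans ?_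
    rw [norm_neg, LinearIsometryEquiv.norm_map]
    have h9 : (C + Cw * C) * ε ≤ C' * ε := mul_le_mul_of_nonneg_right h4 hε.le
    linarith [hSt.i6]

lemma sg_xv_norm (V : H ≃ₗᵢ[ℂ] H) : ‖S.xv V‖ = 1 := by
  unfold xv
  rw [LinearIsometryEquiv.norm_map, LinearIsometryEquiv.norm_map, LinearIsometryEquiv.norm_map,
    S.nOm]

/-- one label gate, at fixed `ε` -/
lemma sg_one (hN : S.NStmt) {C Cw C' M D w₀ δ' ε κ σ τ : ℝ} (hC : 0 ≤ C) (hCw : 0 ≤ Cw)
    (hδ' : 0 < δ') (hδκ : δ' ≤ |κ| / 2) (hM : M = |κ| + 3 * C + C)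
    (hD : D = 4 * C + 8 * Cw * C) (hw₀ : w₀ = |κ| / 2 * (4 * C + D))
    (hC' : C' = C + |κ| + |κ| / 2 * D + (4 * C + D) +
      2 * (1 + 2 * w₀) ^ 2 * C + (C + 4 * Cw * C) + Real.pi / 2 / δ')
    (hε : 0 < ε) (hε1 : ε ≤ 1)
    (hww : ∀ (s' : ℝ) (V : H ≃ₗᵢ[ℂ] H) (c : K) (t1 t2 : ℝ),
      S.Ctx M δ' ε s' V c t1 t2 → ∀ s1 s2 : ℝ,
      s1 = ε * (Real.pi / 2 / S.alp t1 V c) → s2 = ε * (Real.pi / 2 / S.alp t2 V c) →
      (∀ c0 z, S.Frm (((s' / ε : ℝ) : ℂ) • S.iota (S.xv V)) c0 z →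
        ‖(S.wv t1 t2 s1 s2 V * V⁻¹) z - z‖ ≤ Cw * c0 * ε ^ 2) ∧
      (∀ c0 z, S.Frm (((1 / ε : ℝ) : ℂ) • c) c0 z →
        ‖(S.wv t1 t2 s1 s2 V * V⁻¹) z - S.xr (4 * (t1 - t2)) z‖ ≤ Cw * c0 * ε))
    {V T : H ≃ₗᵢ[ℂ] H} {θ : ℂ} {a : K} {η e : H} (hSt : S.St C ε V T θ σ a η e)
    (hal : δ' ≤ |(inner ℂ (S.iota (S.xv V)) a : ℂ).im|)
    (hτ : τ = -σ * κ / (2 * ε)) {V1 : H ≃ₗᵢ[ℂ] H}
    (hV1 : V1 = S.zr (((-τ : ℝ) : ℂ) • S.iota (S.xv V)) * V) :
    ∃ t1 t2 s1 s2 : ℝ, |s1| ≤ C' * ε ∧ |s2| ≤ C' * ε ∧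
      ∀ V2 V3 : H ≃ₗᵢ[ℂ] H,
        V2 = S.wv t1 t2 s1 s2 V1 → V3 = S.zr ((τ : ℂ) • S.iota (S.xv V2)) * V2 →
        ‖(τ : ℂ) • (S.xv V2 - S.xv V) - (κ : ℂ) • e‖ ≤ C' * ε ∧
        ‖S.xv V2 - S.xv V‖ ≤ C' * ε ∧
        ∃ θ' η', S.St C' ε V3 (S.zr ((τ : ℂ) • S.iota (S.xv V2 - S.xv V)) * T) θ' (-σ)
          (a - ((κ / 2 : ℝ) : ℂ) • S.iota (S.xv V + S.xv V2)) η' e := by
  have hD0 : 0 ≤ D := by rw [hD]; positivity
  have hw₀0 : 0 ≤ w₀ := by rw [hw₀]; positivity
  have hpd : 0 ≤ Real.pi / 2 / δ' := by positivity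
  have hk1 : 0 ≤ |κ| / 2 * D := by positivity
  have hk2 : 0 ≤ 2 * (1 + 2 * w₀) ^ 2 * C := by positivity
  have hk3 : 0 ≤ Cw * C := by positivity
  have hκ0 := abs_nonneg κ
  have hσ2 : σ * σ = 1 := by rcases hSt.sg with h | h <;> rw [h] <;> norm_num
  have hσa : |σ| = 1 := by rcases hSt.sg with h | h <;> rw [h] <;> norm_num
  have hσn : ‖(σ : ℂ)‖ = 1 := by rw [Complex.norm_real, Real.norm_eq_abs, hσa]
  obtain ⟨s', hs'⟩ : ∃ s', s' = -σ * κ / 2 := ⟨_, rfl⟩
  have hsτ : s' / ε = τ := by rw [hτ, hs']; field_simp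
  have hs'a : |s'| = |κ| / 2 := by
    rw [hs', abs_div, abs_mul, abs_neg, hσa, one_mul, abs_two]
  obtain ⟨x1, hx1⟩ : ∃ x1, x1 = S.iota (S.xv V) := ⟨_, rfl⟩
  have hx1n : ‖x1‖ = 1 := by rw [hx1, LinearIsometry.norm_map, sg_xv_norm]
  obtain ⟨c, hc⟩ : ∃ c : K, c = (s' : ℂ) • x1 + (σ : ℂ) • a := ⟨_, rfl⟩
  have hxV1 : S.xv V1 = S.xv V := by rw [hV1, sg_xv_zr]
  have hself : (inner ℂ x1 x1 : ℂ).im = 0 := inner_self_im (𝕜 := ℂ) x1
  have hal' : δ' ≤ |(inner ℂ (S.iota (S.xv V1)) c : ℂ).im| := by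
    rw [hxV1, ← hx1, hc, inner_add_right, inner_smul_right, inner_smul_right, add_im,
      im_ofReal_mul, im_ofReal_mul, hself, mul_zero, zero_add, abs_mul, hσa, one_mul, hx1]
    exact hal
  obtain ⟨t1, t2, ht12, ha1, ha2⟩ := S.sg_angles V1 c δ' (Real.pi / 8) hδ' (by
    have h1 : Real.cos (Real.pi / 3) ≤ Real.cos (Real.pi / 8) := by
      apply Real.cos_le_cos_of_nonneg_of_le_pi
      · positivity
      · linarith [Real.pi_pos]
      · linarith [Real.pi_pos]
    rwa [Real.cos_pi_div_three] at h1) hal'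
  have hsb : ∀ α : ℝ, δ' ≤ |α| → |ε * (Real.pi / 2 / α)| ≤ C' * ε := by
    intro α hα
    rw [abs_mul, abs_of_pos hε, abs_div, abs_of_pos (by positivity : 0 < Real.pi / 2), mul_comm]
    refine mul_le_mul_of_nonneg_right ?_ hε.le
    have : Real.pi / 2 / |α| ≤ Real.pi / 2 / δ' := by gcongr
    rw [hC']
    linarith
  refine ⟨t1, t2, ε * (Real.pi / 2 / S.alp t1 V1 c), ε * (Real.pi / 2 / S.alp t2 V1 c),
    hsb _ ha1, hsb _ ha2, ?_⟩
  intro V2 V3 hV2 hV3
  -- the vectors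
  obtain ⟨ψb, hψb⟩ : ∃ ψb, ψb = S.zr (-((τ : ℂ) • x1)) (θ • T S.Om) := ⟨_, rfl⟩
  obtain ⟨φ, hφ⟩ : ∃ φ, φ = S.zr (-((τ : ℂ) • x1)) (S.zr (-(((σ / ε : ℝ) : ℂ) • a)) η) :=
    ⟨_, rfl⟩
  have hV1Ω : ∀ x, V1 x = S.zr (-((τ : ℂ) • x1)) (V x) := by
    intro x
    rw [hV1, hx1, ofReal_neg, neg_smul]
    rfl
  have hψn : S.Nice (C * 3) (θ • T S.Om) :=
    sg_phase hN hSt.th (hSt.T_nice 3 S.Om hN.om).1
  have hφf : S.Frm (((1 / ε : ℝ) : ℂ) • c) C φ := by
    have h1 : ((1 / ε : ℝ) : ℂ) • c = (τ : ℂ) • x1 + (((σ / ε : ℝ) : ℂ) • a) := by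
      have h2 : (1 / ε) * s' = τ := by rw [← hsτ]; ring
      have h3 : (1 / ε) * σ = σ / ε := by ring
      rw [hc, smul_add, smul_smul, smul_smul, ← ofReal_mul, ← ofReal_mul, h2, h3]
    rw [hφ, sg_zr_zr]
    refine sg_frm_smul hN (sg_exp_norm _) ?_
    rw [← neg_add, ← h1]
    exact sg_frm_zr hN _ hSt.eta
  have b1 : ‖V1 S.Om - ψb - (ε : ℂ) • φ‖ ≤ C * ε ^ 2 := by
    have h1 : V1 S.Om - ψb - (ε : ℂ) • φ = S.zr (-((τ : ℂ) • x1))
        (V S.Om - θ • T S.Om - (ε : ℂ) • S.zr (-(((σ / ε : ℝ) : ℂ) • a)) η) := by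
      rw [hV1Ω, hψb, hφ, map_sub, map_sub, map_smul (S.zr (-((τ : ℂ) • x1))) (ε : ℂ)]
    rw [h1, LinearIsometryEquiv.norm_map]
    exact hSt.i1
  have hCtx : S.Ctx M δ' ε s' V1 c t1 t2 := by
    refine ⟨?_, Or.inr ?_, ?_, ⟨θ • T S.Om, φ, ?_, ?_, ?_⟩, hal', ha1, ha2⟩
    · rw [hs'a, hM]; linarith
    · rw [hs'a]; exact hδκ
    · rw [hc]
      refine (norm_add_le _ _).trans ?_
      rw [norm_smul, norm_smul, Complex.norm_real, Complex.norm_real, Real.norm_eq_abs,
        Real.norm_eq_abs, hs'a, hσa, hx1n, hM]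
      linarith [hSt.a_le]
    · exact sg_mono hψn (by rw [hM]; linarith)
    · exact sg_fmono hφf (by rw [hM]; linarith)
    · rw [hxV1, hsτ, ← hx1, ← hψb]
      refine b1.trans (mul_le_mul_of_nonneg_right ?_ (sq_nonneg _))
      rw [hM]
      linarith
  obtain ⟨hw1, hw2⟩ := hww s' V1 c t1 t2 hCtx _ _ rfl rfl
  rw [hxV1, hsτ, ← hx1] at hw1
  have h4 : 4 * (t1 - t2) = Real.pi / 2 := by rw [ht12]; ring
  rw [h4, ← hV2] at hw2
  rw [← hV2] at hw1
  obtain ⟨Q, hQ⟩ : ∃ Q, Q = V2 * V1⁻¹ := ⟨_, rfl⟩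
  rw [← hQ] at hw1 hw2
  have hV2Q : ∀ x, V2 x = Q (V1 x) := by
    intro x
    rw [hQ, sg_mul, sg_inv']
  obtain ⟨R, hR⟩ : ∃ R, R = S.xr (Real.pi / 2) := ⟨_, rfl⟩
  rw [← hR] at hw2
  have hRx : ∀ x, R x = (-I) • S.X x := by intro x; rw [hR]; exact S.sg_xr_pi x
  have hψf : S.Frm ((τ : ℂ) • x1) (C * 3) ψb := by rw [hψb]; exact sg_frm_zr hN _ hψn
  have hZψ : S.Frm ((τ : ℂ) • x1) (C * 3) (S.Z ψb) :=
    sg_frm_op hN hψf S.Z (fun a x => S.WZ a x)
  have hZφ : S.Frm (((1 / ε : ℝ) : ℂ) • c) C (-S.Z φ) := by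
    have h1 := sg_frm_smul hN (k := -1) (by simp) (sg_frm_op hN hφf S.Z (fun a x => S.WZ a x))
    rwa [neg_one_smul] at h1
  have b6 : ‖Q (-S.Z φ) - S.Z (R φ)‖ ≤ Cw * C * ε := by
    have h1 := hw2 _ _ hZφ
    have h2 : R (-S.Z φ) = S.Z (R φ) := by
      rw [hRx, hRx, map_neg, map_smul, S.XZ, neg_neg]
    rwa [h2] at h1
  have b4 := sg_core1 V1 V2 Q R S.Om ψb φ hε hV2Q b1 (hw1 _ _ hψf) (hw2 _ _ hφf)
  have hφe : V1⁻¹ (S.Z φ) = V⁻¹ (S.Z (S.zr (-(((σ / ε : ℝ) : ℂ) • a)) η)) := by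
    apply inv_apply_eq
    rw [hV1Ω, sg_inv, hφ, S.sg_Z_zr (-((τ : ℂ) • x1))]
  have b10 : ‖V1⁻¹ (S.Z φ) - (σ : ℂ) • e‖ ≤ C * ε := by
    rw [hφe]; exact hSt.i6
  have b11 := S.sg_core2 V1 V2 Q R ψb φ e hε hV2Q b1 b4 (hw1 _ _ hZψ) b6 b10
  rw [hxV1, ← hD] at b11
  have hen : ‖e‖ ≤ 2 * C := by
    have h1 : ‖(σ : ℂ) • e‖ ≤ ‖V1⁻¹ (S.Z φ)‖ + ‖V1⁻¹ (S.Z φ) - (σ : ℂ) • e‖ := by
      have h2 := norm_sub_le (V1⁻¹ (S.Z φ)) (V1⁻¹ (S.Z φ) - (σ : ℂ) • e)
      rwa [sub_sub_cancel] at h2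
    rw [norm_smul, hσn, one_mul] at h1
    have h3 : ‖V1⁻¹ (S.Z φ)‖ = ‖η‖ := by
      rw [hφe]; simp only [LinearIsometryEquiv.norm_map]
    have h4 : C * ε ≤ C := mul_le_of_le_one_right hC hε1
    linarith [b10, hSt.eta.m0]
  obtain ⟨hτa, hB, hA⟩ := sg_core3 hε hε1 hD0 hσ2 hσa hτ hen b11
  have hwn : ‖(τ : ℂ) • S.iota (S.xv V2 - S.xv V)‖ ≤ w₀ := by
    rw [norm_smul, LinearIsometry.norm_map, Complex.norm_real, Real.norm_eq_abs]
    calc |τ| * _ ≤ |τ| * ((4 * C + D) * ε) := mul_le_mul_of_nonneg_left hB (abs_nonneg _)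
      _ = |τ| * ε * (4 * C + D) := by ring
      _ = _ := by rw [hτa, hw₀]
  refine ⟨hA.trans ?_, hB.trans ?_, ?_⟩
  · refine mul_le_mul_of_nonneg_right ?_ hε.le
    rw [hC']; linarith
  · refine mul_le_mul_of_nonneg_right ?_ hε.le
    rw [hC']; linarith
  · refine S.sg_final hN hε hε1 hCw hC hSt hτ (S.sg_xv_norm V) (S.sg_xv_norm V2) hwn hR hV3
      ?_ ?_ ?_ ?_ b4 b6 ?_ ?_ ?_ ?_
    · intro x
      rw [hV2Q, hV1Ω, hx1]
    · intro c0 z hz
      rw [← hx1] at hz
      exact hw1 c0 z hz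
    · rw [hψb, hx1]
    · rw [hφ, hx1]
    · rw [hC']; linarith
    · rw [hC']; linarith
    · rw [hC']; linarith
    · rw [hC']; linarith

theorem sg (hN : S.NStmt) (hWW : S.WWStmt) : S.SGStmt := by
  intro C κ δ hC hκ hδ
  obtain ⟨δ', hδ'⟩ : ∃ d, d = min δ (|κ| / 2) := ⟨_, rfl⟩
  have hκ0 : 0 < |κ| := abs_pos.2 hκ
  have hδ'0 : 0 < δ' := by rw [hδ']; exact lt_min hδ (by positivity)
  have hδ'1 : δ' ≤ δ := by rw [hδ']; exact min_le_left _ _
  have hδ'2 : δ' ≤ |κ| / 2 := by rw [hδ']; exact min_le_right _ _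
  obtain ⟨Cw, ε₀, hCw, hε₀, hww⟩ := hWW (|κ| + 3 * C + C) δ' (by positivity) hδ'0
  refine ⟨C + |κ| + |κ| / 2 * (4 * C + 8 * Cw * C) + (4 * C + (4 * C + 8 * Cw * C)) +
      2 * (1 + 2 * (|κ| / 2 * (4 * C + (4 * C + 8 * Cw * C)))) ^ 2 * C + (C + 4 * Cw * C) +
      Real.pi / 2 / δ', min ε₀ 1, ?_, lt_min hε₀ one_pos, ?_⟩
  · have hpd : 0 ≤ Real.pi / 2 / δ' := by positivity
    have hk1 : 0 ≤ |κ| / 2 * (4 * C + 8 * Cw * C) := by positivity
    have hk2 : 0 ≤ 2 * (1 + 2 * (|κ| / 2 * (4 * C + (4 * C + 8 * Cw * C)))) ^ 2 * C := by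
      positivity
    have hk3 : 0 ≤ Cw * C := by positivity
    linarith
  · intro ε hε hε1 V T θ σ a η e hSt hal
    obtain ⟨t1, t2, s1, s2, h1, h2, h3⟩ := S.sg_one hN hC hCw hδ'0 hδ'2 rfl rfl rfl rfl hε
      (hε1.trans (min_le_right _ _)) (hww ε hε (hε1.trans (min_le_left _ _))) hSt
      (hδ'1.trans hal) rfl rfl
    refine ⟨t1, t2, s1, s2, _, h1, h2, rfl, ?_⟩
    intro V1 V2 V3 hV1 hV2 hV3
    rw [hV1] at hV2
    exact h3 V2 V3 hV2 hV3

end Sys

end Vale.Agent.P367.A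
end
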