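import Vale.Agent.P367.Bd3.B1
import Vale.Agent.P367.Bd3.B3

set_option linter.all false

section

/-! P367, block B, T2: existence of sweeps. -/

namespace Vale.Agent.P367.A

open Complex Filter Topology MeasureTheory
open Vale.Agent.P367.B (famS ex gb cl exU)

namespace LSys

section any

variable {H K : Type*} [NormedAddCommGroup H] [InnerProductSpace ℂ H]
  [NormedAddCommGroup K] [InnerProductSpace ℂ K] (L : LSys H K)

/-- existence of unitaries acting on three blocks -/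
lemma swp_exists_blk {b o r : Set ℝ} (hb : MeasurableSet b) (ho : MeasurableSet o)
    (hr : MeasurableSet r) (hbo : Disjoint b o) (hbr : Disjoint b r) (hor : Disjoint o r)
    (Ub : H ≃ₗᵢ[ℂ] H) (hUb : ∀ x, L.E b (Ub x) = Ub (L.E b x)) (P Q : Fin 3) (p q : K) :
    ∃ U : H ≃ₗᵢ[ℂ] H, ∀ x, U x = Ub (L.E b x) + L.pw (L.pau P) p (L.E o x)
      + L.pw (L.pau Q) q (L.E r x) + (x - L.E b x - L.E o x - L.E r x) := by
  refine ⟨L.bU hb Ub hUb * (L.bU ho (L.pwU P p) (L.E_pwU o P _)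
    * L.bU hr (L.pwU Q q) (L.E_pwU r Q _)), fun x => ?_⟩
  have h1 : ∀ (Q : Fin 3) (q : K) (x : H), L.E o (L.pwU Q q (L.E r x)) = 0 := by
    intro Q q x
    rw [L.E_pwU, L.E_dis ho hr hor, map_zero]
  have h2 : ∀ (Q : Fin 3) (q : K) (x : H), L.E b (L.pwU Q q (L.E r x)) = 0 := by
    intro Q q x
    rw [L.E_pwU, L.E_dis hb hr hbr, map_zero]
  have h3 : ∀ (Q : Fin 3) (q : K) (x : H), L.E b (L.pwU Q q (L.E o x)) = 0 := by
    intro Q q x
    rw [L.E_pwU, L.E_dis hb ho hbo, map_zero]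
  have e1 : L.E o (L.pwU Q q (L.E r x) + (x - L.E r x)) = L.E o x := by
    rw [map_add, map_sub, h1, L.E_dis ho hr hor]; abel
  have e2 : L.E b (L.pwU P p (L.E o x) + (L.pwU Q q (L.E r x) + (x - L.E r x) - L.E o x))
      = L.E b x := by
    rw [map_add, map_sub, map_add, map_sub, h2, h3, L.E_dis hb hr hbr, L.E_dis hb ho hbo]; abel
  rw [Sys.mulA, Sys.mulA, bU_apply, bU_apply, bU_apply, e1, e2, pwU_apply, pwU_apply]
  abel

/-- the inverse of a state commutes with everything the state commutes with -/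
lemma swp_inv_comm {V : H ≃ₗᵢ[ℂ] H} {a : H →L[ℂ] H} (h : ∀ x, a (V x) = V (a x)) (x : H) :
    a (V⁻¹ x) = V⁻¹ (a x) := by
  apply V.injective
  rw [← h, Sys.Ainv, Sys.Ainv]

/-- the operator `E_b V^-1 Q V` -/
noncomputable def swT (Q : H ≃ₗᵢ[ℂ] H) (b : Set ℝ) (V : H ≃ₗᵢ[ℂ] H) : H →L[ℂ] H :=
  L.E b * clm (V⁻¹) * clm Q * clm V

lemma swT_apply (Q : H ≃ₗᵢ[ℂ] H) (b : Set ℝ) (V : H ≃ₗᵢ[ℂ] H) (x : H) :
    L.swT Q b V x = L.E b (V⁻¹ (Q (V x))) := rfl

lemma iota_swT (Q : H ≃ₗᵢ[ℂ] H) (b : Set ℝ) (V : H ≃ₗᵢ[ℂ] H) :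
    L.iota (L.swT Q b V L.Om) = L.fv Q b V := rfl

lemma swT_sa (P : Fin 3) {b : Set ℝ} (hb : MeasurableSet b) {V : H ≃ₗᵢ[ℂ] H}
    (hV : ∀ x, L.E b (V x) = V (L.E b x)) : Sa (L.swT (L.pau P) b V) := by
  intro x y
  have e : inner ℂ x (L.E b (V⁻¹ (L.pau P (V y)))) = (inner ℂ (V x) (L.pau P (V (L.E b y))) : ℂ) := by
    rw [swp_inv_comm hV, L.E_pau, hV, ← V.inner_map_map x, Sys.Ainv]
  rw [swT_apply, swT_apply, L.E_sa hb, Sys.inner_invA, L.inner_pau, e]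

/-- elements of a control algebra commute with Pauli operators -/
lemma swp_pau_comm {𝔄 : Set (H →L[ℂ] H)} (hA : L.Ctl 𝔄) (P : Fin 3) {a : H →L[ℂ] H}
    (ha : a ∈ 𝔄) (x : H) : a (L.pau P x) = L.pau P (a x) := by
  have hX := hA.X a ha
  have hZ := hA.Z a ha
  fin_cases P
  · exact hX x
  · change a (L.Zt _ x) = L.Zt _ (a x)
    rw [L.Zt_apply, L.Zt_apply, L.xr_apply, L.xr_apply, map_sub, map_smul, map_smul, hX, hZ]
  · exact hZ x

lemma swp_E_mem {𝔄 : Set (H →L[ℂ] H)} (hA : L.Ctl 𝔄) {b : Set ℝ} (hb : MeasurableSet b) :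
    L.E b ∈ 𝔄 := hA.lab _ (Bm.ind hb 1)

lemma swp_comm {𝔄 : Set (H →L[ℂ] H)} (hA : L.Ctl 𝔄) {a c : H →L[ℂ] H} (ha : a ∈ 𝔄) (hc : c ∈ 𝔄)
    (x : H) : a (c x) = c (a x) :=
  congrArg (fun A : H →L[ℂ] H => A x) (hA.comm _ _ ha hc)

lemma swT_comm {𝔄 : Set (H →L[ℂ] H)} (hA : L.Ctl 𝔄) (P : Fin 3) {b : Set ℝ}
    (hb : MeasurableSet b) {V : H ≃ₗᵢ[ℂ] H} (hV : ∀ a ∈ 𝔄, ∀ x, a (V x) = V (a x)) :
    ∀ c ∈ 𝔄, L.swT (L.pau P) b V * c = c * L.swT (L.pau P) b V := by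
  intro c hcA
  ext y
  change L.E b (V⁻¹ (L.pau P (V (c y)))) = c (L.E b (V⁻¹ (L.pau P (V y))))
  rw [L.swp_comm hA hcA (L.swp_E_mem hA hb), swp_inv_comm (hV c hcA), L.swp_pau_comm hA P hcA,
    hV c hcA]

/-- Weyl operators of the control vectors commute with the controls -/
lemma swp_W_comm {𝔄 : Set (H →L[ℂ] H)} (hA : L.Ctl 𝔄) (P Q : Fin 3) {o r : Set ℝ}
    (ho : MeasurableSet o) (hr : MeasurableSet r) {V : H ≃ₗᵢ[ℂ] H}
    (hV : ∀ a ∈ 𝔄, ∀ x, a (V x) = V (a x)) (m l : ℝ) {a : H →L[ℂ] H} (ha : a ∈ 𝔄) (x : H) :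
    a (L.W ((m : ℂ) • L.fv (L.pau P) o V + (l : ℂ) • L.fv (L.pau Q) r V) x)
      = L.W ((m : ℂ) • L.fv (L.pau P) o V + (l : ℂ) • L.fv (L.pau Q) r V) (a x) := by
  have h1 := L.swT_sa P ho (hV _ (L.swp_E_mem hA ho))
  have h2 := L.swT_sa Q hr (hV _ (L.swp_E_mem hA hr))
  have h := hA.W a ha ((m : ℂ) • L.swT (L.pau P) o V + (l : ℂ) • L.swT (L.pau Q) r V)
    (fun x y => by
      change inner ℂ ((m : ℂ) • L.swT (L.pau P) o V x + (l : ℂ) • L.swT (L.pau Q) r V x) y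
        = inner ℂ x ((m : ℂ) • L.swT (L.pau P) o V y + (l : ℂ) • L.swT (L.pau Q) r V y)
      rw [inner_add_left, inner_add_right, inner_smul_left, inner_smul_left, inner_smul_right,
        inner_smul_right, Complex.conj_ofReal, Complex.conj_ofReal, h1, h2])
    (fun c hc => by
      rw [add_mul, mul_add, smul_mul_assoc, smul_mul_assoc, mul_smul_comm, mul_smul_comm,
        L.swT_comm hA P ho hV c hc, L.swT_comm hA Q hr hV c hc]) x
  have e : L.iota (((m : ℂ) • L.swT (L.pau P) o V + (l : ℂ) • L.swT (L.pau Q) r V) L.Om)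
      = (m : ℂ) • L.fv (L.pau P) o V + (l : ℂ) • L.fv (L.pau Q) r V := by
    change L.iota ((m : ℂ) • L.swT (L.pau P) o V L.Om + (l : ℂ) • L.swT (L.pau Q) r V L.Om) = _
    rw [map_add, map_smul, map_smul, iota_swT, iota_swT]
  rwa [e] at h

end any

section main

variable {H K : Type} [NormedAddCommGroup H] [InnerProductSpace ℂ H]
  [NormedAddCommGroup K] [InnerProductSpace ℂ K] (L : LSys H K)
  (hc : ∀ x : H, Tendsto (fun a => L.W a x) (𝓝 0) (𝓝 x))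

lemma swp_isSelfAdjoint [CompleteSpace H] {a : H →L[ℂ] H} (ha : Sa a) : IsSelfAdjoint a := by
  rw [isSelfAdjoint_iff, ContinuousLinearMap.star_eq_adjoint]
  symm
  rw [ContinuousLinearMap.eq_adjoint_iff]
  exact ha

/-- the psi of the function gate -/
lemma swp_psi {G b : Set ℝ} {𝔄 : Set (H →L[ℂ] H)} (hA : L.Ctl 𝔄) {sg : H →L[ℂ] H}
    (hsg : L.Sgn G 𝔄 sg) (hG : MeasurableSet G) (hb : MeasurableSet b) (hbG : b ⊆ G) :
    sg * L.E b ∈ 𝔄 ∧ Sa (sg * L.E b) ∧ (sg * L.E b) * L.E G = sg * L.E b ∧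
      (sg * L.E b) * L.E b = sg * L.E b := by
  refine ⟨hA.mul _ _ hsg.1 (L.swp_E_mem hA hb), fun x y => ?_, ?_, ?_⟩
  · change inner ℂ (sg (L.E b x)) y = inner ℂ x (sg (L.E b y))
    rw [hsg.2.1, L.E_sa hb, L.swp_comm hA hsg.1 (L.swp_E_mem hA hb)]
  · ext x
    change sg (L.E b (L.E G x)) = sg (L.E b x)
    rw [L.E_sub hb hG hbG]
  · ext x
    change sg (L.E b (L.E b x)) = sg (L.E b x)
    rw [L.E_E hb]

/-- one step of a sweep -/
lemma swp_step [CompleteSpace H] (hFG : L.FGStmt) {G : Set ℝ} {𝔄 : Set (H →L[ℂ] H)}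
    {Rch : Set ℝ → Set ℝ → (H ≃ₗᵢ[ℂ] H) → Prop}
    (hG : MeasurableSet G) (hA : L.Ctl 𝔄) (hC : L.Closed G 𝔄 Rch)
    {M R r : Set ℝ} {V : H ≃ₗᵢ[ℂ] H} {sg : H →L[ℂ] H} (s mu a la : ℝ) {b : Set ℝ}
    (hV : Rch M R V) (hr : MeasurableSet r) (hrM : r ⊆ M) (hGr : Disjoint G r)
    (hsg : L.Sgn G 𝔄 sg) (hb : MeasurableSet b) (hbG : b ⊆ G) :
    ∃ (V1 V2 V' : H ≃ₗᵢ[ℂ] H) (co cr : ℂ), Rch M R V1 ∧ Rch M R V2 ∧ Rch M R V' ∧
      L.StepRel hc G r b sg s mu a la V V1 V2 V' co cr ∧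
      ∀ x, L.E (G ∪ r)ᶜ (V' x) = L.E (G ∪ r)ᶜ (V x) := by
  have hGM : G ⊆ M := (hC.meas M R V hV).2.2.2
  have hbM : b ⊆ M := hbG.trans hGM
  have hbr : Disjoint b r := hGr.mono_left hbG
  have ho : MeasurableSet (G \ b) := hG.diff hb
  have hbo : Disjoint b (G \ b) := Set.disjoint_sdiff_right
  have hor : Disjoint (G \ b) r := hGr.mono_left Set.sdiff_subset
  have hoM : G \ b ⊆ M := Set.sdiff_subset.trans hGM
  -- (1)
  obtain ⟨U1, hU1⟩ := L.exists_coup hb hr hbr 2 2 (-a) V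
  have hV1 := hC.coup M R V b r 2 2 (-a) U1 hV hb hr hbM hrM hbr hU1
  have hV1c := hC.comm M R _ hV1
  -- (2)
  obtain ⟨V1, hV1d⟩ : ∃ V1, V1 = U1 * V := ⟨_, rfl⟩
  rw [← hV1d] at hV1 hV1c
  obtain ⟨hp1, hp2, hp3, hp4⟩ := L.swp_psi hA hsg hG hb hbG
  have hdata : L.FData G 𝔄 M b (G \ b) r (sg * L.E b) :=
    ⟨hb, ho, hr, hbM, hoM, hrM, hbo, hbr, hor, hp1, hp2, hp3, hp4⟩
  have hfg := hFG G 𝔄 Rch hG hA hC M R b (G \ b) r V1 (sg * L.E b) mu la (-(s / mu)) hV1 hdata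
  obtain ⟨C, hCd⟩ : ∃ C, C = L.stC b sg s mu := ⟨_, rfl⟩
  obtain ⟨v, hvd⟩ : ∃ v, v = L.stv G r b mu la V1 := ⟨_, rfl⟩
  obtain ⟨q, hqd⟩ : ∃ q, q = L.stq hc G r b sg s mu la V1 := ⟨_, rfl⟩
  have hCsm : C = (-((s / mu : ℝ) : ℂ)) • (sg * L.E b) := hCd
  have hCsa : IsSelfAdjoint C := by
    apply swp_isSelfAdjoint
    intro x y
    rw [hCsm]
    change inner ℂ ((-((s / mu : ℝ) : ℂ)) • (sg * L.E b) x) y
      = inner ℂ x ((-((s / mu : ℝ) : ℂ)) • (sg * L.E b) y)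
    rw [inner_smul_left, inner_smul_right, hp2, map_neg, Complex.conj_ofReal]
  have hCZ : ∀ x, C (L.Z x) = L.Z (C x) := by
    intro x
    rw [hCsm]
    change (-((s / mu : ℝ) : ℂ)) • (sg * L.E b) (L.Z x)
      = L.Z ((-((s / mu : ℝ) : ℂ)) • (sg * L.E b) x)
    rw [map_smul, hA.Z _ hp1]
  have hWc : ∀ a ∈ 𝔄, ∀ x, a (L.W v x) = L.W v (a x) := fun a ha x => by
    rw [hvd]
    exact L.swp_W_comm hA 2 1 ho hr hV1c mu la ha x
  have hWc' : ∀ a ∈ 𝔄, ∀ x, a (L.W (-v) x) = L.W (-v) (a x) := fun a ha x => by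
    have h := L.swp_W_comm hA 2 1 ho hr hV1c (-mu) (-la) ha x
    have e : -v = ((-mu : ℝ) : ℂ) • L.fv (L.pau 2) (G \ b) V1
        + ((-la : ℝ) : ℂ) • L.fv (L.pau 1) r V1 := by
      rw [hvd, stv, Complex.ofReal_neg, Complex.ofReal_neg, neg_smul, neg_smul, neg_add]
      rfl
    rw [e]
    exact h
  have hCW : ∀ x, C (L.W v x) = L.W v (C x) := by
    intro x
    rw [hCsm]
    change (-((s / mu : ℝ) : ℂ)) • (sg * L.E b) (L.W v x)
      = L.W v ((-((s / mu : ℝ) : ℂ)) • (sg * L.E b) x)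
    rw [map_smul, hWc _ hp1]
  have hCW' : ∀ x, C (L.W (-v) x) = L.W (-v) (C x) := by
    intro x
    rw [hCsm]
    change (-((s / mu : ℝ) : ℂ)) • (sg * L.E b) (L.W (-v) x)
      = L.W (-v) ((-((s / mu : ℝ) : ℂ)) • (sg * L.E b) x)
    rw [map_smul, hWc' _ hp1]
  have hgb : IsSelfAdjoint (gb L.toSys hc C v) :=
    Vale.Agent.P367.B.gb_sa L.toSys hc hCsa (by ext x; exact hCZ x) hCW hCW'
  have hEb : L.E b ∈ 𝔄 := L.swp_E_mem hA hb
  have hEc : ∀ x, L.E b (C x) = C (L.E b x) := by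
    intro x
    rw [hCsm]
    change L.E b ((-((s / mu : ℝ) : ℂ)) • (sg * L.E b) x)
      = (-((s / mu : ℝ) : ℂ)) • (sg * L.E b) (L.E b x)
    rw [map_smul, L.swp_comm hA hEb hp1]
  have hcomm : Commute (gb L.toSys hc C v) (L.E b) := by
    ext x
    change gb L.toSys hc C v (L.E b x) = L.E b (gb L.toSys hc C v x)
    rw [Vale.Agent.P367.B.gb_apply, Vale.Agent.P367.B.gb_apply, map_neg, hEc, L.E_Z,
      Vale.Agent.P367.B.cs_apply', Vale.Agent.P367.B.cs_apply', map_smul (L.E b), map_add (L.E b),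
      L.E_W, L.E_W]
  have hUb : ∀ x, L.E b (exU (gb L.toSys hc C v) hgb x) = exU (gb L.toSys hc C v) hgb (L.E b x) := by
    intro x
    rw [Vale.Agent.P367.B.exU_apply, Vale.Agent.P367.B.exU_apply]
    exact (congrArg (fun A : H →L[ℂ] H => A x) (Vale.Agent.P367.B.ex_commute hcomm)).symm
  obtain ⟨U2, hU2⟩ := L.swp_exists_blk hb ho hr hbo hbr hor _ hUb 2 1 (-((mu : ℂ) • q))
    (-((la : ℂ) • q))
  have hblk : L.IsBlk b (G \ b) r
      (NormedSpace.exp ((-(Complex.I * ((-(s / mu) : ℝ) : ℂ))) •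
            ((sg * L.E b) * (clm L.Z * L.cosf (L.cvec mu la (G \ b) r V1)))))
      ((mu : ℂ) • L.rvec (L.cvec mu la (G \ b) r V1) b (sg * L.E b) (-(s / mu)) V1)
      ((la : ℂ) • L.rvec (L.cvec mu la (G \ b) r V1) b (sg * L.E b) (-(s / mu)) V1) 1 1 U2 := by
    have hv2 : L.cvec mu la (G \ b) r V1 = v := by rw [hvd]; rfl
    have hq2 : L.rvec v b (sg * L.E b) (-(s / mu)) V1 = -q := by
      have e1 : L.sinf v (V1 L.Om) = (famS L.toSys hc).sn v (V1 L.Om) := by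
        rw [Vale.Agent.P367.B.sn_apply', show (2 * Complex.I)⁻¹ = -(Complex.I / 2) by
          rw [mul_inv, Complex.inv_I]; ring]
        rfl
      rw [rvec, e1, hqd, stq, ← hvd, ← hCd, hCsm]
      change _ = -L.iota (L.E b (V1⁻¹ ((-((s / mu : ℝ) : ℂ)) • (sg * L.E b) (L.Z _))))
      rw [map_smul, map_smul, map_smul, ← neg_smul]
      push_cast
      rfl
    intro x
    rw [hv2, hq2, hU2, one_smul, one_smul, smul_neg, smul_neg, Vale.Agent.P367.B.exU_apply]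
    congr 4
    unfold ex
    congr 1
    have e2 : gb L.toSys hc C v = -(((-((s / mu : ℝ) : ℂ)) • (sg * L.E b)) *
        (clm L.Z * L.cosf v)) := by
      rw [← hCsm]
      ext x
      rw [Vale.Agent.P367.B.gb_apply, Vale.Agent.P367.B.cs_apply']
      change _ = -(C (L.Z ((1 / 2 : ℂ) • (L.W v x + L.W (-v) x))))
      rw [one_div]
    rw [e2, smul_mul_assoc]
    push_cast
    module
  have hV2 := hfg U2 hblk
  obtain ⟨V2, hV2d⟩ : ∃ V2, V2 = U2 * V1 := ⟨_, rfl⟩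
  rw [← hV2d] at hV2
  -- (3)
  obtain ⟨U3, hU3⟩ := L.exists_coup hb hr hbr 2 2 a V2
  have hV3 := hC.coup M R V2 b r 2 2 a U3 hV2 hb hr hbM hrM hbr hU3
  have s1 : ∀ x, V1 x = L.zr (-((a : ℂ) • L.fv L.Z r V)) (L.E b (V x))
      + L.zr (-((a : ℂ) • L.fv L.Z b V)) (L.E r (V x)) + (V x - L.E b (V x) - L.E r (V x)) := by
    intro x
    rw [hV1d, Sys.mulA, hU1, L.pw_two, L.pw_two, Complex.ofReal_neg, neg_smul, neg_smul]
    rfl
  have s2 : ∀ x, V2 x = ex (gb L.toSys hc C v) (L.E b (V1 x))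
      + (1 : ℂ) • L.zr (-((mu : ℂ) • q)) (L.E (G \ b) (V1 x))
      + (1 : ℂ) • L.pw (L.pau 1) (-((la : ℂ) • q)) (L.E r (V1 x))
      + (V1 x - L.E b (V1 x) - L.E (G \ b) (V1 x) - L.E r (V1 x)) := by
    intro x
    rw [hV2d, Sys.mulA, hU2, one_smul, one_smul, L.pw_two, Vale.Agent.P367.B.exU_apply]
  have s3 : ∀ x, (U3 * V2) x = L.zr ((a : ℂ) • L.fv L.Z r V2) (L.E b (V2 x))
      + L.zr ((a : ℂ) • L.fv L.Z b V2) (L.E r (V2 x)) + (V2 x - L.E b (V2 x) - L.E r (V2 x)) := by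
    intro x
    rw [Sys.mulA, hU3, L.pw_two, L.pw_two]
    rfl
  refine ⟨V1, V2, U3 * V2, 1, 1, hV1, hV2, hV3, ⟨norm_one, norm_one, s1, ?_, s3⟩, fun x => ?_⟩
  · rw [← hCd, ← hvd, ← hqd]
    exact s2
  · have hcm : MeasurableSet (G ∪ r)ᶜ := (hG.union hr).compl
    have d1 : Disjoint (G ∪ r)ᶜ b :=
      (Set.disjoint_compl_left_iff_subset.2 (hbG.trans Set.subset_union_left))
    have d2 : Disjoint (G ∪ r)ᶜ (G \ b) :=
      (Set.disjoint_compl_left_iff_subset.2 (Set.sdiff_subset.trans Set.subset_union_left))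
    have d3 : Disjoint (G ∪ r)ᶜ r :=
      (Set.disjoint_compl_left_iff_subset.2 Set.subset_union_right)
    have k1 : ∀ x, L.E (G ∪ r)ᶜ (V1 x) = L.E (G ∪ r)ᶜ (V x) := by
      intro x
      rw [s1, map_add, map_add, map_sub, map_sub, L.E_zr, L.E_zr, L.E_dis hcm hb d1,
        L.E_dis hcm hr d3, map_zero, map_zero]
      abel
    have k2 : ∀ x, L.E (G ∪ r)ᶜ (V2 x) = L.E (G ∪ r)ᶜ (V1 x) := by
      intro x
      have e3 : L.E (G ∪ r)ᶜ (ex (gb L.toSys hc C v) (L.E b (V1 x))) = 0 := by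
        have := hUb (L.E b (V1 x))
        rw [Vale.Agent.P367.B.exU_apply, Vale.Agent.P367.B.exU_apply, L.E_E hb] at this
        rw [← this, L.E_dis hcm hb d1]
      have hpz : ∀ w, L.pw (L.pau 1) w (0 : H) = 0 := fun w => (L.pwLin 1 w).map_zero
      rw [s2, map_add, map_add, map_add, map_sub, map_sub, map_sub, map_smul, map_smul, e3, L.E_zr,
        L.E_pw, L.E_dis hcm hb d1, L.E_dis hcm ho d2, L.E_dis hcm hr d3, map_zero, hpz,
        smul_zero]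
      abel
    rw [s3, map_add, map_add, map_sub, map_sub, L.E_zr, L.E_zr, L.E_dis hcm hb d1,
        L.E_dis hcm hr d3, map_zero, map_zero, k2, k1]
    abel

/-- (S) existence of sweeps -/
theorem sweepStmt [CompleteSpace H] (hFG : L.FGStmt) : L.SweepStmt hc := by
  intro G 𝔄 Rch hG hA hC M R r V0 sg s mu a la b hV0 hr hrM hGr hsg hb hbG
  have step := fun (V : {V : H ≃ₗᵢ[ℂ] H // Rch M R V}) (i : ℕ) =>
    L.swp_step hc hFG hG hA hC s mu a la V.2 hr hrM hGr hsg (hb i) (hbG i)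
  choose V1 V2 V' co cr h1 h2 h3 h4 h5 using step
  let S : ℕ → {V : H ≃ₗᵢ[ℂ] H // Rch M R V} := fun i =>
    Nat.rec ⟨V0, hV0⟩ (fun i V => ⟨V' V i, h3 V i⟩) i
  refine ⟨fun i => (S i).1, fun i => V1 (S i) i, fun i => V2 (S i) i, fun i => co (S i) i,
    fun i => cr (S i) i, rfl, fun i => (S i).2, fun i => h1 _ i, fun i => h2 _ i,
    fun i => h4 (S i) i, fun i => ?_⟩
  induction i with
  | zero => exact fun x => rfl
  | succ i ih => exact fun x => (h5 (S i) i x).trans (ih x)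

end main

end LSys

end Vale.Agent.P367.A
end

section

/-! P367, block B: the function gate at the level of gates, inside a closed reachability
predicate. -/

namespace Vale.Agent.P367.A

open Complex Filter Topology MeasureTheory

namespace LSys

variable {H K : Type*} [NormedAddCommGroup H] [InnerProductSpace ℂ H]
  [NormedAddCommGroup K] [InnerProductSpace ℂ K] (L : LSys H K)

/-- the couplings exist -/
def CoupEx : Prop := ∀ (A B : Set ℝ) (P Q : Fin 3) (c : ℝ) (V : H ≃ₗᵢ[ℂ] H), MeasurableSet A →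
  MeasurableSet B → Disjoint A B → ∃ U, L.IsCoup A B P Q c V U

/-- the control vector `ka x_o + la y_r` -/
noncomputable def fgv (o r : Set ℝ) (ka la : ℝ) (V : H ≃ₗᵢ[ℂ] H) : K :=
  (ka : ℂ) • L.fv (L.pau 2) o V + (la : ℂ) • L.fv (L.pau 1) r V

/-- one round `k l k^-1 k^-1 l k` -/
def fgG (k l : H ≃ₗᵢ[ℂ] H) : H ≃ₗᵢ[ℂ] H := k * l * k⁻¹ * k⁻¹ * l * k

/-- the reaction operator of one round: `(1/2) G^-1 X G - (l k)^-1 X (l k) + (1/2) X` -/
noncomputable def fgD (k l : H ≃ₗᵢ[ℂ] H) (x : H) : H :=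
  (1 / 2 : ℂ) • (fgG k l)⁻¹ (L.X (fgG k l x)) - (l * k)⁻¹ (L.X ((l * k) x)) + (1 / 2 : ℂ) • L.X x

/-- the accumulated reaction operator -/
noncomputable def fgS (k l : H ≃ₗᵢ[ℂ] H) (m : ℕ) (x : H) : H :=
  ∑ j ∈ Finset.range m, (fgG k l ^ j)⁻¹ (L.fgD k l ((fgG k l ^ j) x))

/-! ### label projections and pulses -/

lemma fga_bm {b : Set ℝ} (hb : MeasurableSet b) : Bm (b.indicator fun _ => (1 : ℂ)) := by
  refine ⟨measurable_const.indicator hb, 1, fun x => ?_⟩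
  by_cases hx : x ∈ b
  · rw [Set.indicator_of_mem hx]; simp
  · rw [Set.indicator_of_notMem hx]; simp

lemma fga_EE {b c : Set ℝ} (hb : MeasurableSet b) (hc : MeasurableSet c) (x : H) :
    L.E b (L.E c x) = L.E (b ∩ c) x := by
  have h := L.lab_mul _ _ (fga_bm hb) (fga_bm hc)
  have e : (fun t => b.indicator (fun _ => (1 : ℂ)) t * c.indicator (fun _ => (1 : ℂ)) t)
      = (b ∩ c).indicator fun _ => (1 : ℂ) := by
    funext t
    by_cases h1 : t ∈ b <;> by_cases h2 : t ∈ c <;> simp [h1, h2]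
  rw [e] at h
  change (L.lab _ * L.lab _) x = L.lab _ x
  rw [h]

lemma fga_E_idem {b : Set ℝ} (hb : MeasurableSet b) (x : H) : L.E b (L.E b x) = L.E b x := by
  rw [L.fga_EE hb hb, Set.inter_self]

lemma fga_E_empty (x : H) : L.E ∅ x = 0 := by
  have h := L.lab_const 0
  have e : ((∅ : Set ℝ).indicator fun _ => (1 : ℂ)) = fun _ => (0 : ℂ) := by
    funext t; simp
  unfold E
  rw [e, h]
  simp

lemma fga_E_disj {b c : Set ℝ} (hb : MeasurableSet b) (hc : MeasurableSet c) (h : Disjoint b c)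
    (x : H) : L.E b (L.E c x) = 0 := by
  rw [L.fga_EE hb hc, Set.disjoint_iff_inter_eq_empty.1 h, L.fga_E_empty]

lemma fga_E_inner {b : Set ℝ} (hb : MeasurableSet b) (x y : H) :
    inner ℂ (L.E b x) y = (inner ℂ x (L.E b y) : ℂ) := by
  have h := L.lab_adj _ (fga_bm hb) x y
  have e : (fun t => (starRingEnd ℂ) (b.indicator (fun _ => (1 : ℂ)) t))
      = b.indicator fun _ => (1 : ℂ) := by
    funext t
    by_cases h1 : t ∈ b <;> simp [h1]
  rw [e] at h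
  exact h

lemma fga_E_xr (b : Set ℝ) (t : ℝ) (x : H) : L.E b (L.xr t x) = L.xr t (L.E b x) := by
  rw [L.xr_apply, L.xr_apply, map_sub, map_smul, map_smul]
  congr 2
  exact L.lab_X _ _

lemma fga_E_Zt (b : Set ℝ) (t : ℝ) (x : H) : L.E b (L.Zt t x) = L.Zt t (L.E b x) := by
  rw [L.Zt_apply, L.Zt_apply, L.fga_E_xr]
  congr 1
  exact L.lab_Z _ _

lemma fga_PP (i : Fin 3) (x : H) : L.pau i (L.pau i x) = x := by
  fin_cases i
  · exact L.XX x
  · exact L.Zt_sq _ x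
  · exact L.ZZ x

lemma fga_PW (i : Fin 3) (a : K) (x : H) : L.W a (L.pau i x) = L.pau i (L.W a x) := by
  fin_cases i
  · exact L.WX a x
  · exact L.W_ZtA a _ x
  · exact L.WZ a x

lemma fga_EP (i : Fin 3) (b : Set ℝ) (x : H) : L.E b (L.pau i x) = L.pau i (L.E b x) := by
  fin_cases i
  · exact L.lab_X _ x
  · exact L.fga_E_Zt b _ x
  · exact L.lab_Z _ x

lemma fga_pw_eq (P : H ≃ₗᵢ[ℂ] H) (v : K) (x : H) : L.pw P v x
    = L.W (-v) ((1 / 2 : ℂ) • (x + P x)) + L.W v ((1 / 2 : ℂ) • (x - P x)) := by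
  unfold pw
  simp only [map_smul, map_add, map_sub]
  module

lemma fga_pw_smul (P : H ≃ₗᵢ[ℂ] H) (v : K) (c : ℂ) (x : H) :
    L.pw P v (c • x) = c • L.pw P v x := by
  unfold pw
  simp only [map_smul]
  module

lemma fga_P_pw (i : Fin 3) (v : K) (x : H) :
    L.pau i (L.pw (L.pau i) v x) = L.pw (L.pau i) v (L.pau i x) := by
  unfold pw
  simp only [map_smul, map_add, map_sub, ← L.fga_PW]

lemma fga_E_pw (i : Fin 3) (b : Set ℝ) (v : K) (x : H) :
    L.E b (L.pw (L.pau i) v x) = L.pw (L.pau i) v (L.E b x) := by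
  unfold pw
  simp only [map_smul, map_add, map_sub]
  have h : ∀ (a : K) (y : H), L.E b (L.W a y) = L.W a (L.E b y) := fun a y => L.lab_W _ a y
  simp only [h, L.fga_EP]

lemma fga_pw_pw (i : Fin 3) (a b : K) (x : H) : L.pw (L.pau i) a (L.pw (L.pau i) b x)
    = Complex.exp (-(Complex.I * ((inner ℂ a b).im : ℂ))) • L.pw (L.pau i) (a + b) x := by
  have e1 : (1 / 2 : ℂ) • (L.pw (L.pau i) b x + L.pau i (L.pw (L.pau i) b x))
      = L.W (-b) ((1 / 2 : ℂ) • (x + L.pau i x)) := by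
    rw [L.fga_P_pw]
    unfold pw
    rw [L.fga_PP]
    simp only [map_smul, map_add, map_sub]
    module
  have e2 : (1 / 2 : ℂ) • (L.pw (L.pau i) b x - L.pau i (L.pw (L.pau i) b x))
      = L.W b ((1 / 2 : ℂ) • (x - L.pau i x)) := by
    rw [L.fga_P_pw]
    unfold pw
    rw [L.fga_PP]
    simp only [map_smul, map_add, map_sub]
    module
  rw [L.fga_pw_eq, e1, e2, L.WW, L.WW, inner_neg_neg, ← neg_add, L.fga_pw_eq]
  exact (smul_add _ _ _).symm

lemma fga_zr (v : K) (x : H) : L.zr v x = L.pw (L.pau 2) v x := L.zr_apply v x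

lemma fga_pul (v : K) (x : H) : L.pul (-(Real.pi / 4)) v x = L.pw (L.pau 1) v x := L.pul_apply _ v x

/-- commutation with the inverse -/
lemma fga_inv {T : H →L[ℂ] H} {U : H ≃ₗᵢ[ℂ] H} (h : ∀ x, T (U x) = U (T x)) (x : H) :
    T (U⁻¹ x) = U⁻¹ (T x) := by
  have h1 := h (U⁻¹ x)
  rw [Sys.Ainv] at h1
  rw [h1, Sys.invA]

lemma fga_fv_of {c : Set ℝ} {U P : H ≃ₗᵢ[ℂ] H} (hU : ∀ x, L.E c (U x) = U (L.E c x))
    (hP : ∀ x, L.E c (P x) = P (L.E c x)) {w : H} (hw : U w = P (U (L.E c L.Om))) :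
    L.E c (U⁻¹ (P (U L.Om))) = w := by
  rw [fga_inv hU, hP, hU, ← hw, Sys.invA]

/-- block form of the state of the function gate -/
structure FgSt (b o r : Set ℝ) (V U B : H ≃ₗᵢ[ℂ] H) (co cr : ℂ) (wo wr : K) : Prop where
  nco : ‖co‖ = 1
  ncr : ‖cr‖ = 1
  cB : ∀ x, L.E b (B x) = B (L.E b x)
  hb : ∀ y, L.E b y = y → U y = B (V y)
  ho : ∀ y, L.E o y = y → U y = co • L.pw (L.pau 2) wo (V y)
  hr : ∀ y, L.E r y = y → U y = cr • L.pw (L.pau 1) wr (V y)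
  h0 : ∀ y, L.E b y = 0 → L.E o y = 0 → L.E r y = 0 → U y = V y

/-- block form of a coupling -/
lemma fga_coup {A B : Set ℝ} (hA : MeasurableSet A) (hB : MeasurableSet B) (hAB : Disjoint A B)
    {P Q : Fin 3} {c : ℝ} {V U : H ≃ₗᵢ[ℂ] H} (h : L.IsCoup A B P Q c V U) :
    (∀ z, L.E A z = z → U z = L.pw (L.pau P) ((c : ℂ) • L.fv (L.pau Q) B V) z) ∧
    (∀ z, L.E B z = z → U z = L.pw (L.pau Q) ((c : ℂ) • L.fv (L.pau P) A V) z) ∧
    (∀ z, L.E A z = 0 → L.E B z = 0 → U z = z) := by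
  have hp0 : ∀ (i : Fin 3) (v : K), L.pw (L.pau i) v 0 = 0 := by
    intro i v
    unfold pw
    simp
  refine ⟨fun z hz => ?_, fun z hz => ?_, fun z h1 h2 => ?_⟩
  · have h2 : L.E B z = 0 := by rw [← hz, L.fga_E_disj hB hA hAB.symm]
    rw [h z, hz, h2, hp0]
    simp
  · have h2 : L.E A z = 0 := by rw [← hz, L.fga_E_disj hA hB hAB]
    rw [h z, hz, h2, hp0]
    simp
  · rw [h z, h1, h2, hp0, hp0]
    simp

lemma fga_phase (t : ℝ) : ‖Complex.exp (-(Complex.I * (t : ℂ)))‖ = 1 := by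
  rw [← mul_neg, mul_comm, ← Complex.ofReal_neg, Complex.norm_exp_ofReal_mul_I]

/-- one coupling step -/
lemma fga_step {G : Set ℝ} {𝔄 : Set (H →L[ℂ] H)} {Rch : Set ℝ → Set ℝ → (H ≃ₗᵢ[ℂ] H) → Prop}
    (hA : L.Ctl 𝔄) (hC : L.Closed G 𝔄 Rch) (hE : L.CoupEx) {M R : Set ℝ} {V U B : H ≃ₗᵢ[ℂ] H}
    (hV : Rch M R V) (hU : Rch M R U) {b o r : Set ℝ} (hb : MeasurableSet b) (ho : MeasurableSet o)
    (hr : MeasurableSet r) (hbM : b ⊆ M) (hoM : o ⊆ M) (hrM : r ⊆ M) (hbo : Disjoint b o)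
    (hbr : Disjoint b r) (hor : Disjoint o r) (ka la c : ℝ) {co cr : ℂ} {wo wr : K}
    (hS : L.FgSt b o r V U B co cr wo wr) {kc : H ≃ₗᵢ[ℂ] H}
    (hkc : ∀ x, kc x = L.pw (L.pau 0) ((c : ℂ) • L.fgv o r ka la V) x) :
    ∃ (U' : H ≃ₗᵢ[ℂ] H) (co' cr' : ℂ), Rch M R U' ∧ L.FgSt b o r V U' (kc * B) co' cr'
      (wo + ((c * ka : ℝ) : ℂ) • L.iota (L.E b (V⁻¹ (B⁻¹ (L.X (B (V L.Om)))))))
      (wr + ((c * la : ℝ) : ℂ) • L.iota (L.E b (V⁻¹ (B⁻¹ (L.X (B (V L.Om))))))) := by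
  have hVE : ∀ (s : Set ℝ), MeasurableSet s → ∀ x, L.E s (V x) = V (L.E s x) :=
    fun s hs x => hC.comm M R V hV _ (hA.lab _ (fga_bm hs)) x
  have hUE : ∀ (s : Set ℝ), MeasurableSet s → ∀ x, L.E s (U x) = U (L.E s x) :=
    fun s hs x => hC.comm M R U hU _ (hA.lab _ (fga_bm hs)) x
  set q : H := L.E b (V⁻¹ (B⁻¹ (L.X (B (V L.Om))))) with hq
  have hqy : q = V⁻¹ (B⁻¹ (L.X (B (V (L.E b L.Om))))) := by
    rw [hq, fga_inv (hVE b hb), fga_inv hS.cB]
    have : ∀ x, L.E b (L.X x) = L.X (L.E b x) := fun x => L.fga_EP 0 b x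
    rw [this, hS.cB, hVE b hb]
  have hqb : L.E b q = q := by rw [hq, L.fga_E_idem hb]
  have hOb : L.E b (L.E b L.Om) = L.E b L.Om := L.fga_E_idem hb _
  have hOo : L.E o (L.E o L.Om) = L.E o L.Om := L.fga_E_idem ho _
  have hOr : L.E r (L.E r L.Om) = L.E r L.Om := L.fga_E_idem hr _
  -- first coupling
  obtain ⟨U1, hU1⟩ := hE b o 0 2 (c * ka) U hb ho hbo
  have hR1 := hC.coup M R U b o 0 2 (c * ka) U1 hU hb ho hbM hoM hbo hU1
  obtain ⟨c1, c2, c3⟩ := L.fga_coup hb ho hbo hU1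
  have hUE1 : ∀ (s : Set ℝ), MeasurableSet s → ∀ x, L.E s ((U1 * U) x) = (U1 * U) (L.E s x) :=
    fun s hs x => hC.comm M R (U1 * U) hR1 _ (hA.lab _ (fga_bm hs)) x
  -- field vectors for the first coupling
  have f1 : L.fv (L.pau 2) o U = L.fv (L.pau 2) o V := by
    unfold fv
    congr 1
    refine L.fga_fv_of (hUE o ho) (L.fga_EP 2 o) ?_
    have hw : L.E o (L.E o (V⁻¹ (L.pau 2 (V L.Om)))) = L.E o (V⁻¹ (L.pau 2 (V L.Om))) :=
      L.fga_E_idem ho _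
    rw [hS.ho _ hw, hS.ho _ hOo, fga_inv (hVE o ho), Sys.Ainv, L.fga_EP, hVE o ho, map_smul,
      L.fga_P_pw]
  have f2 : L.fv (L.pau 0) b U = L.iota q := by
    unfold fv
    congr 1
    refine L.fga_fv_of (hUE b hb) (L.fga_EP 0 b) ?_
    rw [hS.hb _ hqb, hS.hb _ hOb, hqy, Sys.Ainv, Sys.Ainv]
    rfl
  rw [f1] at c1
  rw [f2] at c2
  -- block form after the first coupling
  have b1 : ∀ y, L.E b y = y → (U1 * U) y
      = L.pw (L.pau 0) (((c * ka : ℝ) : ℂ) • L.fv (L.pau 2) o V) (B (V y)) := by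
    intro y hy
    have hz : L.E b (B (V y)) = B (V y) := by rw [hS.cB, hVE b hb, hy]
    rw [Sys.mulA, hS.hb y hy, c1 _ hz]
  have o1 : ∀ y, L.E o y = y → (U1 * U) y
      = (co * Complex.exp (-(Complex.I * ((inner ℂ (((c * ka : ℝ) : ℂ) • L.iota q) wo).im : ℂ)))) •
        L.pw (L.pau 2) (wo + ((c * ka : ℝ) : ℂ) • L.iota q) (V y) := by
    intro y hy
    have hz : L.E o (co • L.pw (L.pau 2) wo (V y)) = co • L.pw (L.pau 2) wo (V y) := by
      rw [map_smul, L.fga_E_pw, hVE o ho, hy]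
    rw [Sys.mulA, hS.ho y hy, c2 _ hz, L.fga_pw_smul, L.fga_pw_pw, smul_smul,
      add_comm (((c * ka : ℝ) : ℂ) • L.iota q) wo]
  have r1 : ∀ y, L.E r y = y → (U1 * U) y = cr • L.pw (L.pau 1) wr (V y) := by
    intro y hy
    have hz : L.E r (cr • L.pw (L.pau 1) wr (V y)) = cr • L.pw (L.pau 1) wr (V y) := by
      rw [map_smul, L.fga_E_pw, hVE r hr, hy]
    rw [Sys.mulA, hS.hr y hy, c3]
    · rw [← hz, L.fga_E_disj hb hr hbr]
    · rw [← hz, L.fga_E_disj ho hr hor]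
  have z1 : ∀ y, L.E b y = 0 → L.E o y = 0 → L.E r y = 0 → (U1 * U) y = V y := by
    intro y h1 h2 h3
    rw [Sys.mulA, hS.h0 y h1 h2 h3, c3]
    · rw [hVE b hb, h1, map_zero]
    · rw [hVE o ho, h2, map_zero]
  -- second coupling
  obtain ⟨U2, hU2⟩ := hE b r 0 1 (c * la) (U1 * U) hb hr hbr
  have hR2 := hC.coup M R (U1 * U) b r 0 1 (c * la) U2 hR1 hb hr hbM hrM hbr hU2
  obtain ⟨d1, d2, d3⟩ := L.fga_coup hb hr hbr hU2
  have f3 : L.fv (L.pau 1) r (U1 * U) = L.fv (L.pau 1) r V := by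
    unfold fv
    congr 1
    refine L.fga_fv_of (hUE1 r hr) (L.fga_EP 1 r) ?_
    have hw : L.E r (L.E r (V⁻¹ (L.pau 1 (V L.Om)))) = L.E r (V⁻¹ (L.pau 1 (V L.Om))) :=
      L.fga_E_idem hr _
    rw [r1 _ hw, r1 _ hOr, fga_inv (hVE r hr), Sys.Ainv, L.fga_EP, hVE r hr, map_smul,
      L.fga_P_pw]
  have f4 : L.fv (L.pau 0) b (U1 * U) = L.iota q := by
    unfold fv
    congr 1
    refine L.fga_fv_of (hUE1 b hb) (L.fga_EP 0 b) ?_
    rw [b1 _ hqb, b1 _ hOb, L.fga_P_pw, hqy, Sys.Ainv, Sys.Ainv]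
    rfl
  rw [f3] at d1
  rw [f4] at d2
  have hort : (inner ℂ (((c * la : ℝ) : ℂ) • L.fv (L.pau 1) r V)
      (((c * ka : ℝ) : ℂ) • L.fv (L.pau 2) o V) : ℂ) = 0 := by
    rw [inner_smul_left, inner_smul_right]
    unfold fv
    rw [LinearIsometry.inner_map_map, L.fga_E_inner hr, L.fga_E_disj hr ho hor.symm,
      inner_zero_right, mul_zero, mul_zero]
  refine ⟨U2 * (U1 * U),
    co * Complex.exp (-(Complex.I * ((inner ℂ (((c * ka : ℝ) : ℂ) • L.iota q) wo).im : ℂ))),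
    cr * Complex.exp (-(Complex.I * ((inner ℂ (((c * la : ℝ) : ℂ) • L.iota q) wr).im : ℂ))),
    hR2, ?_⟩
  refine ⟨?_, ?_, ?_, ?_, ?_, ?_, ?_⟩
  · rw [norm_mul, hS.nco, fga_phase, one_mul]
  · rw [norm_mul, hS.ncr, fga_phase, one_mul]
  · intro x
    rw [Sys.mulA, Sys.mulA, hkc, hkc, L.fga_E_pw, hS.cB]
  · intro y hy
    have hz : L.E b ((U1 * U) y) = (U1 * U) y := by rw [hUE1 b hb, hy]
    rw [Sys.mulA U2, d1 _ hz, b1 y hy, L.fga_pw_pw, hort, Sys.mulA kc, hkc]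
    simp only [Complex.zero_im, Complex.ofReal_zero, mul_zero, neg_zero, Complex.exp_zero, one_smul]
    congr 1
    unfold fgv
    rw [smul_add, smul_smul, smul_smul, add_comm]
    push_cast
    rfl
  · intro y hy
    have hz : L.E o ((U1 * U) y) = (U1 * U) y := by rw [hUE1 o ho, hy]
    rw [Sys.mulA U2, d3, o1 y hy]
    · rw [← hz, L.fga_E_disj hb ho hbo]
    · rw [← hz, L.fga_E_disj hr ho hor.symm]
  · intro y hy
    have hz : L.E r ((U1 * U) y) = (U1 * U) y := by rw [hUE1 r hr, hy]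
    rw [Sys.mulA U2, d2 _ hz, r1 y hy, L.fga_pw_smul, L.fga_pw_pw, smul_smul,
      add_comm (((c * la : ℝ) : ℂ) • L.iota q) wr]
  · intro y h1 h2 h3
    rw [Sys.mulA U2, z1 y h1 h2 h3, d3]
    · rw [hVE b hb, h1, map_zero]
    · rw [hVE r hr, h3, map_zero]

/-- a rotation supported in `b` does nothing off `b` -/
lemma fga_rot_off [CompleteSpace H] {a : H →L[ℂ] H} {b : Set ℝ} (hab : a * L.E b = a)
    {l : H ≃ₗᵢ[ℂ] H} (hl : L.IsRot a 2 l) {z : H} (hz : L.E b z = 0) : l z = z := by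
  rw [hl z]
  set T : H →L[ℂ] H := (-Complex.I) • (a * (L.pau 2).toContinuousLinearEquiv.toContinuousLinearMap)
    with hT
  have hTz : T z = 0 := by
    have h1 : T z = (-Complex.I) • a (L.pau 2 z) := rfl
    have h2 : a (L.pau 2 z) = 0 := by
      have h3 : a (L.pau 2 z) = (a * L.E b) (L.pau 2 z) := by rw [hab]
      rw [h3]
      change a (L.E b (L.pau 2 z)) = 0
      rw [L.fga_EP, hz, map_zero, map_zero]
    rw [h1, h2, smul_zero]
  have h4 := NormedSpace.exp_series_hasSum_exp' (𝕂 := ℂ) T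
  have h5 := h4.mapL (ContinuousLinearMap.apply ℂ H z)
  have h6 : HasSum (fun n : ℕ => (ContinuousLinearMap.apply ℂ H z)
      (((n.factorial : ℂ)⁻¹) • T ^ n)) z := by
    have h7 := hasSum_single (f := fun n : ℕ => (ContinuousLinearMap.apply ℂ H z)
      (((n.factorial : ℂ)⁻¹) • T ^ n)) 0 (by
        intro n hn
        obtain ⟨k, rfl⟩ := Nat.exists_eq_succ_of_ne_zero hn
        change ((((k + 1).factorial : ℂ)⁻¹) • T ^ (k + 1)) z = 0
        rw [pow_succ]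
        change (((k + 1).factorial : ℂ)⁻¹) • (T ^ k) (T z) = 0
        rw [hTz, map_zero, smul_zero])
    have h8 : (ContinuousLinearMap.apply ℂ H z) (((Nat.factorial 0 : ℕ) : ℂ)⁻¹ • T ^ 0) = z := by
      change ((((Nat.factorial 0 : ℕ) : ℂ)⁻¹) • T ^ 0) z = z
      rw [pow_zero, Nat.factorial_zero, Nat.cast_one, inv_one, one_smul]
      rfl
    rw [h8] at h7
    exact h7
  exact h5.unique h6

/-- one rotation step -/
lemma fga_rotstep [CompleteSpace H] {G : Set ℝ} {𝔄 : Set (H →L[ℂ] H)}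
    {Rch : Set ℝ → Set ℝ → (H ≃ₗᵢ[ℂ] H) → Prop}
    (hA : L.Ctl 𝔄) (hC : L.Closed G 𝔄 Rch) {M R : Set ℝ} {V U B : H ≃ₗᵢ[ℂ] H}
    (hV : Rch M R V) (hU : Rch M R U) {b o r : Set ℝ} (hb : MeasurableSet b) (ho : MeasurableSet o)
    (hr : MeasurableSet r) (hbo : Disjoint b o) (hbr : Disjoint b r) {co cr : ℂ} {wo wr : K}
    (hS : L.FgSt b o r V U B co cr wo wr) {a : H →L[ℂ] H}
    (ha : a ∈ 𝔄) (hsa : Sa a) (haG : a * L.E G = a) (hab : a * L.E b = a) {l : H ≃ₗᵢ[ℂ] H}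
    (hl : L.IsRot a 2 l) :
    Rch M R (l * U) ∧ L.FgSt b o r V (l * U) (l * B) co cr wo wr := by
  have hR := hC.rot M R U a 2 l hU ha hsa haG hl
  have hVE : ∀ (s : Set ℝ), MeasurableSet s → ∀ x, L.E s (V x) = V (L.E s x) :=
    fun s hs x => hC.comm M R V hV _ (hA.lab _ (fga_bm hs)) x
  have hlE : ∀ x, L.E b (l x) = l (L.E b x) := by
    intro x
    have h1 := hC.comm M R _ hR _ (hA.lab _ (fga_bm hb)) (U⁻¹ x)
    have h2 := hC.comm M R U hU _ (hA.lab _ (fga_bm hb)) (U⁻¹ x)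
    change L.E b (l (U (U⁻¹ x))) = l (U (L.E b (U⁻¹ x))) at h1
    change L.E b (U (U⁻¹ x)) = U (L.E b (U⁻¹ x)) at h2
    rw [Sys.Ainv] at h1 h2
    rw [h1, h2]
  refine ⟨hR, hS.nco, hS.ncr, ?_, ?_, ?_, ?_, ?_⟩
  · intro x
    rw [Sys.mulA, Sys.mulA, hlE, hS.cB]
  · intro y hy
    rw [Sys.mulA, hS.hb y hy, Sys.mulA]
  · intro y hy
    have hz : L.E o (co • L.pw (L.pau 2) wo (V y)) = co • L.pw (L.pau 2) wo (V y) := by
      rw [map_smul, L.fga_E_pw, hVE o ho, hy]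
    rw [Sys.mulA, hS.ho y hy]
    exact L.fga_rot_off hab hl (by rw [← hz, L.fga_E_disj hb ho hbo])
  · intro y hy
    have hz : L.E r (cr • L.pw (L.pau 1) wr (V y)) = cr • L.pw (L.pau 1) wr (V y) := by
      rw [map_smul, L.fga_E_pw, hVE r hr, hy]
    rw [Sys.mulA, hS.hr y hy]
    exact L.fga_rot_off hab hl (by rw [← hz, L.fga_E_disj hb hr hbr])
  · intro y h1 h2 h3
    rw [Sys.mulA, hS.h0 y h1 h2 h3]
    exact L.fga_rot_off hab hl (by rw [hVE b hb, h1, map_zero])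

lemma fga_rounds [CompleteSpace H] {G : Set ℝ} {𝔄 : Set (H →L[ℂ] H)}
    {Rch : Set ℝ → Set ℝ → (H ≃ₗᵢ[ℂ] H) → Prop}
    (hA : L.Ctl 𝔄) (hC : L.Closed G 𝔄 Rch) (hE : L.CoupEx) {M R : Set ℝ} {V : H ≃ₗᵢ[ℂ] H}
    (hV : Rch M R V) {b o r : Set ℝ} (hb : MeasurableSet b) (ho : MeasurableSet o)
    (hr : MeasurableSet r) (hbM : b ⊆ M) (hoM : o ⊆ M) (hrM : r ⊆ M) (hbo : Disjoint b o)
    (hbr : Disjoint b r) (hor : Disjoint o r) (ka la : ℝ) {k l : H ≃ₗᵢ[ℂ] H}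
    (hk : ∀ x, k x = L.pw L.X ((1 / 2 : ℂ) • L.fgv o r ka la V) x) {a : H →L[ℂ] H}
    (ha : a ∈ 𝔄) (hsa : Sa a) (haG : a * L.E G = a) (hab : a * L.E b = a) (hl : L.IsRot a 2 l)
    (m : ℕ) :
    ∃ (U : H ≃ₗᵢ[ℂ] H) (co cr : ℂ), Rch M R U ∧ L.FgSt b o r V U (fgG k l ^ m) co cr
      ((ka : ℂ) • L.iota (L.E b (V⁻¹ (L.fgS k l m (V L.Om)))))
      ((la : ℂ) • L.iota (L.E b (V⁻¹ (L.fgS k l m (V L.Om))))) := by
  have hkX : ∀ x, L.X (k x) = k (L.X x) := by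
    intro x
    rw [hk, hk]
    exact L.fga_P_pw 0 _ x
  have hkiX : ∀ x, k⁻¹ (L.X (k x)) = L.X x := by
    intro x
    rw [hkX, Sys.invA]
  have hk2 : ∀ x, k x = L.pw (L.pau 0) (((1 / 2 : ℝ) : ℂ) • L.fgv o r ka la V) x := by
    intro x
    rw [hk]
    push_cast
    rfl
  have hkk : ∀ x, k (k (L.pw (L.pau 0) (((-1 : ℝ) : ℂ) • L.fgv o r ka la V) x)) = x := by
    intro x
    have hi : ∀ s t : ℝ, (inner ℂ (((s : ℝ) : ℂ) • L.fgv o r ka la V)
        (((t : ℝ) : ℂ) • L.fgv o r ka la V) : ℂ).im = 0 := by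
      intro s t
      rw [inner_smul_left, inner_smul_right, Complex.conj_ofReal, Complex.im_ofReal_mul,
        Complex.im_ofReal_mul, inner_self_eq_norm_sq_to_K]
      simp [← Complex.ofReal_pow]
    rw [hk2 (L.pw _ _ x), L.fga_pw_pw, hi, hk2, ← add_smul, ← Complex.ofReal_add]
    simp only [Complex.ofReal_zero, mul_zero, neg_zero, Complex.exp_zero, one_smul]
    rw [L.fga_pw_pw, hi, ← add_smul, ← Complex.ofReal_add]
    simp only [Complex.ofReal_zero, mul_zero, neg_zero, Complex.exp_zero, one_smul]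
    have e : (1 / 2 + (1 / 2 + -1) : ℝ) = 0 := by norm_num
    rw [e, Complex.ofReal_zero, zero_smul]
    unfold pw
    rw [neg_zero, L.W_zero_apply, L.W_zero_apply]
    module
  have hki : ∀ x, (k⁻¹ * k⁻¹) x = L.pw (L.pau 0) (((-1 : ℝ) : ℂ) • L.fgv o r ka la V) x := by
    intro x
    rw [Sys.mulA]
    conv_lhs => rw [← hkk x]
    rw [Sys.invA, Sys.invA]
  induction m with
  | zero =>
    refine ⟨V, 1, 1, hV, by simp, by simp, fun _ => rfl, fun _ _ => rfl, ?_, ?_, fun _ _ _ _ => rfl⟩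
    · intro y _
      have h0 : L.fgS k l 0 (V L.Om) = 0 := by simp [fgS]
      rw [h0, map_zero, map_zero, map_zero, smul_zero, one_smul]
      unfold pw
      rw [neg_zero, L.W_zero_apply, L.W_zero_apply]
      module
    · intro y _
      have h0 : L.fgS k l 0 (V L.Om) = 0 := by simp [fgS]
      rw [h0, map_zero, map_zero, map_zero, smul_zero, one_smul]
      unfold pw
      rw [neg_zero, L.W_zero_apply, L.W_zero_apply]
      module
  | succ m ih =>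
    obtain ⟨U, co, cr, hU, hS⟩ := ih
    obtain ⟨U1, co1, cr1, hU1, hS1⟩ := L.fga_step hA hC hE hV hU hb ho hr hbM hoM hrM hbo hbr hor
      ka la (1 / 2) hS hk2
    obtain ⟨hU2, hS2⟩ := L.fga_rotstep hA hC hV hU1 hb ho hr hbo hbr hS1 ha hsa haG hab hl
    obtain ⟨U3, co3, cr3, hU3, hS3⟩ := L.fga_step hA hC hE hV hU2 hb ho hr hbM hoM hrM hbo hbr hor
      ka la (-1) hS2 hki
    obtain ⟨hU4, hS4⟩ := L.fga_rotstep hA hC hV hU3 hb ho hr hbo hbr hS3 ha hsa haG hab hl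
    obtain ⟨U5, co5, cr5, hU5, hS5⟩ := L.fga_step hA hC hE hV hU4 hb ho hr hbM hoM hrM hbo hbr hor
      ka la (1 / 2) hS4 hk2
    refine ⟨U5, co5, cr5, hU5, ?_⟩
    set Gm := fgG k l ^ m with hGm
    have eG : fgG k l ^ (m + 1) = k * (l * (k⁻¹ * k⁻¹ * (l * (k * Gm)))) := by
      rw [pow_succ', ← hGm, fgG]
      simp only [mul_assoc]
    rw [← eG] at hS5
    have eS : L.fgS k l (m + 1) (V L.Om) = L.fgS k l m (V L.Om)
        + ((1 / 2 : ℂ) • Gm⁻¹ (L.X (Gm (V L.Om)))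
          - (l * (k * Gm))⁻¹ (L.X ((l * (k * Gm)) (V L.Om)))
          + (1 / 2 : ℂ) • (l * (k⁻¹ * k⁻¹ * (l * (k * Gm))))⁻¹
            (L.X ((l * (k⁻¹ * k⁻¹ * (l * (k * Gm)))) (V L.Om)))) := by
      unfold fgS
      rw [Finset.sum_range_succ, ← hGm]
      congr 1
      unfold fgD
      have e1 : fgG k l (Gm (V L.Om)) = k ((l * (k⁻¹ * k⁻¹ * (l * (k * Gm)))) (V L.Om)) := by
        unfold fgG
        simp only [Sys.mulA]
      have e2 : ∀ z, Gm⁻¹ ((fgG k l)⁻¹ z) = (l * (k⁻¹ * k⁻¹ * (l * (k * Gm))))⁻¹ (k⁻¹ z) := by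
        intro z
        have : Gm⁻¹ * (fgG k l)⁻¹ = (l * (k⁻¹ * k⁻¹ * (l * (k * Gm))))⁻¹ * k⁻¹ := by
          unfold fgG
          group
        exact congrArg (fun f : H ≃ₗᵢ[ℂ] H => f z) this
      have e3 : ∀ z, Gm⁻¹ ((l * k)⁻¹ z) = (l * (k * Gm))⁻¹ z := by
        intro z
        have : Gm⁻¹ * (l * k)⁻¹ = (l * (k * Gm))⁻¹ := by group
        exact congrArg (fun f : H ≃ₗᵢ[ℂ] H => f z) this
      have e4 : (l * k) (Gm (V L.Om)) = (l * (k * Gm)) (V L.Om) := rfl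
      rw [map_add, map_sub, map_smul, map_smul, e2, e1, hkiX, e3, e4]
      abel
    have e5 : ∀ (s : ℝ), ((s : ℝ) : ℂ) • L.iota (L.E b (V⁻¹ (L.fgS k l (m + 1) (V L.Om))))
        = ((s : ℝ) : ℂ) • L.iota (L.E b (V⁻¹ (L.fgS k l m (V L.Om))))
          + ((1 / 2 * s : ℝ) : ℂ) • L.iota (L.E b (V⁻¹ (Gm⁻¹ (L.X (Gm (V L.Om))))))
          + ((-1 * s : ℝ) : ℂ) • L.iota (L.E b (V⁻¹ ((l * (k * Gm))⁻¹
              (L.X ((l * (k * Gm)) (V L.Om))))))
          + ((1 / 2 * s : ℝ) : ℂ) • L.iota (L.E b (V⁻¹ ((l * (k⁻¹ * k⁻¹ * (l * (k * Gm))))⁻¹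
              (L.X ((l * (k⁻¹ * k⁻¹ * (l * (k * Gm)))) (V L.Om)))))) := by
      intro s
      rw [eS]
      simp only [map_add, map_sub, map_smul]
      push_cast
      module
    rw [e5 ka, e5 la]
    exact hS5

/-- **gate level of the function gate** -/
theorem fga_main [CompleteSpace H] {G : Set ℝ} {𝔄 : Set (H →L[ℂ] H)} {Rch : Set ℝ → Set ℝ → (H ≃ₗᵢ[ℂ] H) → Prop}
    (hA : L.Ctl 𝔄) (hC : L.Closed G 𝔄 Rch) (hE : L.CoupEx) {M R : Set ℝ} {V : H ≃ₗᵢ[ℂ] H}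
    (hV : Rch M R V) {b o r : Set ℝ} (hb : MeasurableSet b) (ho : MeasurableSet o)
    (hr : MeasurableSet r) (hbM : b ⊆ M) (hoM : o ⊆ M) (hrM : r ⊆ M) (hbo : Disjoint b o)
    (hbr : Disjoint b r) (hor : Disjoint o r) (ka la : ℝ) {k l : H ≃ₗᵢ[ℂ] H}
    (hk : ∀ x, k x = L.pw L.X ((1 / 2 : ℂ) • L.fgv o r ka la V) x) {a : H →L[ℂ] H}
    (ha : a ∈ 𝔄) (hsa : Sa a) (haG : a * L.E G = a) (hab : a * L.E b = a) (hl : L.IsRot a 2 l)
    (m : ℕ) :
    ∃ (U : H ≃ₗᵢ[ℂ] H) (co cr : ℂ), ‖co‖ = 1 ∧ ‖cr‖ = 1 ∧ Rch M R U ∧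
      ∀ x, U x = (fgG k l ^ m) (L.E b (V x))
        + co • L.zr ((ka : ℂ) • L.iota (L.E b (V⁻¹ (L.fgS k l m (V L.Om))))) (L.E o (V x))
        + cr • L.pw (L.pau 1) ((la : ℂ) • L.iota (L.E b (V⁻¹ (L.fgS k l m (V L.Om))))) (L.E r (V x))
        + (V x - L.E b (V x) - L.E o (V x) - L.E r (V x)) := by
  obtain ⟨U, co, cr, hU, hS⟩ := L.fga_rounds hA hC hE hV hb ho hr hbM hoM hrM hbo hbr hor ka la hk
    ha hsa haG hab hl m
  have hVE : ∀ (s : Set ℝ), MeasurableSet s → ∀ x, L.E s (V x) = V (L.E s x) :=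
    fun s hs x => hC.comm M R V hV _ (hA.lab _ (fga_bm hs)) x
  refine ⟨U, co, cr, hS.nco, hS.ncr, hU, fun x => ?_⟩
  have e : x = L.E b x + L.E o x + L.E r x + (x - L.E b x - L.E o x - L.E r x) := by abel
  have h1 : L.E b (x - L.E b x - L.E o x - L.E r x) = 0 := by
    rw [map_sub, map_sub, map_sub, L.fga_E_idem hb, L.fga_E_disj hb ho hbo, L.fga_E_disj hb hr hbr]
    simp
  have h2 : L.E o (x - L.E b x - L.E o x - L.E r x) = 0 := by
    rw [map_sub, map_sub, map_sub, L.fga_E_idem ho, L.fga_E_disj ho hb hbo.symm,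
      L.fga_E_disj ho hr hor]
    simp
  have h3 : L.E r (x - L.E b x - L.E o x - L.E r x) = 0 := by
    rw [map_sub, map_sub, map_sub, L.fga_E_idem hr, L.fga_E_disj hr hb hbr.symm,
      L.fga_E_disj hr ho hor.symm]
    simp
  conv_lhs => rw [e]
  rw [map_add, map_add, map_add, hS.hb _ (L.fga_E_idem hb x), hS.ho _ (L.fga_E_idem ho x),
    hS.hr _ (L.fga_E_idem hr x), hS.h0 _ h1 h2 h3, map_sub, map_sub, map_sub, hVE b hb, hVE o ho,
    hVE r hr, L.fga_zr]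

end LSys

end Vale.Agent.P367.A
end

section

/-! P367, block B: `FaStmt` (the gates of `m` micro steps of the function gate). -/

namespace Vale.Agent.P367.A

open Complex Filter Topology MeasureTheory

section expo

variable {H : Type*} [NormedAddCommGroup H] [InnerProductSpace ℂ H] [CompleteSpace H]

lemma fgb_exp_neg_mul (T : H →L[ℂ] H) (x : H) :
    NormedSpace.exp (-T) (NormedSpace.exp T x) = x := by
  have h : NormedSpace.exp (-T) * NormedSpace.exp T = 1 := by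
    let _ : NormedAlgebra ℚ (H →L[ℂ] H) := NormedAlgebra.restrictScalars ℚ ℂ (H →L[ℂ] H)
    rw [← NormedSpace.exp_add_of_commute (Commute.refl T).neg_left, neg_add_cancel,
      NormedSpace.exp_zero]
  have h2 := congrArg (fun A : H →L[ℂ] H => A x) h
  exact h2

/-- the exponential of a skew-adjoint operator as a unitary -/
lemma fgb_exists_exp {T : H →L[ℂ] H} (hT : LSys.Sa T) :
    ∃ U : H ≃ₗᵢ[ℂ] H, ∀ x, U x = NormedSpace.exp ((-Complex.I) • T) x := by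
  have hsa : ContinuousLinearMap.adjoint T = T := by
    symm
    rw [ContinuousLinearMap.eq_adjoint_iff]
    intro x y
    exact hT x y
  have hst : star (NormedSpace.exp ((-Complex.I) • T)) = NormedSpace.exp (-((-Complex.I) • T)) := by
    rw [NormedSpace.star_exp, star_smul, ContinuousLinearMap.star_eq_adjoint, hsa]
    congr 1
    rw [← neg_smul]
    congr 1
    simp
  refine ⟨mkU (NormedSpace.exp ((-Complex.I) • T)).toLinearMap
    (NormedSpace.exp (-((-Complex.I) • T))).toLinearMap ?_ ?_ ?_, fun x => rfl⟩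
  · intro x
    exact fgb_exp_neg_mul _ x
  · intro x
    have h := fgb_exp_neg_mul (-((-Complex.I) • T)) x
    rw [neg_neg] at h
    exact h
  · intro x y
    change inner ℂ (NormedSpace.exp ((-Complex.I) • T) x) y
      = inner ℂ x (NormedSpace.exp (-((-Complex.I) • T)) y)
    rw [← hst, ContinuousLinearMap.star_eq_adjoint, ContinuousLinearMap.adjoint_inner_right]

end expo

namespace LSys

variable {H K : Type*} [NormedAddCommGroup H] [InnerProductSpace ℂ H]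
  [NormedAddCommGroup K] [InnerProductSpace ℂ K] (L : LSys H K)

/-- controlled rotations exist -/
lemma exists_rot [CompleteSpace H] {a : H →L[ℂ] H} (hsa : Sa a) {P : Fin 3}
    (hP : ∀ x, a (L.pau P x) = L.pau P (a x)) : ∃ U, L.IsRot a P U := by
  have hT : Sa (a * (L.pau P).toContinuousLinearEquiv.toContinuousLinearMap) := by
    intro x y
    change inner ℂ (a (L.pau P x)) y = inner ℂ x (a (L.pau P y))
    rw [hsa, L.inner_pau, hP]
  obtain ⟨U, hU⟩ := fgb_exists_exp hT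
  exact ⟨U, hU⟩

/-- central phases exist -/
lemma exists_ph [CompleteSpace H] {a : H →L[ℂ] H} (hsa : Sa a) : ∃ U, IsPh a U :=
  fgb_exists_exp hsa

lemma smul_mem_ctl {𝔄 : Set (H →L[ℂ] H)} (hA : L.Ctl 𝔄) {a : H →L[ℂ] H} (ha : a ∈ 𝔄) (c : ℂ) :
    c • a ∈ 𝔄 := by
  have h := hA.mul _ _ (hA.lab (fun _ => c) (Bm.const c)) ha
  rw [L.lab_const, smul_mul_assoc, one_mul] at h
  exact h

theorem faStmt [CompleteSpace H] : L.FaStmt := by
  intro G 𝔄 Rch hG hA hC M R b o r V psi μ ν s hV hD m hm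
  set v := L.cvec μ ν o r V with hv
  set ε : ℝ := s / (2 * m) with hε
  have hEx : L.CoupEx := fun A B P Q c V hA hB hAB => L.exists_coup hA hB hAB P Q c V
  set a : H →L[ℂ] H := (ε : ℂ) • psi with ha
  have haA : a ∈ 𝔄 := L.smul_mem_ctl hA hD.psiA _
  have hsa : Sa a := by
    intro x y
    change inner ℂ ((ε : ℂ) • psi x) y = inner ℂ x ((ε : ℂ) • psi y)
    rw [inner_smul_left, inner_smul_right, hD.psiS, Complex.conj_ofReal]
  have haG : a * L.E G = a := by rw [ha, smul_mul_assoc, hD.psiG]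
  have hab : a * L.E b = a := by rw [ha, smul_mul_assoc, hD.psib]
  have haZ : ∀ x, a (L.pau 2 x) = L.pau 2 (a x) := fun x => hA.Z a haA x
  obtain ⟨l, hl⟩ := L.exists_rot hsa haZ
  set k : H ≃ₗᵢ[ℂ] H := L.pwU 0 ((1 / 2 : ℂ) • v) with hk
  obtain ⟨U, co, cr, nco, ncr, hU, hUx⟩ := L.fga_main hA hC hEx hV hD.mb hD.mo hD.mr hD.bM hD.oM
    hD.rM hD.bo hD.br hD.or μ ν (k := k) (fun x => L.pwU_apply 0 _ x) haA hsa haG hab hl m
  -- dictionary
  have dk : ∀ x, L.kk v x = k x := fun x => rfl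
  have dki : ∀ x, L.kki v x = k⁻¹ x := by
    intro x
    rw [hk, L.pwU_inv]
    rfl
  have dl : ∀ x, L.rr psi ε x = l x := fun x => (hl x).symm
  have dli : ∀ x, L.rr psi (-ε) x = l⁻¹ x := by
    intro x
    have h1 : L.rr psi (-ε) (L.rr psi ε (l⁻¹ x)) = l⁻¹ x := by
      unfold rr
      have e : (-Complex.I) • ((((-ε : ℝ) : ℂ) • psi) * clm (L.pau 2))
          = -((-Complex.I) • (((ε : ℂ) • psi) * clm (L.pau 2))) := by
        rw [Complex.ofReal_neg, neg_smul (ε : ℂ) psi, neg_mul, smul_neg]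
      rw [e]
      exact fgb_exp_neg_mul _ _
    rw [dl, Sys.Ainv] at h1
    exact h1
  have dG : ∀ x, L.fm v psi ε x = fgG k l x := by
    intro x
    change L.kk v (L.rr psi ε (L.kki v (L.kki v (L.rr psi ε (L.kk v x))))) = _
    rw [dk, dl, dki, dki, dl, dk]
    rfl
  have dGi : ∀ x, L.fmi v psi ε x = (fgG k l)⁻¹ x := by
    intro x
    change L.kki v (L.rr psi (-ε) (L.kk v (L.kk v (L.rr psi (-ε) (L.kki v x))))) = _
    rw [dki, dli, dk, dk, dli, dki]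
    have : (fgG k l)⁻¹ = k⁻¹ * l⁻¹ * k * k * l⁻¹ * k⁻¹ := by
      unfold fgG
      simp only [mul_inv_rev, inv_inv, mul_assoc]
    rw [this]
    rfl
  have dGp : ∀ (j : ℕ) x, (L.fm v psi ε ^ j) x = (fgG k l ^ j) x := by
    intro j
    induction j with
    | zero => intro x; rfl
    | succ j ih =>
      intro x
      rw [pow_succ, pow_succ]
      change (L.fm v psi ε ^ j) (L.fm v psi ε x) = (fgG k l ^ j) (fgG k l x)
      rw [dG, ih]
  have dGip : ∀ (j : ℕ) x, (L.fmi v psi ε ^ j) x = (fgG k l ^ j)⁻¹ x := by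
    intro j
    induction j with
    | zero => intro x; rfl
    | succ j ih =>
      intro x
      rw [pow_succ, pow_succ', mul_inv_rev]
      change (L.fmi v psi ε ^ j) (L.fmi v psi ε x) = (fgG k l ^ j)⁻¹ ((fgG k l)⁻¹ x)
      rw [dGi, ih]
  have dS : ∀ x, L.sumX v psi ε m x = (2 : ℂ) • L.fgS k l m x := by
    intro x
    unfold sumX fgS
    rw [sum_apply, Finset.smul_sum]
    refine Finset.sum_congr rfl fun j _ => ?_
    change (L.fmi v psi ε ^ j) (L.X ((L.fm v psi ε ^ j) x))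
      - (2 : ℂ) • (L.fmi v psi ε ^ j) (L.kki v (L.rr psi (-ε) (L.X (L.rr psi ε (L.kk v
        ((L.fm v psi ε ^ j) x)))))) + (L.fmi v psi ε ^ (j + 1)) (L.X ((L.fm v psi ε ^ (j + 1)) x))
      = _
    rw [dGp, dGip, dGip, dGp, dGip, dk, dl, dli, dki]
    unfold fgD
    have e1 : (fgG k l ^ (j + 1))⁻¹ (L.X ((fgG k l ^ (j + 1)) x))
        = (fgG k l ^ j)⁻¹ ((fgG k l)⁻¹ (L.X (fgG k l ((fgG k l ^ j) x)))) := by
      have h1 : (fgG k l ^ (j + 1))⁻¹ = (fgG k l ^ j)⁻¹ * (fgG k l)⁻¹ := by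
        rw [pow_succ', mul_inv_rev]
      have h2 : fgG k l ^ (j + 1) = fgG k l * fgG k l ^ j := pow_succ' _ _
      rw [h1, h2, Sys.mulA, Sys.mulA]
    have e2 : ∀ z, (l * k)⁻¹ z = k⁻¹ (l⁻¹ z) := by
      intro z
      rw [mul_inv_rev]
      rfl
    rw [e1, e2]
    simp only [map_add, map_sub, map_smul, Sys.mulA]
    generalize (fgG k l ^ j)⁻¹ ((fgG k l)⁻¹ (L.X (fgG k l ((fgG k l ^ j) x)))) = c1
    generalize (fgG k l ^ j)⁻¹ (L.X ((fgG k l ^ j) x)) = c2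
    generalize (fgG k l ^ j)⁻¹ (k⁻¹ (l⁻¹ (L.X (l (k ((fgG k l ^ j) x)))))) = c3
    rw [smul_add, smul_sub, smul_smul, smul_smul]
    norm_num
    abel
  refine ⟨U * V⁻¹, co, cr, nco, ncr, ?_, ?_⟩
  · intro x
    have hx := hUx (V⁻¹ x)
    rw [Sys.Ainv] at hx
    have e3 : ∀ t : ℝ, ((t / 2 : ℝ) : ℂ) • L.iota (L.E b (V⁻¹ (L.sumX v psi ε m (V L.Om))))
        = (t : ℂ) • L.iota (L.E b (V⁻¹ (L.fgS k l m (V L.Om)))) := by
      intro t
      rw [dS, map_smul, map_smul, map_smul, smul_smul]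
      congr 1
      push_cast
      ring
    rw [Sys.mulA, hx, e3, e3, dGp]
    rfl
  · have e : U * V⁻¹ * V = U := by rw [mul_assoc, inv_mul_cancel, mul_one]
    rw [e]
    exact hU

end LSys

end Vale.Agent.P367.A
end

section

/-! P367 block B, function gate, analytic part: the reaction of a Trotter product.
For `f = exp (A/m) exp (B/m)` and a bounded operator `X`, the second differences of the Heisenberg
evolution of `X` along the half steps of `f ^ m` sum up to `T = ([X,A] - [X,B]) / 2` when `T`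
commutes with `A + B`. -/

namespace Vale.Agent.P367.B

open Filter Topology NormedSpace

variable {𝔸 : Type*} [NormedRing 𝔸] [NormedAlgebra ℂ 𝔸]

/-- first order expansion at `0` on `[0,1]` -/
def Ex (f : ℝ → 𝔸) (f0 f1 : 𝔸) : Prop :=
  ∃ K : ℝ, 0 ≤ K ∧ ∀ t : ℝ, 0 ≤ t → t ≤ 1 → ‖f t - f0 - (t : ℂ) • f1‖ ≤ K * t ^ 2

lemma Ex.const (a : 𝔸) : Ex (fun _ => a) a 0 := ⟨0, le_rfl, fun t _ _ => by simp⟩

lemma Ex.add {f g : ℝ → 𝔸} {f0 f1 g0 g1 : 𝔸} (hf : Ex f f0 f1) (hg : Ex g g0 g1) :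
    Ex (fun t => f t + g t) (f0 + g0) (f1 + g1) := by
  obtain ⟨K, hK, h1⟩ := hf
  obtain ⟨L, hL, h2⟩ := hg
  refine ⟨K + L, by positivity, fun t ht0 ht1 => ?_⟩
  have e : f t + g t - (f0 + g0) - (t : ℂ) • (f1 + g1)
      = (f t - f0 - (t : ℂ) • f1) + (g t - g0 - (t : ℂ) • g1) := by
    rw [smul_add]; abel
  rw [e, add_mul]
  exact (norm_add_le _ _).trans (add_le_add (h1 t ht0 ht1) (h2 t ht0 ht1))

lemma Ex.smul {f : ℝ → 𝔸} {f0 f1 : 𝔸} (hf : Ex f f0 f1) (c : ℂ) :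
    Ex (fun t => c • f t) (c • f0) (c • f1) := by
  obtain ⟨K, hK, h1⟩ := hf
  refine ⟨‖c‖ * K, by positivity, fun t ht0 ht1 => ?_⟩
  have e : c • f t - c • f0 - (t : ℂ) • c • f1 = c • (f t - f0 - (t : ℂ) • f1) := by
    rw [smul_sub, smul_sub, smul_comm c (t : ℂ) f1]
  rw [e, norm_smul, mul_assoc]
  exact mul_le_mul_of_nonneg_left (h1 t ht0 ht1) (norm_nonneg _)

lemma Ex.sub {f g : ℝ → 𝔸} {f0 f1 g0 g1 : 𝔸} (hf : Ex f f0 f1) (hg : Ex g g0 g1) :
    Ex (fun t => f t - g t) (f0 - g0) (f1 - g1) := by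
  have h := hf.add (hg.smul (-1))
  simpa [sub_eq_add_neg] using h

lemma Ex.norm_le {f : ℝ → 𝔸} {f0 f1 : 𝔸} {K : ℝ} (hK : 0 ≤ K)
    (h1 : ∀ t : ℝ, 0 ≤ t → t ≤ 1 → ‖f t - f0 - (t : ℂ) • f1‖ ≤ K * t ^ 2) {t : ℝ} (ht0 : 0 ≤ t)
    (ht1 : t ≤ 1) : ‖f t‖ ≤ ‖f0‖ + ‖f1‖ + K := by
  have e : f t = (f t - f0 - (t : ℂ) • f1) + f0 + (t : ℂ) • f1 := by abel
  rw [e]
  refine norm_add₃_le.trans ?_
  have h2 : ‖(t : ℂ) • f1‖ ≤ ‖f1‖ := by
    rw [norm_smul, Complex.norm_real, Real.norm_eq_abs, abs_of_nonneg ht0]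
    exact mul_le_of_le_one_left (norm_nonneg _) ht1
  have h3 : K * t ^ 2 ≤ K := mul_le_of_le_one_right hK (pow_le_one₀ ht0 ht1)
  linarith [h1 t ht0 ht1]

lemma Ex.mul {f g : ℝ → 𝔸} {f0 f1 g0 g1 : 𝔸} (hf : Ex f f0 f1) (hg : Ex g g0 g1) :
    Ex (fun t => f t * g t) (f0 * g0) (f0 * g1 + f1 * g0) := by
  obtain ⟨K, hK, h1⟩ := hf
  obtain ⟨L, hL, h2⟩ := hg
  refine ⟨K * (‖g0‖ + ‖g1‖ + L) + (‖f0‖ + ‖f1‖) * L + ‖f1‖ * ‖g1‖, by positivity,
    fun t ht0 ht1 => ?_⟩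
  have e : f t * g t - f0 * g0 - (t : ℂ) • (f0 * g1 + f1 * g0)
      = (f t - f0 - (t : ℂ) • f1) * g t + (f0 + (t : ℂ) • f1) * (g t - g0 - (t : ℂ) • g1)
        + ((t : ℂ) • f1) * ((t : ℂ) • g1) := by
    simp only [smul_add, mul_sub, sub_mul, add_mul, smul_mul_assoc, mul_smul_comm]
    abel
  rw [e]
  have a1 := h1 t ht0 ht1
  have a2 := h2 t ht0 ht1
  have a3 : ‖g t‖ ≤ ‖g0‖ + ‖g1‖ + L := Ex.norm_le hL h2 ht0 ht1
  have ht : ‖(t : ℂ)‖ = t := by
    rw [Complex.norm_real, Real.norm_eq_abs, abs_of_nonneg ht0]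
  have a4 : ‖f0 + (t : ℂ) • f1‖ ≤ ‖f0‖ + ‖f1‖ := by
    refine (norm_add_le _ _).trans ?_
    rw [norm_smul, ht]
    have := mul_le_of_le_one_left (norm_nonneg f1) ht1
    linarith
  have n1 : ‖(f t - f0 - (t : ℂ) • f1) * g t‖ ≤ K * (‖g0‖ + ‖g1‖ + L) * t ^ 2 := by
    refine (norm_mul_le _ _).trans ?_
    calc _ ≤ (K * t ^ 2) * (‖g0‖ + ‖g1‖ + L) :=
          mul_le_mul a1 a3 (norm_nonneg _) (by positivity)
      _ = _ := by ring
  have n2 : ‖(f0 + (t : ℂ) • f1) * (g t - g0 - (t : ℂ) • g1)‖ ≤ (‖f0‖ + ‖f1‖) * L * t ^ 2 := by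
    refine (norm_mul_le _ _).trans ?_
    calc _ ≤ (‖f0‖ + ‖f1‖) * (L * t ^ 2) := mul_le_mul a4 a2 (norm_nonneg _) (by positivity)
      _ = _ := by ring
  have n3 : ‖((t : ℂ) • f1) * ((t : ℂ) • g1)‖ ≤ ‖f1‖ * ‖g1‖ * t ^ 2 := by
    refine (norm_mul_le _ _).trans ?_
    rw [norm_smul, norm_smul, ht]
    exact le_of_eq (by ring)
  refine norm_add₃_le.trans ?_
  linarith

lemma Ex.exp [CompleteSpace 𝔸] (h1 : ‖(1 : 𝔸)‖ ≤ 1) (A : 𝔸) :
    Ex (fun t => NormedSpace.exp ((t : ℂ) • A)) 1 A := by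
  refine ⟨‖A‖ ^ 2 * Real.exp ‖A‖, by positivity, fun t ht0 ht1 => ?_⟩
  have h := norm_exp_sub_one_sub_le h1 ((t : ℂ) • A)
  have ht : ‖(t : ℂ) • A‖ = t * ‖A‖ := by
    rw [norm_smul, Complex.norm_real, Real.norm_eq_abs, abs_of_nonneg ht0]
  rw [ht] at h
  have h2 : Real.exp (t * ‖A‖) ≤ Real.exp ‖A‖ :=
    Real.exp_le_exp.2 (mul_le_of_le_one_left (norm_nonneg _) ht1)
  calc _ ≤ (t * ‖A‖) ^ 2 * Real.exp (t * ‖A‖) := h
    _ ≤ (t * ‖A‖) ^ 2 * Real.exp ‖A‖ := by gcongr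
    _ = _ := by ring

lemma Ex.congr {f g : ℝ → 𝔸} {f0 f1 g0 g1 : 𝔸} (hf : Ex f f0 f1) (h : ∀ t, f t = g t)
    (h0 : f0 = g0) (h1 : f1 = g1) : Ex g g0 g1 := by
  have : f = g := funext h
  subst this; subst h0; subst h1; exact hf

variable [CompleteSpace 𝔸]

/-- one step of the forward product -/
noncomputable def ff (A B : 𝔸) (t : ℝ) : 𝔸 := exp ((t : ℂ) • A) * exp ((t : ℂ) • B)

/-- inverse of the forward product -/
noncomputable def gg (A B : 𝔸) (t : ℝ) : 𝔸 := exp ((t : ℂ) • (-B)) * exp ((t : ℂ) • (-A))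

lemma exp_mul_exp_neg (A : 𝔸) (t : ℝ) : exp ((t : ℂ) • (-A)) * exp ((t : ℂ) • A) = 1 := by
  let _ : NormedAlgebra ℚ 𝔸 := NormedAlgebra.restrictScalars ℚ ℂ 𝔸
  rw [smul_neg, ← exp_add_of_commute ((Commute.refl _).neg_left)]
  simp

lemma gg_mul_ff (A B : 𝔸) (t : ℝ) : gg A B t * ff A B t = 1 := by
  rw [gg, ff]
  calc _ = exp ((t : ℂ) • (-B)) * (exp ((t : ℂ) • (-A)) * exp ((t : ℂ) • A))
        * exp ((t : ℂ) • B) := by noncomm_ring
    _ = 1 := by rw [exp_mul_exp_neg, mul_one, exp_mul_exp_neg]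

lemma gg_pow_mul_ff_pow (A B : 𝔸) (t : ℝ) (j : ℕ) : gg A B t ^ j * ff A B t ^ j = 1 := by
  induction j with
  | zero => simp
  | succ j ih =>
    rw [pow_succ (gg A B t), pow_succ' (ff A B t)]
    calc _ = gg A B t ^ j * (gg A B t * ff A B t) * ff A B t ^ j := by noncomm_ring
      _ = 1 := by rw [gg_mul_ff, mul_one, ih]

lemma norm_ff_le (h1 : ‖(1 : 𝔸)‖ ≤ 1) (A B : 𝔸) {t : ℝ} (ht : 0 ≤ t) :
    ‖ff A B t‖ ≤ Real.exp (t * (‖A‖ + ‖B‖)) := by
  have e : ∀ C : 𝔸, ‖exp ((t : ℂ) • C)‖ ≤ Real.exp (t * ‖C‖) := fun C => by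
    have h := norm_exp_le' h1 ((t : ℂ) • C)
    rwa [norm_smul, Complex.norm_real, Real.norm_eq_abs, abs_of_nonneg ht] at h
  rw [mul_add, Real.exp_add]
  exact (norm_mul_le _ _).trans (mul_le_mul (e A) (e B) (norm_nonneg _) (Real.exp_pos _).le)

lemma norm_gg_le (h1 : ‖(1 : 𝔸)‖ ≤ 1) (A B : 𝔸) {t : ℝ} (ht : 0 ≤ t) :
    ‖gg A B t‖ ≤ Real.exp (t * (‖A‖ + ‖B‖)) := by
  have h := norm_ff_le h1 (-B) (-A) ht
  rw [norm_neg, norm_neg, add_comm] at h
  exact h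

lemma norm_pow_le_exp {x : 𝔸} {c : ℝ} {m j : ℕ} (h1 : ‖(1 : 𝔸)‖ ≤ 1) (hm : 1 ≤ m) (hj : j ≤ m)
    (hc : 0 ≤ c) (hx : ‖x‖ ≤ Real.exp ((m : ℝ)⁻¹ * c)) : ‖x ^ j‖ ≤ Real.exp c := by
  have h2 : ‖x ^ j‖ ≤ ‖x‖ ^ j := by
    rcases Nat.eq_zero_or_pos j with h | h
    · subst h; simpa using h1
    · exact norm_pow_le' x h
  have hm0 : (0 : ℝ) < m := by exact_mod_cast hm
  calc ‖x ^ j‖ ≤ ‖x‖ ^ j := h2
    _ ≤ Real.exp ((m : ℝ)⁻¹ * c) ^ j := by gcongr
    _ = Real.exp (j * ((m : ℝ)⁻¹ * c)) := by rw [Real.exp_nat_mul]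
    _ ≤ Real.exp c := by
      apply Real.exp_le_exp.2
      have : (j : ℝ) ≤ m := by exact_mod_cast hj
      calc (j : ℝ) * ((m : ℝ)⁻¹ * c) ≤ m * ((m : ℝ)⁻¹ * c) := by gcongr
        _ = c := by field_simp

/-- second difference of the Heisenberg evolution of `X` along one step -/
noncomputable def dd (A B X : 𝔸) (t : ℝ) : 𝔸 :=
  (1 / 2 : ℂ) • (exp ((t : ℂ) • (-B)) * (exp ((t : ℂ) • (-A)) * X * exp ((t : ℂ) • A) - X)
    * exp ((t : ℂ) • B) - (exp ((t : ℂ) • (-B)) * X * exp ((t : ℂ) • B) - X))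

/-- the limit of the reaction -/
noncomputable def TT (A B X : 𝔸) : 𝔸 := (1 / 2 : ℂ) • ((X * A - A * X) - (X * B - B * X))

lemma dd_ex (h1 : ‖(1 : 𝔸)‖ ≤ 1) (A B X : 𝔸) : Ex (dd A B X) 0 (TT A B X) := by
  have hA := Ex.exp h1 A
  have hA' := Ex.exp h1 (-A)
  have hB := Ex.exp h1 B
  have hB' := Ex.exp h1 (-B)
  have hX := Ex.const X
  have h2 := ((hA'.mul hX).mul hA).sub hX
  have h3 := ((hB'.mul h2).mul hB).sub (((hB'.mul hX).mul hB).sub hX)
  refine (h3.smul (1 / 2)).congr (fun t => rfl) ?_ ?_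
  · simp
  · rw [TT]; congr 1; noncomm_ring

lemma sum_eq (A B X : 𝔸) (t : ℝ) (j : ℕ) :
    (1 / 2 : ℂ) • (gg A B t ^ (j + 1) * X * ff A B t ^ (j + 1)
      - (2 : ℂ) • (gg A B t ^ j * (exp ((t : ℂ) • (-B)) * X * exp ((t : ℂ) • B)) * ff A B t ^ j)
      + gg A B t ^ j * X * ff A B t ^ j)
    = gg A B t ^ j * dd A B X t * ff A B t ^ j := by
  rw [dd, pow_succ (gg A B t), pow_succ' (ff A B t), two_smul, mul_smul_comm, smul_mul_assoc]
  congr 1
  have e1 : gg A B t ^ j * gg A B t * X * (ff A B t * ff A B t ^ j)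
      = gg A B t ^ j * (exp ((t : ℂ) • (-B)) * (exp ((t : ℂ) • (-A)) * X * exp ((t : ℂ) • A))
        * exp ((t : ℂ) • B)) * ff A B t ^ j := by
    conv_lhs => rw [show gg A B t ^ j * gg A B t * X * (ff A B t * ff A B t ^ j)
      = gg A B t ^ j * (gg A B t * X * ff A B t) * ff A B t ^ j by noncomm_ring]
    congr 2
    rw [gg, ff]
    noncomm_ring
  rw [e1]
  noncomm_ring

/-- **the sum of the second differences converges to `T`** -/
theorem tendsto_sum_dd (h1 : ‖(1 : 𝔸)‖ ≤ 1) (A B X : 𝔸) (hT : Commute (TT A B X) (A + B)) :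
    Tendsto (fun m : ℕ => ∑ j ∈ Finset.range m,
      gg A B (m : ℝ)⁻¹ ^ j * dd A B X (m : ℝ)⁻¹ * ff A B (m : ℝ)⁻¹ ^ j) atTop
      (𝓝 (TT A B X)) := by
  set T := TT A B X with hTd
  set c := ‖A‖ + ‖B‖ with hc
  have hc0 : 0 ≤ c := by positivity
  obtain ⟨K, hK, hd⟩ := dd_ex h1 A B X
  have hf : Ex (ff A B) 1 (A + B) :=
    ((Ex.exp h1 A).mul (Ex.exp h1 B)).congr (fun t => rfl) (by simp) (by simp; abel)
  have he : Ex (fun t => exp ((t : ℂ) • (A + B))) 1 (A + B) := Ex.exp h1 (A + B)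
  obtain ⟨L, hL, hfe⟩ := hf.sub he
  have hTe : ∀ t : ℝ, Commute T (exp ((t : ℂ) • (A + B))) := fun t => by
    let _ : NormedAlgebra ℚ 𝔸 := NormedAlgebra.restrictScalars ℚ ℂ 𝔸
    exact (hT.smul_right (t : ℂ)).exp_right
  rw [tendsto_iff_norm_sub_tendsto_zero]
  set M := Real.exp c with hM
  have hM0 : 0 < M := Real.exp_pos _
  have hlim : Tendsto (fun m : ℕ => (M * K * M + M * (2 * ‖T‖ * (M * L))) * (m : ℝ)⁻¹) atTop
      (𝓝 0) := by
    have := (tendsto_inv_atTop_nhds_zero_nat (𝕜 := ℝ)).const_mul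
      (M * K * M + M * (2 * ‖T‖ * (M * L)))
    simpa using this
  refine squeeze_zero' (Eventually.of_forall fun _ => norm_nonneg _) ?_ hlim
  filter_upwards [eventually_ge_atTop 1] with m hm
  set t := (m : ℝ)⁻¹ with ht
  have hm0 : (0 : ℝ) < m := by exact_mod_cast hm
  have ht0 : 0 ≤ t := by positivity
  have ht1 : t ≤ 1 := inv_le_one_of_one_le₀ (by exact_mod_cast hm)
  have hmt : (m : ℝ) * t = 1 := mul_inv_cancel₀ hm0.ne'
  set f := ff A B t with hfd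
  set g := gg A B t with hgd
  have hfn : ‖f‖ ≤ Real.exp (t * c) := norm_ff_le h1 A B ht0
  have hgn : ‖g‖ ≤ Real.exp (t * c) := norm_gg_le h1 A B ht0
  have hfj : ∀ j ≤ m, ‖f ^ j‖ ≤ M := fun j hj => norm_pow_le_exp h1 hm hj hc0 hfn
  have hgj : ∀ j ≤ m, ‖g ^ j‖ ≤ M := fun j hj => norm_pow_le_exp h1 hm hj hc0 hgn
  have hen : ‖exp ((t : ℂ) • (A + B))‖ ≤ Real.exp (t * c) := by
    have h := norm_exp_le' h1 ((t : ℂ) • (A + B))
    rw [norm_smul, Complex.norm_real, Real.norm_eq_abs, abs_of_nonneg ht0] at h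
    refine h.trans (Real.exp_le_exp.2 ?_)
    gcongr
    exact norm_add_le _ _
  have hfe' : ‖f - exp ((t : ℂ) • (A + B))‖ ≤ L * t ^ 2 := by
    have h := hfe t ht0 ht1
    simpa using h
  have hpow : ∀ j ≤ m, ‖f ^ j - exp ((t : ℂ) • (A + B)) ^ j‖ ≤ M * L * t := by
    intro j hj
    have hge : 1 ≤ Real.exp (t * c) := Real.one_le_exp (by positivity)
    refine (norm_pow_sub_pow_le' hge hfn hen j h1).trans ?_
    have e1 : Real.exp (t * c) ^ j ≤ M := by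
      rw [← Real.exp_nat_mul]
      apply Real.exp_le_exp.2
      have : (j : ℝ) ≤ m := by exact_mod_cast hj
      calc (j : ℝ) * (t * c) ≤ m * (t * c) := by gcongr
        _ = c := by rw [← mul_assoc, hmt, one_mul]
    have hj' : (j : ℝ) ≤ m := by exact_mod_cast hj
    calc (j : ℝ) * Real.exp (t * c) ^ j * ‖f - exp ((t : ℂ) • (A + B))‖
        ≤ m * M * (L * t ^ 2) := by gcongr
      _ = (m * t) * (M * L * t) := by ring
      _ = _ := by rw [hmt, one_mul]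
  have e0 : (∑ j ∈ Finset.range m, g ^ j * dd A B X t * f ^ j) - T
      = ∑ j ∈ Finset.range m, (g ^ j * (dd A B X t - (t : ℂ) • T) * f ^ j
        + (t : ℂ) • (g ^ j * (T * (f ^ j - exp ((t : ℂ) • (A + B)) ^ j)
          - (f ^ j - exp ((t : ℂ) • (A + B)) ^ j) * T))) := by
    have hT' : T = ∑ _j ∈ Finset.range m, (t : ℂ) • T := by
      rw [Finset.sum_const, Finset.card_range, ← Nat.cast_smul_eq_nsmul ℂ, smul_smul]
      have : ((m : ℂ) * (t : ℂ)) = 1 := by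
        rw [show (m : ℂ) = ((m : ℝ) : ℂ) by push_cast; rfl, ← Complex.ofReal_mul, hmt,
          Complex.ofReal_one]
      rw [this, one_smul]
    conv_lhs => rw [hT']
    rw [← Finset.sum_sub_distrib]
    refine Finset.sum_congr rfl fun j _ => ?_
    have hcm : T * exp ((t : ℂ) • (A + B)) ^ j = exp ((t : ℂ) • (A + B)) ^ j * T :=
      ((hTe t).pow_right j).eq
    have hgf : g ^ j * f ^ j = 1 := gg_pow_mul_ff_pow A B t j
    have e2 : g ^ j * (T * (f ^ j - exp ((t : ℂ) • (A + B)) ^ j)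
          - (f ^ j - exp ((t : ℂ) • (A + B)) ^ j) * T) = g ^ j * T * f ^ j - T := by
      calc _ = g ^ j * T * f ^ j - g ^ j * f ^ j * T
            - g ^ j * (T * exp ((t : ℂ) • (A + B)) ^ j - exp ((t : ℂ) • (A + B)) ^ j * T) := by
            noncomm_ring
        _ = _ := by rw [hgf, hcm, sub_self, mul_zero, sub_zero, one_mul]
    rw [e2, smul_sub, mul_sub, sub_mul, mul_smul_comm, smul_mul_assoc]
    abel
  have hgoal : ‖(∑ j ∈ Finset.range m, g ^ j * dd A B X t * f ^ j) - T‖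
      ≤ (M * K * M + M * (2 * ‖T‖ * (M * L))) * t := by
    rw [e0]
    refine (norm_sum_le _ _).trans ?_
    have hterm : ∀ j ∈ Finset.range m, ‖g ^ j * (dd A B X t - (t : ℂ) • T) * f ^ j
        + (t : ℂ) • (g ^ j * (T * (f ^ j - exp ((t : ℂ) • (A + B)) ^ j)
          - (f ^ j - exp ((t : ℂ) • (A + B)) ^ j) * T))‖
        ≤ (M * K * M + M * (2 * ‖T‖ * (M * L))) * t ^ 2 := by
      intro j hj
      have hj' : j ≤ m := (Finset.mem_range.1 hj).le
      have hdn : ‖dd A B X t - (t : ℂ) • T‖ ≤ K * t ^ 2 := by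
        have h := hd t ht0 ht1
        simpa using h
      have n1 : ‖g ^ j * (dd A B X t - (t : ℂ) • T) * f ^ j‖ ≤ M * (K * t ^ 2) * M := by
        refine (norm_mul_le _ _).trans ?_
        refine mul_le_mul ?_ (hfj j hj') (norm_nonneg _) (by positivity)
        refine (norm_mul_le _ _).trans ?_
        exact mul_le_mul (hgj j hj') hdn (norm_nonneg _) hM0.le
      have n2 : ‖(t : ℂ) • (g ^ j * (T * (f ^ j - exp ((t : ℂ) • (A + B)) ^ j)
          - (f ^ j - exp ((t : ℂ) • (A + B)) ^ j) * T))‖ ≤ t * (M * (2 * ‖T‖ * (M * L * t))) := by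
        rw [norm_smul, Complex.norm_real, Real.norm_eq_abs, abs_of_nonneg ht0]
        refine mul_le_mul_of_nonneg_left ?_ ht0
        refine (norm_mul_le _ _).trans ?_
        refine mul_le_mul (hgj j hj') ?_ (norm_nonneg _) hM0.le
        refine (norm_sub_le _ _).trans ?_
        have n3 := norm_mul_le T (f ^ j - exp ((t : ℂ) • (A + B)) ^ j)
        have n4 := norm_mul_le (f ^ j - exp ((t : ℂ) • (A + B)) ^ j) T
        have n5 : ‖T‖ * ‖f ^ j - exp ((t : ℂ) • (A + B)) ^ j‖ ≤ ‖T‖ * (M * L * t) :=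
          mul_le_mul_of_nonneg_left (hpow j hj') (norm_nonneg _)
        linarith [mul_comm ‖f ^ j - exp ((t : ℂ) • (A + B)) ^ j‖ ‖T‖]
      refine (norm_add_le _ _).trans ((add_le_add n1 n2).trans (le_of_eq ?_))
      ring
    refine (Finset.sum_le_sum hterm).trans ?_
    rw [Finset.sum_const, Finset.card_range, nsmul_eq_mul]
    refine le_of_eq ?_
    calc (m : ℝ) * ((M * K * M + M * (2 * ‖T‖ * (M * L))) * t ^ 2)
        = (m * t) * ((M * K * M + M * (2 * ‖T‖ * (M * L))) * t) := by ring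
      _ = _ := by rw [hmt, one_mul]
  exact hgoal

end Vale.Agent.P367.B
end

section

/-! P367 block B, function gate: the half step generators and their reaction. -/

namespace Vale.Agent.P367.B
open Filter Topology NormedSpace
variable {𝔸 : Type*} [NormedRing 𝔸] [NormedAlgebra ℂ 𝔸]

/-- the half step generators: `-(i s / 2) psi (Z cos h -+ Y sin h)`, `Y = i X Z` -/
noncomputable def genA (X Z c n psi : 𝔸) (s : ℂ) : 𝔸 :=
  (-(Complex.I * (s / 2))) • (psi * (Z * c - Complex.I • (X * Z) * n))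

noncomputable def genB (X Z c n psi : 𝔸) (s : ℂ) : 𝔸 :=
  (-(Complex.I * (s / 2))) • (psi * (Z * c + Complex.I • (X * Z) * n))

lemma genA_add_genB (X Z c n psi : 𝔸) (s : ℂ) :
    genA X Z c n psi s + genB X Z c n psi s = (-(Complex.I * s)) • (psi * (Z * c)) := by
  rw [genA, genB, ← smul_add, ← mul_add, show Z * c - Complex.I • (X * Z) * n
    + (Z * c + Complex.I • (X * Z) * n) = (2 : ℂ) • (Z * c) by rw [two_smul]; abel,
    mul_smul_comm, smul_smul]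
  congr 1
  ring

lemma TT_gen {X Z c n psi : 𝔸} (s : ℂ) (hXX : X * X = 1) (hXZ : X * Z = -(Z * X))
    (hXc : X * c = c * X) (hXn : X * n = n * X) (hXp : X * psi = psi * X) :
    TT (genA X Z c n psi s) (genB X Z c n psi s) X = (-s) • (psi * (Z * n)) := by
  have h1 : X * (psi * (Z * c)) - psi * (Z * c) * X = (2 : ℂ) • (psi * (X * (Z * c))) := by
    have e : psi * (Z * c) * X = -(psi * (X * (Z * c))) := by
      calc psi * (Z * c) * X = psi * (Z * (c * X)) := by noncomm_ring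
        _ = psi * (Z * (X * c)) := by rw [hXc]
        _ = psi * ((Z * X) * c) := by noncomm_ring
        _ = psi * ((-(X * Z)) * c) := by rw [hXZ, neg_neg]
        _ = _ := by noncomm_ring
    rw [e, two_smul, ← mul_assoc X psi, hXp]
    noncomm_ring
  have h2 : X * (psi * (X * Z * n)) - psi * (X * Z * n) * X = (2 : ℂ) • (psi * (Z * n)) := by
    have e : psi * (X * Z * n) * X = -(psi * (Z * n)) := by
      calc psi * (X * Z * n) * X = psi * (X * Z * (n * X)) := by noncomm_ring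
        _ = psi * (X * Z * (X * n)) := by rw [hXn]
        _ = psi * ((X * (Z * X)) * n) := by noncomm_ring
        _ = psi * ((X * (-(X * Z))) * n) := by rw [hXZ, neg_neg]
        _ = -(psi * ((X * X) * Z * n)) := by noncomm_ring
        _ = _ := by rw [hXX]; noncomm_ring
    have e2 : X * (psi * (X * Z * n)) = psi * (Z * n) := by
      calc X * (psi * (X * Z * n)) = (X * psi) * (X * Z * n) := by noncomm_ring
        _ = psi * ((X * X) * Z * n) := by rw [hXp]; noncomm_ring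
        _ = _ := by rw [hXX]; noncomm_ring
    rw [e, e2, two_smul]
    abel
  have eA : X * genA X Z c n psi s - genA X Z c n psi s * X
      = (-(Complex.I * (s / 2))) • ((2 : ℂ) • (psi * (X * (Z * c)))
        - Complex.I • ((2 : ℂ) • (psi * (Z * n)))) := by
    rw [← h1, ← h2, genA]
    simp only [mul_smul_comm, smul_mul_assoc, mul_sub, sub_mul, smul_sub]
    abel
  have eB : X * genB X Z c n psi s - genB X Z c n psi s * X
      = (-(Complex.I * (s / 2))) • ((2 : ℂ) • (psi * (X * (Z * c)))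
        + Complex.I • ((2 : ℂ) • (psi * (Z * n)))) := by
    rw [← h1, ← h2, genB]
    simp only [mul_smul_comm, smul_mul_assoc, mul_add, add_mul, smul_add, smul_sub]
    abel
  rw [TT, eA, eB]
  have hI : Complex.I * Complex.I = -1 := Complex.I_mul_I
  have e : (1 / 2 : ℂ) • ((-(Complex.I * (s / 2))) • ((2 : ℂ) • (psi * (X * (Z * c)))
        - Complex.I • ((2 : ℂ) • (psi * (Z * n))))
      - (-(Complex.I * (s / 2))) • ((2 : ℂ) • (psi * (X * (Z * c)))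
        + Complex.I • ((2 : ℂ) • (psi * (Z * n)))))
      = (s * (Complex.I * Complex.I)) • (psi * (Z * n)) := by
    module
  rw [e, hI]
  congr 1
  ring

lemma commute_TT_gen {X Z c n psi : 𝔸} (s : ℂ) (hXX : X * X = 1) (hXZ : X * Z = -(Z * X))
    (hXc : X * c = c * X) (hXn : X * n = n * X) (hXp : X * psi = psi * X)
    (hZc : Z * c = c * Z) (hZn : Z * n = n * Z) (hZp : Z * psi = psi * Z)
    (hcn : c * n = n * c) (hcp : c * psi = psi * c) (hnp : n * psi = psi * n) :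
    Commute (TT (genA X Z c n psi s) (genB X Z c n psi s) X)
      (genA X Z c n psi s + genB X Z c n psi s) := by
  rw [TT_gen s hXX hXZ hXc hXn hXp, genA_add_genB]
  refine (Commute.smul_right ?_ _).smul_left _
  have cZc : Commute Z c := hZc
  have cZn : Commute Z n := hZn
  have cZp : Commute Z psi := hZp
  have ccn : Commute c n := hcn
  have ccp : Commute c psi := hcp
  have cnp : Commute n psi := hnp
  have a1 : Commute (psi * (Z * n)) psi := (Commute.refl psi).mul_left (cZp.mul_left cnp)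
  have a2 : Commute (psi * (Z * n)) Z := cZp.symm.mul_left ((Commute.refl Z).mul_left cZn.symm)
  have a3 : Commute (psi * (Z * n)) c := ccp.symm.mul_left (cZc.mul_left ccn.symm)
  exact a1.mul_right (a2.mul_right a3)

end Vale.Agent.P367.B
end

section

/-! P367, block B: the energy of a word is a continuous function of its last field vector alone.
General words: letters are arbitrary unitaries commuting with all Weyl operators `W (iota y)` (spin
rotations, label rotations, label gates) and the `C` gates. -/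

namespace Vale.Agent.P367.A

open Complex Filter Topology

lemma abs_sin_sub_self_le (y : ℝ) : |Real.sin y - y| ≤ y ^ 2 := by
  have key : ∀ z : ℝ, 0 ≤ z → |Real.sin z - z| ≤ z ^ 2 := by
    intro z hz
    rcases eq_or_lt_of_le hz with rfl | hz
    · simp
    · have h1 := Real.sin_lt hz
      rw [abs_of_nonpos (by linarith)]
      rcases le_or_gt z 2 with h2 | h2
      · have h3 := Real.sin_gt_sub_cube hz
        nlinarith [mul_pos hz hz]
      · have h3 := Real.neg_one_le_sin z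
        nlinarith
  rcases le_total 0 y with h | h
  · exact key y h
  · have := key (-y) (by linarith)
    rw [Real.sin_neg, neg_sq, show -Real.sin y - -y = -(Real.sin y - y) by ring, abs_neg] at this
    exact this

namespace Sys

/-- letters of general words -/
inductive Lt {H K : Type*} [NormedAddCommGroup H] [InnerProductSpace ℂ H]
    [NormedAddCommGroup K] [InnerProductSpace ℂ K] (S : Sys H K)
  | U (U : H ≃ₗᵢ[ℂ] H) (hU : ∀ y x, S.W (S.iota y) (U x) = U (S.W (S.iota y) x))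
  | C (g : ℝ)

variable {H K : Type*} [NormedAddCommGroup H] [InnerProductSpace ℂ H]
  [NormedAddCommGroup K] [InnerProductSpace ℂ K] (S : Sys H K)

/-- evaluation of a general word; the head is the last gate -/
noncomputable def evg : List (Lt S) → (H ≃ₗᵢ[ℂ] H)
  | [] => 1
  | Lt.U V _ :: w => V * evg w
  | Lt.C g :: w => S.zr ((g : ℂ) • S.iota (S.xv (evg w))) * evg w

/-- `- sum_j g_j Im <x_j, y>^2` -/
noncomputable def eg (y : H) : List (Lt S) → ℝ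
  | [] => 0
  | Lt.U _ _ :: w => eg y w
  | Lt.C g :: w => -(g * ((inner ℂ (S.xv (S.evg w)) y) ^ 2 : ℂ).im) + eg y w

/-- energy -/
noncomputable def Eg (w : List (Lt S)) : ℝ := S.eg (S.xv (S.evg w)) w

/-- the word seen from the frame `W h` -/
noncomputable def tv (h : K) : List (Lt S) → (H ≃ₗᵢ[ℂ] H)
  | [] => 1
  | Lt.U V _ :: w => V * tv h w
  | Lt.C g :: w => S.rot 0 (th ((g : ℂ) • S.iota (S.xv (S.evg w))) h)
      * (S.zr ((g : ℂ) • S.iota (S.xv (S.evg w))) * tv h w)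

lemma evg_W (h x : H) : ∀ w : List (Lt S),
    S.evg w (S.W (S.iota h) x) = S.W (S.iota h) (S.tv (S.iota h) w x)
  | [] => rfl
  | Lt.U V hV :: w => by
    have := evg_W h x w
    rw [evg, tv, mulA, mulA, this, hV]
  | Lt.C g :: w => by
    have := evg_W h x w
    rw [evg, tv, mulA, mulA, mulA, this, S.zr_W]

/-- first order response -/
noncomputable def uu (h : K) : List (Lt S) → H
  | [] => 0
  | Lt.U _ _ :: w => uu h w
  | Lt.C g :: w => (2 * Complex.I * (th ((g : ℂ) • S.iota (S.xv (S.evg w))) h : ℂ))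
      • S.xv (S.evg w) + uu h w

lemma rot_second (f t : ℝ) (x : H) :
    ‖S.rot 0 (t * f) x - x - (2 * Complex.I * ((t * f : ℝ) : ℂ)) • S.Z x‖
      ≤ 8 * (t * f) ^ 2 * ‖x‖ := by
  set s := t * f with hs
  have e : S.rot 0 s x - x - (2 * Complex.I * ((s : ℝ) : ℂ)) • S.Z x
      = ((Real.cos (2 * s) - 1 : ℝ) : ℂ) • x
        + (Complex.I * ((Real.sin (2 * s) - 2 * s : ℝ) : ℂ)) • S.Z x := by
    rw [rot_apply, Zt_zero]; push_cast; module
  rw [e]
  have h1 : |Real.cos (2 * s) - 1| ≤ 2 * s ^ 2 := by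
    rw [abs_le]
    constructor
    · have := Real.one_sub_sq_div_two_le_cos (x := 2 * s)
      nlinarith
    · have := Real.cos_le_one (2 * s)
      nlinarith [sq_nonneg s]
  have h2 : |Real.sin (2 * s) - 2 * s| ≤ 4 * s ^ 2 := by
    have a1 := abs_sin_sub_self_le (2 * s)
    nlinarith
  calc _ ≤ ‖((Real.cos (2 * s) - 1 : ℝ) : ℂ) • x‖
        + ‖(Complex.I * ((Real.sin (2 * s) - 2 * s : ℝ) : ℂ)) • S.Z x‖ := norm_add_le _ _
    _ = |Real.cos (2 * s) - 1| * ‖x‖ + |Real.sin (2 * s) - 2 * s| * ‖x‖ := by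
      rw [norm_smul, norm_smul, norm_mul, Complex.norm_I, Complex.norm_real, Complex.norm_real,
        S.Z.norm_map, Real.norm_eq_abs, Real.norm_eq_abs, one_mul]
    _ ≤ _ := by nlinarith [norm_nonneg x]

/-- the state seen from the frame `W (t h)`, to first order in `t` -/
lemma tv_second (h : K) : ∀ w : List (Lt S), ∃ C : ℝ, 0 ≤ C ∧ ∀ t : ℝ, |t| ≤ 1 →
    ‖S.tv ((t : ℂ) • h) w S.Om - S.evg w (S.Om + (t : ℂ) • S.uu h w)‖ ≤ C * t ^ 2
  | [] => ⟨0, le_rfl, fun t _ => by simp [tv, evg, uu]⟩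
  | Lt.U V hV :: w => by
    obtain ⟨C, hC, h1⟩ := tv_second h w
    refine ⟨C, hC, fun t ht => ?_⟩
    rw [tv, evg, mulA, mulA, ← map_sub, V.norm_map]
    exact h1 t ht
  | Lt.C g :: w => by
    obtain ⟨C, hC, h1⟩ := tv_second h w
    set v := (g : ℂ) • S.iota (S.xv (S.evg w)) with hv
    set f := th v h with hf
    set V := S.evg w with hV
    set u := S.uu h w with hu
    refine ⟨C + (8 * f ^ 2 + 2 * |f| * ‖u‖), by positivity, fun t ht => ?_⟩
    have hth : th v ((t : ℂ) • h) = t * f := th_smul_right t v h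
    have e1 : S.tv ((t : ℂ) • h) (Lt.C g :: w) S.Om
        = S.rot 0 (t * f) (S.zr v (S.tv ((t : ℂ) • h) w S.Om)) := by
      rw [tv, mulA, mulA, ← hth]
    have e2 : S.evg (Lt.C g :: w) (S.Om + (t : ℂ) • S.uu h (Lt.C g :: w))
        = S.zr v (V (S.Om + (t : ℂ) • u))
          + (2 * Complex.I * ((t * f : ℝ) : ℂ)) • S.Z (S.zr v (V S.Om)) := by
      have e3 : S.uu h (Lt.C g :: w) = (2 * Complex.I * (f : ℂ)) • S.xv V + u := rfl
      have e4 : V (S.xv V) = S.Z (V S.Om) := by rw [xv, Ainv]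
      rw [e3, evg, mulA, Z_zr]
      simp only [map_add, map_smul, smul_add, e4, ← hV, ← hv]
      push_cast
      module
    have e5 : S.rot 0 (t * f) (S.zr v (S.tv ((t : ℂ) • h) w S.Om))
        - (S.zr v (V (S.Om + (t : ℂ) • u))
          + (2 * Complex.I * ((t * f : ℝ) : ℂ)) • S.Z (S.zr v (V S.Om)))
        = S.rot 0 (t * f) (S.zr v (S.tv ((t : ℂ) • h) w S.Om - V (S.Om + (t : ℂ) • u)))
          + (S.rot 0 (t * f) (S.zr v (V S.Om)) - S.zr v (V S.Om)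
            - (2 * Complex.I * ((t * f : ℝ) : ℂ)) • S.Z (S.zr v (V S.Om)))
          + (S.rot 0 (t * f) ((t : ℂ) • S.zr v (V u)) - (t : ℂ) • S.zr v (V u)) := by
      simp only [map_add, map_sub, map_smul]
      module
    rw [e1, e2, e5]
    have n1 : ‖S.rot 0 (t * f) (S.zr v (S.tv ((t : ℂ) • h) w S.Om - V (S.Om + (t : ℂ) • u)))‖
        ≤ C * t ^ 2 := by
      rw [(S.rot 0 (t * f)).norm_map, (S.zr v).norm_map]; exact h1 t ht
    have n2 := S.rot_second f t (S.zr v (V S.Om))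
    rw [(S.zr v).norm_map, V.norm_map, S.nOm] at n2
    have n3 := S.norm_rot_sub 0 (t * f) ((t : ℂ) • S.zr v (V u))
    rw [norm_smul, (S.zr v).norm_map, V.norm_map, Complex.norm_real, Real.norm_eq_abs,
      abs_mul] at n3
    refine (norm_add₃_le).trans ?_
    have ht2 : |t| * |t| = t ^ 2 := by rw [← sq, sq_abs]
    calc _ ≤ C * t ^ 2 + 8 * (t * f) ^ 2 * 1 + 2 * (|t| * |f|) * (|t| * ‖u‖) :=
          add_le_add (add_le_add n1 n2) n3
      _ = _ := by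
        rw [show 2 * (|t| * |f|) * (|t| * ‖u‖) = 2 * |f| * ‖u‖ * (|t| * |t|) by ring, ht2]; ring

/-- real part of the response pairing -/
lemma re_inner_uu (y : H) : ∀ w : List (Lt S),
    (inner ℂ y (S.uu (-(Complex.I • S.iota y)) w) : ℂ).re = S.eg y w
  | [] => by simp [uu, eg]
  | Lt.U V hV :: w => by
    rw [uu, eg]; exact re_inner_uu y w
  | Lt.C g :: w => by
    have ih := re_inner_uu y w
    rw [uu, eg, inner_add_right, Complex.add_re, ih, inner_smul_right]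
    congr 1
    set x := S.xv (S.evg w) with hx
    have h1 : th ((g : ℂ) • S.iota x) (-(Complex.I • S.iota y))
        = -(g * (inner ℂ x y : ℂ).re) := by
      rw [th_neg_right, th_smul_left, th, inner_smul_right, S.inner_iota]
      simp
    have h2 : (inner ℂ y x : ℂ) = (starRingEnd ℂ) (inner ℂ x y) := (inner_conj_symm _ _).symm
    rw [h1, h2]
    simp only [Complex.mul_re, Complex.mul_im, Complex.I_re, Complex.I_im, Complex.ofReal_re,
      Complex.ofReal_im, Complex.conj_re, Complex.conj_im, sq, Complex.re_ofNat, Complex.im_ofNat]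
    ring

lemma norm_W_Om_sub_sq (a b : K) : ‖S.W a S.Om - S.W b S.Om‖ ^ 2
    = 2 - 2 * (Real.cos (th a b) * Real.exp (-(‖a - b‖ ^ 2 / 2))) := by
  have h1 : (inner ℂ (S.W a S.Om) (S.W b S.Om) : ℂ)
      = Complex.exp (((th a b : ℝ) : ℂ) * Complex.I)
        * ((Real.exp (-(‖a - b‖ ^ 2 / 2)) : ℝ) : ℂ) := by
    rw [S.inner_W, S.WW', inner_smul_right, S.vac, th_neg_left,
      show -a + b = -(a - b) by abel, norm_neg]
    congr 1
    · congr 1; push_cast; ring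
    · push_cast; ring_nf
  rw [@norm_sub_sq ℂ H, (S.W a).norm_map, (S.W b).norm_map, S.nOm]
  rw [h1]
  have h2 : RCLike.re (Complex.exp (((th a b : ℝ) : ℂ) * Complex.I)
        * ((Real.exp (-(‖a - b‖ ^ 2 / 2)) : ℝ) : ℂ))
      = Real.cos (th a b) * Real.exp (-(‖a - b‖ ^ 2 / 2)) := by
    rw [RCLike.re_to_complex, Complex.mul_re, Complex.ofReal_re, Complex.ofReal_im,
      Complex.exp_ofReal_mul_I_re]
    ring
  rw [h2]; ring

lemma norm_W_Om_sub (a : K) : ‖S.W a S.Om - S.Om‖ ≤ ‖a‖ := by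
  have h := S.norm_W_Om_sub_sq a 0
  rw [S.W_zero_apply, sub_zero] at h
  have h1 : th a (0 : K) = 0 := by simp [th]
  rw [h1, Real.cos_zero, one_mul] at h
  have h2 := Real.add_one_le_exp (-(‖a‖ ^ 2 / 2))
  have h3 : ‖S.W a S.Om - S.Om‖ ^ 2 ≤ ‖a‖ ^ 2 := by rw [h]; linarith
  exact (sq_le_sq₀ (norm_nonneg _) (norm_nonneg _)).1 h3

lemma quad_add (a b : H) : (inner ℂ (a + b) (S.Z (a + b)) : ℂ).re
    = (inner ℂ a (S.Z a) : ℂ).re + 2 * (inner ℂ (S.Z a) b : ℂ).re + (inner ℂ b (S.Z b) : ℂ).re := by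
  have h1 : (inner ℂ b (S.Z a) : ℂ).re = (inner ℂ (S.Z a) b : ℂ).re := by
    rw [← inner_conj_symm (𝕜 := ℂ) b (S.Z a), Complex.conj_re]
  simp only [map_add, inner_add_left, inner_add_right, Complex.add_re]
  rw [← S.inner_Z a b, h1]
  ring

lemma abs_quad_le (b : H) : |(inner ℂ b (S.Z b) : ℂ).re| ≤ ‖b‖ ^ 2 := by
  refine (Complex.abs_re_le_norm _).trans ((norm_inner_le_norm _ _).trans ?_)
  rw [S.Z.norm_map, sq]

/-- response formula: the Weyl translation of the vacuum against the field vector -/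
lemma response (w : List (Lt S)) (h₀ : H) : ∃ C : ℝ, 0 ≤ C ∧ ∀ t : ℝ, |t| ≤ 1 →
    |(inner ℂ (S.xv (S.evg w)) (S.W ((t : ℂ) • S.iota h₀) S.Om - S.Om) : ℂ).re
      - t * (inner ℂ (S.xv (S.evg w)) (S.uu (S.iota h₀) w) : ℂ).re| ≤ C * t ^ 2 := by
  set h := S.iota h₀ with hh
  obtain ⟨C, hC, h1⟩ := S.tv_second h w
  set V := S.evg w with hV
  set u := S.uu h w with hu
  refine ⟨(‖u‖ ^ 2 + 2 * ((1 + ‖u‖) * C) + C ^ 2 + ‖h‖ ^ 2) / 2, by positivity, fun t ht => ?_⟩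
  set p := S.W ((t : ℂ) • h) S.Om - S.Om with hp
  set T := S.tv ((t : ℂ) • h) w with hT
  set q := V (S.Om + (t : ℂ) • u) with hq
  set r := T S.Om - q with hr
  have hr1 : ‖r‖ ≤ C * t ^ 2 := h1 t ht
  have hp1 : ‖p‖ ≤ |t| * ‖h‖ := by
    refine (S.norm_W_Om_sub _).trans (le_of_eq ?_)
    rw [norm_smul, Complex.norm_real, Real.norm_eq_abs]
  have hq1 : ‖q‖ ≤ 1 + ‖u‖ := by
    rw [hq, V.norm_map]
    refine (norm_add_le _ _).trans ?_
    rw [S.nOm, norm_smul, Complex.norm_real, Real.norm_eq_abs]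
    have := mul_le_mul_of_nonneg_right ht (norm_nonneg u)
    linarith
  have e1 : V (S.Om + p) = S.W ((t : ℂ) • h) (T S.Om) := by
    rw [hp, add_sub_cancel, hV, hT, hh, ← map_smul, evg_W]
  have e2 : (inner ℂ (V (S.Om + p)) (S.Z (V (S.Om + p))) : ℂ) = inner ℂ (T S.Om) (S.Z (T S.Om)) := by
    rw [e1, ← S.WZ, (S.W _).inner_map_map]
  have e3 : (inner ℂ (V (S.Om + p)) (S.Z (V (S.Om + p))) : ℂ).re
      = (inner ℂ (V S.Om) (S.Z (V S.Om)) : ℂ).re + 2 * (inner ℂ (S.xv V) p : ℂ).re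
        + (inner ℂ (V p) (S.Z (V p)) : ℂ).re := by
    rw [map_add, quad_add, xv, inner_invA]
  have e4 : (inner ℂ (T S.Om) (S.Z (T S.Om)) : ℂ).re
      = (inner ℂ q (S.Z q) : ℂ).re + 2 * (inner ℂ (S.Z q) r : ℂ).re
        + (inner ℂ r (S.Z r) : ℂ).re := by
    rw [← quad_add, hr, add_sub_cancel]
  have e5 : (inner ℂ q (S.Z q) : ℂ).re
      = (inner ℂ (V S.Om) (S.Z (V S.Om)) : ℂ).re + 2 * (t * (inner ℂ (S.xv V) u : ℂ).re)
        + (inner ℂ (V ((t : ℂ) • u)) (S.Z (V ((t : ℂ) • u))) : ℂ).re := by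
    rw [hq, map_add, quad_add, xv, inner_invA, map_smul, inner_smul_right, Complex.re_ofReal_mul]
  have b1 : |(inner ℂ (V p) (S.Z (V p)) : ℂ).re| ≤ t ^ 2 * ‖h‖ ^ 2 := by
    refine (S.abs_quad_le _).trans ?_
    rw [V.norm_map]
    calc ‖p‖ ^ 2 ≤ (|t| * ‖h‖) ^ 2 := by gcongr
      _ = _ := by rw [mul_pow, sq_abs]
  have b2 : |(inner ℂ (V ((t : ℂ) • u)) (S.Z (V ((t : ℂ) • u))) : ℂ).re| ≤ t ^ 2 * ‖u‖ ^ 2 := by
    refine (S.abs_quad_le _).trans (le_of_eq ?_)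
    rw [V.norm_map, norm_smul, Complex.norm_real, Real.norm_eq_abs, mul_pow, sq_abs]
  have b3 : |(inner ℂ (S.Z q) r : ℂ).re| ≤ (1 + ‖u‖) * (C * t ^ 2) := by
    refine (Complex.abs_re_le_norm _).trans ((norm_inner_le_norm _ _).trans ?_)
    rw [S.Z.norm_map]
    exact mul_le_mul hq1 hr1 (norm_nonneg _) (by positivity)
  have ht2 : t ^ 2 ≤ 1 := by
    rw [← sq_abs]; exact pow_le_one₀ (abs_nonneg _) ht
  have b4 : |(inner ℂ r (S.Z r) : ℂ).re| ≤ C ^ 2 * t ^ 2 := by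
    refine (S.abs_quad_le _).trans ?_
    calc ‖r‖ ^ 2 ≤ (C * t ^ 2) ^ 2 := by gcongr
      _ = C ^ 2 * t ^ 2 * t ^ 2 := by ring
      _ ≤ C ^ 2 * t ^ 2 * 1 := by gcongr
      _ = _ := by ring
  have e6 : (inner ℂ (S.xv V) p : ℂ).re - t * (inner ℂ (S.xv V) u : ℂ).re
      = ((inner ℂ (V ((t : ℂ) • u)) (S.Z (V ((t : ℂ) • u))) : ℂ).re
          + 2 * (inner ℂ (S.Z q) r : ℂ).re + (inner ℂ r (S.Z r) : ℂ).re
          - (inner ℂ (V p) (S.Z (V p)) : ℂ).re) / 2 := by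
    have := congrArg Complex.re e2
    linarith
  rw [e6]
  rw [abs_le] at b1 b2 b3 b4 ⊢
  constructor <;> nlinarith [b1.1, b1.2, b2.1, b2.2, b3.1, b3.2, b4.1, b4.2]

/-- the difference quotient of the vacuum in the direction `y` -/
noncomputable def dq (t : ℝ) (y : H) : H :=
  ((t⁻¹ : ℝ) : ℂ) • (S.W ((t : ℂ) • (-(Complex.I • S.iota y))) S.Om - S.Om)

lemma norm_dq_le (t : ℝ) (ht : t ≠ 0) (y : H) : ‖S.dq t y‖ ≤ ‖y‖ := by
  rw [dq, norm_smul, Complex.norm_real, Real.norm_eq_abs, abs_inv]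
  have h := S.norm_W_Om_sub ((t : ℂ) • (-(Complex.I • S.iota y)))
  rw [norm_smul, norm_neg, norm_smul, Complex.norm_I, one_mul, S.norm_iota, Complex.norm_real,
    Real.norm_eq_abs] at h
  have ht' : 0 < |t| := abs_pos.2 ht
  calc _ ≤ |t|⁻¹ * (|t| * ‖y‖) := by gcongr
    _ = _ := by field_simp

/-- **the energy is `Re <x, J x>`** where `J y = lim (W (-i t y) - 1) Om / t` -/
theorem energy_lim (w : List (Lt S)) :
    Tendsto (fun t : ℝ => (inner ℂ (S.xv (S.evg w)) (S.dq t (S.xv (S.evg w))) : ℂ).re)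
      (𝓝[≠] 0) (𝓝 (S.Eg w)) := by
  set x := S.xv (S.evg w) with hx
  obtain ⟨C, hC, h1⟩ := S.response w (-(Complex.I • x))
  rw [← hx, map_neg, map_smul, re_inner_uu] at h1
  rw [tendsto_iff_norm_sub_tendsto_zero]
  have h2 : Tendsto (fun t : ℝ => C * |t|) (𝓝[≠] 0) (𝓝 0) := by
    have : Tendsto (fun t : ℝ => C * |t|) (𝓝 0) (𝓝 (C * |0|)) :=
      (continuous_const.mul continuous_abs).tendsto 0
    rw [abs_zero, mul_zero] at this
    exact this.mono_left nhdsWithin_le_nhds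
  refine squeeze_zero' (Eventually.of_forall fun t => norm_nonneg _) ?_ h2
  have h3 : ∀ᶠ t : ℝ in 𝓝[≠] 0, |t| < 1 :=
    nhdsWithin_le_nhds ((continuous_abs.tendsto (0 : ℝ)).eventually (gt_mem_nhds (by simp)))
  have h4 : ∀ᶠ t : ℝ in 𝓝[≠] 0, t ≠ 0 := self_mem_nhdsWithin
  filter_upwards [h3, h4] with t ht ht0
  have h5 := h1 t ht.le
  have e : (inner ℂ x (S.dq t x) : ℂ).re - S.Eg w
      = t⁻¹ * ((inner ℂ x (S.W ((t : ℂ) • (-(Complex.I • S.iota x))) S.Om - S.Om) : ℂ).re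
        - t * S.eg x w) := by
    rw [dq, inner_smul_right, Complex.re_ofReal_mul, mul_sub, ← mul_assoc, inv_mul_cancel₀ ht0,
      one_mul]
    rfl
  rw [e, norm_mul, Real.norm_eq_abs, Real.norm_eq_abs, abs_inv]
  have ht' : 0 < |t| := abs_pos.2 ht0
  calc _ ≤ |t|⁻¹ * (C * t ^ 2) := by gcongr
    _ = _ := by rw [← sq_abs]; field_simp

lemma norm_dq_sub_le (t : ℝ) (ht : t ≠ 0) (x y : H) :
    ‖S.dq t x - S.dq t y‖ ≤ ‖x - y‖ + |t| * |(inner ℂ x y : ℂ).im| := by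
  set a := (t : ℂ) • (-(Complex.I • S.iota x)) with ha
  set b := (t : ℂ) • (-(Complex.I • S.iota y)) with hb
  have e1 : S.dq t x - S.dq t y = ((t⁻¹ : ℝ) : ℂ) • (S.W a S.Om - S.W b S.Om) := by
    rw [dq, dq, ← smul_sub]; congr 1; abel
  have hth : th a b = t ^ 2 * (inner ℂ x y : ℂ).im := by
    rw [ha, hb, th_smul_left, th_smul_right, th_neg_left, th_neg_right, neg_neg, th,
      inner_smul_left, inner_smul_right, S.inner_iota, Complex.conj_I]
    have : (-Complex.I * (Complex.I * (inner ℂ x y : ℂ))) = inner ℂ x y := by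
      rw [← mul_assoc, neg_mul, Complex.I_mul_I]; ring
    rw [this]; ring
  have hn : ‖a - b‖ ^ 2 = t ^ 2 * ‖x - y‖ ^ 2 := by
    have : a - b = ((t : ℂ) * -Complex.I) • S.iota (x - y) := by
      rw [ha, hb, map_sub]; module
    rw [this, norm_smul, S.norm_iota, norm_mul, norm_neg, Complex.norm_I, Complex.norm_real,
      Real.norm_eq_abs, mul_one, mul_pow, sq_abs]
  have h2 := S.norm_W_Om_sub_sq a b
  have ht' : 0 < |t| := abs_pos.2 ht
  have h3 : ‖S.W a S.Om - S.W b S.Om‖ ^ 2 ≤ (|t| * (‖x - y‖ + |t| * |(inner ℂ x y : ℂ).im|)) ^ 2 := by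
    rw [h2, hn, hth]
    set s := t ^ 2 * (inner ℂ x y : ℂ).im with hs
    set r := t ^ 2 * ‖x - y‖ ^ 2 / 2 with hr
    have hr0 : 0 ≤ r := by positivity
    have k1 := Real.one_sub_sq_div_two_le_cos (x := s)
    have k2 := Real.add_one_le_exp (-r)
    have k3 : Real.exp (-r) ≤ 1 := Real.exp_le_one_iff.2 (by linarith)
    have k4 := Real.exp_pos (-r)
    have k5 : 1 - Real.cos s * Real.exp (-r) ≤ r + s ^ 2 / 2 := by
      have : (1 - Real.cos s) * Real.exp (-r) ≤ s ^ 2 / 2 * 1 :=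
        mul_le_mul (by linarith) k3 k4.le (by positivity)
      nlinarith
    have k6 : (|t| * (‖x - y‖ + |t| * |(inner ℂ x y : ℂ).im|)) ^ 2
        = t ^ 2 * ‖x - y‖ ^ 2 + s ^ 2 + 2 * (t ^ 2 * ‖x - y‖ * (|t| * |(inner ℂ x y : ℂ).im|)) := by
      have a1 : |t| ^ 2 = t ^ 2 := sq_abs t
      have a2 : |(inner ℂ x y : ℂ).im| ^ 2 = (inner ℂ x y : ℂ).im ^ 2 := sq_abs _
      rw [hs, mul_pow, a1, add_sq, mul_pow, a1, a2]
      ring
    rw [k6]
    have k7 : 0 ≤ t ^ 2 * ‖x - y‖ * (|t| * |(inner ℂ x y : ℂ).im|) := by positivity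
    nlinarith
  have h4 : ‖S.W a S.Om - S.W b S.Om‖ ≤ |t| * (‖x - y‖ + |t| * |(inner ℂ x y : ℂ).im|) :=
    (sq_le_sq₀ (norm_nonneg _) (by positivity)).1 h3
  rw [e1, norm_smul, Complex.norm_real, Real.norm_eq_abs, abs_inv]
  calc _ ≤ |t|⁻¹ * (|t| * (‖x - y‖ + |t| * |(inner ℂ x y : ℂ).im|)) := by gcongr
    _ = _ := by field_simp

lemma norm_xv_le (V : H ≃ₗᵢ[ℂ] H) : ‖S.xv V‖ ≤ 1 := (S.norm_xv V).le

/-- **the energy is Lipschitz in the last field vector** -/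
theorem energy_lip (w w' : List (Lt S)) :
    |S.Eg w - S.Eg w'| ≤ 2 * ‖S.xv (S.evg w) - S.xv (S.evg w')‖ := by
  set x := S.xv (S.evg w) with hx
  set y := S.xv (S.evg w') with hy
  have h1 := ((S.energy_lim w).sub (S.energy_lim w')).abs
  rw [← hx, ← hy] at h1
  have h2 : Tendsto (fun t : ℝ => 2 * ‖x - y‖ + |t| * |(inner ℂ x y : ℂ).im|) (𝓝[≠] 0)
      (𝓝 (2 * ‖x - y‖)) := by
    have : Tendsto (fun t : ℝ => 2 * ‖x - y‖ + |t| * |(inner ℂ x y : ℂ).im|) (𝓝 0)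
        (𝓝 (2 * ‖x - y‖ + |0| * |(inner ℂ x y : ℂ).im|)) :=
      (continuous_const.add (continuous_abs.mul continuous_const)).tendsto 0
    rw [abs_zero, zero_mul, add_zero] at this
    exact this.mono_left nhdsWithin_le_nhds
  refine le_of_tendsto_of_tendsto h1 h2 ?_
  have h4 : ∀ᶠ t : ℝ in 𝓝[≠] 0, t ≠ 0 := self_mem_nhdsWithin
  filter_upwards [h4] with t ht0
  have e : (inner ℂ x (S.dq t x) : ℂ).re - (inner ℂ y (S.dq t y) : ℂ).re
      = (inner ℂ (x - y) (S.dq t x) : ℂ).re + (inner ℂ y (S.dq t x - S.dq t y) : ℂ).re := by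
    rw [inner_sub_left, inner_sub_right, Complex.sub_re, Complex.sub_re]; ring
  rw [e]
  have b1 : |(inner ℂ (x - y) (S.dq t x) : ℂ).re| ≤ ‖x - y‖ * 1 := by
    refine (Complex.abs_re_le_norm _).trans ((norm_inner_le_norm _ _).trans ?_)
    have := S.norm_dq_le t ht0 x
    have hx1 : ‖x‖ = 1 := S.norm_xv _
    gcongr
    linarith
  have b2 : |(inner ℂ y (S.dq t x - S.dq t y) : ℂ).re|
      ≤ 1 * (‖x - y‖ + |t| * |(inner ℂ x y : ℂ).im|) := by
    refine (Complex.abs_re_le_norm _).trans ((norm_inner_le_norm _ _).trans ?_)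
    have := S.norm_dq_sub_le t ht0 x y
    have hy1 : ‖y‖ = 1 := S.norm_xv _
    rw [hy1]
    gcongr
  calc _ ≤ |(inner ℂ (x - y) (S.dq t x) : ℂ).re|
        + |(inner ℂ y (S.dq t x - S.dq t y) : ℂ).re| := abs_add_le _ _
    _ ≤ _ := by linarith

/-! ### Words of `A/Defs` as general words -/

open Vale.Agent.P367.NI (Gate)

/-- a gate as a letter -/
noncomputable def gl : Gate → Lt S
  | Gate.B b => Lt.U (S.xr b) (fun y x => S.W_xrA (S.iota y) b x)
  | Gate.C g => Lt.C g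
  | Gate.G k => Lt.U (S.zr ((k : ℂ) • S.e0)) (fun y x => by
      rw [S.zr_W, th_smul_left, th, S.e0perp, Complex.zero_im, mul_zero, rot_zero])

lemma evg_gl : ∀ w : List Gate, S.evg (w.map S.gl) = S.ev w
  | [] => rfl
  | Gate.B b :: w => by
    rw [List.map_cons, gl, evg, ev, evg_gl w]; rfl
  | Gate.C g :: w => by
    rw [List.map_cons, gl, evg, ev, evg_gl w]; rfl
  | Gate.G k :: w => by
    rw [List.map_cons, gl, evg, ev, evg_gl w]; rfl

lemma eg_gl (y : H) : ∀ w : List Gate, S.eg y (w.map S.gl) = S.eaux y w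
  | [] => rfl
  | Gate.B b :: w => by
    rw [List.map_cons, gl, eg, eaux, eg_gl y w]
  | Gate.C g :: w => by
    rw [List.map_cons, gl, eg, eaux, eg_gl y w, S.evg_gl w]
  | Gate.G k :: w => by
    rw [List.map_cons, gl, eg, eaux, eg_gl y w]

lemma Eg_gl (w : List Gate) : S.Eg (w.map S.gl) = S.energy w := by
  rw [Eg, energy, eg_gl, evg_gl]

/-- a labelled word and a general word with close field vectors have close energies -/
theorem energy_sub_le (w : List Gate) (w' : List (Lt S)) :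
    |S.energy w - S.Eg w'| ≤ 2 * ‖S.xv (S.ev w) - S.xv (S.evg w')‖ := by
  rw [← Eg_gl, ← evg_gl]; exact S.energy_lip _ _

theorem energy_sub_energy_le (w w' : List Gate) :
    |S.energy w - S.energy w'| ≤ 2 * ‖S.xv (S.ev w) - S.xv (S.ev w')‖ := by
  rw [← Eg_gl, ← Eg_gl, ← evg_gl, ← evg_gl]; exact S.energy_lip _ _

theorem abs_energy_le (w : List (Lt S)) : |S.Eg w| ≤ 1 := by
  refine le_of_tendsto (S.energy_lim w).abs ?_
  have h4 : ∀ᶠ t : ℝ in 𝓝[≠] 0, t ≠ 0 := self_mem_nhdsWithin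
  filter_upwards [h4] with t ht0
  refine (Complex.abs_re_le_norm _).trans ((norm_inner_le_norm _ _).trans ?_)
  have h1 := S.norm_dq_le t ht0 (S.xv (S.evg w))
  rw [S.norm_xv] at h1 ⊢
  linarith

end Sys

end Vale.Agent.P367.A
end

section

/-! P367, block B, T2: dictionary of the function gate and the limit `m -> ∞`. -/

namespace Vale.Agent.P367.A

open Complex Filter Topology MeasureTheory

namespace LSys

variable {H K : Type*} [NormedAddCommGroup H] [InnerProductSpace ℂ H]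
  [NormedAddCommGroup K] [InnerProductSpace ℂ K] (L : LSys H K)

section dict

lemma clm_mul (U V : H ≃ₗᵢ[ℂ] H) : clm (U * V) = clm U * clm V := rfl

lemma clm_XX : clm L.X * clm L.X = 1 := by
  ext x; exact L.XX x

lemma clm_XZ : clm L.X * clm L.Z = -(clm L.Z * clm L.X) := by
  ext x; exact L.XZ x

lemma clm_XW (v : K) : clm L.X * clm (L.W v) = clm (L.W v) * clm L.X := by
  ext x; exact (L.WX v x).symm

lemma clm_ZW (v : K) : clm L.Z * clm (L.W v) = clm (L.W v) * clm L.Z := by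
  ext x; exact (L.WZ v x).symm

/-- Weyl operators along one line -/
lemma clm_W_mul (s t : ℝ) (v : K) : clm (L.W ((s : ℂ) • v)) * clm (L.W ((t : ℂ) • v))
    = clm (L.W (((s + t : ℝ) : ℂ) • v)) := by
  ext x
  change L.W ((s : ℂ) • v) (L.W ((t : ℂ) • v) x) = L.W (((s + t : ℝ) : ℂ) • v) x
  rw [L.WW', th_smul_left, th_smul_right, th_self, mul_zero, mul_zero]
  simp [add_smul]

lemma clm_W_zero : clm (L.W (0 : K)) = 1 := by
  ext x; exact L.W_zero_apply x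

lemma clm_W_half (v : K) : clm (L.W ((1 / 2 : ℂ) • v)) * clm (L.W ((1 / 2 : ℂ) • v))
    = clm (L.W v) := by
  have h := L.clm_W_mul (1 / 2) (1 / 2) v
  have e : ((1 / 2 : ℝ) : ℂ) = 1 / 2 := by push_cast; ring
  have e2 : (((1 / 2 + 1 / 2 : ℝ) : ℝ) : ℂ) = 1 := by push_cast; ring
  rw [e2, one_smul] at h
  rwa [e] at h

lemma clm_W_half' (v : K) : clm (L.W (-((1 / 2 : ℂ) • v))) * clm (L.W (-((1 / 2 : ℂ) • v)))
    = clm (L.W (-v)) := by
  have h := L.clm_W_half (-v)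
  rwa [smul_neg] at h

lemma clm_W_neg (v : K) : clm (L.W v) * clm (L.W (-v)) = 1 := by
  ext x; exact L.W_W_neg v x

lemma clm_W_neg' (v : K) : clm (L.W (-v)) * clm (L.W v) = 1 := by
  ext x; exact L.W_neg_W v x

lemma kk_eq (v : K) : L.kk v = (1 / 2 : ℂ) • (clm (L.W (-((1 / 2 : ℂ) • v)))
      + clm (L.W ((1 / 2 : ℂ) • v)))
    + (1 / 2 : ℂ) • ((clm (L.W (-((1 / 2 : ℂ) • v))) - clm (L.W ((1 / 2 : ℂ) • v))) * clm L.X) := rfl

lemma kki_eq (v : K) : L.kki v = (1 / 2 : ℂ) • (clm (L.W ((1 / 2 : ℂ) • v))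
      + clm (L.W (-((1 / 2 : ℂ) • v))))
    + (1 / 2 : ℂ) • ((clm (L.W ((1 / 2 : ℂ) • v)) - clm (L.W (-((1 / 2 : ℂ) • v)))) * clm L.X) := by
  rw [kki, pwC, neg_neg, pau_zero]

/-- abstract computation for `kk`, `kki` -/
lemma abs_kk {𝔸 : Type*} [NormedRing 𝔸] [NormedAlgebra ℂ 𝔸] {a b X : 𝔸} (hab : a * b = 1)
    (hba : b * a = 1) (hX : X * X = 1) (hXa : X * a = a * X) (hXb : X * b = b * X) :
    ((1 / 2 : ℂ) • (a + b) + (1 / 2 : ℂ) • ((a - b) * X))
      * ((1 / 2 : ℂ) • (b + a) + (1 / 2 : ℂ) • ((b - a) * X)) = 1 := by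
  have e1 : (a - b) * X * (b + a) = (a - b) * (b + a) * X := by
    rw [mul_assoc, mul_add, hXb, hXa, ← add_mul, ← mul_assoc]
  have e2 : (a - b) * X * ((b - a) * X) = (a - b) * (b - a) := by
    calc (a - b) * X * ((b - a) * X) = (a - b) * ((X * b - X * a) * X) := by noncomm_ring
      _ = (a - b) * ((b * X - a * X) * X) := by rw [hXb, hXa]
      _ = (a - b) * (b - a) * (X * X) := by noncomm_ring
      _ = _ := by rw [hX, mul_one]
  have e3 : (a + b) * (b + a) = a * a + b * b + (1 + 1) := by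
    calc (a + b) * (b + a) = a * b + a * a + b * b + b * a := by noncomm_ring
      _ = _ := by rw [hab, hba]; abel
  have e4 : (a - b) * (b - a) = (1 + 1) - a * a - b * b := by
    calc (a - b) * (b - a) = a * b - a * a - b * b + b * a := by noncomm_ring
      _ = _ := by rw [hab, hba]; abel
  have e5 : (a + b) * ((b - a) * X) = -((a - b) * (b + a) * X) := by
    have : (a + b) * (b - a) = -((a - b) * (b + a)) := by
      calc (a + b) * (b - a) = a * b - a * a + b * b - b * a := by noncomm_ring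
        _ = -(a * b + a * a - b * b - b * a) := by rw [hab, hba]; abel
        _ = _ := by noncomm_ring
    rw [← mul_assoc, this, neg_mul]
  rw [add_mul, mul_add, mul_add]
  simp only [smul_mul_smul_comm]
  rw [e1, e2, e3, e4, e5]
  have : (1 / 2 : ℂ) * (1 / 2) = 1 / 4 := by norm_num
  rw [this]
  module

lemma kki_mul_kk (v : K) : L.kki v * L.kk v = 1 := by
  rw [kk_eq, kki_eq]
  exact abs_kk (L.clm_W_neg _) (L.clm_W_neg' _) L.clm_XX (L.clm_XW _) (L.clm_XW _)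

lemma kk_mul_kki (v : K) : L.kk v * L.kki v = 1 := by
  rw [kk_eq, kki_eq]
  exact abs_kk (L.clm_W_neg' _) (L.clm_W_neg _) L.clm_XX (L.clm_XW _) (L.clm_XW _)

/-- abstract conjugation of `Z` -/
lemma abs_conj {𝔸 : Type*} [NormedRing 𝔸] [NormedAlgebra ℂ 𝔸] {a b X Z : 𝔸} (hab : a * b = 1)
    (hba : b * a = 1) (hX : X * X = 1) (hXZ : X * Z = -(Z * X)) (hXa : X * a = a * X)
    (hXb : X * b = b * X) (hZa : Z * a = a * Z) (hZb : Z * b = b * Z) :
    ((1 / 2 : ℂ) • (a + b) + (1 / 2 : ℂ) • ((a - b) * X)) * Z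
      * ((1 / 2 : ℂ) • (b + a) + (1 / 2 : ℂ) • ((b - a) * X))
    = (1 / 2 : ℂ) • (Z * (a * a + b * b)) + (1 / 2 : ℂ) • (X * Z * (a * a - b * b)) := by
  have h1 : ((1 / 2 : ℂ) • (a + b) + (1 / 2 : ℂ) • ((a - b) * X)) * Z
      = Z * ((1 / 2 : ℂ) • (a + b) - (1 / 2 : ℂ) • ((a - b) * X)) := by
    have e1 : (a + b) * Z = Z * (a + b) := by rw [add_mul, mul_add, hZa, hZb]
    have e2 : (a - b) * X * Z = -(Z * ((a - b) * X)) := by
      calc (a - b) * X * Z = (a - b) * (X * Z) := by noncomm_ring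
        _ = -((a * Z - b * Z) * X) := by rw [hXZ]; noncomm_ring
        _ = -(Z * ((a - b) * X)) := by rw [← hZa, ← hZb]; noncomm_ring
    rw [add_mul, smul_mul_assoc, smul_mul_assoc, e1, e2, mul_sub, mul_smul_comm, mul_smul_comm,
      smul_neg]
    abel
  have e1 : (a - b) * X * (b + a) = (a - b) * (b + a) * X := by
    rw [mul_assoc, mul_add, hXb, hXa, ← add_mul, ← mul_assoc]
  have e2 : (a - b) * X * ((b - a) * X) = (a - b) * (b - a) := by
    calc (a - b) * X * ((b - a) * X) = (a - b) * ((X * b - X * a) * X) := by noncomm_ring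
      _ = (a - b) * ((b * X - a * X) * X) := by rw [hXb, hXa]
      _ = (a - b) * (b - a) * (X * X) := by noncomm_ring
      _ = _ := by rw [hX, mul_one]
  have e3 : (a + b) * (b + a) = a * a + b * b + (1 + 1) := by
    calc (a + b) * (b + a) = a * b + a * a + b * b + b * a := by noncomm_ring
      _ = _ := by rw [hab, hba]; abel
  have e4 : (a - b) * (b - a) = (1 + 1) - a * a - b * b := by
    calc (a - b) * (b - a) = a * b - a * a - b * b + b * a := by noncomm_ring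
      _ = _ := by rw [hab, hba]; abel
  have e5 : (a + b) * ((b - a) * X) = -((a - b) * (b + a) * X) := by
    have : (a + b) * (b - a) = -((a - b) * (b + a)) := by
      calc (a + b) * (b - a) = a * b - a * a + b * b - b * a := by noncomm_ring
        _ = -(a * b + a * a - b * b - b * a) := by rw [hab, hba]; abel
        _ = _ := by noncomm_ring
    rw [← mul_assoc, this, neg_mul]
  have e6 : (a - b) * (b + a) = a * a - b * b := by
    calc (a - b) * (b + a) = a * b + a * a - b * b - b * a := by noncomm_ring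
      _ = _ := by rw [hab, hba]; abel
  have h2 : ((1 / 2 : ℂ) • (a + b) - (1 / 2 : ℂ) • ((a - b) * X))
      * ((1 / 2 : ℂ) • (b + a) + (1 / 2 : ℂ) • ((b - a) * X))
      = (1 / 2 : ℂ) • (a * a + b * b) - (1 / 2 : ℂ) • ((a * a - b * b) * X) := by
    rw [sub_mul, mul_add, mul_add]
    simp only [smul_mul_smul_comm]
    rw [e1, e2, e3, e4, e5, e6]
    have : (1 / 2 : ℂ) * (1 / 2) = 1 / 4 := by norm_num
    rw [this]
    module
  have e7 : Z * ((a * a - b * b) * X) = -(X * Z * (a * a - b * b)) := by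
    have : (a * a - b * b) * X = X * (a * a - b * b) := by
      calc (a * a - b * b) * X = a * (a * X) - b * (b * X) := by noncomm_ring
        _ = a * (X * a) - b * (X * b) := by rw [hXa, hXb]
        _ = (a * X) * a - (b * X) * b := by noncomm_ring
        _ = (X * a) * a - (X * b) * b := by rw [hXa, hXb]
        _ = _ := by noncomm_ring
    rw [this, ← mul_assoc, hXZ]
    noncomm_ring
  rw [h1, mul_assoc, h2, mul_sub, mul_smul_comm, mul_smul_comm, e7, smul_neg, sub_neg_eq_add]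

lemma kki_Z_kk (v : K) : L.kki v * clm L.Z * L.kk v
    = clm L.Z * L.cosf v + (Complex.I • (clm L.X * clm L.Z)) * L.sinf v := by
  rw [kk_eq, kki_eq, abs_conj (L.clm_W_neg _) (L.clm_W_neg' _) L.clm_XX L.clm_XZ (L.clm_XW _)
    (L.clm_XW _) (L.clm_ZW _) (L.clm_ZW _), clm_W_half, clm_W_half', cosf, sinf]
  rw [mul_smul_comm, smul_mul_smul_comm]
  congr 2
  rw [mul_neg, ← mul_div_assoc, Complex.I_mul_I]
  ring

lemma kk_Z_kki (v : K) : L.kk v * clm L.Z * L.kki v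
    = clm L.Z * L.cosf v - (Complex.I • (clm L.X * clm L.Z)) * L.sinf v := by
  rw [kk_eq, kki_eq, abs_conj (L.clm_W_neg' _) (L.clm_W_neg _) L.clm_XX L.clm_XZ (L.clm_XW _)
    (L.clm_XW _) (L.clm_ZW _) (L.clm_ZW _), clm_W_half, clm_W_half', cosf, sinf]
  rw [mul_smul_comm, smul_mul_smul_comm, add_comm (clm (L.W (-v))) (clm (L.W v)),
    ← neg_sub (clm (L.W v)) (clm (L.W (-v))), mul_neg (clm L.X * clm L.Z), smul_neg,
    ← sub_eq_add_neg]
  congr 2
  rw [mul_neg, ← mul_div_assoc, Complex.I_mul_I]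
  ring

end dict

/-- `psi` commutes with the spin and with the Weyl operators along `v` -/
structure FCom (v : K) (psi : H →L[ℂ] H) : Prop where
  X : clm L.X * psi = psi * clm L.X
  Z : clm L.Z * psi = psi * clm L.Z
  W : ∀ t : ℝ, clm (L.W ((t : ℂ) • v)) * psi = psi * clm (L.W ((t : ℂ) • v))

section comm

variable {L}
variable {v : K} {psi : H →L[ℂ] H}

lemma FCom.W1 (h : L.FCom v psi) : clm (L.W v) * psi = psi * clm (L.W v) := by
  have := h.W 1; simpa using this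

lemma FCom.Wn (h : L.FCom v psi) : clm (L.W (-v)) * psi = psi * clm (L.W (-v)) := by
  have := h.W (-1); simpa using this

lemma FCom.Wh (h : L.FCom v psi) : clm (L.W ((1 / 2 : ℂ) • v)) * psi
    = psi * clm (L.W ((1 / 2 : ℂ) • v)) := by
  have := h.W (1 / 2)
  have e : ((1 / 2 : ℝ) : ℂ) = 1 / 2 := by push_cast; ring
  rwa [e] at this

lemma FCom.Whn (h : L.FCom v psi) : clm (L.W (-((1 / 2 : ℂ) • v))) * psi
    = psi * clm (L.W (-((1 / 2 : ℂ) • v))) := by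
  have := h.W (-(1 / 2))
  have e : ((-(1 / 2) : ℝ) : ℂ) • v = -((1 / 2 : ℂ) • v) := by
    rw [← neg_smul]; congr 1; push_cast; ring
  rwa [e] at this

lemma FCom.kk (h : L.FCom v psi) : L.kk v * psi = psi * L.kk v := by
  rw [kk_eq]
  simp only [add_mul, mul_add, smul_mul_assoc, mul_smul_comm, sub_mul, mul_sub]
  rw [h.Wh, h.Whn]
  have e1 : clm (L.W (-((1 / 2 : ℂ) • v))) * clm L.X * psi
      = psi * (clm (L.W (-((1 / 2 : ℂ) • v))) * clm L.X) := by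
    rw [mul_assoc, h.X, ← mul_assoc, h.Whn, mul_assoc]
  have e2 : clm (L.W ((1 / 2 : ℂ) • v)) * clm L.X * psi
      = psi * (clm (L.W ((1 / 2 : ℂ) • v)) * clm L.X) := by
    rw [mul_assoc, h.X, ← mul_assoc, h.Wh, mul_assoc]
  rw [e1, e2]

lemma FCom.kki (h : L.FCom v psi) : L.kki v * psi = psi * L.kki v := by
  rw [kki_eq]
  simp only [add_mul, mul_add, smul_mul_assoc, mul_smul_comm, sub_mul, mul_sub]
  rw [h.Wh, h.Whn]
  have e1 : clm (L.W (-((1 / 2 : ℂ) • v))) * clm L.X * psi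
      = psi * (clm (L.W (-((1 / 2 : ℂ) • v))) * clm L.X) := by
    rw [mul_assoc, h.X, ← mul_assoc, h.Whn, mul_assoc]
  have e2 : clm (L.W ((1 / 2 : ℂ) • v)) * clm L.X * psi
      = psi * (clm (L.W ((1 / 2 : ℂ) • v)) * clm L.X) := by
    rw [mul_assoc, h.X, ← mul_assoc, h.Wh, mul_assoc]
  rw [e1, e2]

variable (L)

lemma X_kk (v : K) : clm L.X * L.kk v = L.kk v * clm L.X := by
  rw [kk_eq]
  simp only [add_mul, mul_add, smul_mul_assoc, mul_smul_comm, sub_mul, mul_sub]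
  rw [clm_XW, clm_XW, ← mul_assoc, ← mul_assoc, clm_XW, clm_XW]

lemma X_kki (v : K) : clm L.X * L.kki v = L.kki v * clm L.X := by
  rw [kki_eq]
  simp only [add_mul, mul_add, smul_mul_assoc, mul_smul_comm, sub_mul, mul_sub]
  rw [clm_XW, clm_XW, ← mul_assoc, ← mul_assoc, clm_XW, clm_XW]

lemma X_cosf (v : K) : clm L.X * L.cosf v = L.cosf v * clm L.X := by
  rw [cosf, mul_smul_comm, smul_mul_assoc, mul_add, add_mul, clm_XW, clm_XW]

lemma X_sinf (v : K) : clm L.X * L.sinf v = L.sinf v * clm L.X := by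
  rw [sinf, mul_smul_comm, smul_mul_assoc, mul_sub, sub_mul, clm_XW, clm_XW]

lemma Z_cosf (v : K) : clm L.Z * L.cosf v = L.cosf v * clm L.Z := by
  rw [cosf, mul_smul_comm, smul_mul_assoc, mul_add, add_mul, clm_ZW, clm_ZW]

lemma Z_sinf (v : K) : clm L.Z * L.sinf v = L.sinf v * clm L.Z := by
  rw [sinf, mul_smul_comm, smul_mul_assoc, mul_sub, sub_mul, clm_ZW, clm_ZW]

lemma cosf_sinf (v : K) : L.cosf v * L.sinf v = L.sinf v * L.cosf v := by
  rw [cosf, sinf, smul_mul_smul_comm, smul_mul_smul_comm, mul_comm (1 / 2 : ℂ)]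
  congr 1
  simp only [mul_add, add_mul, mul_sub, sub_mul, clm_W_neg, clm_W_neg']
  abel

variable {L}

lemma FCom.cosf (h : L.FCom v psi) : L.cosf v * psi = psi * L.cosf v := by
  rw [LSys.cosf, smul_mul_assoc, mul_smul_comm, add_mul, mul_add, h.W1, h.Wn]

lemma FCom.sinf (h : L.FCom v psi) : L.sinf v * psi = psi * L.sinf v := by
  rw [LSys.sinf, smul_mul_assoc, mul_smul_comm, sub_mul, mul_sub, h.W1, h.Wn]

end comm

section expo

variable [CompleteSpace H] {v : K} {psi : H →L[ℂ] H}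

open Vale.Agent.P367.B

/-- the common generator -/
noncomputable def gB (v : K) (psi : H →L[ℂ] H) : H →L[ℂ] H :=
  psi * (clm L.Z * L.cosf v + (Complex.I • (clm L.X * clm L.Z)) * L.sinf v)

noncomputable def gA (v : K) (psi : H →L[ℂ] H) : H →L[ℂ] H :=
  psi * (clm L.Z * L.cosf v - (Complex.I • (clm L.X * clm L.Z)) * L.sinf v)

lemma conj_exp {𝔸 : Type*} [NormedRing 𝔸] [NormedAlgebra ℂ 𝔸] [CompleteSpace 𝔸] {a b : 𝔸}
    (hab : a * b = 1) (hba : b * a = 1) (x : 𝔸) :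
    a * (NormedSpace.exp x * b) = NormedSpace.exp (a * x * b) := by
  let _ : NormedAlgebra ℚ 𝔸 := NormedAlgebra.restrictScalars ℚ ℂ 𝔸
  have h := NormedSpace.exp_units_conj (⟨a, b, hab, hba⟩ : 𝔸ˣ) x
  simp only [Units.inv_mk] at h
  rw [h, mul_assoc]

lemma kki_rr_kk (h : L.FCom v psi) (ε : ℝ) : L.kki v * (L.rr psi ε * L.kk v)
    = NormedSpace.exp ((-(Complex.I * (ε : ℂ))) • L.gB v psi) := by
  rw [rr, conj_exp (L.kki_mul_kk v) (L.kk_mul_kki v)]
  congr 1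
  rw [mul_smul_comm, smul_mul_assoc, smul_mul_assoc, mul_smul_comm, smul_mul_assoc, smul_smul,
    gB, ← kki_Z_kk, pau_two]
  congr 1
  · ring
  · rw [← mul_assoc (L.kki v), h.kki]
    simp only [mul_assoc]

lemma kk_rr_kki (h : L.FCom v psi) (ε : ℝ) : L.kk v * (L.rr psi ε * L.kki v)
    = NormedSpace.exp ((-(Complex.I * (ε : ℂ))) • L.gA v psi) := by
  rw [rr, conj_exp (L.kk_mul_kki v) (L.kki_mul_kk v)]
  congr 1
  rw [mul_smul_comm, smul_mul_assoc, smul_mul_assoc, mul_smul_comm, smul_mul_assoc, smul_smul,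
    gA, ← kk_Z_kki, pau_two]
  congr 1
  · ring
  · rw [← mul_assoc (L.kk v), h.kk]
    simp only [mul_assoc]

/-- the generators of `FGen` -/
noncomputable def GA (v : K) (psi : H →L[ℂ] H) (s : ℝ) : H →L[ℂ] H :=
  genA (clm L.X) (clm L.Z) (L.cosf v) (L.sinf v) psi (s : ℂ)

noncomputable def GB (v : K) (psi : H →L[ℂ] H) (s : ℝ) : H →L[ℂ] H :=
  genB (clm L.X) (clm L.Z) (L.cosf v) (L.sinf v) psi (s : ℂ)

lemma smul_GB (v : K) (psi : H →L[ℂ] H) (s : ℝ) {m : ℕ} (hm : 1 ≤ m) (σ : ℝ) :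
    (-(Complex.I * ((σ * (s / (2 * m)) : ℝ) : ℂ))) • L.gB v psi
      = (((m : ℝ)⁻¹ : ℝ) : ℂ) • ((σ : ℂ) • L.GB v psi s) := by
  have hm0 : (m : ℂ) ≠ 0 := by exact_mod_cast (by omega : m ≠ 0)
  rw [GB, genB, gB, smul_smul, smul_smul]
  congr 1
  push_cast
  field_simp

lemma smul_GA (v : K) (psi : H →L[ℂ] H) (s : ℝ) {m : ℕ} (hm : 1 ≤ m) (σ : ℝ) :
    (-(Complex.I * ((σ * (s / (2 * m)) : ℝ) : ℂ))) • L.gA v psi
      = (((m : ℝ)⁻¹ : ℝ) : ℂ) • ((σ : ℂ) • L.GA v psi s) := by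
  have hm0 : (m : ℂ) ≠ 0 := by exact_mod_cast (by omega : m ≠ 0)
  rw [GA, genA, gA, smul_smul, smul_smul]
  congr 1
  push_cast
  field_simp

lemma B_pos (h : L.FCom v psi) (s : ℝ) {m : ℕ} (hm : 1 ≤ m) :
    L.kki v * (L.rr psi (s / (2 * m)) * L.kk v)
      = NormedSpace.exp ((((m : ℝ)⁻¹ : ℝ) : ℂ) • L.GB v psi s) := by
  rw [L.kki_rr_kk h]
  have := L.smul_GB v psi s hm 1
  rw [one_mul, Complex.ofReal_one, one_smul] at this
  rw [this]

lemma A_pos (h : L.FCom v psi) (s : ℝ) {m : ℕ} (hm : 1 ≤ m) :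
    L.kk v * (L.rr psi (s / (2 * m)) * L.kki v)
      = NormedSpace.exp ((((m : ℝ)⁻¹ : ℝ) : ℂ) • L.GA v psi s) := by
  rw [L.kk_rr_kki h]
  have := L.smul_GA v psi s hm 1
  rw [one_mul, Complex.ofReal_one, one_smul] at this
  rw [this]

lemma B_neg (h : L.FCom v psi) (s : ℝ) {m : ℕ} (hm : 1 ≤ m) :
    L.kki v * (L.rr psi (-(s / (2 * m))) * L.kk v)
      = NormedSpace.exp ((((m : ℝ)⁻¹ : ℝ) : ℂ) • (-L.GB v psi s)) := by
  rw [L.kki_rr_kk h]
  have := L.smul_GB v psi s hm (-1)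
  have e : ((-1 : ℝ) : ℂ) = -1 := by push_cast; rfl
  rw [neg_one_mul, e, neg_one_smul] at this
  rw [this]

lemma A_neg (h : L.FCom v psi) (s : ℝ) {m : ℕ} (hm : 1 ≤ m) :
    L.kk v * (L.rr psi (-(s / (2 * m))) * L.kki v)
      = NormedSpace.exp ((((m : ℝ)⁻¹ : ℝ) : ℂ) • (-L.GA v psi s)) := by
  rw [L.kk_rr_kki h]
  have := L.smul_GA v psi s hm (-1)
  have e : ((-1 : ℝ) : ℂ) = -1 := by push_cast; rfl
  rw [neg_one_mul, e, neg_one_smul] at this
  rw [this]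

lemma fm_eq (h : L.FCom v psi) (s : ℝ) {m : ℕ} (hm : 1 ≤ m) :
    L.fm v psi (s / (2 * m)) = ff (L.GA v psi s) (L.GB v psi s) (m : ℝ)⁻¹ := by
  rw [ff, ← L.A_pos h s hm, ← L.B_pos h s hm, fm]
  simp only [mul_assoc]

lemma fmi_eq (h : L.FCom v psi) (s : ℝ) {m : ℕ} (hm : 1 ≤ m) :
    L.fmi v psi (s / (2 * m)) = gg (L.GA v psi s) (L.GB v psi s) (m : ℝ)⁻¹ := by
  rw [gg, ← L.A_neg h s hm, ← L.B_neg h s hm, fmi]
  simp only [mul_assoc]

lemma mid_eq (h : L.FCom v psi) (s : ℝ) {m : ℕ} (hm : 1 ≤ m) :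
    L.kki v * L.rr psi (-(s / (2 * m))) * clm L.X * L.rr psi (s / (2 * m)) * L.kk v
      = NormedSpace.exp ((((m : ℝ)⁻¹ : ℝ) : ℂ) • (-L.GB v psi s)) * clm L.X
        * NormedSpace.exp ((((m : ℝ)⁻¹ : ℝ) : ℂ) • L.GB v psi s) := by
  rw [← L.B_pos h s hm, ← L.B_neg h s hm]
  calc _ = L.kki v * (L.rr psi (-(s / (2 * m))) * clm L.X * (L.rr psi (s / (2 * m)) * L.kk v)) := by
        simp only [mul_assoc]
    _ = L.kki v * (L.rr psi (-(s / (2 * m))) * ((L.kk v * L.kki v) * clm L.X)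
        * (L.rr psi (s / (2 * m)) * L.kk v)) := by rw [kk_mul_kki, one_mul]
    _ = L.kki v * (L.rr psi (-(s / (2 * m))) * (L.kk v * (clm L.X * L.kki v))
        * (L.rr psi (s / (2 * m)) * L.kk v)) := by rw [X_kki]; simp only [mul_assoc]
    _ = _ := by simp only [mul_assoc]

lemma sumX_eq (h : L.FCom v psi) (s : ℝ) {m : ℕ} (hm : 1 ≤ m) :
    L.sumX v psi (s / (2 * m)) m = (2 : ℂ) • ∑ j ∈ Finset.range m,
      gg (L.GA v psi s) (L.GB v psi s) (m : ℝ)⁻¹ ^ j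
        * dd (L.GA v psi s) (L.GB v psi s) (clm L.X) (m : ℝ)⁻¹
        * ff (L.GA v psi s) (L.GB v psi s) (m : ℝ)⁻¹ ^ j := by
  rw [sumX, Finset.smul_sum]
  refine Finset.sum_congr rfl fun j _ => ?_
  rw [← sum_eq, L.fm_eq h s hm, L.fmi_eq h s hm, L.mid_eq h s hm, smul_smul]
  norm_num
  abel

omit [CompleteSpace H] in
lemma norm_one_le : ‖(1 : H →L[ℂ] H)‖ ≤ 1 := ContinuousLinearMap.norm_id_le

/-- the total reaction converges in norm -/
theorem tendsto_sumX (h : L.FCom v psi) (s : ℝ) :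
    Tendsto (fun m : ℕ => L.sumX v psi (s / (2 * m)) m) atTop
      (𝓝 ((-(2 * s : ℂ)) • (psi * (clm L.Z * L.sinf v)))) := by
  have h1 : Commute (TT (L.GA v psi s) (L.GB v psi s) (clm L.X)) (L.GA v psi s + L.GB v psi s) :=
    commute_TT_gen (s : ℂ) L.clm_XX L.clm_XZ (L.X_cosf v) (L.X_sinf v) h.X (L.Z_cosf v) (L.Z_sinf v)
      h.Z (L.cosf_sinf v) h.cosf h.sinf
  have h2 := (tendsto_sum_dd norm_one_le (L.GA v psi s) (L.GB v psi s) (clm L.X) h1).const_smul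
    (2 : ℂ)
  have h3 : TT (L.GA v psi s) (L.GB v psi s) (clm L.X) = (-(s : ℂ)) • (psi * (clm L.Z * L.sinf v)) :=
    TT_gen (s : ℂ) L.clm_XX L.clm_XZ (L.X_cosf v) (L.X_sinf v) h.X
  rw [h3, smul_smul] at h2
  have e : (2 : ℂ) * -(s : ℂ) = -(2 * s : ℂ) := by ring
  rw [e] at h2
  refine h2.congr' ?_
  filter_upwards [eventually_ge_atTop 1] with m hm
  rw [L.sumX_eq h s hm]

/-- the own batch converges in norm -/
theorem tendsto_fm (h : L.FCom v psi) (s : ℝ) :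
    Tendsto (fun m : ℕ => L.fm v psi (s / (2 * m)) ^ m) atTop
      (𝓝 (NormedSpace.exp ((-(Complex.I * (s : ℂ))) • (psi * (clm L.Z * L.cosf v))))) := by
  have h1 := lie_trotter norm_one_le (L.GA v psi s) (L.GB v psi s)
  have h2 : L.GA v psi s + L.GB v psi s
      = (-(Complex.I * (s : ℂ))) • (psi * (clm L.Z * L.cosf v)) :=
    genA_add_genB _ _ _ _ _ _
  rw [h2] at h1
  refine h1.congr' ?_
  filter_upwards [eventually_ge_atTop 1] with m hm
  rw [L.fm_eq h s hm, ff]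
  push_cast
  rfl

end expo

end LSys

end Vale.Agent.P367.A
end

section

/-! P367, block B, T2: the function gate (limit of the micro steps). -/

namespace Vale.Agent.P367.A

open Complex Filter Topology MeasureTheory

namespace LSys

variable {H K : Type*} [NormedAddCommGroup H] [InnerProductSpace ℂ H]
  [NormedAddCommGroup K] [InnerProductSpace ℂ K] (L : LSys H K)

/-! ### continuity of pulses -/

/-- strong continuity of the Weyl operators -/
lemma tendsto_W {v : ℕ → K} {v0 : K} (hv : Tendsto v atTop (𝓝 v0)) (x : H) :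
    Tendsto (fun n => L.W (v n) x) atTop (𝓝 (L.W v0 x)) := by
  have h1 : Tendsto (fun n => v n - v0) atTop (𝓝 0) := by
    simpa using hv.sub_const v0
  have h2 : Tendsto (fun n => L.W (v n - v0) (L.W v0 x)) atTop (𝓝 (L.W v0 x)) :=
    (L.tendsto_W0 (L.W v0 x)).comp h1
  have h3 : Tendsto (fun n => Complex.exp (Complex.I * (th (v n - v0) v0 : ℂ))) atTop (𝓝 1) := by
    have h4 : Tendsto (fun n => (inner ℂ (v n - v0) v0 : ℂ)) atTop (𝓝 (inner ℂ (0 : K) v0)) :=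
      h1.inner tendsto_const_nhds
    have h5 : Tendsto (fun n => th (v n - v0) v0) atTop (𝓝 0) := by
      have := (Complex.continuous_im.tendsto _).comp h4
      rw [inner_zero_left, Complex.zero_im] at this
      exact this
    have h6 : Tendsto (fun n => Complex.exp (Complex.I * (th (v n - v0) v0 : ℂ))) atTop
        (𝓝 (Complex.exp (Complex.I * ((0 : ℝ) : ℂ)))) :=
      (Complex.continuous_exp.tendsto _).comp
        (((Complex.continuous_ofReal.tendsto _).comp h5).const_mul _)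
    simpa using h6
  have h7 := h3.smul h2
  rw [one_smul] at h7
  refine h7.congr fun n => ?_
  rw [L.WW', smul_smul, ← Complex.exp_add, sub_add_cancel]
  simp

lemma tendsto_pw (P : Fin 3) {v : ℕ → K} {v0 : K} (hv : Tendsto v atTop (𝓝 v0)) (x : H) :
    Tendsto (fun n => L.pw (L.pau P) (v n) x) atTop (𝓝 (L.pw (L.pau P) v0 x)) := by
  unfold pw
  exact ((L.tendsto_W hv.neg x).add (L.tendsto_W hv x)).const_smul _ |>.add
    (((L.tendsto_W hv.neg _).sub (L.tendsto_W hv _)).const_smul _)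

/-! ### controls -/

section ctl

variable {L}
variable {𝔄 : Set (H →L[ℂ] H)}

lemma Ctl.xr (hA : L.Ctl 𝔄) {a : H →L[ℂ] H} (ha : a ∈ 𝔄) (t : ℝ) (x : H) :
    a (L.xr t x) = L.xr t (a x) := by
  rw [L.xr_apply, L.xr_apply, map_sub, map_smul, map_smul, hA.X a ha]

lemma Ctl.Zt (hA : L.Ctl 𝔄) {a : H →L[ℂ] H} (ha : a ∈ 𝔄) (t : ℝ) (x : H) :
    a (L.Zt t x) = L.Zt t (a x) := by
  rw [L.Zt_apply, L.Zt_apply, hA.xr ha, hA.Z a ha]

lemma Ctl.pau (hA : L.Ctl 𝔄) {a : H →L[ℂ] H} (ha : a ∈ 𝔄) (P : Fin 3) (x : H) :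
    a (L.pau P x) = L.pau P (a x) := by
  fin_cases P
  · exact hA.X a ha x
  · exact hA.Zt ha _ x
  · exact hA.Z a ha x

/-- the operator whose vacuum value is a control vector -/
noncomputable def cT (L : LSys H K) (V : H ≃ₗᵢ[ℂ] H) (b : Set ℝ) (P : Fin 3) : H →L[ℂ] H :=
  L.E b * clm (V⁻¹ * L.pau P * V)

lemma cT_apply (V : H ≃ₗᵢ[ℂ] H) (b : Set ℝ) (P : Fin 3) (x : H) :
    L.cT V b P x = L.E b (V⁻¹ (L.pau P (V x))) := rfl

lemma cT_sa {V : H ≃ₗᵢ[ℂ] H} {b : Set ℝ} (hb : MeasurableSet b)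
    (hV : ∀ x, L.E b (V x) = V (L.E b x)) (P : Fin 3) : Sa (L.cT V b P) := by
  intro x y
  have hV' : ∀ x, L.E b (V⁻¹ x) = V⁻¹ (L.E b x) := fga_inv hV
  have h1 : inner ℂ (V⁻¹ (L.pau P (V x))) (L.E b y)
      = (inner ℂ x (V⁻¹ (L.pau P (V (L.E b y)))) : ℂ) := by
    rw [Sys.inner_invA V, L.inner_pau, ← Sys.inner_invA V⁻¹ x, inv_inv]
  rw [cT_apply, cT_apply, L.E_sa hb, h1, ← hV, ← L.E_pau, ← hV']

lemma cT_comm (hA : L.Ctl 𝔄) {V : H ≃ₗᵢ[ℂ] H} {b : Set ℝ} (hb : MeasurableSet b)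
    (hV : ∀ a ∈ 𝔄, ∀ x, a (V x) = V (a x)) (P : Fin 3) {a : H →L[ℂ] H} (ha : a ∈ 𝔄) :
    L.cT V b P * a = a * L.cT V b P := by
  ext x
  change L.E b (V⁻¹ (L.pau P (V (a x)))) = a (L.E b (V⁻¹ (L.pau P (V x))))
  have h1 : ∀ y, a (L.E b y) = L.E b (a y) := by
    intro y
    have := hA.comm a (L.E b) ha (hA.lab _ (Bm.ind hb 1))
    exact congrArg (fun T : H →L[ℂ] H => T y) this
  rw [h1, fga_inv (hV a ha), hA.pau ha, hV a ha]

/-- controls commute with the Weyl operators of control vectors -/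
lemma Ctl.Wcvec (hA : L.Ctl 𝔄) {V : H ≃ₗᵢ[ℂ] H} {o r : Set ℝ} (ho : MeasurableSet o)
    (hr : MeasurableSet r) (hV : ∀ a ∈ 𝔄, ∀ x, a (V x) = V (a x)) (μ ν t : ℝ) {a : H →L[ℂ] H}
    (ha : a ∈ 𝔄) (x : H) : a (L.W ((t : ℂ) • L.cvec μ ν o r V) x)
      = L.W ((t : ℂ) • L.cvec μ ν o r V) (a x) := by
  set T : H →L[ℂ] H := ((t * μ : ℝ) : ℂ) • L.cT V o 2 + ((t * ν : ℝ) : ℂ) • L.cT V r 1 with hT
  have hVo : ∀ x, L.E o (V x) = V (L.E o x) := hV _ (hA.lab _ (Bm.ind ho 1))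
  have hVr : ∀ x, L.E r (V x) = V (L.E r x) := hV _ (hA.lab _ (Bm.ind hr 1))
  have hTs : Sa T := by
    intro x y
    have e1 := cT_sa ho hVo 2 x y
    have e2 := cT_sa hr hVr 1 x y
    rw [hT]
    simp only [_root_.add_apply, _root_.smul_apply, inner_add_left, inner_add_right,
      inner_smul_left, inner_smul_right, Complex.conj_ofReal, e1, e2]
  have hTc : ∀ b ∈ 𝔄, T * b = b * T := by
    intro b hb
    rw [hT, add_mul, mul_add, smul_mul_assoc, smul_mul_assoc, mul_smul_comm, mul_smul_comm,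
      cT_comm hA ho hV 2 hb, cT_comm hA hr hV 1 hb]
  have hv : L.iota (T L.Om) = (t : ℂ) • L.cvec μ ν o r V := by
    rw [hT]
    simp only [_root_.add_apply, _root_.smul_apply, map_add, map_smul, cT_apply, cvec, fv,
      smul_add, smul_smul]
    push_cast
    rfl
  have h := hA.W a ha T hTs hTc x
  rwa [hv] at h

lemma Ctl.fcom (hA : L.Ctl 𝔄) {V : H ≃ₗᵢ[ℂ] H} {o r : Set ℝ} (ho : MeasurableSet o)
    (hr : MeasurableSet r) (hV : ∀ a ∈ 𝔄, ∀ x, a (V x) = V (a x)) (μ ν : ℝ) {a : H →L[ℂ] H}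
    (ha : a ∈ 𝔄) : L.FCom (L.cvec μ ν o r V) a := by
  refine ⟨?_, ?_, fun t => ?_⟩
  · ext x; exact (hA.X a ha x).symm
  · ext x; exact (hA.Z a ha x).symm
  · ext x; exact (hA.Wcvec ho hr hV μ ν t ha x).symm

end ctl

/-! ### the limit unitary -/

section lim

variable {L}

lemma cosf_sa (v : K) : Sa (L.cosf v) := by
  intro x y
  change inner ℂ ((1 / 2 : ℂ) • (L.W v x + L.W (-v) x)) y
    = inner ℂ x ((1 / 2 : ℂ) • (L.W v y + L.W (-v) y))
  rw [inner_smul_left, inner_smul_right, inner_add_left, inner_add_right, L.inner_W, L.inner_W,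
    neg_neg, map_div₀, map_one, Complex.conj_ofNat, add_comm]

/-- the generator of the own batch -/
noncomputable def gen (L : LSys H K) (v : K) (a : H →L[ℂ] H) : H →L[ℂ] H :=
  a * (clm L.Z * L.cosf v)

lemma gen_sa {v : K} {a : H →L[ℂ] H} (hsa : Sa a) (h : L.FCom v a) : Sa (L.gen v a) := by
  intro x y
  have e1 : ∀ z, L.cosf v (L.Z z) = L.Z (L.cosf v z) := fun z =>
    (congrArg (fun T : H →L[ℂ] H => T z) (L.Z_cosf v)).symm
  have e2 : ∀ z, L.cosf v (a z) = a (L.cosf v z) := fun z =>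
    congrArg (fun T : H →L[ℂ] H => T z) h.cosf
  have e3 : ∀ z, L.Z (a z) = a (L.Z z) := fun z =>
    congrArg (fun T : H →L[ℂ] H => T z) h.Z
  have e4 : ∀ z w, inner ℂ (L.Z z) w = (inner ℂ z (L.Z w) : ℂ) := L.inner_pau 2
  change inner ℂ (a (L.Z (L.cosf v x))) y = inner ℂ x (a (L.Z (L.cosf v y)))
  rw [hsa, e4, cosf_sa, e3, e2, e1]

/-- multiplication by a phase -/
lemma exists_phase {c : ℂ} (hc : ‖c‖ = 1) : ∃ U : H ≃ₗᵢ[ℂ] H, ∀ x, U x = c • x := by
  have h1 : (starRingEnd ℂ) c * c = 1 := by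
    rw [Complex.conj_mul', hc]; simp
  refine ⟨mkU (c • LinearMap.id) ((starRingEnd ℂ) c • LinearMap.id) ?_ ?_ ?_, fun x => rfl⟩
  · intro x
    change (starRingEnd ℂ) c • (c • x) = x
    rw [smul_smul, h1, one_smul]
  · intro x
    change c • ((starRingEnd ℂ) c • x) = x
    rw [smul_smul, mul_comm, h1, one_smul]
  · intro x y
    change inner ℂ (c • x) y = inner ℂ x ((starRingEnd ℂ) c • y)
    rw [inner_smul_left, inner_smul_right]

variable (L) in
/-- the limit state as a unitary -/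
lemma exists_blk [CompleteSpace H] {b o r : Set ℝ} (hb : MeasurableSet b) (ho : MeasurableSet o)
    (hr : MeasurableSet r) (hbo : Disjoint b o) (hbr : Disjoint b r) (hor : Disjoint o r)
    {T : H →L[ℂ] H} (hT : Sa T) (hTb : ∀ x, L.E b (T x) = T (L.E b x)) (p q : K) {tho thr : ℂ}
    (h1 : ‖tho‖ = 1) (h2 : ‖thr‖ = 1) :
    ∃ U : H ≃ₗᵢ[ℂ] H, L.IsBlk b o r (NormedSpace.exp ((-Complex.I) • T)) p q tho thr U := by
  obtain ⟨Ub, hUb⟩ := fgb_exists_exp hT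
  obtain ⟨c1, hc1⟩ := exists_phase (H := H) h1
  obtain ⟨c2, hc2⟩ := exists_phase (H := H) h2
  have hbE : ∀ x, L.E b (Ub x) = Ub (L.E b x) := by
    intro x
    rw [hUb, hUb]
    have hc : Commute (L.E b) T := by
      ext x; exact hTb x
    have hc2 : Commute (L.E b) (NormedSpace.exp ((-Complex.I) • T)) :=
      (hc.smul_right _).exp_right
    exact congrArg (fun T : H →L[ℂ] H => T x) hc2
  have hoE : ∀ x, L.E o ((c1 * L.pwU 2 p) x) = (c1 * L.pwU 2 p) (L.E o x) := by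
    intro x
    rw [Sys.mulA, Sys.mulA, hc1, hc1, map_smul, L.E_pwU]
  have hrE : ∀ x, L.E r ((c2 * L.pwU 1 q) x) = (c2 * L.pwU 1 q) (L.E r x) := by
    intro x
    rw [Sys.mulA, Sys.mulA, hc2, hc2, map_smul, L.E_pwU]
  refine ⟨L.bU hb Ub hbE * L.bU ho (c1 * L.pwU 2 p) hoE * L.bU hr (c2 * L.pwU 1 q) hrE,
    fun x => ?_⟩
  have eo : ∀ y, L.E o ((c2 * L.pwU 1 q) y) = (c2 * L.pwU 1 q) (L.E o y) := by
    intro x
    rw [Sys.mulA, Sys.mulA, hc2, hc2, map_smul, L.E_pwU]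
  have eb2 : ∀ y, L.E b ((c2 * L.pwU 1 q) y) = (c2 * L.pwU 1 q) (L.E b y) := by
    intro x
    rw [Sys.mulA, Sys.mulA, hc2, hc2, map_smul, L.E_pwU]
  have eb1 : ∀ y, L.E b ((c1 * L.pwU 2 p) y) = (c1 * L.pwU 2 p) (L.E b y) := by
    intro x
    rw [Sys.mulA, Sys.mulA, hc1, hc1, map_smul, L.E_pwU]
  set A := c1 * L.pwU 2 p with hA
  set B := c2 * L.pwU 1 q with hB
  have s1 : L.bU hr B hrE x = B (L.E r x) + (x - L.E r x) := rfl
  have s2 : L.E o (B (L.E r x) + (x - L.E r x)) = L.E o x := by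
    rw [map_add, map_sub, eo, L.E_dis ho hr hor, map_zero, zero_add, sub_zero]
  have s3 : L.bU ho A hoE (B (L.E r x) + (x - L.E r x))
      = A (L.E o x) + (B (L.E r x) + (x - L.E r x) - L.E o x) := by
    rw [L.bU_apply ho, s2]
  have s4 : L.E b (A (L.E o x) + (B (L.E r x) + (x - L.E r x) - L.E o x)) = L.E b x := by
    simp only [map_add, map_sub, eb2, eb1, L.E_dis hb ho hbo, L.E_dis hb hr hbr, map_zero,
      zero_add, sub_zero]
  rw [Sys.mulA, Sys.mulA, s1, s3, L.bU_apply hb, s4, hUb, hA, hB, Sys.mulA c1, Sys.mulA c2, hc1,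
    hc2, pwU_apply, pwU_apply]
  abel

/-- **function gate**, up to phases on the two outer blocks -/
theorem bl_main [CompleteSpace H] {G : Set ℝ} {𝔄 : Set (H →L[ℂ] H)}
    {Rch : Set ℝ → Set ℝ → (H ≃ₗᵢ[ℂ] H) → Prop} (hG : MeasurableSet G)
    (hA : L.Ctl 𝔄) (hC : L.Closed G 𝔄 Rch) {M R : Set ℝ} {V : H ≃ₗᵢ[ℂ] H}
    (hV : Rch M R V) {b o r : Set ℝ} (hb : MeasurableSet b) (ho : MeasurableSet o)
    (hr : MeasurableSet r) (hbM : b ⊆ M) (hoM : o ⊆ M) (hrM : r ⊆ M) (hbo : Disjoint b o)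
    (hbr : Disjoint b r) (hor : Disjoint o r) {a : H →L[ℂ] H} (ha : a ∈ 𝔄) (hsa : Sa a)
    (haG : a * L.E G = a) (hab : a * L.E b = a) (μ ν : ℝ) :
    ∃ (U : H ≃ₗᵢ[ℂ] H) (co cr : ℂ), ‖co‖ = 1 ∧ ‖cr‖ = 1 ∧ Rch M R U ∧
      ∀ x, U x = NormedSpace.exp ((-Complex.I) • (a * (clm L.Z * L.cosf (L.cvec μ ν o r V))))
            (L.E b (V x))
        + co • L.zr ((μ : ℂ) • L.iota (L.E b (V⁻¹ (-(a (L.Z (L.sinf (L.cvec μ ν o r V)
            (V L.Om)))))))) (L.E o (V x))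
        + cr • L.pw (L.pau 1) ((ν : ℂ) • L.iota (L.E b (V⁻¹ (-(a (L.Z (L.sinf (L.cvec μ ν o r V)
            (V L.Om)))))))) (L.E r (V x))
        + (V x - L.E b (V x) - L.E o (V x) - L.E r (V x)) := by
  set v := L.cvec μ ν o r V with hv
  have hcV : ∀ a ∈ 𝔄, ∀ x, a (V x) = V (a x) := hC.comm M R V hV
  have hF : L.FCom v a := hA.fcom ho hr hcV μ ν ha
  have hD : L.FData G 𝔄 M b o r a :=
    ⟨hb, ho, hr, hbM, hoM, hrM, hbo, hbr, hor, ha, hsa, haG, hab⟩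
  -- the approximating states
  choose U tho thr h1 h2 hblk hR using fun m : ℕ =>
    L.faStmt G 𝔄 Rch hG hA hC M R b o r V a μ ν 1 hV hD (m + 1) (by omega)
  -- converging phases
  obtain ⟨⟨co, cr⟩, hc, φ, hφ, hlim⟩ := ((isCompact_sphere (0 : ℂ) 1).prod
    (isCompact_sphere (0 : ℂ) 1)).tendsto_subseq (x := fun m => (tho m, thr m)) (fun m => by
      simp [h1, h2])
  rw [Set.mem_prod] at hc
  simp only [mem_sphere_iff_norm, sub_zero] at hc
  have hlo : Tendsto (fun n => tho (φ n)) atTop (𝓝 co) := (continuous_fst.tendsto _).comp hlim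
  have hlr : Tendsto (fun n => thr (φ n)) atTop (𝓝 cr) := (continuous_snd.tendsto _).comp hlim
  -- the reactions
  have hshift : Tendsto (fun n => φ n + 1) atTop atTop :=
    tendsto_atTop_mono (fun n => (hφ.le_apply).trans (Nat.le_succ _)) tendsto_id
  have hS := (L.tendsto_sumX hF 1).comp hshift
  have hO := (L.tendsto_fm hF 1).comp hshift
  set q : K := L.iota (L.E b (V⁻¹ (-(a (L.Z (L.sinf v (V L.Om))))))) with hq
  have hSx : Tendsto (fun n => L.iota (L.E b (V⁻¹ (L.sumX v a (1 / (2 * ((φ n + 1 : ℕ) : ℝ)))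
      (φ n + 1) (V L.Om))))) atTop (𝓝 ((2 : ℂ) • q)) := by
    have e1 : Tendsto (fun n => L.sumX v a (1 / (2 * ((φ n + 1 : ℕ) : ℝ))) (φ n + 1) (V L.Om))
        atTop (𝓝 (((-(2 * (1 : ℝ) : ℂ)) • (a * (clm L.Z * L.sinf v))) (V L.Om))) :=
      ((ContinuousLinearMap.apply ℂ H (V L.Om)).continuous.tendsto _).comp hS
    have e2 := (L.iota.continuous.tendsto _).comp (((L.E b).continuous.tendsto _).comp
      ((V⁻¹.continuous.tendsto _).comp e1))
    have e3 : L.iota (L.E b (V⁻¹ (((-(2 * (1 : ℝ) : ℂ)) • (a * (clm L.Z * L.sinf v))) (V L.Om))))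
        = (2 : ℂ) • q := by
      rw [hq, ← map_smul, ← map_smul, ← map_smul]
      congr 3
      change (-(2 * ((1 : ℝ) : ℂ))) • (a (L.Z (L.sinf v (V L.Om)))) = _
      push_cast
      module
    rw [← e3]
    exact e2
  have hp : ∀ t : ℝ, Tendsto (fun n => ((t / 2 : ℝ) : ℂ) • L.iota (L.E b (V⁻¹
      (L.sumX v a (1 / (2 * ((φ n + 1 : ℕ) : ℝ))) (φ n + 1) (V L.Om))))) atTop
      (𝓝 ((t : ℂ) • q)) := by
    intro t
    have := hSx.const_smul (((t / 2 : ℝ) : ℂ))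
    rw [smul_smul] at this
    have e : ((t / 2 : ℝ) : ℂ) * 2 = (t : ℂ) := by push_cast; ring
    rwa [e] at this
  -- the limit state
  have hgen : Sa (L.gen v a) := gen_sa hsa hF
  have hgenb : ∀ x, L.E b (L.gen v a x) = L.gen v a (L.E b x) := by
    intro x
    change L.E b (a (L.Z ((1 / 2 : ℂ) • (L.W v x + L.W (-v) x))))
      = a (L.Z ((1 / 2 : ℂ) • (L.W v (L.E b x) + L.W (-v) (L.E b x))))
    have e1 : ∀ y, L.E b (a y) = a (L.E b y) := fun y =>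
      congrArg (fun T : H →L[ℂ] H => T y) (hA.comm _ _ (hA.lab _ (Bm.ind hb 1)) ha)
    rw [e1, L.E_Z, map_smul, map_add, L.E_W, L.E_W]
  obtain ⟨U0, hU0⟩ := L.exists_blk hb ho hr hbo hbr hor hgen hgenb ((μ : ℂ) • q) ((ν : ℂ) • q)
    hc.1 hc.2
  -- strong convergence
  have hconv : ∀ x, Tendsto (fun n => (U (φ n) * V) x) atTop (𝓝 ((U0 * V) x)) := by
    intro x
    have e0 : (U0 * V) x = NormedSpace.exp ((-Complex.I) • L.gen v a) (L.E b (V x))
        + co • L.pw (L.pau 2) ((μ : ℂ) • q) (L.E o (V x))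
        + cr • L.pw (L.pau 1) ((ν : ℂ) • q) (L.E r (V x))
        + (V x - L.E b (V x) - L.E o (V x) - L.E r (V x)) := hU0 (V x)
    rw [e0]
    have e1 : ∀ n, (U (φ n) * V) x = (L.fm v a (1 / (2 * ((φ n + 1 : ℕ) : ℝ))) ^ (φ n + 1))
          (L.E b (V x))
        + tho (φ n) • L.pw (L.pau 2) (((μ / 2 : ℝ) : ℂ) • L.iota (L.E b (V⁻¹
          (L.sumX v a (1 / (2 * ((φ n + 1 : ℕ) : ℝ))) (φ n + 1) (V L.Om))))) (L.E o (V x))
        + thr (φ n) • L.pw (L.pau 1) (((ν / 2 : ℝ) : ℂ) • L.iota (L.E b (V⁻¹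
          (L.sumX v a (1 / (2 * ((φ n + 1 : ℕ) : ℝ))) (φ n + 1) (V L.Om))))) (L.E r (V x))
        + (V x - L.E b (V x) - L.E o (V x) - L.E r (V x)) := fun n => hblk (φ n) (V x)
    refine Tendsto.congr (fun n => (e1 n).symm) ?_
    refine (((?_ : Tendsto _ _ _).add ?_).add ?_).add tendsto_const_nhds
    · have e2 := ((ContinuousLinearMap.apply ℂ H (L.E b (V x))).continuous.tendsto _).comp hO
      have e3 : (-(Complex.I * ((1 : ℝ) : ℂ))) • (a * (clm L.Z * L.cosf v))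
          = (-Complex.I) • L.gen v a := by
        rw [Complex.ofReal_one, mul_one, gen]
      rw [e3] at e2
      exact e2
    · exact hlo.smul (L.tendsto_pw 2 (hp μ) _)
    · exact hlr.smul (L.tendsto_pw 1 (hp ν) _)
  refine ⟨U0 * V, co, cr, hc.1, hc.2, ?_, fun x => hU0 (V x)⟩
  refine hC.lim M R (fun n => U (φ n) * V) (U0 * V) (fun n => hR (φ n)) ?_ ?_
  · intro c hcA x
    have e1 := (c.continuous.tendsto _).comp (hconv x)
    have e2 := hconv (c x)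
    refine tendsto_nhds_unique e1 (e2.congr fun n => ?_)
    exact (hC.comm M R _ (hR (φ n)) c hcA x).symm
  · intro x
    exact ((L.E M).continuous.tendsto _).comp (hconv x)

end lim

end LSys

end Vale.Agent.P367.A
end

section

/-! P367, block B, T2: the function gate without phases (`FGStmt`). -/

namespace Vale.Agent.P367.A

open Complex Filter Topology MeasureTheory

namespace LSys

variable {H K : Type*} [NormedAddCommGroup H] [InnerProductSpace ℂ H]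
  [NormedAddCommGroup K] [InnerProductSpace ℂ K] (L : LSys H K)

/-- exponential on an eigenvector -/
lemma exp_eig [CompleteSpace H] {T : H →L[ℂ] H} {c : ℂ} {x : H} (h : T x = c • x) :
    NormedSpace.exp T x = Complex.exp c • x := by
  have hp : ∀ n : ℕ, (T ^ n) x = c ^ n • x := by
    intro n
    induction n with
    | zero => rw [pow_zero, pow_zero, one_smul]; rfl
    | succ n ih =>
      rw [pow_succ]
      change (T ^ n) (T x) = _
      rw [h, map_smul, ih, smul_smul, pow_succ, mul_comm]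
  have h4 := NormedSpace.exp_series_hasSum_exp' (𝕂 := ℂ) T
  have h5 := h4.mapL (ContinuousLinearMap.apply ℂ H x)
  have h6 := (NormedSpace.exp_series_hasSum_exp' (𝕂 := ℂ) c).smul_const x
  rw [← Complex.exp_eq_exp_ℂ] at h6
  refine h5.unique (h6.congr_fun ?_)
  intro n
  change (((n.factorial : ℂ)⁻¹) • T ^ n) x = ((n.factorial : ℂ)⁻¹ • c ^ n) • x
  rw [_root_.smul_apply, hp, smul_smul, smul_eq_mul]

/-- a phase on one block can be removed -/
lemma phase_off [CompleteSpace H] {G : Set ℝ} {𝔄 : Set (H →L[ℂ] H)}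
    {Rch : Set ℝ → Set ℝ → (H ≃ₗᵢ[ℂ] H) → Prop} (hA : L.Ctl 𝔄) (hC : L.Closed G 𝔄 Rch)
    {M R : Set ℝ} {V : H ≃ₗᵢ[ℂ] H} (hV : Rch M R V) {o : Set ℝ} (ho : MeasurableSet o)
    {c : ℂ} (hc : ‖c‖ = 1) : ∃ U : H ≃ₗᵢ[ℂ] H, Rch M R (U * V) ∧
      ∀ x, U x = c • L.E o x + (x - L.E o x) := by
  set α : ℝ := -Complex.arg c with hα
  have hca : Complex.exp (-(Complex.I * (α : ℂ))) = c := by
    have := Complex.norm_mul_exp_arg_mul_I c
    rw [hc, Complex.ofReal_one, one_mul] at this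
    have e : -(Complex.I * (α : ℂ)) = (Complex.arg c : ℂ) * Complex.I := by
      rw [hα]; push_cast; ring
    rw [e]
    exact this
  set a : H →L[ℂ] H := (α : ℂ) • L.E o with ha
  have haA : a ∈ 𝔄 := L.smul_mem_ctl hA (hA.lab _ (Bm.ind ho 1)) _
  have hsa : Sa a := by
    intro x y
    change inner ℂ ((α : ℂ) • L.E o x) y = inner ℂ x ((α : ℂ) • L.E o y)
    rw [inner_smul_left, inner_smul_right, L.E_sa ho, Complex.conj_ofReal]
  obtain ⟨U, hU⟩ := exists_ph hsa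
  refine ⟨U, hC.ph M R V a U hV haA hsa hU, fun x => ?_⟩
  have e : x = L.E o x + (x - L.E o x) := by abel
  conv_lhs => rw [e]
  rw [map_add, hU, hU]
  congr 1
  · rw [exp_eig (c := -(Complex.I * (α : ℂ))), hca]
    change (-Complex.I) • ((α : ℂ) • L.E o (L.E o x)) = _
    rw [L.E_E ho, smul_smul, neg_mul]
  · rw [exp_eig (c := 0), Complex.exp_zero, one_smul]
    change (-Complex.I) • ((α : ℂ) • L.E o (x - L.E o x)) = _
    rw [map_sub, L.E_E ho, sub_self, smul_zero, smul_zero, zero_smul]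

/-- **function gate** -/
theorem fgStmt [CompleteSpace H] : L.FGStmt := by
  intro G 𝔄 Rch hG hA hC M R b o r V psi μ ν s hV hD U hU
  set v := L.cvec μ ν o r V with hv
  set a : H →L[ℂ] H := (s : ℂ) • psi with ha
  have haA : a ∈ 𝔄 := L.smul_mem_ctl hA hD.psiA _
  have hsa : Sa a := by
    intro x y
    change inner ℂ ((s : ℂ) • psi x) y = inner ℂ x ((s : ℂ) • psi y)
    rw [inner_smul_left, inner_smul_right, hD.psiS, Complex.conj_ofReal]
  have haG : a * L.E G = a := by rw [ha, smul_mul_assoc, hD.psiG]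
  have hab : a * L.E b = a := by rw [ha, smul_mul_assoc, hD.psib]
  obtain ⟨U1, co, cr, hco, hcr, hR1, hU1⟩ := bl_main hG hA hC hV hD.mb hD.mo hD.mr hD.bM hD.oM
    hD.rM hD.bo hD.br hD.or haA hsa haG hab μ ν
  have hco' : ‖(starRingEnd ℂ) co‖ = 1 := by rw [RCLike.norm_conj, hco]
  have hcr' : ‖(starRingEnd ℂ) cr‖ = 1 := by rw [RCLike.norm_conj, hcr]
  obtain ⟨P1, hR2, hP1⟩ := L.phase_off hA hC hR1 hD.mo hco'
  obtain ⟨P2, hR3, hP2⟩ := L.phase_off hA hC hR2 hD.mr hcr'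
  have key : U * V = P2 * (P1 * U1) := by
    ext x
    have hq : L.iota (L.E b (V⁻¹ (-(a (L.Z (L.sinf v (V L.Om))))))) = L.rvec v b psi s V := by
      rw [rvec, ← map_smul, ← map_smul, ← map_smul]
      congr 3
      change -((s : ℂ) • psi (L.Z (L.sinf v (V L.Om)))) = _
      rw [neg_smul]
    have hgen : (-Complex.I) • (a * (clm L.Z * L.cosf v))
        = (-(Complex.I * (s : ℂ))) • (psi * (clm L.Z * L.cosf v)) := by
      rw [ha, smul_mul_assoc, smul_smul, neg_mul]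
    have h1 := hU1 x
    rw [hq, hgen] at h1
    set B := NormedSpace.exp ((-(Complex.I * (s : ℂ))) • (psi * (clm L.Z * L.cosf v)))
      (L.E b (V x)) with hB
    -- `B` lies in the block `b`
    have hBb : L.E b B = B := by
      have e1 : ∀ y, L.E b (a y) = a (L.E b y) := fun y =>
        congrArg (fun T : H →L[ℂ] H => T y) (hA.comm _ _ (hA.lab _ (Bm.ind hD.mb 1)) haA)
      have hc : Commute (L.E b) ((-Complex.I) • (a * (clm L.Z * L.cosf v))) := by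
        refine Commute.smul_right ?_ _
        ext y
        change L.E b (a (L.Z ((1 / 2 : ℂ) • (L.W v y + L.W (-v) y))))
          = a (L.Z ((1 / 2 : ℂ) • (L.W v (L.E b y) + L.W (-v) (L.E b y))))
        rw [e1, L.E_Z, map_smul, map_add, L.E_W, L.E_W]
      rw [hgen] at hc
      have h3 := congrArg (fun T : H →L[ℂ] H => T (L.E b (V x))) hc.exp_right.eq
      have h4 : L.E b B = NormedSpace.exp ((-(Complex.I * (s : ℂ))) •
        (psi * (clm L.Z * L.cosf v))) (L.E b (L.E b (V x))) := h3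
      rw [h4, L.E_E hD.mb]
    set q := L.rvec v b psi s V with hqd
    set O := L.pw (L.pau 2) ((μ : ℂ) • q) (L.E o (V x)) with hO
    set Rr := L.pw (L.pau 1) ((ν : ℂ) • q) (L.E r (V x)) with hRr
    have hOo : L.E o O = O := by rw [hO, L.E_pw, L.E_E hD.mo]
    have hRrr : L.E r Rr = Rr := by rw [hRr, L.E_pw, L.E_E hD.mr]
    have hoB : L.E o B = 0 := by rw [← hBb, L.E_dis hD.mo hD.mb hD.bo.symm]
    have hrB : L.E r B = 0 := by rw [← hBb, L.E_dis hD.mr hD.mb hD.br.symm]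
    have hrO : L.E r O = 0 := by rw [← hOo, L.E_dis hD.mr hD.mo hD.or.symm]
    have hoR : L.E o Rr = 0 := by rw [← hRrr, L.E_dis hD.mo hD.mr hD.or]
    have h1' : U1 x = B + co • O + cr • Rr
      + (V x - L.E b (V x) - L.E o (V x) - L.E r (V x)) := h1
    have h2 : (U * V) x = B + (1 : ℂ) • O + (1 : ℂ) • Rr
      + (V x - L.E b (V x) - L.E o (V x) - L.E r (V x)) := hU (V x)
    have r1 : L.E o (V x - L.E b (V x) - L.E o (V x) - L.E r (V x)) = 0 := by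
      rw [map_sub, map_sub, map_sub, L.E_dis hD.mo hD.mb hD.bo.symm, L.E_E hD.mo,
        L.E_dis hD.mo hD.mr hD.or]
      abel
    have r2 : L.E r (V x - L.E b (V x) - L.E o (V x) - L.E r (V x)) = 0 := by
      rw [map_sub, map_sub, map_sub, L.E_dis hD.mr hD.mb hD.br.symm, L.E_E hD.mr,
        L.E_dis hD.mr hD.mo hD.or.symm]
      abel
    have cc1 : (starRingEnd ℂ) co * co = 1 := by rw [Complex.conj_mul', hco]; simp
    have cc2 : (starRingEnd ℂ) cr * cr = 1 := by rw [Complex.conj_mul', hcr]; simp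
    have h5 : P1 (U1 x) = B + O + cr • Rr
        + (V x - L.E b (V x) - L.E o (V x) - L.E r (V x)) := by
      have e5 : L.E o (U1 x) = co • O := by
        rw [h1', map_add, map_add, map_add, r1, hoB, map_smul, map_smul, hOo, hoR, smul_zero]
        abel
      rw [hP1, e5, smul_smul, cc1, one_smul, h1']
      abel
    have h6 : P2 (P1 (U1 x)) = B + O + Rr
        + (V x - L.E b (V x) - L.E o (V x) - L.E r (V x)) := by
      have e5 : L.E r (P1 (U1 x)) = cr • Rr := by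
        rw [h5, map_add, map_add, map_add, r2, hrB, hrO, map_smul, hRrr]
        abel
      rw [hP2, e5, smul_smul, cc2, one_smul, h5]
      abel
    rw [h2, one_smul, one_smul]
    exact h6.symm
  rw [key]
  exact hR3

end LSys

end Vale.Agent.P367.A
end

section

/-! P367, block B, T2: existence of sweeps, unconditional. -/

namespace Vale.Agent.P367.A

open Filter Topology

namespace LSys

variable {H K : Type} [NormedAddCommGroup H] [InnerProductSpace ℂ H]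
  [NormedAddCommGroup K] [InnerProductSpace ℂ K]

/-- (S) existence of sweeps -/
theorem sweep_all [CompleteSpace H] (L : LSys H K)
    (hc : ∀ x : H, Tendsto (fun a => L.W a x) (𝓝 0) (𝓝 x)) : L.SweepStmt hc :=
  L.sweepStmt hc L.fgStmt

end LSys

end Vale.Agent.P367.A
end

section

/-! P367, block B: basic facts on label systems (labels, block unitaries, pulses, strong continuity).
Used for the level step (Nest.lean). -/

namespace Vale.Agent.P367.A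

open Complex Filter Topology MeasureTheory

namespace LSys

variable {H K : Type*} [NormedAddCommGroup H] [InnerProductSpace ℂ H]
  [NormedAddCommGroup K] [InnerProductSpace ℂ K] (L : LSys H K)

/-! ### labels -/

lemma nst_bm_ind {b : Set ℝ} (hb : MeasurableSet b) : Bm (b.indicator fun _ => (1 : ℂ)) := by
  refine ⟨measurable_const.indicator hb, 1, fun x => ?_⟩
  by_cases h : x ∈ b <;> simp [h]

lemma nst_E_mul {A B : Set ℝ} (hA : MeasurableSet A) (hB : MeasurableSet B) :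
    L.E A * L.E B = L.E (A ∩ B) := by
  unfold E
  rw [← L.lab_mul _ _ (nst_bm_ind hA) (nst_bm_ind hB)]
  congr 1
  ext t
  by_cases h1 : t ∈ A <;> by_cases h2 : t ∈ B <;> simp [h1, h2]

lemma nst_E_add {A B : Set ℝ} (hA : MeasurableSet A) (hB : MeasurableSet B) (h : Disjoint A B) :
    L.E A + L.E B = L.E (A ∪ B) := by
  unfold E
  rw [← L.lab_add _ _ (nst_bm_ind hA) (nst_bm_ind hB)]
  congr 1
  ext t
  by_cases h1 : t ∈ A
  · have h2 : t ∉ B := Set.disjoint_left.1 h h1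
    simp [h1, h2]
  · by_cases h2 : t ∈ B <;> simp [h1, h2]

lemma nst_E_univ : L.E Set.univ = 1 := by
  unfold E
  have := L.lab_const 1
  rw [one_smul] at this
  rw [← this]
  congr 1
  ext t
  simp

lemma nst_E_empty : L.E ∅ = 0 := by
  unfold E
  have := L.lab_const 0
  rw [zero_smul] at this
  rw [← this]
  congr 1
  ext t
  simp

lemma nst_E_sa {b : Set ℝ} (hb : MeasurableSet b) : Sa (L.E b) := by
  intro x y
  unfold E
  rw [L.lab_adj _ (nst_bm_ind hb)]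
  congr 3
  ext t
  by_cases h : t ∈ b <;> simp [h]

lemma nst_E_X (b : Set ℝ) (x : H) : L.E b (L.X x) = L.X (L.E b x) := L.lab_X _ x
lemma nst_E_Z (b : Set ℝ) (x : H) : L.E b (L.Z x) = L.Z (L.E b x) := L.lab_Z _ x
lemma nst_E_W (b : Set ℝ) (a : K) (x : H) : L.E b (L.W a x) = L.W a (L.E b x) := L.lab_W _ a x

lemma nst_E_E {A B : Set ℝ} (hA : MeasurableSet A) (hB : MeasurableSet B) (x : H) :
    L.E A (L.E B x) = L.E (A ∩ B) x := by
  rw [← L.nst_E_mul hA hB]; rfl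

lemma nst_E_sub {A B : Set ℝ} (hA : MeasurableSet A) (hB : MeasurableSet B) (h : A ⊆ B) (x : H) :
    L.E A (L.E B x) = L.E A x := by
  rw [L.nst_E_E hA hB, Set.inter_eq_left.2 h]

lemma nst_E_sub' {A B : Set ℝ} (hA : MeasurableSet A) (hB : MeasurableSet B) (h : A ⊆ B) (x : H) :
    L.E B (L.E A x) = L.E A x := by
  rw [L.nst_E_E hB hA, Set.inter_eq_right.2 h]

lemma nst_E_idem {A : Set ℝ} (hA : MeasurableSet A) (x : H) : L.E A (L.E A x) = L.E A x :=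
  L.nst_E_sub hA hA le_rfl x

lemma nst_E_disj {A B : Set ℝ} (hA : MeasurableSet A) (hB : MeasurableSet B) (h : Disjoint A B)
    (x : H) : L.E A (L.E B x) = 0 := by
  rw [L.nst_E_E hA hB, Set.disjoint_iff_inter_eq_empty.1 h, L.nst_E_empty]; rfl

lemma nst_norm_E_le {b : Set ℝ} (hb : MeasurableSet b) (x : H) : ‖L.E b x‖ ≤ ‖x‖ := by
  have h1 : (inner ℂ (L.E b x) (L.E b x) : ℂ) = inner ℂ x (L.E b x) := by
    rw [L.nst_E_sa hb, L.nst_E_idem hb]
  have h2 : ‖L.E b x‖ ^ 2 ≤ ‖x‖ * ‖L.E b x‖ := by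
    have h3 := congrArg norm h1
    rw [inner_self_eq_norm_sq_to_K] at h3
    have h4 : ‖((‖L.E b x‖ : ℝ) : ℂ) ^ 2‖ = ‖L.E b x‖ ^ 2 := by
      rw [norm_pow, Complex.norm_real, norm_norm]
    have h5 := norm_inner_le_norm (𝕜 := ℂ) x (L.E b x)
    calc ‖L.E b x‖ ^ 2 = ‖(inner ℂ x (L.E b x) : ℂ)‖ := by rw [← h3]; exact h4.symm
      _ ≤ _ := h5
  by_contra hc
  push Not at hc
  have h0 : 0 ≤ ‖x‖ := norm_nonneg x
  nlinarith

/-! ### Paulis and pulses -/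

lemma nst_E_xr (b : Set ℝ) (t : ℝ) (x : H) : L.E b (L.xr t x) = L.xr t (L.E b x) := by
  rw [Sys.xr_apply, Sys.xr_apply, map_sub, map_smul, map_smul, L.nst_E_X]

lemma nst_E_pau (b : Set ℝ) (P : Fin 3) (x : H) : L.E b (L.pau P x) = L.pau P (L.E b x) := by
  fin_cases P
  · exact L.nst_E_X b x
  · change L.E b (L.Zt _ x) = L.Zt _ (L.E b x)
    rw [Sys.Zt_apply, Sys.Zt_apply, nst_E_xr, nst_E_Z]
  · exact L.nst_E_Z b x

lemma nst_pau_pau (P : Fin 3) (x : H) : L.pau P (L.pau P x) = x := by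
  fin_cases P
  · exact L.XX x
  · exact L.Zt_sq _ x
  · exact L.ZZ x

lemma nst_W_pau (P : Fin 3) (a : K) (x : H) : L.W a (L.pau P x) = L.pau P (L.W a x) := by
  fin_cases P
  · exact L.WX a x
  · exact L.W_ZtA a _ x
  · exact L.WZ a x

/-- an operator commuting with `X`, `Z` commutes with the Paulis -/
lemma nst_comm_pau {f : H → H} (hadd : ∀ x y, f (x - y) = f x - f y)
    (hsmul : ∀ (c : ℂ) x, f (c • x) = c • f x) (hX : ∀ x, f (L.X x) = L.X (f x))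
    (hZ : ∀ x, f (L.Z x) = L.Z (f x)) (P : Fin 3) (x : H) :
    f (L.pau P x) = L.pau P (f x) := by
  fin_cases P
  · exact hX x
  · change f (L.Zt _ x) = L.Zt _ (f x)
    rw [Sys.Zt_apply, Sys.Zt_apply, Sys.xr_apply, Sys.xr_apply, hadd, hsmul, hsmul, hX, hZ]
  · exact hZ x

lemma nst_inner_pau (P : Fin 3) (x y : H) : inner ℂ (L.pau P x) y = inner ℂ x (L.pau P y) := by
  have h := (L.pau P).inner_map_map x (L.pau P y)
  rwa [L.nst_pau_pau] at h

/-- the pulse `exp(-i P phi(v))` as a linear map -/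
noncomputable def nst_pwL (P : Fin 3) (v : K) : H →ₗ[ℂ] H :=
  (1 / 2 : ℂ) • ((L.W (-v)).toLinearEquiv.toLinearMap + (L.W v).toLinearEquiv.toLinearMap)
  + (1 / 2 : ℂ) • ((L.W (-v)).toLinearEquiv.toLinearMap - (L.W v).toLinearEquiv.toLinearMap)
      ∘ₗ (L.pau P).toLinearEquiv.toLinearMap

lemma nst_pwL_apply (P : Fin 3) (v : K) (x : H) : L.nst_pwL P v x = L.pw (L.pau P) v x := rfl

lemma nst_pw_pw_neg (P : Fin 3) (v : K) (x : H) :
    L.pw (L.pau P) v (L.pw (L.pau P) (-v) x) = x := by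
  simp only [pw, map_add, map_sub, map_smul, neg_neg, L.nst_W_pau, L.nst_pau_pau, L.W_neg_W, L.W_W_neg]
  module

/-- the pulse `exp(-i P phi(v))` -/
noncomputable def nst_pwU (P : Fin 3) (v : K) : H ≃ₗᵢ[ℂ] H :=
  mkU (L.nst_pwL P v) (L.nst_pwL P (-v))
    (fun x => by
      have := L.nst_pw_pw_neg P (-v) x
      rw [neg_neg] at this
      exact this)
    (fun x => L.nst_pw_pw_neg P v x)
    (fun x y => by
      simp only [nst_pwL_apply, pw, inner_sub_left, inner_sub_right, inner_smul_left, inner_smul_right,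
        L.nst_inner_pau, L.inner_W, inner_add_left, inner_add_right, neg_neg, ← L.nst_W_pau, map_div₀,
        map_one, Complex.conj_ofNat])

lemma nst_pwU_apply (P : Fin 3) (v : K) (x : H) : L.nst_pwU P v x = L.pw (L.pau P) v x := rfl

lemma nst_pw_two (v : K) (x : H) : L.pw (L.pau 2) v x = L.zr v x := rfl

lemma nst_comm_pw {f : H → H} (hadd : ∀ x y, f (x + y) = f x + f y)
    (hsub : ∀ x y, f (x - y) = f x - f y)
    (hsmul : ∀ (c : ℂ) x, f (c • x) = c • f x) {P : Fin 3} {v : K}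
    (hP : ∀ x, f (L.pau P x) = L.pau P (f x))
    (h1 : ∀ x, f (L.W v x) = L.W v (f x)) (h2 : ∀ x, f (L.W (-v) x) = L.W (-v) (f x)) (x : H) :
    f (L.pw (L.pau P) v x) = L.pw (L.pau P) v (f x) := by
  simp only [pw, hadd, hsub, hsmul, h1, h2, hP]

lemma nst_E_pw (b : Set ℝ) (P : Fin 3) (v : K) (x : H) :
    L.E b (L.pw (L.pau P) v x) = L.pw (L.pau P) v (L.E b x) :=
  L.nst_comm_pw (map_add _) (map_sub _) (fun c x => map_smul _ c x) (L.nst_E_pau b P) (L.nst_E_W b v)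
    (L.nst_E_W b (-v)) x

lemma nst_E_pwU (b : Set ℝ) (P : Fin 3) (v : K) (x : H) :
    L.E b (L.nst_pwU P v x) = L.nst_pwU P v (L.E b x) := L.nst_E_pw b P v x

/-! ### block unitaries -/

/-- linear map of a block -/
noncomputable def nst_blkL (S : Set ℝ) (U : H ≃ₗᵢ[ℂ] H) : H →ₗ[ℂ] H :=
  U.toLinearEquiv.toLinearMap ∘ₗ (L.E S).toLinearMap + (LinearMap.id - (L.E S).toLinearMap)

lemma nst_blkL_apply (S : Set ℝ) (U : H ≃ₗᵢ[ℂ] H) (x : H) :
    L.nst_blkL S U x = U (L.E S x) + (x - L.E S x) := rfl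

lemma nst_blkL_inv {S : Set ℝ} (hS : MeasurableSet S) {U V : H ≃ₗᵢ[ℂ] H}
    (hU : ∀ x, L.E S (V x) = V (L.E S x)) (h : ∀ x, U (V x) = x) (x : H) :
    L.nst_blkL S U (L.nst_blkL S V x) = x := by
  rw [nst_blkL_apply, nst_blkL_apply, map_add, map_sub, hU, L.nst_E_idem hS, sub_self, add_zero, h]
  abel

/-- the unitary acting as `U` on the labels in `S` and trivially on the others -/
noncomputable def nst_blk {S : Set ℝ} (hS : MeasurableSet S) {U : H ≃ₗᵢ[ℂ] H}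
    (hU : ∀ x, L.E S (U x) = U (L.E S x)) : H ≃ₗᵢ[ℂ] H :=
  mkU (L.nst_blkL S U) (L.nst_blkL S U⁻¹)
    (L.nst_blkL_inv hS hU (fun x => U.symm_apply_apply x))
    (L.nst_blkL_inv hS (fun x => by
      apply U.injective
      rw [← hU, Sys.Ainv, Sys.Ainv]) (fun x => U.apply_symm_apply x))
    (fun x y => by
      have h : ∀ x y, inner ℂ (L.E S x) y = inner ℂ x (L.E S y) := L.nst_E_sa hS
      rw [nst_blkL_apply, nst_blkL_apply, inner_add_left, inner_add_right, inner_sub_left, inner_sub_right,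
        h]
      congr 1
      rw [← (U⁻¹).inner_map_map, Sys.invA, h]
      congr 1
      apply U.injective
      rw [← hU, Sys.Ainv, Sys.Ainv])

lemma nst_blk_apply {S : Set ℝ} (hS : MeasurableSet S) {U : H ≃ₗᵢ[ℂ] H}
    (hU : ∀ x, L.E S (U x) = U (L.E S x)) (x : H) :
    L.nst_blk hS hU x = U (L.E S x) + (x - L.E S x) := rfl

/-! ### strong continuity of the Weyl operators -/

lemma nst_inner_WOm (a b : K) : inner ℂ (L.W a L.Om) (L.W b L.Om)
    = Complex.exp (Complex.I * (th a b : ℂ)) * Complex.exp (-((‖b - a‖ ^ 2 / 2 : ℝ) : ℂ)) := by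
  rw [L.inner_W, L.WW', inner_smul_right, L.vac, th_neg_left, neg_add_eq_sub]
  congr 2
  push_cast
  ring

lemma nst_continuous_W_Om : Continuous fun v => L.W v L.Om := by
  rw [continuous_iff_continuousAt]
  intro v
  rw [ContinuousAt, tendsto_iff_norm_sub_tendsto_zero]
  have h1 : ∀ w, ‖L.W w L.Om - L.W v L.Om‖ ^ 2
      = 2 - 2 * (Complex.exp (Complex.I * (th w v : ℂ))
        * Complex.exp (-((‖v - w‖ ^ 2 / 2 : ℝ) : ℂ))).re := by
    intro w
    rw [@norm_sub_sq ℂ H, (L.W w).norm_map, (L.W v).norm_map, L.nOm, nst_inner_WOm,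
      RCLike.re_to_complex]
    ring
  have h2 : Continuous fun w : K => 2 - 2 * (Complex.exp (Complex.I * (th w v : ℂ))
        * Complex.exp (-((‖v - w‖ ^ 2 / 2 : ℝ) : ℂ))).re := by
    unfold th
    fun_prop
  have h3 : Tendsto (fun w => ‖L.W w L.Om - L.W v L.Om‖ ^ 2) (𝓝 v) (𝓝 0) := by
    have h4 := h2.tendsto v
    simp only [sub_self, norm_zero, th_self] at h4
    norm_num at h4
    refine h4.congr fun w => ?_
    rw [h1]
    push_cast
    rfl
  have h5 := h3.sqrt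
  rw [Real.sqrt_zero] at h5
  refine h5.congr fun w => ?_
  exact Real.sqrt_sq (norm_nonneg _)

lemma nst_continuous_W (x : H) : Continuous fun v => L.W v x := by
  have key : ∀ x ∈ (Submodule.span ℂ {x : H | ∃ (T : H →L[ℂ] H) (a : K),
      (∀ b y, L.W b (T y) = T (L.W b y)) ∧ (∀ f, Bm f → ∀ y, L.lab f (T y) = T (L.lab f y)) ∧
      x = T (L.W a L.Om)}), Continuous fun v => L.W v x := by
    intro x hx
    induction hx using Submodule.span_induction with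
    | mem x hx =>
      obtain ⟨T, a, hT, _, rfl⟩ := hx
      simp only [hT, L.WW', map_smul]
      refine Continuous.smul ?_ (T.continuous.comp (L.nst_continuous_W_Om.comp
        (continuous_id.add continuous_const)))
      unfold th
      fun_prop
    | zero => simp only [map_zero]; exact continuous_const
    | add x y _ _ hx hy => simp only [map_add]; exact hx.add hy
    | smul c x _ hx => simp only [map_smul]; exact hx.const_smul c
  rw [Metric.continuous_iff]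
  intro v ε hε
  have hd : x ∈ closure ((Submodule.span ℂ {x : H | ∃ (T : H →L[ℂ] H) (a : K),
      (∀ b y, L.W b (T y) = T (L.W b y)) ∧ (∀ f, Bm f → ∀ y, L.lab f (T y) = T (L.lab f y)) ∧
      x = T (L.W a L.Om)} : Submodule ℂ H) : Set H) := by
    rw [← Submodule.topologicalClosure_coe, L.cyc]
    trivial
  obtain ⟨z, hz, hxz⟩ := Metric.mem_closure_iff.1 hd (ε / 3) (by positivity)
  obtain ⟨δ, hδ, h⟩ := Metric.continuous_iff.1 (key z hz) v (ε / 3) (by positivity)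
  refine ⟨δ, hδ, fun w hw => ?_⟩
  have h1 : dist (L.W w x) (L.W w z) = dist x z := (L.W w).dist_map x z
  have h2 : dist (L.W v z) (L.W v x) = dist x z := by rw [(L.W v).dist_map, dist_comm]
  have h3 := h w hw
  calc dist (L.W w x) (L.W v x) ≤ dist (L.W w x) (L.W w z) + dist (L.W w z) (L.W v z)
        + dist (L.W v z) (L.W v x) := dist_triangle4 _ _ _ _
    _ < ε := by rw [h1, h2]; linarith

lemma nst_tendsto_W {α : Type*} {l : Filter α} {v : α → K} {v0 : K} {x : α → H} {x0 : H}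
    (hv : Tendsto v l (𝓝 v0)) (hx : Tendsto x l (𝓝 x0)) :
    Tendsto (fun i => L.W (v i) (x i)) l (𝓝 (L.W v0 x0)) := by
  have h1 : Tendsto (fun i => L.W (v i) x0) l (𝓝 (L.W v0 x0)) :=
    ((L.nst_continuous_W x0).tendsto v0).comp hv
  have h2 : Tendsto (fun i => L.W (v i) (x i) - L.W (v i) x0) l (𝓝 0) := by
    rw [tendsto_zero_iff_norm_tendsto_zero]
    have h3 : Tendsto (fun i => ‖x i - x0‖) l (𝓝 0) := tendsto_iff_norm_sub_tendsto_zero.1 hx
    refine h3.congr fun i => ?_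
    rw [← map_sub, (L.W (v i)).norm_map]
  have h4 := h2.add h1
  rw [zero_add] at h4
  exact h4.congr fun i => by abel

lemma nst_tendsto_pw {α : Type*} {l : Filter α} (P : Fin 3) {v : α → K} {v0 : K} {x : α → H} {x0 : H}
    (hv : Tendsto v l (𝓝 v0)) (hx : Tendsto x l (𝓝 x0)) :
    Tendsto (fun i => L.pw (L.pau P) (v i) (x i)) l (𝓝 (L.pw (L.pau P) v0 x0)) := by
  have hP : Tendsto (fun i => L.pau P (x i)) l (𝓝 (L.pau P x0)) :=
    ((L.pau P).continuous.tendsto x0).comp hx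
  unfold pw
  exact (((L.nst_tendsto_W hv.neg hx).add (L.nst_tendsto_W hv hx)).const_smul _).add
    (((L.nst_tendsto_W hv.neg hP).sub (L.nst_tendsto_W hv hP)).const_smul _)

/-! ### `E_M`-strong convergence of states -/

section conv

variable {α : Type*} {l : Filter α} {V : α → (H ≃ₗᵢ[ℂ] H)} {V0 : H ≃ₗᵢ[ℂ] H} {M : Set ℝ}

lemma nst_conv_sub (hM : MeasurableSet M)
    (h : ∀ x, Tendsto (fun i => L.E M (V i x)) l (𝓝 (L.E M (V0 x)))) {B : Set ℝ}
    (hB : MeasurableSet B) (hBM : B ⊆ M) (x : H) :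
    Tendsto (fun i => L.E B (V i x)) l (𝓝 (L.E B (V0 x))) := by
  have h1 := ((L.E B).continuous.tendsto _).comp (h x)
  rw [L.nst_E_sub hB hM hBM] at h1
  exact h1.congr fun i => L.nst_E_sub hB hM hBM _

/-- convergence of the inverses -/
lemma nst_conv_inv (hV : ∀ i x, L.E M (V i x) = V i (L.E M x))
    (h : ∀ x, Tendsto (fun i => L.E M (V i x)) l (𝓝 (L.E M (V0 x)))) (x : H) :
    Tendsto (fun i => L.E M ((V i)⁻¹ x)) l (𝓝 (L.E M (V0⁻¹ x))) := by
  rw [tendsto_iff_norm_sub_tendsto_zero]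
  have h1 := tendsto_iff_norm_sub_tendsto_zero.1 (h (V0⁻¹ x))
  refine h1.congr fun i => ?_
  rw [Sys.Ainv]
  have h2 : L.E M ((V i)⁻¹ x) = (V i)⁻¹ (L.E M x) := by
    apply (V i).injective
    rw [← hV, Sys.Ainv, Sys.Ainv]
  rw [h2, ← (V i).norm_map ((V i)⁻¹ (L.E M x) - L.E M (V0⁻¹ x)), map_sub, Sys.Ainv, ← hV,
    norm_sub_rev]

/-- convergence of the field vectors -/
lemma nst_conv_obs (hV : ∀ i x, L.E M (V i x) = V i (L.E M x))
    (h : ∀ x, Tendsto (fun i => L.E M (V i x)) l (𝓝 (L.E M (V0 x)))) (Q : H ≃ₗᵢ[ℂ] H)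
    (hQ : ∀ x, L.E M (Q x) = Q (L.E M x)) (y : H) :
    Tendsto (fun i => L.E M ((V i)⁻¹ (Q (V i y)))) l (𝓝 (L.E M (V0⁻¹ (Q (V0 y))))) := by
  have h1 := L.nst_conv_inv hV h (Q (V0 y))
  have h2 : Tendsto (fun i => L.E M ((V i)⁻¹ (Q (V i y))) - L.E M ((V i)⁻¹ (Q (V0 y)))) l
      (𝓝 0) := by
    rw [tendsto_zero_iff_norm_tendsto_zero]
    refine (tendsto_iff_norm_sub_tendsto_zero.1 (h y)).congr fun i => ?_
    have h3 : ∀ z, L.E M ((V i)⁻¹ z) = (V i)⁻¹ (L.E M z) := by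
      intro z
      apply (V i).injective
      rw [← hV, Sys.Ainv, Sys.Ainv]
    rw [h3, h3, ← map_sub (V i)⁻¹, ((V i)⁻¹).norm_map, hQ, hQ, ← map_sub Q, Q.norm_map]
  have h4 := h2.add h1
  rw [zero_add] at h4
  exact h4.congr fun i => by abel

end conv

/-! ### the coupling unitary -/

/-- the coupling unitary -/
noncomputable def nst_coupU {A B : Set ℝ} (hA : MeasurableSet A) (hB : MeasurableSet B)
    (P Q : Fin 3) (c : ℝ) (V : H ≃ₗᵢ[ℂ] H) : H ≃ₗᵢ[ℂ] H :=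
  L.nst_blk hA (U := L.nst_pwU P ((c : ℂ) • L.fv (L.pau Q) B V)) (L.nst_E_pwU A P _) *
  L.nst_blk hB (U := L.nst_pwU Q ((c : ℂ) • L.fv (L.pau P) A V)) (L.nst_E_pwU B Q _)

lemma nst_coupU_isCoup {A B : Set ℝ} (hA : MeasurableSet A) (hB : MeasurableSet B)
    (hAB : Disjoint A B) (P Q : Fin 3) (c : ℝ) (V : H ≃ₗᵢ[ℂ] H) :
    L.IsCoup A B P Q c V (L.nst_coupU hA hB P Q c V) := by
  intro x
  rw [nst_coupU, Sys.mulA, nst_blk_apply, nst_blk_apply, nst_pwU_apply, nst_pwU_apply]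
  simp only [map_add, map_sub, L.nst_E_pw, L.nst_E_disj hA hB hAB]
  have h0 : L.pw (L.pau Q) ((c : ℂ) • L.fv (L.pau P) A V) 0 = 0 := by
    simp [pw]
  rw [h0, sub_zero, zero_add]
  abel

lemma nst_isCoup_unique {A B : Set ℝ} {P Q : Fin 3} {c : ℝ} {V U U' : H ≃ₗᵢ[ℂ] H}
    (h : L.IsCoup A B P Q c V U) (h' : L.IsCoup A B P Q c V U') : U = U' := by
  ext x
  rw [h x, h' x]

end LSys

end Vale.Agent.P367.A
end

section

/-! P367, block B, level step: exponentials, dressings. -/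

namespace Vale.Agent.P367.A

open Complex Filter Topology MeasureTheory

namespace LSys

section expo

variable {H : Type*} [NormedAddCommGroup H] [InnerProductSpace ℂ H] [CompleteSpace H]

/-- a unitary as a bounded operator -/
noncomputable abbrev nst_cl (V : H ≃ₗᵢ[ℂ] H) : H →L[ℂ] H :=
  V.toContinuousLinearEquiv.toContinuousLinearMap

omit [CompleteSpace H] in
lemma nst_cl_apply (V : H ≃ₗᵢ[ℂ] H) (x : H) : nst_cl V x = V x := rfl

lemma nst_exp_mul_of_zero {Y B : H →L[ℂ] H} (h : Y * B = 0) : NormedSpace.exp Y * B = B := by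
  have h1 := (NormedSpace.exp_series_hasSum_exp' (𝕂 := ℂ) Y).mul_right B
  have h2 : HasSum (fun n => ((n.factorial : ℂ)⁻¹ • Y ^ n) * B)
      (((Nat.factorial 0 : ℂ)⁻¹ • Y ^ 0) * B) := by
    apply hasSum_single
    intro n hn
    obtain ⟨m, rfl⟩ := Nat.exists_eq_succ_of_ne_zero hn
    rw [pow_succ, smul_mul_assoc, mul_assoc, h, mul_zero, smul_zero]
  have h3 := h1.unique h2
  rw [h3]
  simp

lemma nst_exp_mul_eq {A C B : H →L[ℂ] H} (h : Commute A C) (hB : (A - C) * B = 0) :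
    NormedSpace.exp A * B = NormedSpace.exp C * B := by
  have e : A = C + (A - C) := by abel
  have hc : Commute C (A - C) := (h.symm).sub_right (Commute.refl C)
  let +nondep : NormedAlgebra ℚ (H →L[ℂ] H) := .restrictScalars ℚ ℂ (H →L[ℂ] H)
  rw [e, NormedSpace.exp_add_of_commute hc, mul_assoc, nst_exp_mul_of_zero hB]

lemma nst_exp_comm {a : H →L[ℂ] H} {b : H →L[ℂ] H} (h : Commute a b) (z : ℂ) :
    Commute (NormedSpace.exp (z • a)) b := (h.smul_left z).exp_left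

/-- `exp(-i t a)` -/
noncomputable def nst_ep (t : ℝ) (a : H →L[ℂ] H) : H →L[ℂ] H :=
  NormedSpace.exp ((-(Complex.I * (t : ℂ))) • a)

lemma nst_ep_comm {a b : H →L[ℂ] H} (h : Commute a b) (t : ℝ) : Commute (nst_ep t a) b := nst_exp_comm h _

lemma nst_ep_comm' {a : H →L[ℂ] H} {f : H → H} {b : H →L[ℂ] H} (hf : ∀ x, f x = b x)
    (h : ∀ x, a (f x) = f (a x)) (t : ℝ) (x : H) : nst_ep t a (f x) = f (nst_ep t a x) := by
  have h1 : Commute a b := by
    ext x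
    have := h x
    rw [hf, hf] at this
    exact this
  rw [hf, hf]
  exact DFunLike.congr_fun (nst_ep_comm h1 t) x

lemma nst_ep_V {a : H →L[ℂ] H} {V : H ≃ₗᵢ[ℂ] H} (h : ∀ x, a (V x) = V (a x)) (t : ℝ) (x : H) :
    nst_ep t a (V x) = V (nst_ep t a x) :=
  nst_ep_comm' (b := nst_cl V) (fun _ => rfl) h t x

lemma nst_ep_zero (a : H →L[ℂ] H) : nst_ep 0 a = 1 := by
  simp [nst_ep]

lemma nst_ep_add (s t : ℝ) (a : H →L[ℂ] H) : nst_ep (s + t) a = nst_ep s a * nst_ep t a := by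
  unfold nst_ep
  let +nondep : NormedAlgebra ℚ (H →L[ℂ] H) := .restrictScalars ℚ ℂ (H →L[ℂ] H)
  rw [← NormedSpace.exp_add_of_commute
    (((Commute.refl a).smul_left _).smul_right _), ← add_smul]
  congr 2
  push_cast
  ring

lemma nst_ep_add' {a b : H →L[ℂ] H} (h : Commute a b) (t : ℝ) : nst_ep t (a + b) = nst_ep t a * nst_ep t b := by
  unfold nst_ep
  let +nondep : NormedAlgebra ℚ (H →L[ℂ] H) := .restrictScalars ℚ ℂ (H →L[ℂ] H)
  rw [← NormedSpace.exp_add_of_commute ((h.smul_left _).smul_right _), ← smul_add]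

lemma nst_ep_mul_neg (t : ℝ) (a : H →L[ℂ] H) : nst_ep t a * nst_ep (-t) a = 1 := by
  rw [← nst_ep_add, add_neg_cancel, nst_ep_zero]

lemma nst_ep_neg_mul (t : ℝ) (a : H →L[ℂ] H) : nst_ep (-t) a * nst_ep t a = 1 := by
  rw [← nst_ep_add, neg_add_cancel, nst_ep_zero]

lemma nst_inner_ep {a : H →L[ℂ] H} (ha : Sa a) (t : ℝ) (x y : H) :
    inner ℂ (nst_ep t a x) y = inner ℂ x (nst_ep (-t) a y) := by
  have hs : IsSelfAdjoint a := ContinuousLinearMap.isSelfAdjoint_iff_isSymmetric.2 ha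
  have h1 : star (nst_ep t a) = nst_ep (-t) a := by
    unfold nst_ep
    rw [NormedSpace.star_exp, star_smul, hs.star_eq]
    congr 2
    simp
  rw [← h1, ContinuousLinearMap.star_eq_adjoint, ContinuousLinearMap.adjoint_inner_right]

/-- `exp(-i t a)` as a unitary -/
noncomputable def nst_epU (t : ℝ) {a : H →L[ℂ] H} (ha : Sa a) : H ≃ₗᵢ[ℂ] H :=
  mkU (nst_ep t a).toLinearMap (nst_ep (-t) a).toLinearMap
    (fun x => DFunLike.congr_fun (nst_ep_neg_mul t a) x)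
    (fun x => DFunLike.congr_fun (nst_ep_mul_neg t a) x)
    (fun x y => nst_inner_ep ha t x y)

lemma nst_epU_apply (t : ℝ) {a : H →L[ℂ] H} (ha : Sa a) (x : H) : nst_epU t ha x = nst_ep t a x := rfl

lemma nst_isPh_iff {a : H →L[ℂ] H} {U : H ≃ₗᵢ[ℂ] H} : IsPh a U ↔ ∀ x, U x = nst_ep 1 a x := by
  unfold IsPh nst_ep
  simp

omit [CompleteSpace H] in
lemma Sa.nst_smul {a : H →L[ℂ] H} (ha : Sa a) (t : ℝ) : Sa ((t : ℂ) • a) := by
  intro x y
  simp only [smul_apply, inner_smul_left, inner_smul_right, ha x y,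
    Complex.conj_ofReal]

omit [CompleteSpace H] in
lemma Sa.nst_mul {a b : H →L[ℂ] H} (ha : Sa a) (hb : Sa b) (h : a * b = b * a) : Sa (a * b) := by
  intro x y
  change inner ℂ (a (b x)) y = inner ℂ x ((a * b) y)
  rw [ha, hb, h]
  rfl

omit [CompleteSpace H] in
lemma Sa.nst_add {a b : H →L[ℂ] H} (ha : Sa a) (hb : Sa b) : Sa (a + b) := by
  intro x y
  simp only [add_apply, inner_add_left, inner_add_right, ha x y, hb x y]

omit [CompleteSpace H] in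
lemma Sa.nst_zero : Sa (0 : H →L[ℂ] H) := by
  intro x y
  simp

omit [CompleteSpace H] in
/-- commuting self-adjoint operators: real inner product -/
lemma nst_im_zero {a b : H →L[ℂ] H} (ha : Sa a) (hb : Sa b) (h : ∀ x, a (b x) = b (a x)) (y : H) :
    (inner ℂ (a y) (b y) : ℂ).im = 0 := by
  have h1 : (inner ℂ (a y) (b y) : ℂ) = inner ℂ (b y) (a y) := by
    rw [ha, h, hb]
  rw [← inner_conj_symm (b y) (a y)] at h1
  exact Complex.conj_eq_iff_im.1 h1.symm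

/-- unitary commuting with a set of operators -/
def NstCm (𝔅 : Set (H →L[ℂ] H)) (V : H ≃ₗᵢ[ℂ] H) : Prop := ∀ a ∈ 𝔅, ∀ x, a (V x) = V (a x)

omit [CompleteSpace H] in
lemma NstCm.one (𝔅 : Set (H →L[ℂ] H)) : NstCm 𝔅 1 := fun _ _ _ => rfl

omit [CompleteSpace H] in
lemma NstCm.mul {𝔅 : Set (H →L[ℂ] H)} {U V : H ≃ₗᵢ[ℂ] H} (hU : NstCm 𝔅 U) (hV : NstCm 𝔅 V) :
    NstCm 𝔅 (U * V) := by
  intro a ha x
  rw [Sys.mulA, Sys.mulA, hU a ha, hV a ha]

omit [CompleteSpace H] in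
lemma NstCm.inv {𝔅 : Set (H →L[ℂ] H)} {U : H ≃ₗᵢ[ℂ] H} (hU : NstCm 𝔅 U) : NstCm 𝔅 U⁻¹ := by
  intro a ha x
  apply U.injective
  rw [← hU a ha, Sys.Ainv, Sys.Ainv]

omit [CompleteSpace H] in
lemma NstCm.mono {𝔅 ℭ : Set (H →L[ℂ] H)} {U : H ≃ₗᵢ[ℂ] H} (hU : NstCm ℭ U) (h : 𝔅 ⊆ ℭ) :
    NstCm 𝔅 U := fun a ha => hU a (h ha)

end expo

variable {H K : Type*} [NormedAddCommGroup H] [InnerProductSpace ℂ H]
  [NormedAddCommGroup K] [InnerProductSpace ℂ K] (L : LSys H K)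

namespace Ctl

variable {L} {𝔄 : Set (H →L[ℂ] H)} (h : L.Ctl 𝔄)

include h

lemma nst_E_mem {b : Set ℝ} (hb : MeasurableSet b) : L.E b ∈ 𝔄 := h.lab _ (nst_bm_ind hb)

lemma nst_smul_mem (c : ℂ) {a : H →L[ℂ] H} (ha : a ∈ 𝔄) : c • a ∈ 𝔄 := by
  have h1 : L.lab (fun _ => c) ∈ 𝔄 := h.lab _ ⟨measurable_const, ‖c‖, fun _ => le_rfl⟩
  have h2 := h.mul _ _ h1 ha
  rwa [L.lab_const, smul_mul_assoc, one_mul] at h2

lemma nst_zero_mem : (0 : H →L[ℂ] H) ∈ 𝔄 := by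
  have h1 : L.lab (fun _ => (0 : ℂ)) ∈ 𝔄 := h.lab _ ⟨measurable_const, 0, fun _ => by simp⟩
  rwa [L.lab_const, zero_smul] at h1

lemma nst_sum_mem {ι : Type*} (s : Finset ι) (f : ι → (H →L[ℂ] H)) (hf : ∀ i ∈ s, f i ∈ 𝔄) :
    ∑ i ∈ s, f i ∈ 𝔄 := by
  classical
  induction s using Finset.induction_on with
  | empty => simpa using h.nst_zero_mem
  | insert i s hi ih =>
    rw [Finset.sum_insert hi]
    exact h.add _ _ (hf i (Finset.mem_insert_self i s))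
      (ih fun j hj => hf j (Finset.mem_insert_of_mem hj))

lemma nst_comm_apply {a b : H →L[ℂ] H} (ha : a ∈ 𝔄) (hb : b ∈ 𝔄) (x : H) : a (b x) = b (a x) :=
  DFunLike.congr_fun (h.comm a b ha hb) x

lemma nst_pauC {a : H →L[ℂ] H} (ha : a ∈ 𝔄) (P : Fin 3) (x : H) : a (L.pau P x) = L.pau P (a x) :=
  L.nst_comm_pau (map_sub _) (fun c x => map_smul _ c x) (h.X a ha) (h.Z a ha) P x

/-- reality axiom, scaled -/
lemma nst_W_smul {a : H →L[ℂ] H} (ha : a ∈ 𝔄) {T : H →L[ℂ] H} (hT : Sa T)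
    (hc : ∀ b ∈ 𝔄, ∀ x, T (b x) = b (T x)) (t : ℝ) (x : H) :
    a (L.W ((t : ℂ) • L.iota (T L.Om)) x) = L.W ((t : ℂ) • L.iota (T L.Om)) (a x) := by
  have h1 := h.W a ha ((t : ℂ) • T) (hT.nst_smul t) (fun b hb => by
    ext x
    simp only [mul_apply_eq_comp, smul_apply, map_smul, hc b hb]) x
  simpa only [smul_apply, map_smul] using h1

end Ctl

/-- observable `E_B V^* Q V` -/
noncomputable def nst_obs (Q : H ≃ₗᵢ[ℂ] H) (B : Set ℝ) (V : H ≃ₗᵢ[ℂ] H) : H →L[ℂ] H :=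
  L.E B * (nst_cl V⁻¹ * (nst_cl Q * nst_cl V))

lemma nst_obs_apply (Q : H ≃ₗᵢ[ℂ] H) (B : Set ℝ) (V : H ≃ₗᵢ[ℂ] H) (x : H) :
    L.nst_obs Q B V x = L.E B (V⁻¹ (Q (V x))) := rfl

lemma nst_fv_eq (Q : H ≃ₗᵢ[ℂ] H) (B : Set ℝ) (V : H ≃ₗᵢ[ℂ] H) :
    L.fv Q B V = L.iota (L.nst_obs Q B V L.Om) := rfl

lemma nst_obs_sa {P : Fin 3} {B : Set ℝ} (hB : MeasurableSet B) {V : H ≃ₗᵢ[ℂ] H}
    (hV : ∀ x, L.E B (V x) = V (L.E B x)) : Sa (L.nst_obs (L.pau P) B V) := by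
  intro x y
  have hi : ∀ x, L.E B (V⁻¹ x) = V⁻¹ (L.E B x) := by
    intro x
    apply V.injective
    rw [← hV, Sys.Ainv, Sys.Ainv]
  rw [nst_obs_apply, nst_obs_apply, L.nst_E_sa hB, Sys.inner_invA, L.nst_inner_pau,
    ← (V⁻¹).inner_map_map (V x), Sys.invA, hi, L.nst_E_pau, hV]

lemma nst_obs_comm {𝔅 : Set (H →L[ℂ] H)} (h : L.Ctl 𝔅) {P : Fin 3} {B : Set ℝ}
    (hB : MeasurableSet B) {V : H ≃ₗᵢ[ℂ] H} (hV : NstCm 𝔅 V) (b : H →L[ℂ] H) (hb : b ∈ 𝔅)
    (x : H) : L.nst_obs (L.pau P) B V (b x) = b (L.nst_obs (L.pau P) B V x) := by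
  rw [nst_obs_apply, nst_obs_apply, h.nst_comm_apply hb (h.nst_E_mem hB), hV.inv b hb, h.nst_pauC hb, hV b hb]

end LSys

end Vale.Agent.P367.A
end

section

/-! P367, block B, level step: dressings. -/

namespace Vale.Agent.P367.A

open Complex Filter Topology MeasureTheory

namespace LSys

variable {H K : Type*} [NormedAddCommGroup H] [InnerProductSpace ℂ H]
  [NormedAddCommGroup K] [InnerProductSpace ℂ K] (L : LSys H K) [CompleteSpace H]

/-! ### more exponentials -/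

lemma nst_ep_fix {a E : H →L[ℂ] H} (h : a * E = a) (t : ℝ) (x : H) :
    nst_ep t a (x - E x) = x - E x := by
  have h1 : ((-(Complex.I * (t : ℂ))) • a) * (1 - E) = 0 := by
    rw [smul_mul_assoc, mul_sub, mul_one, h, sub_self, smul_zero]
  exact DFunLike.congr_fun (nst_exp_mul_of_zero h1) x

lemma nst_ep_on {a E : H →L[ℂ] H} (hc : Commute a E) (hE : E * E = E) (t : ℝ) (x : H) :
    nst_ep t (a * E) x = nst_ep t a (E x) + (x - E x) := by
  have h1 : nst_ep t (a * E) (E x) = nst_ep t a (E x) := by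
    have h2 : Commute ((-(Complex.I * (t : ℂ))) • (a * E)) ((-(Complex.I * (t : ℂ))) • a) :=
      (((Commute.refl a).mul_left hc.symm).smul_left _).smul_right _
    have h3 : ((-(Complex.I * (t : ℂ))) • (a * E) - (-(Complex.I * (t : ℂ))) • a) * E = 0 := by
      rw [sub_mul, smul_mul_assoc, smul_mul_assoc, mul_assoc, hE, sub_self]
    exact DFunLike.congr_fun (nst_exp_mul_eq h2 h3) x
  have h4 : nst_ep t (a * E) (x - E x) = x - E x := nst_ep_fix (by rw [mul_assoc, hE]) t x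
  calc nst_ep t (a * E) x = nst_ep t (a * E) (E x + (x - E x)) := by rw [add_sub_cancel]
    _ = _ := by rw [map_add, h1, h4]

lemma nst_ep_mul_plus {a P : H →L[ℂ] H} (hc : Commute a P) (hP : P * P = 1) (t : ℝ) (x : H) :
    nst_ep t (a * P) (x + P x) = nst_ep t a (x + P x) := by
  have h2 : Commute ((-(Complex.I * (t : ℂ))) • (a * P)) ((-(Complex.I * (t : ℂ))) • a) :=
    (((Commute.refl a).mul_left hc.symm).smul_left _).smul_right _
  have h3 : ((-(Complex.I * (t : ℂ))) • (a * P) - (-(Complex.I * (t : ℂ))) • a) * (1 + P) = 0 := by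
    rw [← smul_sub, smul_mul_assoc, sub_mul, mul_add, mul_add, mul_assoc a P P, hP]
    simp only [mul_one, smul_eq_zero]
    right
    abel
  exact DFunLike.congr_fun (nst_exp_mul_eq h2 h3) x

lemma nst_ep_mul_minus {a P : H →L[ℂ] H} (hc : Commute a P) (hP : P * P = 1) (t : ℝ) (x : H) :
    nst_ep t (a * P) (x - P x) = nst_ep (-t) a (x - P x) := by
  have h2 : Commute ((-(Complex.I * (t : ℂ))) • (a * P))
      ((-(Complex.I * ((-t : ℝ) : ℂ))) • a) :=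
    (((Commute.refl a).mul_left hc.symm).smul_left _).smul_right _
  have h3 : ((-(Complex.I * (t : ℂ))) • (a * P) - (-(Complex.I * ((-t : ℝ) : ℂ))) • a) * (1 - P)
      = 0 := by
    have e : (-(Complex.I * (t : ℂ))) • (a * P) - (-(Complex.I * ((-t : ℝ) : ℂ))) • a
        = (-(Complex.I * (t : ℂ))) • (a * P + a) := by
      push_cast
      module
    rw [e, smul_mul_assoc, add_mul, mul_sub, mul_sub, mul_assoc a P P, hP]
    simp
  exact DFunLike.congr_fun (nst_exp_mul_eq h2 h3) x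

lemma nst_exp_smul_one (z : ℂ) : NormedSpace.exp (z • (1 : H →L[ℂ] H)) = Complex.exp z • 1 := by
  have h := NormedSpace.algebraMap_exp_comm (𝕂 := ℂ) (𝔸 := H →L[ℂ] H) z
  rw [Algebra.algebraMap_eq_smul_one, Algebra.algebraMap_eq_smul_one, ← Complex.exp_eq_exp_ℂ] at h
  exact h.symm

lemma nst_ep_eig {a B : H →L[ℂ] H} {c : ℝ} (h : a * B = (c : ℂ) • B) (t : ℝ) (x : H) :
    nst_ep t a (B x) = Complex.exp (-(Complex.I * ((t * c : ℝ) : ℂ))) • B x := by
  have h2 : Commute ((-(Complex.I * (t : ℂ))) • a)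
      ((-(Complex.I * ((t * c : ℝ) : ℂ))) • (1 : H →L[ℂ] H)) :=
    ((Commute.one_right a).smul_left _).smul_right _
  have h3 : ((-(Complex.I * (t : ℂ))) • a
      - (-(Complex.I * ((t * c : ℝ) : ℂ))) • (1 : H →L[ℂ] H)) * B = 0 := by
    rw [sub_mul, smul_mul_assoc, smul_mul_assoc, h, one_mul, smul_smul, ← sub_smul]
    have : (-(Complex.I * (t : ℂ))) * (c : ℂ) - (-(Complex.I * ((t * c : ℝ) : ℂ))) = 0 := by
      push_cast; ring
    rw [this, zero_smul]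
  have h4 := nst_exp_mul_eq h2 h3
  rw [nst_exp_smul_one, smul_mul_assoc, one_mul] at h4
  exact DFunLike.congr_fun h4 x

/-! ### dressings -/

/-- dressings: spin-independent unitaries commuting with `𝔅` which shift the fields of the
commutant by multiples of `psi` -/
structure NstDress (𝔅 : Set (H →L[ℂ] H)) (psi : H →L[ℂ] H) (κ : K → ℝ) (D : H ≃ₗᵢ[ℂ] H) :
    Prop where
  X : ∀ x, D (L.X x) = L.X (D x)
  Z : ∀ x, D (L.Z x) = L.Z (D x)
  cm : NstCm 𝔅 D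
  w : ∀ v, (∀ a ∈ 𝔅, ∀ x, a (L.W v x) = L.W v (a x)) →
    ∀ x, L.W v (D x) = D (L.W v (nst_ep (κ v) psi x))

namespace NstDress

variable {L} {𝔅 : Set (H →L[ℂ] H)} {psi : H →L[ℂ] H} {κ κ' : K → ℝ} {D D' : H ≃ₗᵢ[ℂ] H}

lemma pau (h : L.NstDress 𝔅 psi κ D) (P : Fin 3) (x : H) : D (L.pau P x) = L.pau P (D x) :=
  L.nst_comm_pau (map_sub _) (fun c x => map_smul _ c x) h.X h.Z P x

lemma one (𝔅 : Set (H →L[ℂ] H)) (psi : H →L[ℂ] H) : L.NstDress 𝔅 psi (fun _ => 0) 1 :=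
  ⟨fun _ => rfl, fun _ => rfl, NstCm.one 𝔅, fun v _ x => by rw [nst_ep_zero]; rfl⟩

lemma mul_k (h : L.NstDress 𝔅 psi κ D) (h' : L.NstDress 𝔅 psi κ' D') (hp : psi ∈ 𝔅) :
    L.NstDress 𝔅 psi (fun v => κ v + κ' v) (D * D') := by
  refine ⟨fun x => ?_, fun x => ?_, h.cm.mul h'.cm, fun v hv x => ?_⟩
  · rw [Sys.mulA, Sys.mulA, h'.X, h.X]
  · rw [Sys.mulA, Sys.mulA, h'.Z, h.Z]
  · rw [Sys.mulA, Sys.mulA, h.w v hv, nst_ep_V (h'.cm psi hp), h'.w v hv, add_comm (κ v), nst_ep_add]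
    rfl

lemma mul_psi {psi' : H →L[ℂ] H} (h : L.NstDress 𝔅 psi κ D) (h' : L.NstDress 𝔅 psi' κ D')
    (hp : psi ∈ 𝔅) (hc : Commute psi psi') :
    L.NstDress 𝔅 (psi + psi') κ (D * D') := by
  refine ⟨fun x => ?_, fun x => ?_, h.cm.mul h'.cm, fun v hv x => ?_⟩
  · rw [Sys.mulA, Sys.mulA, h'.X, h.X]
  · rw [Sys.mulA, Sys.mulA, h'.Z, h.Z]
  · rw [Sys.mulA, Sys.mulA, h.w v hv, nst_ep_V (h'.cm psi hp), h'.w v hv, add_comm psi,
      nst_ep_add' hc.symm]
    rfl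

lemma blkD (h : L.NstDress 𝔅 psi κ D) (hB : L.Ctl 𝔅) {M : Set ℝ} (hM : MeasurableSet M)
    (hpM : psi * L.E M = psi) (hp : psi ∈ 𝔅) :
    L.NstDress 𝔅 psi κ (L.nst_blk hM (h.cm _ (hB.nst_E_mem hM))) := by
  refine ⟨fun x => ?_, fun x => ?_, fun a ha x => ?_, fun v hv x => ?_⟩
  · rw [nst_blk_apply, nst_blk_apply, L.nst_E_X, h.X, map_add, map_sub]
  · rw [nst_blk_apply, nst_blk_apply, L.nst_E_Z, h.Z, map_add, map_sub]
  · rw [nst_blk_apply, nst_blk_apply, map_add, map_sub, h.cm a ha, hB.nst_comm_apply ha (hB.nst_E_mem hM)]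
  · rw [nst_blk_apply, nst_blk_apply, map_add, h.w v hv, L.nst_E_W]
    have h1 : L.E M (nst_ep (κ v) psi x) = nst_ep (κ v) psi (L.E M x) :=
      (DFunLike.congr_fun (nst_ep_comm (a := psi) (b := L.E M) (hB.comm _ _ hp (hB.nst_E_mem hM)) (κ v))
        x).symm
    rw [h1]
    congr 1
    rw [← map_sub]
    congr 1
    have h2 := nst_ep_fix hpM (κ v) x
    rw [map_sub] at h2
    exact h2.symm

lemma phase {a : H →L[ℂ] H} (hB : L.Ctl 𝔅) (ha : a ∈ 𝔅) (hs : Sa a) (t : ℝ)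
    (psi : H →L[ℂ] H) : L.NstDress 𝔅 psi (fun _ => 0) (nst_epU t hs) := by
  refine ⟨fun x => ?_, fun x => ?_, fun b hb x => ?_, fun v hv x => ?_⟩
  · exact nst_ep_V (hB.X a ha) t x
  · exact nst_ep_V (hB.Z a ha) t x
  · exact (DFunLike.congr_fun (nst_ep_comm (a := a) (b := b) (hB.comm _ _ ha hb) t) x).symm
  · rw [nst_ep_zero]
    exact (nst_ep_V (hv a ha) t x).symm

/-- the inverse relation -/
lemma w_neg (h : L.NstDress 𝔅 psi κ D) (hp : psi ∈ 𝔅) {v : K}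
    (hv : ∀ a ∈ 𝔅, ∀ x, a (L.W v x) = L.W v (a x))
    (hv' : ∀ a ∈ 𝔅, ∀ x, a (L.W (-v) x) = L.W (-v) (a x)) (x : H) :
    L.W (-v) (D x) = D (L.W (-v) (nst_ep (-κ v) psi x)) := by
  have h1 := h.w v hv (L.W (-v) (nst_ep (-κ v) psi x))
  rw [nst_ep_V (hv' psi hp), L.W_W_neg] at h1
  have h2 : nst_ep (κ v) psi (nst_ep (-κ v) psi x) = x :=
    DFunLike.congr_fun (nst_ep_mul_neg (κ v) psi) x
  rw [h2] at h1
  rw [← h1, L.W_neg_W]

/-- pulses and dressings commute up to a controlled rotation -/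
lemma pw (h : L.NstDress 𝔅 psi κ D) (hB : L.Ctl 𝔅) (hp : psi ∈ 𝔅) {v : K} (P : Fin 3)
    (hv : ∀ a ∈ 𝔅, ∀ x, a (L.W v x) = L.W v (a x))
    (hv' : ∀ a ∈ 𝔅, ∀ x, a (L.W (-v) x) = L.W (-v) (a x)) (x : H) :
    nst_ep (κ v) (psi * nst_cl (L.pau P)) (L.pw (L.pau P) v (D x)) = D (L.pw (L.pau P) v x) := by
  have e : ∀ y : H, L.pw (L.pau P) v y
      = (1 / 2 : ℂ) • (L.W (-v) (y + L.pau P y) + L.W v (y - L.pau P y)) := by
    intro y
    simp only [LSys.pw, map_add, map_sub]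
    module
  have hcP : Commute psi (nst_cl (L.pau P)) := by
    ext y
    exact hB.nst_pauC hp P y
  have hPP : nst_cl (L.pau P) * nst_cl (L.pau P) = 1 := by
    ext y
    exact L.nst_pau_pau P y
  have c1 : ∀ {U : H ≃ₗᵢ[ℂ] H} (_ : ∀ x, psi (U x) = U (psi x))
      (_ : ∀ x, L.pau P (U x) = U (L.pau P x)) (y : H),
      nst_ep (κ v) (psi * nst_cl (L.pau P)) (U y) = U (nst_ep (κ v) (psi * nst_cl (L.pau P)) y) := by
    intro U h1 h2 y
    refine nst_ep_V (fun x => ?_) _ _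
    change psi (L.pau P (U x)) = U (psi (L.pau P x))
    rw [h2, h1]
  have hW : ∀ (a : K) (y : H), L.pau P (L.W a y) = L.W a (L.pau P y) :=
    fun a y => (L.nst_W_pau P a y).symm
  have hD : ∀ y, L.pau P (D y) = D (L.pau P y) := fun y => (h.pau P y).symm
  rw [e, e, ← h.pau, ← map_add, ← map_sub, h.w_neg hp hv hv', h.w v hv, map_smul, map_add,
    c1 (h.cm psi hp) hD, c1 (hv' psi hp) (hW _), c1 (h.cm psi hp) hD, c1 (hv psi hp) (hW _)]
  have c2 : ∀ (t : ℝ) (y : H), nst_ep (κ v) (psi * nst_cl (L.pau P)) (nst_ep t psi y)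
      = nst_ep t psi (nst_ep (κ v) (psi * nst_cl (L.pau P)) y) := by
    intro t y
    have h3 : Commute psi (psi * nst_cl (L.pau P)) := (Commute.refl psi).mul_right hcP
    have h4 : Commute (nst_ep t psi) (nst_ep (κ v) (psi * nst_cl (L.pau P))) :=
      nst_ep_comm (nst_ep_comm h3.symm (κ v)).symm t
    exact (DFunLike.congr_fun h4 y).symm
  rw [c2, c2]
  have h5 : nst_ep (κ v) (psi * nst_cl (L.pau P)) (x + L.pau P x) = nst_ep (κ v) psi (x + L.pau P x) :=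
    nst_ep_mul_plus hcP hPP (κ v) x
  have h6 : nst_ep (κ v) (psi * nst_cl (L.pau P)) (x - L.pau P x) = nst_ep (-κ v) psi (x - L.pau P x) :=
    nst_ep_mul_minus hcP hPP (κ v) x
  rw [h5, h6]
  have h7 : ∀ y, nst_ep (-κ v) psi (nst_ep (κ v) psi y) = y :=
    fun y => DFunLike.congr_fun (nst_ep_neg_mul (κ v) psi) y
  have h8 : ∀ y, nst_ep (κ v) psi (nst_ep (-κ v) psi y) = y :=
    fun y => DFunLike.congr_fun (nst_ep_mul_neg (κ v) psi) y
  rw [h7, h8]
  simp only [map_smul, map_add]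

end NstDress

/-- rotation by a control on a label set -/
lemma nst_ep_rot {𝔅 : Set (H →L[ℂ] H)} (hB : L.Ctl 𝔅) {psi : H →L[ℂ] H} (hp : psi ∈ 𝔅) {A : Set ℝ}
    (hA : MeasurableSet A) (P : Fin 3) (t : ℝ) (x : H) :
    nst_ep t (psi * L.E A * nst_cl (L.pau P)) x
      = nst_ep t (psi * nst_cl (L.pau P)) (L.E A x) + (x - L.E A x) := by
  have h1 : psi * L.E A * nst_cl (L.pau P) = psi * nst_cl (L.pau P) * L.E A := by
    ext y
    change psi (L.E A (L.pau P y)) = psi (L.pau P (L.E A y))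
    rw [L.nst_E_pau]
  rw [h1]
  refine nst_ep_on ?_ ?_ t x
  · ext y
    change psi (L.pau P (L.E A y)) = L.E A (psi (L.pau P y))
    rw [← L.nst_E_pau, hB.nst_comm_apply hp (hB.nst_E_mem hA)]
  · rw [L.nst_E_mul hA hA, Set.inter_self]

/-- coupling of a dressed state -/
lemma nst_coup_dress {𝔅 : Set (H →L[ℂ] H)} (hB : L.Ctl 𝔅) {psi : H →L[ℂ] H} (hp : psi ∈ 𝔅)
    {κ : K → ℝ} {D : H ≃ₗᵢ[ℂ] H} (hD : L.NstDress 𝔅 psi κ D) {A B : Set ℝ} (hA : MeasurableSet A)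
    (hBm : MeasurableSet B) (hAB : Disjoint A B) (P Q : Fin 3) {v w : K}
    (hv : ∀ a ∈ 𝔅, ∀ x, a (L.W v x) = L.W v (a x))
    (hv' : ∀ a ∈ 𝔅, ∀ x, a (L.W (-v) x) = L.W (-v) (a x))
    (hw : ∀ a ∈ 𝔅, ∀ x, a (L.W w x) = L.W w (a x))
    (hw' : ∀ a ∈ 𝔅, ∀ x, a (L.W (-w) x) = L.W (-w) (a x)) {U : H → H}
    (hU : ∀ x, U x = L.pw (L.pau P) v (L.E A x) + L.pw (L.pau Q) w (L.E B x)
      + (x - L.E A x - L.E B x)) (x : H) :
    nst_ep (κ v) (psi * L.E A * nst_cl (L.pau P)) (nst_ep (κ w) (psi * L.E B * nst_cl (L.pau Q)) (U (D x)))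
      = D (U x) := by
  have hDE : ∀ {S : Set ℝ} (_ : MeasurableSet S) (y : H), L.E S (D y) = D (L.E S y) :=
    fun hS y => hD.cm _ (hB.nst_E_mem hS) y
  have hpw0 : ∀ (R : Fin 3) (u : K), L.pw (L.pau R) u 0 = 0 := by
    intro R u; simp [LSys.pw]
  rw [L.nst_ep_rot hB hp hBm, L.nst_ep_rot hB hp hA]
  have e1 : L.E B (U (D x)) = L.pw (L.pau Q) w (D (L.E B x)) := by
    rw [hU]
    simp only [map_add, map_sub, L.nst_E_pw, hDE hA, hDE hBm, L.nst_E_idem hBm,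
      L.nst_E_disj hBm hA hAB.symm, map_zero, hpw0]
    abel
  have e2 : L.E A (U (D x)) = L.pw (L.pau P) v (D (L.E A x)) := by
    rw [hU]
    simp only [map_add, map_sub, L.nst_E_pw, hDE hA, hDE hBm, L.nst_E_idem hA,
      L.nst_E_disj hA hBm hAB, map_zero, hpw0]
    abel
  have e3 : U (D x) = L.pw (L.pau P) v (D (L.E A x)) + L.pw (L.pau Q) w (D (L.E B x))
      + D (x - L.E A x - L.E B x) := by
    rw [hU, hDE hA, hDE hBm, map_sub, map_sub]
  have e4 : nst_ep (κ w) (psi * nst_cl (L.pau Q)) (L.E B (U (D x))) + (U (D x) - L.E B (U (D x)))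
      = D (L.pw (L.pau Q) w (L.E B x)) + (L.pw (L.pau P) v (D (L.E A x))
        + D (x - L.E A x - L.E B x)) := by
    rw [e1, hD.pw hB hp Q hw hw', e3]
    abel
  rw [e4]
  have e5 : L.E A (D (L.pw (L.pau Q) w (L.E B x)) + (L.pw (L.pau P) v (D (L.E A x))
        + D (x - L.E A x - L.E B x))) = L.pw (L.pau P) v (D (L.E A x)) := by
    simp only [map_add, map_sub, L.nst_E_pw, hDE hA, L.nst_E_idem hA,
      L.nst_E_disj hA hBm hAB, map_zero, hpw0]
    abel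
  rw [e5, hD.pw hB hp P hv hv', hU, map_add, map_add]
  abel

end LSys

end Vale.Agent.P367.A
end

section

/-! P367, block B, level step: the product unitary of T2 is a label gate times a dressing; splitting
of the reserve. -/

namespace Vale.Agent.P367.A

open Complex Filter Topology MeasureTheory

namespace LSys

variable {H K : Type*} [NormedAddCommGroup H] [InnerProductSpace ℂ H]
  [NormedAddCommGroup K] [InnerProductSpace ℂ K] (L : LSys H K)

/-! ### splitting the reserve -/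

lemma nst_exists_cut {S : Set ℝ} (hS : L.mu S ≠ 0) :
    ∃ t : ℝ, L.mu (S ∩ Set.Iic t) ≠ 0 ∧ L.mu (S ∩ Set.Ioi t) ≠ 0 := by
  by_contra hc
  push Not at hc
  set N1 : Set ℝ := ⋃ q ∈ {q : ℚ | L.mu (S ∩ Set.Iic (q : ℝ)) = 0}, S ∩ Set.Iic (q : ℝ) with hN1
  set N2 : Set ℝ := ⋃ q ∈ {q : ℚ | L.mu (S ∩ Set.Ioi (q : ℝ)) = 0}, S ∩ Set.Ioi (q : ℝ) with hN2
  have h1 : L.mu N1 = 0 := (measure_biUnion_null_iff (Set.to_countable _)).2 fun q hq => hq
  have h2 : L.mu N2 = 0 := (measure_biUnion_null_iff (Set.to_countable _)).2 fun q hq => hq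
  have h3 : (S \ (N1 ∪ N2)).Subsingleton := by
    have key : ∀ x ∈ S \ (N1 ∪ N2), ∀ y ∈ S \ (N1 ∪ N2), ¬ x < y := by
      intro x hx y hy hxy
      obtain ⟨q, hq1, hq2⟩ := exists_rat_btwn hxy
      by_cases hq : L.mu (S ∩ Set.Iic (q : ℝ)) = 0
      · apply hx.2
        left
        rw [hN1]
        simp only [Set.mem_iUnion]
        exact ⟨q, hq, hx.1, hq1.le⟩
      · have hq' := hc q hq
        apply hy.2
        right
        rw [hN2]
        simp only [Set.mem_iUnion]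
        exact ⟨q, hq', hy.1, hq2⟩
    intro x hx y hy
    exact le_antisymm (not_lt.1 (key y hy x hx)) (not_lt.1 (key x hx y hy))
  have h4 : L.mu (S \ (N1 ∪ N2)) = 0 := by
    rcases h3.eq_empty_or_singleton with h | ⟨x, h⟩
    · rw [h]; exact measure_empty
    · rw [h]; exact L.noAtoms x
  apply hS
  refine measure_mono_null (t := (S \ (N1 ∪ N2)) ∪ (N1 ∪ N2)) ?_
    (measure_union_null h4 (measure_union_null h1 h2))
  intro x hx
  by_cases h : x ∈ N1 ∪ N2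
  · exact Or.inr h
  · exact Or.inl ⟨hx, h⟩

lemma nst_exists_mid {R0 R1 : Set ℝ} (h0 : MeasurableSet R0) (h1 : MeasurableSet R1) (h : R1 ⊆ R0)
    (hm : L.mu (R0 \ R1) ≠ 0) : ∃ R2, MeasurableSet R2 ∧ R1 ⊆ R2 ∧ R2 ⊆ R0 ∧
      L.mu (R0 \ R2) ≠ 0 ∧ L.mu (R2 \ R1) ≠ 0 := by
  obtain ⟨t, ht1, ht2⟩ := L.nst_exists_cut hm
  refine ⟨R1 ∪ ((R0 \ R1) ∩ Set.Iic t), h1.union ((h0.diff h1).inter measurableSet_Iic),
    Set.subset_union_left, Set.union_subset h fun x hx => hx.1.1, ?_, ?_⟩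
  · convert ht2 using 2
    ext x
    simp only [Set.mem_sdiff, Set.mem_union, Set.mem_inter_iff, Set.mem_Iic, Set.mem_Ioi]
    constructor
    · rintro ⟨h3, h4⟩
      push Not at h4
      exact ⟨⟨h3, h4.1⟩, h4.2 ⟨h3, h4.1⟩⟩
    · rintro ⟨⟨h3, h4⟩, h5⟩
      exact ⟨h3, fun h6 => h6.elim h4 fun h7 => absurd h7.2 (not_le.2 h5)⟩
  · convert ht1 using 2
    ext x
    simp only [Set.mem_sdiff, Set.mem_union, Set.mem_inter_iff, Set.mem_Iic]
    constructor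
    · rintro ⟨h3, h4⟩
      rcases h3 with h3 | h3
      · exact absurd h3 h4
      · exact h3
    · rintro ⟨⟨h3, h4⟩, h5⟩
      exact ⟨Or.inr ⟨⟨h3, h4⟩, h5⟩, h4⟩

/-! ### the label gate on `G` -/

lemma nst_E_zr (b : Set ℝ) (v : K) (x : H) : L.E b (L.zr v x) = L.zr v (L.E b x) :=
  L.nst_E_pw b 2 v x

/-- `exp(-i Z phi(a))` on the labels of `G` -/
noncomputable def nst_NG {G : Set ℝ} (hG : MeasurableSet G) (a : K) : H ≃ₗᵢ[ℂ] H :=
  L.nst_blk hG (U := L.zr a) (L.nst_E_zr G a)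

lemma nst_NG_apply {G : Set ℝ} (hG : MeasurableSet G) (a : K) (x : H) :
    L.nst_NG hG a x = L.zr a (L.E G x) + (x - L.E G x) := rfl

lemma nst_NG_NG {G : Set ℝ} (hG : MeasurableSet G) {a b : K} (h : th a b = 0) :
    L.nst_NG hG a * L.nst_NG hG b = L.nst_NG hG (a + b) := by
  ext x
  rw [Sys.mulA, nst_NG_apply, nst_NG_apply, nst_NG_apply]
  simp only [map_add, map_sub, L.nst_E_zr, L.nst_E_idem hG, sub_self, add_zero, L.zr_zr, h]
  simp

lemma nst_NG_zero {G : Set ℝ} (hG : MeasurableSet G) : L.nst_NG hG 0 = 1 := by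
  ext x
  rw [nst_NG_apply, L.zr_zero, add_sub_cancel]
  rfl

lemma nst_NG_comm {G : Set ℝ} (hG : MeasurableSet G) {a : K} {V : H ≃ₗᵢ[ℂ] H}
    (hE : ∀ x, V (L.E G x) = L.E G (V x)) (hZ : ∀ x, V (L.Z x) = L.Z (V x))
    (hW : ∀ x, V (L.W a x) = L.W a (V x)) (hW' : ∀ x, V (L.W (-a) x) = L.W (-a) (V x)) :
    V * L.nst_NG hG a = L.nst_NG hG a * V := by
  ext x
  rw [Sys.mulA, Sys.mulA, nst_NG_apply, nst_NG_apply, map_add, map_sub, hE]
  congr 1
  rw [← hE]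
  exact L.nst_comm_pw (P := 2) (map_add _) (map_sub _) (fun c x => map_smul _ c x) hZ hW hW' _

lemma nst_NG_Z {G : Set ℝ} (hG : MeasurableSet G) (a : K) (x : H) :
    L.nst_NG hG a (L.Z x) = L.Z (L.nst_NG hG a x) := by
  rw [nst_NG_apply, nst_NG_apply, L.nst_E_Z, map_add, map_sub, L.Z_zr]

/-! ### the dressing factor of T2 -/

/-- `exp(-i sg phi(v))` on the labels of `G` -/
noncomputable def nst_sgL (G : Set ℝ) (sg : H →L[ℂ] H) (v : K) : H →ₗ[ℂ] H :=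
  (1 / 2 : ℂ) • ((L.W (-v)).toLinearEquiv.toLinearMap ∘ₗ (L.E G + sg).toLinearMap
    + (L.W v).toLinearEquiv.toLinearMap ∘ₗ (L.E G - sg).toLinearMap)
  + (LinearMap.id - (L.E G).toLinearMap)

lemma nst_sgL_apply (G : Set ℝ) (sg : H →L[ℂ] H) (v : K) (x : H) :
    L.nst_sgL G sg v x = (1 / 2 : ℂ) • (L.W (-v) (L.E G x + sg x) + L.W v (L.E G x - sg x))
      + (x - L.E G x) := rfl

/-- data for a sign dressing -/
structure NstSg (G : Set ℝ) (sg : H →L[ℂ] H) (v : K) : Prop where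
  hG : MeasurableSet G
  sa : Sa sg
  sq : sg * sg = L.E G
  sW : ∀ x, sg (L.W v x) = L.W v (sg x)
  sW' : ∀ x, sg (L.W (-v) x) = L.W (-v) (sg x)

lemma nst_sg_sg {G : Set ℝ} {sg : H →L[ℂ] H} (sq : sg * sg = L.E G) (x : H) :
    sg (sg x) = L.E G x := by
  rw [← sq]; rfl

lemma nst_E_sg' {G : Set ℝ} {sg : H →L[ℂ] H} (sq : sg * sg = L.E G) (x : H) :
    L.E G (sg x) = sg (L.E G x) := by
  rw [← L.nst_sg_sg sq, ← L.nst_sg_sg sq]

lemma nst_sg_E {G : Set ℝ} (hG : MeasurableSet G) {sg : H →L[ℂ] H} (sa : Sa sg)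
    (sq : sg * sg = L.E G) (x : H) : sg (L.E G x) = sg x := by
  have h1 : sg (x - L.E G x) = 0 := by
    have h2 : (inner ℂ (sg (x - L.E G x)) (sg (x - L.E G x)) : ℂ) = 0 := by
      rw [sa, L.nst_sg_sg sq, map_sub, L.nst_E_idem hG, sub_self, inner_zero_right]
    exact inner_self_eq_zero.1 h2
  rw [map_sub, sub_eq_zero] at h1
  exact h1.symm

lemma nst_E_sg {G : Set ℝ} (hG : MeasurableSet G) {sg : H →L[ℂ] H} (sa : Sa sg)
    (sq : sg * sg = L.E G) (x : H) : L.E G (sg x) = sg x := by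
  rw [L.nst_E_sg' sq, L.nst_sg_E hG sa sq]

namespace NstSg

variable {L} {G : Set ℝ} {sg : H →L[ℂ] H} {v : K}

lemma neg (h : L.NstSg G sg v) : L.NstSg G sg (-v) :=
  ⟨h.hG, h.sa, h.sq, h.sW', by rw [neg_neg]; exact h.sW⟩

lemma sgL_sgL (h : L.NstSg G sg v) (x : H) : L.nst_sgL G sg v (L.nst_sgL G sg (-v) x) = x := by
  simp only [nst_sgL_apply, neg_neg, map_add, map_sub, map_smul, h.sW, h.sW', L.nst_E_W,
    L.nst_E_idem h.hG, L.nst_E_sg h.hG h.sa h.sq, L.nst_sg_E h.hG h.sa h.sq, L.nst_sg_sg h.sq, L.W_neg_W,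
    L.W_W_neg]
  module

/-- the sign dressing -/
noncomputable def U (h : L.NstSg G sg v) : H ≃ₗᵢ[ℂ] H :=
  mkU (L.nst_sgL G sg v) (L.nst_sgL G sg (-v))
    (fun x => by
      have := h.neg.sgL_sgL x
      rwa [neg_neg] at this)
    h.sgL_sgL
    (fun x y => by
      have h1 : ∀ x y, inner ℂ (L.E G x) y = inner ℂ x (L.E G y) := L.nst_E_sa h.hG
      have h2 : ∀ x y, inner ℂ (sg x) y = inner ℂ x (sg y) := h.sa
      simp only [nst_sgL_apply, inner_sub_left, inner_sub_right, inner_smul_left, inner_smul_right,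
        L.inner_W, inner_add_left, inner_add_right, neg_neg, map_div₀, map_one,
        Complex.conj_ofNat, h1, h2, map_add, map_sub, h.sW, h.sW', L.nst_E_W])

lemma U_apply (h : L.NstSg G sg v) (x : H) :
    h.U x = (1 / 2 : ℂ) • (L.W (-v) (L.E G x + sg x) + L.W v (L.E G x - sg x))
      + (x - L.E G x) := rfl

lemma E_U (h : L.NstSg G sg v) (x : H) : L.E G (h.U x)
    = (1 / 2 : ℂ) • (L.W (-v) (L.E G x + sg x) + L.W v (L.E G x - sg x)) := by
  rw [U_apply]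
  simp only [map_add, map_sub, map_smul, L.nst_E_W, L.nst_E_idem h.hG, L.nst_E_sg h.hG h.sa h.sq]
  abel

/-- T2 unitary = label gate times sign dressing -/
lemma isProd {s : ℝ} {V : H ≃ₗᵢ[ℂ] H} (h : L.NstSg G sg ((s : ℂ) • L.fv L.Z G V)) :
    L.IsProd G sg s V (L.nst_NG h.hG ((s : ℂ) • L.iota (sg L.Om)) * h.U) := by
  intro x
  rw [Sys.mulA, nst_NG_apply, h.E_U, U_apply]
  congr 1
  abel

/-- an operator commuting with `E_G`, `sg`, `W(±v)` commutes with the sign dressing -/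
lemma comm (h : L.NstSg G sg v) {f : H → H} (hadd : ∀ x y, f (x + y) = f x + f y)
    (hsub : ∀ x y, f (x - y) = f x - f y) (hsmul : ∀ (c : ℂ) x, f (c • x) = c • f x)
    (hE : ∀ x, f (L.E G x) = L.E G (f x)) (hs : ∀ x, f (sg x) = sg (f x))
    (hW : ∀ x, f (L.W v x) = L.W v (f x)) (hW' : ∀ x, f (L.W (-v) x) = L.W (-v) (f x)) (x : H) :
    f (h.U x) = h.U (f x) := by
  rw [U_apply, U_apply]
  simp only [hadd, hsub, hsmul, hE, hs, hW, hW']

variable [CompleteSpace H]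

lemma dress {𝔅 : Set (H →L[ℂ] H)} (hB : L.Ctl 𝔅) (hsg : sg ∈ 𝔅) {s c : ℝ} {q : K}
    (h : L.NstSg G sg (((s * c : ℝ) : ℂ) • q))
    (hq : ∀ a ∈ 𝔅, ∀ (t : ℝ) x, a (L.W ((t : ℂ) • q) x) = L.W ((t : ℂ) • q) (a x)) :
    L.NstDress 𝔅 ((c : ℂ) • sg) (fun v' => -(2 * s * th v' q)) h.U := by
  have hq' : ∀ a ∈ 𝔅, ∀ (t : ℝ) x, a (L.W (-((t : ℂ) • q)) x) = L.W (-((t : ℂ) • q)) (a x) := by
    intro a ha t x
    have := hq a ha (-t) x
    rwa [ofReal_neg, neg_smul] at this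
  have hWX : ∀ (a : K) (x : H), L.X (L.W a x) = L.W a (L.X x) := fun a x => (L.WX a x).symm
  have hWZ : ∀ (a : K) (x : H), L.Z (L.W a x) = L.W a (L.Z x) := fun a x => (L.WZ a x).symm
  refine ⟨fun x => ?_, fun x => ?_, fun a ha x => ?_, fun v' hv' x => ?_⟩
  · exact (h.comm (f := L.X) (map_add _) (map_sub _) (fun c x => map_smul _ c x)
      (fun x => (L.nst_E_X G x).symm) (fun x => (hB.X sg hsg x).symm) (hWX _) (hWX _) x).symm
  · exact (h.comm (f := L.Z) (map_add _) (map_sub _) (fun c x => map_smul _ c x)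
      (fun x => (L.nst_E_Z G x).symm) (fun x => (hB.Z sg hsg x).symm) (hWZ _) (hWZ _) x).symm
  · exact h.comm (f := a) (map_add _) (map_sub _) (fun c x => map_smul _ c x)
      (fun x => hB.nst_comm_apply ha (hB.nst_E_mem h.hG) x) (fun x => hB.nst_comm_apply ha hsg x)
      (hq a ha _) (hq' a ha _) x
  · set κ : ℝ := -(2 * s * th v' q) with hκ
    set z := nst_ep κ ((c : ℂ) • sg) x with hz
    set v := ((s * c : ℝ) : ℂ) • q with hv
    have hth : th v' v = s * c * th v' q := by rw [hv, th_smul_right]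
    -- the three parts of `z`
    have e1 : L.E G z + sg z = Complex.exp (-(Complex.I * ((κ * c : ℝ) : ℂ)))
        • (L.E G x + sg x) := by
      have h1 := nst_ep_eig (a := (c : ℂ) • sg) (B := L.E G + sg) (c := c) (by
        ext y
        change (c : ℂ) • sg (L.E G y + sg y) = (c : ℂ) • (L.E G y + sg y)
        rw [map_add, L.nst_sg_E h.hG h.sa h.sq, L.nst_sg_sg h.sq, add_comm]) κ x
      have h2 : Commute ((c : ℂ) • sg) (L.E G + sg) := by
        ext y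
        change (c : ℂ) • sg (L.E G y + sg y) = L.E G ((c : ℂ) • sg y) + sg ((c : ℂ) • sg y)
        simp only [map_add, map_smul, L.nst_sg_E h.hG h.sa h.sq, L.nst_sg_sg h.sq,
          L.nst_E_sg h.hG h.sa h.sq, smul_add]
      have h3 : (L.E G + sg) (nst_ep κ ((c : ℂ) • sg) x) = nst_ep κ ((c : ℂ) • sg) ((L.E G + sg) x) :=
        (DFunLike.congr_fun (nst_ep_comm h2 κ) x).symm
      rw [h1] at h3
      exact h3
    have e2 : L.E G z - sg z = Complex.exp (Complex.I * ((κ * c : ℝ) : ℂ))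
        • (L.E G x - sg x) := by
      have h1 := nst_ep_eig (a := (c : ℂ) • sg) (B := L.E G - sg) (c := -c) (by
        ext y
        change (c : ℂ) • sg (L.E G y - sg y) = ((-c : ℝ) : ℂ) • (L.E G y - sg y)
        rw [map_sub, L.nst_sg_E h.hG h.sa h.sq, L.nst_sg_sg h.sq]
        push_cast
        module) κ x
      have h2 : Commute ((c : ℂ) • sg) (L.E G - sg) := by
        ext y
        change (c : ℂ) • sg (L.E G y - sg y) = L.E G ((c : ℂ) • sg y) - sg ((c : ℂ) • sg y)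
        simp only [map_sub, map_smul, L.nst_sg_E h.hG h.sa h.sq, L.nst_sg_sg h.sq,
          L.nst_E_sg h.hG h.sa h.sq, smul_sub]
      have h3 : (L.E G - sg) (nst_ep κ ((c : ℂ) • sg) x) = nst_ep κ ((c : ℂ) • sg) ((L.E G - sg) x) :=
        (DFunLike.congr_fun (nst_ep_comm h2 κ) x).symm
      rw [h1] at h3
      have e : -(Complex.I * ((κ * -c : ℝ) : ℂ)) = Complex.I * ((κ * c : ℝ) : ℂ) := by
        push_cast; ring
      rw [e] at h3
      exact h3
    have e3 : z - L.E G z = x - L.E G x := by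
      have h1 : ((c : ℂ) • sg) * L.E G = (c : ℂ) • sg := by
        ext y
        change (c : ℂ) • sg (L.E G y) = (c : ℂ) • sg y
        rw [L.nst_sg_E h.hG h.sa h.sq]
      have h2 := nst_ep_fix h1 κ x
      have h4 : Commute ((c : ℂ) • sg) (L.E G) := by
        ext y
        change (c : ℂ) • sg (L.E G y) = L.E G ((c : ℂ) • sg y)
        rw [map_smul, L.nst_E_sg' h.sq]
      have h3 : L.E G (nst_ep κ ((c : ℂ) • sg) x) = nst_ep κ ((c : ℂ) • sg) (L.E G x) :=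
        (DFunLike.congr_fun (nst_ep_comm h4 κ) x).symm
      rw [map_sub, ← h3] at h2
      exact h2
    rw [U_apply, U_apply]
    simp only [map_add, map_smul, map_sub, L.nst_E_W, hv' sg hsg]
    have w1 : ∀ y, L.W v' (L.W (-v) y)
        = Complex.exp (2 * Complex.I * (th v' v : ℂ)) • L.W (-v) (L.W v' y) := by
      intro y
      rw [L.Wx v' (-v), th_neg_right]
      congr 2
      push_cast
      ring
    have w2 : ∀ y, L.W v' (L.W v y)
        = Complex.exp (-(2 * Complex.I * (th v' v : ℂ))) • L.W v (L.W v' y) := fun y => L.Wx v' v y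
    have f1 : Complex.exp (-(Complex.I * ((κ * c : ℝ) : ℂ)))
        = Complex.exp (2 * Complex.I * (th v' v : ℂ)) := by
      rw [hth, hκ]; congr 1; push_cast; ring
    have f2 : Complex.exp (Complex.I * ((κ * c : ℝ) : ℂ))
        = Complex.exp (-(2 * Complex.I * (th v' v : ℂ))) := by
      rw [hth, hκ]; congr 1; push_cast; ring
    have g1 : L.W (-v) (L.W v' (L.E G z)) + L.W (-v) (L.W v' (sg z))
        = Complex.exp (2 * Complex.I * (th v' v : ℂ))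
          • (L.W (-v) (L.W v' (L.E G x)) + L.W (-v) (L.W v' (sg x))) := by
      rw [← map_add, ← map_add, e1, f1]
      simp only [map_add, map_smul, smul_add]
    have g2 : L.W v (L.W v' (L.E G z)) - L.W v (L.W v' (sg z))
        = Complex.exp (-(2 * Complex.I * (th v' v : ℂ)))
          • (L.W v (L.W v' (L.E G x)) - L.W v (L.W v' (sg x))) := by
      rw [← map_sub, ← map_sub, e2, f2]
      simp only [map_sub, map_smul, smul_sub]
    have g3 : L.W v' z - L.W v' (L.E G z) = L.W v' x - L.W v' (L.E G x) := by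
      rw [← map_sub, e3, map_sub]
    rw [g1, g2, g3, w1, w1, w2, w2]
    module

end NstSg

end LSys

end Vale.Agent.P367.A
end

section

/-! P367, block B, level step: the new reachability predicate. -/

namespace Vale.Agent.P367.A

open Complex Filter Topology MeasureTheory

namespace LSys

variable {H K : Type*} [NormedAddCommGroup H] [InnerProductSpace ℂ H]
  [NormedAddCommGroup K] [InnerProductSpace ℂ K] (L : LSys H K) [CompleteSpace H]

/-! ### T2 for `psi = sum c_i sg_i` -/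

omit [CompleteSpace H] in
lemma nst_fv_mul {Q : H ≃ₗᵢ[ℂ] H} {Y : H ≃ₗᵢ[ℂ] H} (hY : ∀ x, Y (Q x) = Q (Y x)) (B : Set ℝ)
    (V : H ≃ₗᵢ[ℂ] H) : L.fv Q B (Y * V) = L.fv Q B V := by
  unfold fv
  congr 2
  rw [Sys.mulA, ← hY, mul_inv_rev, Sys.mulA, Sys.invA]

omit [CompleteSpace H] in
lemma NstSg.isProd' {G : Set ℝ} {sg : H →L[ℂ] H} {s : ℝ} {q : K} (h : L.NstSg G sg ((s : ℂ) • q))
    {V : H ≃ₗᵢ[ℂ] H} (hq : L.fv L.Z G V = q) :
    L.IsProd G sg s V (L.nst_NG h.hG ((s : ℂ) • L.iota (sg L.Om)) * h.U) := by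
  subst hq
  exact h.isProd

omit [CompleteSpace H] in
/-- real-linear relation between the fields of commuting observables -/
lemma nst_th_iota_zero {a b : H →L[ℂ] H} (ha : Sa a) (hb : Sa b) (h : ∀ x, a (b x) = b (a x))
    (s t : ℝ) : th ((s : ℂ) • L.iota (a L.Om)) ((t : ℂ) • L.iota (b L.Om)) = 0 := by
  rw [th_smul_left, th_smul_right, L.th_iota, nst_im_zero ha hb h]
  ring

omit [CompleteSpace H] in
lemma nst_sum_sa {n : ℕ} {sg : Fin n → (H →L[ℂ] H)} (c : Fin n → ℝ) (h : ∀ i, Sa (sg i))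
    (S : Finset (Fin n)) : Sa (∑ i ∈ S, (c i : ℂ) • sg i) := by
  classical
  induction S using Finset.induction_on with
  | empty => simpa using Sa.nst_zero
  | insert i S hi ih =>
    rw [Finset.sum_insert hi]
    exact ((h i).nst_smul (c i)).nst_add ih

omit [CompleteSpace H] in
lemma nst_W_comm {a b : K} (h : th a b = 0) (x : H) : L.W a (L.W b x) = L.W b (L.W a x) := by
  rw [L.Wx a b, h]
  simp

lemma nst_t2_all {G : Set ℝ} {𝔄 𝔅 : Set (H →L[ℂ] H)}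
    {Rch : Set ℝ → Set ℝ → (H ≃ₗᵢ[ℂ] H) → Prop} (hG : MeasurableSet G) (hA : L.Ctl 𝔄)
    (hB : L.Ctl 𝔅) (hAB : 𝔄 ⊆ 𝔅) (hR : L.Closed G 𝔄 Rch) (hT : L.HasT2 G 𝔄 Rch)
    {n : ℕ} {sg : Fin n → (H →L[ℂ] H)} {c : Fin n → ℝ} (hsg : ∀ i, L.Sgn G 𝔄 (sg i))
    (s : ℝ) {V1 D : H ≃ₗᵢ[ℂ] H} (hV : NstCm 𝔅 V1) (hDZ : ∀ x, D (L.Z x) = L.Z (D x))
    {M R0 : Set ℝ} (h0 : Rch M R0 (D * V1)) (S : Finset (Fin n)) :
    ∃ D2, L.NstDress 𝔅 (∑ i ∈ S, (c i : ℂ) • sg i)
        (fun v' => -(2 * s * th v' (L.fv L.Z G V1))) D2 ∧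
      ∀ R1, MeasurableSet R1 → R1 ⊆ R0 → L.mu (R0 \ R1) ≠ 0 →
        Rch M R1 (L.nst_NG hG ((s : ℂ) • L.iota ((∑ i ∈ S, (c i : ℂ) • sg i) L.Om))
          * (D2 * (D * V1))) := by
  classical
  set q := L.fv L.Z G V1 with hq
  have hR0 : MeasurableSet R0 := (hR.meas _ _ _ h0).2.1
  have hEV : ∀ x, L.E G (V1 x) = V1 (L.E G x) := hV _ (hB.nst_E_mem hG)
  -- the observable behind `q`
  have hobs_sa : Sa (L.nst_obs L.Z G V1) := L.nst_obs_sa (P := 2) hG hEV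
  have hobs_c : ∀ b ∈ 𝔅, ∀ x, L.nst_obs L.Z G V1 (b x) = b (L.nst_obs L.Z G V1 x) :=
    L.nst_obs_comm hB (P := 2) hG hV
  have hqW : ∀ a ∈ 𝔅, ∀ (t : ℝ) x, a (L.W ((t : ℂ) • q) x) = L.W ((t : ℂ) • q) (a x) :=
    fun a ha t x => hB.nst_W_smul ha hobs_sa hobs_c t x
  have hqW' : ∀ a ∈ 𝔅, ∀ (t : ℝ) x, a (L.W (-((t : ℂ) • q)) x) = L.W (-((t : ℂ) • q)) (a x) := by
    intro a ha t x
    have := hqW a ha (-t) x
    rwa [ofReal_neg, neg_smul] at this
  induction S using Finset.induction_on with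
  | empty =>
    refine ⟨1, ⟨fun _ => rfl, fun _ => rfl, NstCm.one 𝔅, fun v _ x => ?_⟩, fun R1 h1 h2 _ => ?_⟩
    · have : nst_ep (-(2 * s * th v q)) (∑ i ∈ (∅ : Finset (Fin n)), (c i : ℂ) • sg i) = 1 := by
        simp [nst_ep]
      rw [this]; rfl
    · have : (s : ℂ) • L.iota ((∑ i ∈ (∅ : Finset (Fin n)), (c i : ℂ) • sg i) L.Om) = 0 := by
        simp
      rw [this, L.nst_NG_zero, one_mul, one_mul]
      exact hR.mono _ _ _ _ h0 h1 h2
  | insert i S hi ih =>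
    obtain ⟨D2, hD2, hrec⟩ := ih
    set psi := ∑ i ∈ S, (c i : ℂ) • sg i with hpsi
    have hpA : psi ∈ 𝔄 := hA.nst_sum_mem S _ fun j _ => hA.nst_smul_mem _ (hsg j).1
    have hpsa : Sa psi := nst_sum_sa c (fun j => (hsg j).2.1) S
    have hpc : ∀ a ∈ 𝔄, ∀ x, psi (a x) = a (psi x) := fun a ha x => hA.nst_comm_apply hpA ha x
    have hsc : ∀ a ∈ 𝔄, ∀ x, sg i (a x) = a (sg i x) := fun a ha x => hA.nst_comm_apply (hsg i).1 ha x
    have hSg : L.NstSg G (sg i) (((s * c i : ℝ) : ℂ) • q) :=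
      ⟨hG, (hsg i).2.1, (hsg i).2.2, hqW _ (hAB (hsg i).1) _, hqW' _ (hAB (hsg i).1) _⟩
    set b := (s : ℂ) • L.iota (psi L.Om) with hb
    set a := ((s * c i : ℝ) : ℂ) • L.iota (sg i L.Om) with ha
    -- commutations
    have hbW : ∀ a ∈ 𝔄, ∀ x, a (L.W b x) = L.W b (a x) := fun a ha x =>
      hA.nst_W_smul ha hpsa hpc s x
    have hbW' : ∀ a ∈ 𝔄, ∀ x, a (L.W (-b) x) = L.W (-b) (a x) := by
      intro a ha x
      have := hA.nst_W_smul ha hpsa hpc (-s) x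
      rwa [ofReal_neg, neg_smul] at this
    have hpo : ∀ x, psi (L.nst_obs L.Z G V1 x) = L.nst_obs L.Z G V1 (psi x) :=
      fun x => (hobs_c psi (hAB hpA) x).symm
    have t1 : th b (((s * c i : ℝ) : ℂ) • q) = 0 := L.nst_th_iota_zero hpsa hobs_sa hpo s (s * c i)
    have t2 : th a b = 0 :=
      L.nst_th_iota_zero (hsg i).2.1 hpsa (fun x => (hpc _ (hsg i).1 x).symm) (s * c i) s
    have hUW : ∀ x, hSg.U (L.W b x) = L.W b (hSg.U x) := by
      intro x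
      refine (hSg.comm (f := L.W b) (map_add _) (map_sub _) (fun c x => map_smul _ c x)
        (fun x => (L.nst_E_W G b x).symm) (fun x => (hbW _ (hsg i).1 x).symm) ?_ ?_ x).symm
      · exact L.nst_W_comm t1
      · exact L.nst_W_comm (by rw [th_neg_right, t1, neg_zero])
    have hUW' : ∀ x, hSg.U (L.W (-b) x) = L.W (-b) (hSg.U x) := by
      intro x
      refine (hSg.comm (f := L.W (-b)) (map_add _) (map_sub _) (fun c x => map_smul _ c x)
        (fun x => (L.nst_E_W G (-b) x).symm) (fun x => (hbW' _ (hsg i).1 x).symm) ?_ ?_ x).symm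
      · exact L.nst_W_comm (by rw [th_neg_left, t1, neg_zero])
      · exact L.nst_W_comm (by rw [th_neg_right, th_neg_left, t1, neg_zero, neg_zero])
    have hdr := hSg.dress hB (hAB (hsg i).1) hqW
    have hcomm : hSg.U * L.nst_NG hG b = L.nst_NG hG b * hSg.U :=
      L.nst_NG_comm hG (fun x => (hdr.cm _ (hB.nst_E_mem hG) x).symm) hdr.Z hUW hUW'
    have hsum : (((c i : ℂ) • sg i + psi) L.Om) = (c i : ℂ) • sg i L.Om + psi L.Om := rfl
    rw [Finset.sum_insert hi, ← hpsi]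
    refine ⟨hSg.U * D2, ?_, fun R1 h1 h2 h3 => ?_⟩
    · refine hdr.mul_psi hD2 (hB.nst_smul_mem _ (hAB (hsg i).1)) ?_
      ext x
      change (c i : ℂ) • sg i (psi x) = psi ((c i : ℂ) • sg i x)
      rw [map_smul, hsc psi hpA]
    · obtain ⟨R2, hR2, h12, h20, hm1, hm2⟩ := L.nst_exists_mid hR0 h1 h2 h3
      have hst := hrec R2 hR2 h20 hm1
      set St := L.nst_NG hG b * (D2 * (D * V1)) with hSt
      have hfv : L.fv L.Z G St = q := by
        have e : St = (L.nst_NG hG b * (D2 * D)) * V1 := by rw [hSt]; simp only [mul_assoc]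
        rw [e, L.nst_fv_mul]
        intro x
        rw [Sys.mulA, Sys.mulA, Sys.mulA, Sys.mulA, hDZ, hD2.Z, L.nst_NG_Z]
      have hT2 := hT M R2 R1 St (sg i) (s * c i) hst h1 h12 hm2 (hsg i) _ (hSg.isProd' L hfv)
      have e : L.nst_NG hSg.hG (((s * c i : ℝ) : ℂ) • L.iota (sg i L.Om)) * hSg.U * St
          = L.nst_NG hG ((s : ℂ) • L.iota (((c i : ℂ) • sg i + psi) L.Om))
            * (hSg.U * D2 * (D * V1)) := by
        have e1 : (s : ℂ) • L.iota (((c i : ℂ) • sg i + psi) L.Om) = a + b := by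
          rw [hsum, map_add, map_smul, smul_add, smul_smul, ha, hb]
          push_cast
          rfl
        rw [e1, ← L.nst_NG_NG hG t2, hSt]
        calc L.nst_NG hG a * hSg.U * (L.nst_NG hG b * (D2 * (D * V1)))
            = L.nst_NG hG a * (hSg.U * L.nst_NG hG b) * (D2 * (D * V1)) := by simp only [mul_assoc]
          _ = _ := by rw [hcomm]; simp only [mul_assoc]
      rw [← e]
      exact hT2

/-! ### closures -/

/-- `E_M`-strong closure -/
def NstNear (M : Set ℝ) (S : Set (H ≃ₗᵢ[ℂ] H)) (V : H ≃ₗᵢ[ℂ] H) : Prop :=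
  ∀ (F : Finset H) (ε : ℝ), 0 < ε → ∃ V' ∈ S, ∀ x ∈ F, ‖L.E M (V' x) - L.E M (V x)‖ < ε

omit [CompleteSpace H] in
lemma nst_near_net {M : Set ℝ} {S : Set (H ≃ₗᵢ[ℂ] H)} {V : H ≃ₗᵢ[ℂ] H} (h : L.NstNear M S V) :
    ∃ V' : (Finset H × ℕ) → (H ≃ₗᵢ[ℂ] H), (∀ i, V' i ∈ S) ∧
      ∀ x, Tendsto (fun i => L.E M (V' i x)) atTop (𝓝 (L.E M (V x))) := by
  have h1 : ∀ i : Finset H × ℕ, ∃ V' ∈ S, ∀ x ∈ i.1,
      ‖L.E M (V' x) - L.E M (V x)‖ < 1 / ((i.2 : ℝ) + 1) := fun i => h i.1 _ (by positivity)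
  choose V' hV' hx using h1
  refine ⟨V', hV', fun x => ?_⟩
  rw [Metric.tendsto_nhds]
  intro ε hε
  obtain ⟨n, hn⟩ := exists_nat_one_div_lt hε
  filter_upwards [eventually_ge_atTop (({x}, n) : Finset H × ℕ)] with i hi
  rw [dist_eq_norm]
  have h2 : x ∈ i.1 := hi.1 (by simp)
  have h3 : n ≤ i.2 := hi.2
  refine (hx i x h2).trans_le (le_trans ?_ hn.le)
  have h4 : (n : ℝ) ≤ (i.2 : ℝ) := by exact_mod_cast h3
  exact one_div_le_one_div_of_le (by positivity) (by linarith)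

omit [CompleteSpace H] in
lemma nst_net_near {ι : Type*} {l : Filter ι} [l.NeBot] {M : Set ℝ} {S : Set (H ≃ₗᵢ[ℂ] H)}
    {V : H ≃ₗᵢ[ℂ] H} {V' : ι → (H ≃ₗᵢ[ℂ] H)} (h1 : ∀ i, V' i ∈ S)
    (h2 : ∀ x, Tendsto (fun i => L.E M (V' i x)) l (𝓝 (L.E M (V x)))) : L.NstNear M S V := by
  intro F ε hε
  have h3 : ∀ x ∈ F, ∀ᶠ i in l, ‖L.E M (V' i x) - L.E M (V x)‖ < ε := by
    intro x _
    have := (tendsto_iff_norm_sub_tendsto_zero.1 (h2 x))
    exact this.eventually (gt_mem_nhds hε)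
  obtain ⟨i, hi⟩ := ((Filter.eventually_all_finset F).2 h3).exists
  exact ⟨V' i, h1 i, hi⟩

/-- states which are reachable up to a dressing -/
def NstApp (𝔅 : Set (H →L[ℂ] H)) (psi : H →L[ℂ] H)
    (Rch : Set ℝ → Set ℝ → (H ≃ₗᵢ[ℂ] H) → Prop) (M R : Set ℝ) : Set (H ≃ₗᵢ[ℂ] H) :=
  {V | NstCm 𝔅 V ∧ ∃ κ D, L.NstDress 𝔅 psi κ D ∧ Rch M R (D * V)}

/-- the reachability predicate of the next level -/
def NstRp (G : Set ℝ) (𝔅 : Set (H →L[ℂ] H)) (psi : H →L[ℂ] H)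
    (Rch : Set ℝ → Set ℝ → (H ≃ₗᵢ[ℂ] H) → Prop) (M R : Set ℝ) (V : H ≃ₗᵢ[ℂ] H) : Prop :=
  (MeasurableSet M ∧ MeasurableSet R ∧ Disjoint M R ∧ G ⊆ M) ∧ NstCm 𝔅 V ∧
  ∀ R', MeasurableSet R' → R' ⊆ R → L.mu (R \ R') ≠ 0 → L.NstNear M (L.NstApp 𝔅 psi Rch M R') V

lemma NstRp.op {G : Set ℝ} {𝔅 : Set (H →L[ℂ] H)} {psi : H →L[ℂ] H}
    {Rch : Set ℝ → Set ℝ → (H ≃ₗᵢ[ℂ] H) → Prop} {M R : Set ℝ} {V : H ≃ₗᵢ[ℂ] H}
    (h : L.NstRp G 𝔅 psi Rch M R V) {Φ : (H ≃ₗᵢ[ℂ] H) → (H ≃ₗᵢ[ℂ] H)} (hV : NstCm 𝔅 (Φ V))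
    (hS : ∀ R0 R', MeasurableSet R0 → MeasurableSet R' → R' ⊆ R0 → L.mu (R0 \ R') ≠ 0 →
      ∀ V1 ∈ L.NstApp 𝔅 psi Rch M R0, Φ V1 ∈ L.NstApp 𝔅 psi Rch M R')
    (hcont : ∀ V' : (Finset H × ℕ) → (H ≃ₗᵢ[ℂ] H), (∀ i, NstCm 𝔅 (V' i)) →
      (∀ x, Tendsto (fun i => L.E M (V' i x)) atTop (𝓝 (L.E M (V x)))) →
      ∀ x, Tendsto (fun i => L.E M (Φ (V' i) x)) atTop (𝓝 (L.E M (Φ V x)))) :
    L.NstRp G 𝔅 psi Rch M R (Φ V) := by
  classical
  obtain ⟨hm, hc, hn⟩ := h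
  refine ⟨hm, hV, fun R' h1 h2 h3 => ?_⟩
  obtain ⟨R0, hR0, h10, h02, hm1, hm2⟩ := L.nst_exists_mid hm.2.1 h1 h2 h3
  obtain ⟨V', hV', hx⟩ := L.nst_near_net (hn R0 hR0 h02 hm1)
  exact L.nst_net_near (V' := fun i => Φ (V' i)) (fun i => hS R0 R' hR0 h1 h10 hm2 _ (hV' i))
    (hcont V' (fun i => (hV' i).1) hx)

/-- left multiplication by a unitary -/
lemma NstRp.mulL {G : Set ℝ} {𝔅 : Set (H →L[ℂ] H)} {psi : H →L[ℂ] H} (hB : L.Ctl 𝔅)
    {Rch : Set ℝ → Set ℝ → (H ≃ₗᵢ[ℂ] H) → Prop} {M R : Set ℝ} {V U : H ≃ₗᵢ[ℂ] H}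
    (h : L.NstRp G 𝔅 psi Rch M R V) (hU : NstCm 𝔅 U)
    (hS : ∀ R0 R', MeasurableSet R0 → MeasurableSet R' → R' ⊆ R0 → L.mu (R0 \ R') ≠ 0 →
      ∀ V1 ∈ L.NstApp 𝔅 psi Rch M R0, U * V1 ∈ L.NstApp 𝔅 psi Rch M R') :
    L.NstRp G 𝔅 psi Rch M R (U * V) := by
  refine h.op L (Φ := fun V => U * V) (hU.mul h.2.1) hS fun V' _ hx x => ?_
  have hE : ∀ y, L.E M (U y) = U (L.E M y) := hU _ (hB.nst_E_mem h.1.1)
  have h1 := (U.continuous.tendsto _).comp (hx x)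
  rw [← hE] at h1
  exact h1.congr fun i => (hE _).symm

/-! ### closure properties of the new predicate -/

section closed

variable {G : Set ℝ} {𝔄 𝔅 : Set (H →L[ℂ] H)} {psi : H →L[ℂ] H}
  {Rch : Set ℝ → Set ℝ → (H ≃ₗᵢ[ℂ] H) → Prop}

lemma nst_rp_lim {M R : Set ℝ} {V : ℕ → (H ≃ₗᵢ[ℂ] H)} {V0 : H ≃ₗᵢ[ℂ] H}
    (h : ∀ n, L.NstRp G 𝔅 psi Rch M R (V n)) (h0 : NstCm 𝔅 V0)
    (hx : ∀ x, Tendsto (fun n => L.E M (V n x)) atTop (𝓝 (L.E M (V0 x)))) :
    L.NstRp G 𝔅 psi Rch M R V0 := by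
  refine ⟨(h 0).1, h0, fun R' h1 h2 h3 F ε hε => ?_⟩
  have h4 : ∀ x ∈ F, ∀ᶠ n in atTop, ‖L.E M (V n x) - L.E M (V0 x)‖ < ε / 2 := by
    intro x _
    exact (tendsto_iff_norm_sub_tendsto_zero.1 (hx x)).eventually (gt_mem_nhds (half_pos hε))
  obtain ⟨n, hn⟩ := ((Filter.eventually_all_finset F).2 h4).exists
  obtain ⟨V', hV', h5⟩ := (h n).2.2 R' h1 h2 h3 F (ε / 2) (half_pos hε)
  refine ⟨V', hV', fun x hxF => ?_⟩
  calc ‖L.E M (V' x) - L.E M (V0 x)‖ ≤ ‖L.E M (V' x) - L.E M (V n x)‖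
        + ‖L.E M (V n x) - L.E M (V0 x)‖ := norm_sub_le_norm_sub_add_norm_sub _ _ _
    _ < ε := by linarith [h5 x hxF, hn x hxF]

lemma nst_rp_mono {M R R' : Set ℝ} {V : H ≃ₗᵢ[ℂ] H} (h : L.NstRp G 𝔅 psi Rch M R V)
    (hR' : MeasurableSet R') (hs : R' ⊆ R) : L.NstRp G 𝔅 psi Rch M R' V := by
  refine ⟨⟨h.1.1, hR', h.1.2.2.1.mono_right hs, h.1.2.2.2⟩, h.2.1, fun R'' h1 h2 h3 => ?_⟩
  refine h.2.2 R'' h1 (h2.trans hs) fun h4 => h3 ?_
  exact measure_mono_null (Set.sdiff_subset_sdiff_left hs) h4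

lemma nst_rp_shrink (hR : L.Closed G 𝔄 Rch) {M M' R : Set ℝ} {V : H ≃ₗᵢ[ℂ] H}
    (h : L.NstRp G 𝔅 psi Rch M R V) (hM' : MeasurableSet M') (hs : M' ⊆ M) (hG : G ⊆ M') :
    L.NstRp G 𝔅 psi Rch M' R V := by
  refine ⟨⟨hM', h.1.2.1, h.1.2.2.1.mono_left hs, hG⟩, h.2.1, fun R' h1 h2 h3 F ε hε => ?_⟩
  obtain ⟨V', ⟨hV', κ, D, hD, hr⟩, hx⟩ := h.2.2 R' h1 h2 h3 F ε hε
  refine ⟨V', ⟨hV', κ, D, hD, hR.shrink _ _ _ _ hr hM' hs hG⟩, fun x hxF => ?_⟩
  refine lt_of_le_of_lt ?_ (hx x hxF)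
  rw [← map_sub, ← map_sub, ← L.nst_E_sub hM' h.1.1 hs]
  exact L.nst_norm_E_le hM' _

lemma nst_rp_act (hB : L.Ctl 𝔅) (hAB : 𝔄 ⊆ 𝔅) (hR : L.Closed G 𝔄 Rch) (hGm : MeasurableSet G)
    (hp : psi ∈ 𝔅) (hpG : psi * L.E G = psi) {M R R0 : Set ℝ} {V V' : H ≃ₗᵢ[ℂ] H}
    (h : L.NstRp G 𝔅 psi Rch M R V) (hR0 : MeasurableSet R0) (hs : R0 ⊆ R)
    (hV' : NstCm 𝔅 V') (h1 : ∀ x, L.E M (V' x) = L.E M (V x))
    (h2 : ∀ x, L.E R0 (V' x) = L.E R0 x) : L.NstRp G 𝔅 psi Rch (M ∪ R0) (R \ R0) V' := by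
  obtain ⟨⟨hM, hRm, hMR, hGM⟩, hV, hn⟩ := h
  have hMR0 : Disjoint M R0 := hMR.mono_right hs
  have hpM : psi * L.E M = psi := by
    have : L.E G * L.E M = L.E G := by rw [L.nst_E_mul hGm hM, Set.inter_eq_left.2 hGM]
    rw [← hpG, mul_assoc, this]
  refine ⟨⟨hM.union hR0, hRm.diff hR0, ?_, hGM.trans Set.subset_union_left⟩, hV',
    fun R'' g1 g2 g3 F ε hε => ?_⟩
  · exact Set.disjoint_union_left.2 ⟨hMR.mono_right Set.sdiff_subset, Set.disjoint_sdiff_right⟩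
  · have e1 : R \ (R'' ∪ R0) = (R \ R0) \ R'' := by
      ext t; simp only [Set.mem_sdiff, Set.mem_union]; tauto
    have e2 : (R'' ∪ R0) \ R0 = R'' := by
      ext t
      simp only [Set.mem_sdiff, Set.mem_union]
      constructor
      · rintro ⟨h3 | h3, h4⟩
        · exact h3
        · exact absurd h3 h4
      · intro h3; exact ⟨Or.inl h3, (g2 h3).2⟩
    obtain ⟨V1, ⟨hV1, κ, D, hD, hr⟩, hx⟩ := hn (R'' ∪ R0) (g1.union hR0)
      (Set.union_subset (g2.trans Set.sdiff_subset) hs) (by rw [e1]; exact g3) F ε hε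
    have hEV1 : ∀ x, L.E M (V1 x) = V1 (L.E M x) := hV1 _ (hB.nst_E_mem hM)
    have hED : ∀ x, L.E M (D x) = D (L.E M x) := hD.cm _ (hB.nst_E_mem hM)
    have hcmb : ∀ {U : H ≃ₗᵢ[ℂ] H} (hU : NstCm 𝔅 U) (hE : ∀ x, L.E M (U x) = U (L.E M x)),
        NstCm 𝔅 (L.nst_blk hM hE) := by
      intro U hU hE a ha x
      rw [nst_blk_apply, nst_blk_apply, map_add, map_sub, hU a ha, hB.nst_comm_apply ha (hB.nst_E_mem hM)]
    refine ⟨L.nst_blk hM hEV1, ⟨hcmb hV1 _, κ, L.nst_blk hM hED, hD.blkD hB hM hpM hp, ?_⟩,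
      fun x hxF => ?_⟩
    · have h3 := hR.act M (R'' ∪ R0) R0 (D * V1) (L.nst_blk hM hED * L.nst_blk hM hEV1) hr hR0
        Set.subset_union_right (((hcmb hD.cm _).mul (hcmb hV1 _)).mono hAB) (fun x => ?_)
        (fun x => ?_)
      · rwa [e2] at h3
      · rw [Sys.mulA, Sys.mulA, nst_blk_apply, nst_blk_apply]
        simp only [map_add, map_sub, hEV1, hED, L.nst_E_idem hM]
        abel
      · have k1 : ∀ {U : H ≃ₗᵢ[ℂ] H} (hE : ∀ x, L.E M (U x) = U (L.E M x)) (y : H),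
            L.E R0 (L.nst_blk hM hE y) = L.E R0 y := by
          intro U hE y
          rw [nst_blk_apply, map_add, map_sub, ← hE, L.nst_E_disj hR0 hM hMR0.symm,
            L.nst_E_disj hR0 hM hMR0.symm]
          abel
        rw [Sys.mulA, k1, k1]
    · have k2 : ∀ y, L.E (M ∪ R0) y = L.E M y + L.E R0 y := by
        intro y; rw [← L.nst_E_add hM hR0 hMR0]; rfl
      have k1 : L.E R0 (L.nst_blk hM hEV1 x) = L.E R0 x := by
        rw [nst_blk_apply, map_add, map_sub, ← hEV1, L.nst_E_disj hR0 hM hMR0.symm,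
          L.nst_E_disj hR0 hM hMR0.symm]
        abel
      have k3 : L.E M (L.nst_blk hM hEV1 x) = L.E M (V1 x) := by
        rw [nst_blk_apply]
        simp only [map_add, map_sub, hEV1, L.nst_E_idem hM]
        abel
      rw [k2, k2, k1, h2, h1, k3, add_sub_add_right_eq_sub]
      exact hx x hxF

end closed

end LSys

end Vale.Agent.P367.A
end
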