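import Mathlib
import Vale.Agent.P367.Bd3.B1
import Vale.Agent.P367.Bd3.B3
import Vale.Agent.P367.Bd3.B2

set_option linter.all false

section

/-! P367: the energy of a labelled word as a continuous function of its field vector. -/

namespace Vale.Agent.P367.NI

open Filter Topology ComplexConjugate

variable {F K : Type} [NormedAddCommGroup F] [InnerProductSpace ℂ F]
  [NormedAddCommGroup K] [InnerProductSpace ℂ K]

lemma tendsto_ek (z : ℂ) : Tendsto (fun x : ℝ => ((x⁻¹ : ℝ) : ℂ) * (Complex.exp ((x : ℂ) * z) - 1))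
    (𝓝[≠] 0) (𝓝 z) := by
  have h : HasDerivAt (fun x : ℝ => Complex.exp ((x : ℂ) * z)) z 0 := by
    have h1 : HasDerivAt (fun x : ℂ => Complex.exp (x * z)) z ((0 : ℝ) : ℂ) := by
      have := ((hasDerivAt_id ((0 : ℝ) : ℂ)).mul_const z).cexp
      simpa using this
    exact h1.comp_ofReal
  refine (hasDerivAt_iff_tendsto_slope.1 h).congr fun x => ?_
  simp [slope]

/-- the sequence of small times -/
noncomputable def tau (n : ℕ) : ℝ := 1 / ((n : ℝ) + 1)

lemma tau_pos (n : ℕ) : 0 < tau n := by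
  unfold tau
  positivity

lemma tendsto_tau : Tendsto tau atTop (𝓝 0) := tendsto_one_div_add_atTop_nhds_zero_nat

lemma tendsto_tau_ne : Tendsto tau atTop (𝓝[≠] 0) :=
  tendsto_nhdsWithin_iff.2 ⟨tendsto_tau, Eventually.of_forall fun n => (tau_pos n).ne'⟩

lemma tendsto_tau2 : Tendsto (fun p : ℕ × ℕ => tau p.1 * tau p.2) atTop (𝓝[≠] 0) := by
  refine tendsto_nhdsWithin_iff.2 ⟨?_, Eventually.of_forall fun p =>
    (mul_pos (tau_pos _) (tau_pos _)).ne'⟩
  rw [← prod_atTop_atTop_eq]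
  have h1 : Tendsto (fun p : ℕ × ℕ => tau p.1) (atTop ×ˢ atTop) (𝓝 0) :=
    tendsto_tau.comp Filter.tendsto_fst
  have h2 : Tendsto (fun p : ℕ × ℕ => tau p.2) (atTop ×ˢ atTop) (𝓝 0) :=
    tendsto_tau.comp Filter.tendsto_snd
  simpa using h1.mul h2

namespace Weyl

variable (S : Weyl F K)

/-- coherent vectors with kernel `exp <u, v>` -/
noncomputable def cv (u : K) : F := ((Real.exp (‖u‖ ^ 2 / 2) : ℝ) : ℂ) • S.W u S.Om

lemma inner_cv (u v : K) : inner ℂ (S.cv u) (S.cv v) = Complex.exp (inner ℂ u v) := by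
  unfold cv
  rw [inner_smul_left, inner_smul_right, S.inner_W_W, Complex.conj_ofReal, Complex.ofReal_exp,
    Complex.ofReal_exp, ← Complex.exp_add, ← Complex.exp_add]
  congr 1
  have h1 := @norm_sub_sq ℂ K _ _ _ v u
  have h2 : (inner ℂ v u : ℂ).re = (inner ℂ u v : ℂ).re := by
    rw [← inner_conj_symm, Complex.conj_re]
  rw [RCLike.re_to_complex, h2] at h1
  rw [h1]
  conv_rhs => rw [← Complex.re_add_im (inner ℂ u v)]
  push_cast
  ring

lemma cv_zero : S.cv 0 = S.Om := by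
  unfold cv
  simp [S.W_zero]

/-- difference quotients of the coherent vectors -/
noncomputable def dq (u : K) (t : ℝ) : F := ((t⁻¹ : ℝ) : ℂ) • (S.cv ((t : ℂ) • u) - S.Om)

lemma inner_dq (u v : K) (t s : ℝ) : inner ℂ (S.dq u t) (S.dq v s)
    = (((t * s)⁻¹ : ℝ) : ℂ) * (Complex.exp (((t * s : ℝ) : ℂ) * inner ℂ u v) - 1) := by
  unfold dq
  rw [inner_smul_left, inner_smul_right, inner_sub_left, inner_sub_right, inner_sub_right,
    ← S.cv_zero, S.inner_cv, S.inner_cv, S.inner_cv, S.inner_cv]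
  simp only [inner_zero_left, inner_zero_right, mul_zero, Complex.exp_zero,
    Complex.conj_ofReal, inner_smul_left, inner_smul_right]
  rw [mul_inv, Complex.ofReal_mul, Complex.ofReal_mul]
  ring_nf

lemma cauchy_dq (u : K) : CauchySeq (fun n : ℕ => S.dq u (tau n)) := by
  rw [cauchySeq_iff_tendsto_dist_atTop_0]
  have h1 : ∀ p : ℕ × ℕ, dist (S.dq u (tau p.1)) (S.dq u (tau p.2)) = Real.sqrt
      ((inner ℂ (S.dq u (tau p.1)) (S.dq u (tau p.1)) - inner ℂ (S.dq u (tau p.1)) (S.dq u (tau p.2))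
        - (inner ℂ (S.dq u (tau p.2)) (S.dq u (tau p.1))
          - inner ℂ (S.dq u (tau p.2)) (S.dq u (tau p.2))) : ℂ).re) := by
    intro p
    rw [dist_eq_norm, ← inner_sub_right, ← inner_sub_right, ← inner_sub_left]
    rw [inner_self_eq_norm_sq_to_K]
    have : ((‖S.dq u (tau p.1) - S.dq u (tau p.2)‖ : ℂ) ^ 2).re
        = ‖S.dq u (tau p.1) - S.dq u (tau p.2)‖ ^ 2 := by
      rw [← Complex.ofReal_pow, Complex.ofReal_re]
    have h2 := Real.sqrt_sq (norm_nonneg (S.dq u (tau p.1) - S.dq u (tau p.2)))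
    rw [← this] at h2
    exact h2.symm
  simp_rw [h1, S.inner_dq]
  have h11 : Tendsto (fun p : ℕ × ℕ => (((tau p.1 * tau p.1)⁻¹ : ℝ) : ℂ) *
      (Complex.exp (((tau p.1 * tau p.1 : ℝ) : ℂ) * inner ℂ u u) - 1)) atTop (𝓝 (inner ℂ u u)) := by
    refine (tendsto_ek (inner ℂ u u)).comp (tendsto_tau2.comp
      (f := fun p : ℕ × ℕ => (p.1, p.1)) ?_)
    rw [← prod_atTop_atTop_eq]
    exact Filter.tendsto_fst.prodMk Filter.tendsto_fst
  have h22 : Tendsto (fun p : ℕ × ℕ => (((tau p.2 * tau p.2)⁻¹ : ℝ) : ℂ) *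
      (Complex.exp (((tau p.2 * tau p.2 : ℝ) : ℂ) * inner ℂ u u) - 1)) atTop (𝓝 (inner ℂ u u)) := by
    refine (tendsto_ek (inner ℂ u u)).comp (tendsto_tau2.comp
      (f := fun p : ℕ × ℕ => (p.2, p.2)) ?_)
    rw [← prod_atTop_atTop_eq]
    exact Filter.tendsto_snd.prodMk Filter.tendsto_snd
  have h12 : Tendsto (fun p : ℕ × ℕ => (((tau p.1 * tau p.2)⁻¹ : ℝ) : ℂ) *
      (Complex.exp (((tau p.1 * tau p.2 : ℝ) : ℂ) * inner ℂ u u) - 1)) atTop (𝓝 (inner ℂ u u)) :=
    (tendsto_ek (inner ℂ u u)).comp tendsto_tau2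
  have h21 : Tendsto (fun p : ℕ × ℕ => (((tau p.2 * tau p.1)⁻¹ : ℝ) : ℂ) *
      (Complex.exp (((tau p.2 * tau p.1 : ℝ) : ℂ) * inner ℂ u u) - 1)) atTop (𝓝 (inner ℂ u u)) := by
    refine h12.congr fun p => ?_
    rw [mul_comm (tau p.1)]
  have h3 := (h11.sub h12).sub (h21.sub h22)
  have h4 := (Real.continuous_sqrt.tendsto _).comp ((Complex.continuous_re.tendsto _).comp h3)
  refine h4.trans (le_of_eq ?_)
  simp

variable [CompleteSpace F]

/-- the one-particle vector: derivative of the coherent vectors at the vacuum -/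
noncomputable def Jc (u : K) : F :=
  Classical.choose (cauchySeq_tendsto_of_complete (S.cauchy_dq u))

lemma tendsto_dq (u : K) : Tendsto (fun n : ℕ => S.dq u (tau n)) atTop (𝓝 (S.Jc u)) :=
  Classical.choose_spec (cauchySeq_tendsto_of_complete (S.cauchy_dq u))

lemma inner_Jc (u v : K) : inner ℂ (S.Jc u) (S.Jc v) = (inner ℂ u v : ℂ) := by
  have h1 : Tendsto (fun n : ℕ => (inner ℂ (S.dq u (tau n)) (S.dq v (tau n)) : ℂ)) atTop
      (𝓝 (inner ℂ (S.Jc u) (S.Jc v))) := (S.tendsto_dq u).inner (S.tendsto_dq v)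
  have h2 : Tendsto (fun n : ℕ => (inner ℂ (S.dq u (tau n)) (S.dq v (tau n)) : ℂ)) atTop
      (𝓝 (inner ℂ u v)) := by
    simp_rw [S.inner_dq]
    refine (tendsto_ek (inner ℂ u v)).comp (tendsto_tau2.comp
      (f := fun n : ℕ => (n, n)) ?_)
    rw [← prod_atTop_atTop_eq]
    exact tendsto_id.prodMk tendsto_id
  exact tendsto_nhds_unique h1 h2

lemma Jc_add (u v : K) : S.Jc (u + v) = S.Jc u + S.Jc v := by
  rw [← sub_eq_zero, ← inner_self_eq_zero (𝕜 := ℂ)]
  simp only [inner_sub_left, inner_sub_right, inner_add_left, inner_add_right, S.inner_Jc]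
  ring

lemma Jc_smul (c : ℂ) (u : K) : S.Jc (c • u) = c • S.Jc u := by
  rw [← sub_eq_zero, ← inner_self_eq_zero (𝕜 := ℂ)]
  simp only [inner_sub_left, inner_sub_right, inner_smul_left, inner_smul_right, S.inner_Jc]
  ring

lemma norm_Jc (u : K) : ‖S.Jc u‖ = ‖u‖ := by
  have h := S.inner_Jc u u
  rw [inner_self_eq_norm_sq_to_K, inner_self_eq_norm_sq_to_K] at h
  have h2 : ‖S.Jc u‖ ^ 2 = ‖u‖ ^ 2 := by
    have h3 : ((‖S.Jc u‖ ^ 2 : ℝ) : ℂ) = ((‖u‖ ^ 2 : ℝ) : ℂ) := by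
      rw [Complex.ofReal_pow, Complex.ofReal_pow]
      exact h
    exact Complex.ofReal_injective h3
  exact (sq_eq_sq₀ (norm_nonneg _) (norm_nonneg _)).1 h2

/-- overlap of the one-particle vectors with Weyl vectors -/
lemma inner_Jc_W (u v : K) : inner ℂ (S.Jc u) (S.W v S.Om)
    = inner ℂ u v * Complex.exp (-((‖v‖ ^ 2 / 2 : ℝ) : ℂ)) := by
  have h1 : Tendsto (fun n : ℕ => (inner ℂ (S.dq u (tau n)) (S.cv v) : ℂ)) atTop
      (𝓝 (inner ℂ (S.Jc u) (S.cv v))) := (S.tendsto_dq u).inner tendsto_const_nhds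
  have h2 : Tendsto (fun n : ℕ => (inner ℂ (S.dq u (tau n)) (S.cv v) : ℂ)) atTop
      (𝓝 (inner ℂ u v)) := by
    have h3 : ∀ n : ℕ, inner ℂ (S.dq u (tau n)) (S.cv v)
        = (((tau n)⁻¹ : ℝ) : ℂ) * (Complex.exp (((tau n : ℝ) : ℂ) * inner ℂ u v) - 1) := by
      intro n
      unfold dq
      rw [inner_smul_left, inner_sub_left, ← S.cv_zero, S.inner_cv, S.inner_cv, inner_smul_left,
        inner_zero_left, Complex.exp_zero, Complex.conj_ofReal, Complex.conj_ofReal]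
    simp_rw [h3]
    exact (tendsto_ek (inner ℂ u v)).comp tendsto_tau_ne
  have h3 := tendsto_nhds_unique h1 h2
  have h4 : S.W v S.Om = Complex.exp (-((‖v‖ ^ 2 / 2 : ℝ) : ℂ)) • S.cv v := by
    unfold cv
    rw [smul_smul, Complex.ofReal_exp, ← Complex.exp_add, neg_add_cancel, Complex.exp_zero,
      one_smul]
  rw [h4, inner_smul_right, h3, mul_comm]

/-- derivative of the Weyl vectors at the vacuum -/
lemma tendsto_W_quot (u : K) : Tendsto (fun n : ℕ => (((tau n)⁻¹ : ℝ) : ℂ) •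
    (S.W (((tau n : ℝ) : ℂ) • u) S.Om - S.Om)) atTop (𝓝 (S.Jc u)) := by
  have h1 : ∀ n : ℕ, (((tau n)⁻¹ : ℝ) : ℂ) • (S.W (((tau n : ℝ) : ℂ) • u) S.Om - S.Om)
      = Complex.exp (((tau n ^ 2 : ℝ) : ℂ) * (-((‖u‖ ^ 2 / 2 : ℝ) : ℂ))) • S.dq u (tau n)
        + (((tau n : ℝ) : ℂ) * ((((tau n ^ 2)⁻¹ : ℝ) : ℂ) *
          (Complex.exp (((tau n ^ 2 : ℝ) : ℂ) * (-((‖u‖ ^ 2 / 2 : ℝ) : ℂ))) - 1))) • S.Om := by
    intro n
    have h2 : S.W (((tau n : ℝ) : ℂ) • u) S.Om
        = Complex.exp (((tau n ^ 2 : ℝ) : ℂ) * (-((‖u‖ ^ 2 / 2 : ℝ) : ℂ))) •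
          S.cv (((tau n : ℝ) : ℂ) • u) := by
      unfold cv
      rw [smul_smul, Complex.ofReal_exp, ← Complex.exp_add]
      have : ((tau n ^ 2 : ℝ) : ℂ) * (-((‖u‖ ^ 2 / 2 : ℝ) : ℂ))
          + (((‖((tau n : ℝ) : ℂ) • u‖ ^ 2 / 2 : ℝ)) : ℂ) = 0 := by
        rw [norm_smul, Complex.norm_real, Real.norm_eq_abs, mul_pow, sq_abs]
        push_cast
        ring
      rw [this, Complex.exp_zero, one_smul]
    rw [h2]
    unfold dq
    set E := Complex.exp (((tau n ^ 2 : ℝ) : ℂ) * (-((‖u‖ ^ 2 / 2 : ℝ) : ℂ)))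
    have h3 : ((tau n : ℝ) : ℂ) * ((((tau n ^ 2)⁻¹ : ℝ) : ℂ) * (E - 1))
        = (((tau n)⁻¹ : ℝ) : ℂ) * (E - 1) := by
      have h4 : ((tau n : ℝ) : ℂ) ≠ 0 := Complex.ofReal_ne_zero.2 (tau_pos n).ne'
      push_cast
      field_simp
    rw [h3]
    module
  simp_rw [h1]
  have hE : Tendsto (fun n : ℕ => Complex.exp (((tau n ^ 2 : ℝ) : ℂ) *
      (-((‖u‖ ^ 2 / 2 : ℝ) : ℂ)))) atTop (𝓝 1) := by
    have h2 : Tendsto (fun n : ℕ => ((tau n ^ 2 : ℝ) : ℂ) * (-((‖u‖ ^ 2 / 2 : ℝ) : ℂ))) atTop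
        (𝓝 ((((0 : ℝ) ^ 2 : ℝ) : ℂ) * (-((‖u‖ ^ 2 / 2 : ℝ) : ℂ)))) := by
      refine Tendsto.mul_const _ ?_
      exact (Complex.continuous_ofReal.tendsto _).comp (tendsto_tau.pow 2)
    have h3 := (Complex.continuous_exp.tendsto _).comp h2
    refine h3.trans (le_of_eq ?_)
    simp
  have hq : Tendsto (fun n : ℕ => (((tau n : ℝ) : ℂ) * ((((tau n ^ 2)⁻¹ : ℝ) : ℂ) *
          (Complex.exp (((tau n ^ 2 : ℝ) : ℂ) * (-((‖u‖ ^ 2 / 2 : ℝ) : ℂ))) - 1)))) atTop (𝓝 0) := by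
    have h2 : Tendsto (fun n : ℕ => ((((tau n ^ 2)⁻¹ : ℝ) : ℂ) *
          (Complex.exp (((tau n ^ 2 : ℝ) : ℂ) * (-((‖u‖ ^ 2 / 2 : ℝ) : ℂ))) - 1))) atTop
          (𝓝 (-((‖u‖ ^ 2 / 2 : ℝ) : ℂ))) := by
      refine (tendsto_ek (-((‖u‖ ^ 2 / 2 : ℝ) : ℂ))).comp (f := fun n : ℕ => tau n ^ 2) ?_
      refine tendsto_nhdsWithin_iff.2 ⟨?_, Eventually.of_forall fun n =>
        (pow_pos (tau_pos n) 2).ne'⟩
      simpa using tendsto_tau.pow 2
    have h3 : Tendsto (fun n : ℕ => ((tau n : ℝ) : ℂ)) atTop (𝓝 ((0 : ℝ) : ℂ)) :=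
      (Complex.continuous_ofReal.tendsto _).comp tendsto_tau
    simpa using h3.mul h2
  have h4 := (hE.smul (S.tendsto_dq u)).add (hq.smul_const S.Om)
  simpa using h4

omit [CompleteSpace F] in
/-- the field vector of a gate -/
lemma norm_xv1 (V : St F) : ‖S.xv V‖ = ‖S.OmH‖ := by
  unfold xv
  rw [LinearIsometryEquiv.norm_map, LinearIsometryEquiv.norm_map, LinearIsometryEquiv.norm_map]

/-- derivative of `W(t u)` on the one-site vacuum -/
noncomputable def Psi (u : K) : HH F :=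
  WithLp.toLp 2 ((((Real.sqrt 2)⁻¹ : ℝ) : ℂ) • S.Jc u, (((Real.sqrt 2)⁻¹ : ℝ) : ℂ) • S.Jc u)

lemma Psi_smul (c : ℂ) (u : K) : S.Psi (c • u) = c • S.Psi u := by
  unfold Psi
  rw [S.Jc_smul, smul_comm, ← WithLp.toLp_smul]
  rfl

lemma Psi_add (u v : K) : S.Psi (u + v) = S.Psi u + S.Psi v := by
  unfold Psi
  rw [S.Jc_add, smul_add, ← WithLp.toLp_add]
  rfl

lemma inner_Psi (u v : K) : inner ℂ (S.Psi u) (S.Psi v) = (inner ℂ u v : ℂ) := by
  rw [inner_HH]
  have e1 : ∀ u, (S.Psi u).fst = (((Real.sqrt 2)⁻¹ : ℝ) : ℂ) • S.Jc u := fun _ => rfl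
  have e2 : ∀ u, (S.Psi u).snd = (((Real.sqrt 2)⁻¹ : ℝ) : ℂ) • S.Jc u := fun _ => rfl
  rw [e1, e1, e2, e2, inner_smul_left, inner_smul_right, S.inner_Jc, Complex.conj_ofReal]
  have h : (((Real.sqrt 2)⁻¹ : ℝ) : ℂ) * (((Real.sqrt 2)⁻¹ : ℝ) : ℂ) = 1 / 2 := by
    rw [← Complex.ofReal_mul, ← mul_inv, Real.mul_self_sqrt (by norm_num)]
    norm_num
  linear_combination (2 * (inner ℂ u v : ℂ)) * h

/-- the field operator applied to the one-site vacuum -/
noncomputable def Phi : K →ₗᵢ[ℂ] HH F where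
  toFun u := (-Complex.I) • S.Psi u
  map_add' u v := by rw [S.Psi_add, smul_add]
  map_smul' c u := by
    rw [S.Psi_smul, smul_comm]
    rfl
  norm_map' u := by
    change ‖(-Complex.I) • S.Psi u‖ = ‖u‖
    have h : ‖S.Psi u‖ ^ 2 = ‖u‖ ^ 2 := by
      have h := S.inner_Psi u u
      rw [inner_self_eq_norm_sq_to_K, inner_self_eq_norm_sq_to_K] at h
      have h3 : ((‖S.Psi u‖ ^ 2 : ℝ) : ℂ) = ((‖u‖ ^ 2 : ℝ) : ℂ) := by
        rw [Complex.ofReal_pow, Complex.ofReal_pow]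
        exact h
      exact Complex.ofReal_injective h3
    rw [norm_smul, norm_neg, Complex.norm_I, one_mul]
    exact (sq_eq_sq₀ (norm_nonneg _) (norm_nonneg _)).1 h

lemma Phi_apply (u : K) : S.Phi u = (-Complex.I) • S.Psi u := rfl

end Weyl

/-- difference quotients along `tau` -/
def DQ {E : Type} [NormedAddCommGroup E] [InnerProductSpace ℂ E] (f : ℕ → E) (f0 L : E) : Prop :=
  Tendsto (fun n => (((tau n)⁻¹ : ℝ) : ℂ) • (f n - f0)) atTop (𝓝 L)

section DQ

variable {E : Type} [NormedAddCommGroup E] [InnerProductSpace ℂ E] {f g : ℕ → E} {f0 g0 L M : E}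

lemma tendsto_tauC : Tendsto (fun n : ℕ => ((tau n : ℝ) : ℂ)) atTop (𝓝 0) := by
  have := (Complex.continuous_ofReal.tendsto _).comp tendsto_tau
  simpa [Function.comp_def] using this

lemma DQ.tendsto (h : DQ f f0 L) : Tendsto f atTop (𝓝 f0) := by
  have h1 := (tendsto_tauC.smul h).add_const f0
  rw [zero_smul, zero_add] at h1
  refine h1.congr fun n => ?_
  have : ((tau n : ℝ) : ℂ) ≠ 0 := Complex.ofReal_ne_zero.2 (tau_pos n).ne'
  rw [smul_smul, Complex.ofReal_inv, mul_inv_cancel₀ this, one_smul, sub_add_cancel]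

lemma DQ.const : DQ (fun _ => f0) f0 0 := by
  unfold DQ
  simp

lemma DQ.map (A : E ≃ₗᵢ[ℂ] E) (h : DQ f f0 L) : DQ (fun n => A (f n)) (A f0) (A L) := by
  have h1 := (A.continuous.tendsto _).comp h
  refine h1.congr fun n => ?_
  simp

lemma DQ.inner (hf : DQ f f0 L) (hg : DQ g g0 M) :
    Tendsto (fun n => (((tau n)⁻¹ : ℝ) : ℂ) * (inner ℂ (f n) (g n) - inner ℂ f0 g0)) atTop
      (𝓝 (inner ℂ L g0 + inner ℂ f0 M)) := by
  have h1 := (Filter.Tendsto.inner (𝕜 := ℂ) hf hg.tendsto).add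
    (Filter.Tendsto.inner (𝕜 := ℂ) (tendsto_const_nhds (x := f0)) hg)
  refine h1.congr fun n => ?_
  rw [inner_smul_left, inner_smul_right, inner_sub_left, inner_sub_right, Complex.conj_ofReal]
  ring

end DQ

/-- the rotation `exp(i s Z)` -/
noncomputable def ph (s : ℝ) (x : HH F) : HH F :=
  ((Real.cos s : ℝ) : ℂ) • x + (Complex.I * ((Real.sin s : ℝ) : ℂ)) • zop F x

lemma ph_fst (s : ℝ) (x : HH F) : (ph s x).fst = Complex.exp (Complex.I * (s : ℂ)) • x.fst := by
  have h : (ph s x).fst = ((Real.cos s : ℝ) : ℂ) • x.fst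
      + (Complex.I * ((Real.sin s : ℝ) : ℂ)) • x.fst := rfl
  rw [h, ← add_smul]
  congr 1
  rw [mul_comm Complex.I (s : ℂ), Complex.exp_mul_I, Complex.ofReal_cos, Complex.ofReal_sin]
  ring

lemma ph_snd (s : ℝ) (x : HH F) : (ph s x).snd = Complex.exp (-(Complex.I * (s : ℂ))) • x.snd := by
  have h : (ph s x).snd = ((Real.cos s : ℝ) : ℂ) • x.snd
      + (Complex.I * ((Real.sin s : ℝ) : ℂ)) • (-x.snd) := rfl
  rw [h, smul_neg, ← sub_eq_add_neg, ← sub_smul]
  congr 1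
  have : -(Complex.I * (s : ℂ)) = (-(s : ℂ)) * Complex.I := by ring
  rw [this, Complex.exp_mul_I, Complex.cos_neg, Complex.sin_neg, Complex.ofReal_cos,
    Complex.ofReal_sin]
  ring

lemma DQ_ph (c : ℝ) {f : ℕ → HH F} {f0 L : HH F} (h : DQ f f0 L) :
    DQ (fun n => ph (c * tau n) (f n)) f0 (L + (Complex.I * (c : ℂ)) • zop F f0) := by
  have hsin : Tendsto (fun n => (((tau n)⁻¹ * Real.sin (c * tau n) : ℝ) : ℂ)) atTop
      (𝓝 ((c : ℝ) : ℂ)) := by
    refine (Complex.continuous_ofReal.tendsto _).comp ?_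
    have h1 : HasDerivAt (fun x : ℝ => Real.sin (c * x)) c 0 := by
      have := ((hasDerivAt_id (0 : ℝ)).const_mul c).sin
      simpa using this
    have h2 := (hasDerivAt_iff_tendsto_slope.1 h1).comp tendsto_tau_ne
    refine h2.congr fun n => ?_
    simp [slope]
  have hcos : Tendsto (fun n => (((tau n)⁻¹ * (Real.cos (c * tau n) - 1) : ℝ) : ℂ)) atTop
      (𝓝 0) := by
    have h0 : Tendsto (fun n => (tau n)⁻¹ * (Real.cos (c * tau n) - 1)) atTop (𝓝 0) := by
      have h1 : HasDerivAt (fun x : ℝ => Real.cos (c * x)) 0 0 := by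
        have := ((hasDerivAt_id (0 : ℝ)).const_mul c).cos
        simpa using this
      have h2 := (hasDerivAt_iff_tendsto_slope.1 h1).comp tendsto_tau_ne
      refine h2.congr fun n => ?_
      simp [slope]
    have := (Complex.continuous_ofReal.tendsto _).comp h0
    simpa [Function.comp_def] using this
  have hc1 : Tendsto (fun n => ((Real.cos (c * tau n) : ℝ) : ℂ)) atTop (𝓝 1) := by
    have h0 : Tendsto (fun n => Real.cos (c * tau n)) atTop (𝓝 (Real.cos (c * 0))) :=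
      (Real.continuous_cos.tendsto _).comp (tendsto_tau.const_mul c)
    have := (Complex.continuous_ofReal.tendsto _).comp h0
    simpa [Function.comp_def] using this
  have hz : Tendsto (fun n => zop F (f n)) atTop (𝓝 (zop F f0)) :=
    ((zop F).continuous.tendsto _).comp h.tendsto
  have h5 := ((hc1.smul h).add (hcos.smul_const f0)).add
    ((hsin.const_mul Complex.I).smul hz)
  rw [one_smul, zero_smul, add_zero] at h5
  refine h5.congr fun n => ?_
  unfold ph
  push_cast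
  module

namespace Weyl

variable (S : Weyl F K)

/-- the Weyl operator acting on the field only -/
noncomputable def Mt (u : K) : St F := dg (S.W u) (S.W u)

lemma Mt_fst (u : K) (x : HH F) : (S.Mt u x).fst = S.W u x.fst := rfl
lemma Mt_snd (u : K) (x : HH F) : (S.Mt u x).snd = S.W u x.snd := rfl

lemma HH_ext {x y : HH F} (h1 : x.fst = y.fst) (h2 : x.snd = y.snd) : x = y := by
  apply (WithLp.equiv 2 (F × F)).injective
  exact Prod.ext h1 h2

lemma Mt_neg_Mt (u : K) (x : HH F) : S.Mt (-u) (S.Mt u x) = x :=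
  HH_ext (S.W_neg_W u x.fst) (S.W_neg_W u x.snd)

lemma Mt_zop (u : K) (x : HH F) : S.Mt u (zop F x) = zop F (S.Mt u x) := by
  refine HH_ext rfl ?_
  rw [Mt_snd, zop_snd, zop_snd, Mt_snd, map_neg]

lemma Mt_xr (u : K) (b : ℝ) (x : HH F) : S.Mt u (xr b x) = xr b (S.Mt u x) := by
  refine HH_ext ?_ ?_
  · have h1 : (xr b x).fst = (Real.cos b : ℂ) • x.fst - (Complex.I * (Real.sin b : ℂ)) • x.snd := rfl
    have h2 : (xr b (S.Mt u x)).fst = (Real.cos b : ℂ) • (S.Mt u x).fst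
      - (Complex.I * (Real.sin b : ℂ)) • (S.Mt u x).snd := rfl
    rw [Mt_fst, h1, h2, map_sub, map_smul, map_smul, Mt_fst, Mt_snd]
  · have h1 : (xr b x).snd = -((Complex.I * (Real.sin b : ℂ)) • x.fst)
      + (Real.cos b : ℂ) • x.snd := rfl
    have h2 : (xr b (S.Mt u x)).snd = -((Complex.I * (Real.sin b : ℂ)) • (S.Mt u x).fst)
      + (Real.cos b : ℂ) • (S.Mt u x).snd := rfl
    rw [Mt_snd, h1, h2, map_add, map_neg, map_smul, map_smul, Mt_fst, Mt_snd]

lemma W_W_comm (a b : K) (x : F) : S.W a (S.W b x)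
    = Complex.exp (-(Complex.I * ((2 * (inner ℂ a b).im : ℝ) : ℂ))) • S.W b (S.W a x) := by
  rw [S.W_mul, S.W_mul b a, smul_smul, ← Complex.exp_add, add_comm b a]
  congr 2
  have h : (inner ℂ b a : ℂ).im = -(inner ℂ a b : ℂ).im := by
    rw [← inner_conj_symm, Complex.conj_im]
  rw [h]
  push_cast
  ring

lemma Mt_zr (u a : K) (x : HH F) :
    S.Mt u (S.zr a x) = S.zr a (ph (2 * (inner ℂ u a).im) (S.Mt u x)) := by
  refine HH_ext ?_ ?_
  · have h1 : (S.zr a x).fst = S.W (-a) x.fst := rfl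
    have h2 : ∀ y : HH F, (S.zr a y).fst = S.W (-a) y.fst := fun _ => rfl
    rw [Mt_fst, h1, h2, ph_fst, Mt_fst, S.W_W_comm, map_smul]
    congr 2
    rw [inner_neg_right, Complex.neg_im]
    push_cast
    ring
  · have h2 : ∀ y : HH F, (S.zr a y).snd = S.W a y.snd := fun _ => rfl
    rw [Mt_snd, h2, h2, ph_snd, Mt_snd, S.W_W_comm, map_smul]

/-- conjugated evolution -/
noncomputable def evp (u : K) : List Gate → HH F → HH F
  | [], x => x
  | Gate.B b :: w, x => xr b (evp u w x)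
  | Gate.C g :: w, x => S.zr ((g : ℂ) • S.iota (S.xv (S.ev w)))
      (ph (2 * (inner ℂ u ((g : ℂ) • S.iota (S.xv (S.ev w)))).im) (evp u w x))
  | Gate.G k :: w, x => S.zr ((k : ℂ) • S.e0)
      (ph (2 * (inner ℂ u ((k : ℂ) • S.e0)).im) (evp u w x))

lemma Mt_ev (u : K) (w : List Gate) (x : HH F) : S.Mt u (S.ev w x) = S.evp u w (S.Mt u x) := by
  induction w with
  | nil => rfl
  | cons g w ih =>
    cases g with
    | B b =>
      have h : S.ev (Gate.B b :: w) x = xr b (S.ev w x) := rfl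
      rw [h, Mt_xr, ih]
      rfl
    | C g =>
      have h : S.ev (Gate.C g :: w) x
          = S.zr ((g : ℂ) • S.iota (S.xv (S.ev w))) (S.ev w x) := rfl
      rw [h, Mt_zr, ih]
      rfl
    | G k =>
      have h : S.ev (Gate.G k :: w) x = S.zr ((k : ℂ) • S.e0) (S.ev w x) := rfl
      rw [h, Mt_zr, ih]
      rfl

/-- logarithmic derivative of the conjugated evolution -/
noncomputable def LL (u : K) (x : HH F) : List Gate → HH F
  | [] => 0
  | Gate.B _ :: w => LL u x w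
  | Gate.C g :: w => LL u x w + (Complex.I *
      ((2 * (inner ℂ u ((g : ℂ) • S.iota (S.xv (S.ev w)))).im : ℝ) : ℂ)) •
        (S.ev w).symm (zop F (S.ev w x))
  | Gate.G k :: w => LL u x w + (Complex.I *
      ((2 * (inner ℂ u ((k : ℂ) • S.e0)).im : ℝ) : ℂ)) • (S.ev w).symm (zop F (S.ev w x))

lemma im_smul_tau (u a : K) (n : ℕ) : 2 * (inner ℂ (((tau n : ℝ) : ℂ) • u) a).im
    = 2 * (inner ℂ u a : ℂ).im * tau n := by
  rw [inner_smul_left, Complex.conj_ofReal, Complex.mul_im, Complex.ofReal_re, Complex.ofReal_im]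
  ring

lemma DQ_evp (u : K) (w : List Gate) {f : ℕ → HH F} {f0 L : HH F} (h : DQ f f0 L) :
    DQ (fun n => S.evp (((tau n : ℝ) : ℂ) • u) w (f n)) (S.ev w f0) (S.ev w (L + S.LL u f0 w)) := by
  induction w with
  | nil =>
    simp only [LL, add_zero]
    exact h
  | cons g w ih =>
    cases g with
    | B b =>
      have h1 := ih.map (xr b)
      exact h1
    | C g =>
      set a : K := (g : ℂ) • S.iota (S.xv (S.ev w)) with ha
      have h1 := (DQ_ph (2 * (inner ℂ u a).im) ih).map (S.zr a)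
      have h2 : S.ev (Gate.C g :: w) (L + S.LL u f0 (Gate.C g :: w))
          = S.zr a (S.ev w (L + S.LL u f0 w) + (Complex.I * ((2 * (inner ℂ u a).im : ℝ) : ℂ)) •
            zop F (S.ev w f0)) := by
        have h3 : ∀ y, S.ev (Gate.C g :: w) y = S.zr a (S.ev w y) := fun _ => rfl
        rw [h3]
        congr 1
        simp only [LL]
        rw [← add_assoc, map_add (S.ev w) (L + S.LL u f0 w), map_smul,
          LinearIsometryEquiv.apply_symm_apply, ← ha]
      rw [h2]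
      have h4 : ∀ n, S.evp (((tau n : ℝ) : ℂ) • u) (Gate.C g :: w) (f n)
          = S.zr a (ph (2 * (inner ℂ u a).im * tau n)
            (S.evp (((tau n : ℝ) : ℂ) • u) w (f n))) := by
        intro n
        rw [← im_smul_tau]
        rfl
      simp_rw [h4]
      exact h1
    | G k =>
      set a : K := (k : ℂ) • S.e0 with ha
      have h1 := (DQ_ph (2 * (inner ℂ u a).im) ih).map (S.zr a)
      have h2 : S.ev (Gate.G k :: w) (L + S.LL u f0 (Gate.G k :: w))
          = S.zr a (S.ev w (L + S.LL u f0 w) + (Complex.I * ((2 * (inner ℂ u a).im : ℝ) : ℂ)) •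
            zop F (S.ev w f0)) := by
        have h3 : ∀ y, S.ev (Gate.G k :: w) y = S.zr a (S.ev w y) := fun _ => rfl
        rw [h3]
        congr 1
        simp only [LL]
        rw [← add_assoc, map_add (S.ev w) (L + S.LL u f0 w), map_smul,
          LinearIsometryEquiv.apply_symm_apply, ← ha]
      rw [h2]
      have h4 : ∀ n, S.evp (((tau n : ℝ) : ℂ) • u) (Gate.G k :: w) (f n)
          = S.zr a (ph (2 * (inner ℂ u a).im * tau n)
            (S.evp (((tau n : ℝ) : ℂ) • u) w (f n))) := by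
        intro n
        rw [← im_smul_tau]
        rfl
      simp_rw [h4]
      exact h1

/-- response vector of a word -/
noncomputable def resp (y : HH F) : List Gate → K
  | [] => 0
  | Gate.B _ :: w => resp y w
  | Gate.C g :: w => resp y w + ((-(2 * (inner ℂ (S.xv (S.ev w)) y : ℂ).im) : ℝ) : ℂ) •
      ((g : ℂ) • S.iota (S.xv (S.ev w)))
  | Gate.G k :: w => resp y w + ((-(2 * (inner ℂ (S.xv (S.ev w)) y : ℂ).im) : ℝ) : ℂ) •
      ((k : ℂ) • S.e0)

lemma re_LL (u : K) (y : HH F) (w : List Gate) :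
    (inner ℂ (S.LL u S.OmH w) y : ℂ).re = -(inner ℂ u (S.resp y w) : ℂ).im := by
  have key : ∀ (c d : ℝ) (z m : ℂ), (conj (Complex.I * ((2 * m.im : ℝ) : ℂ)) * z).re
      = -(((-(2 * z.im) : ℝ) : ℂ) * m).im := by
    intro c d z m
    simp only [map_mul, Complex.conj_I, Complex.conj_ofReal, Complex.mul_re, Complex.mul_im,
      Complex.neg_re, Complex.neg_im, Complex.I_re, Complex.I_im, Complex.ofReal_re,
      Complex.ofReal_im]
    ring
  induction w with
  | nil => simp [LL, resp]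
  | cons g w ih =>
    cases g with
    | B b => exact ih
    | C g =>
      simp only [LL, resp]
      generalize ((g : ℂ) • S.iota (S.xv (S.ev w))) = a
      rw [inner_add_left, inner_add_right, Complex.add_re, Complex.add_im, ih, inner_smul_left,
        inner_smul_right u]
      have h := key 0 0 (inner ℂ (S.xv (S.ev w)) y) (inner ℂ u a)
      have h2 : (S.ev w).symm (zop F (S.ev w S.OmH)) = S.xv (S.ev w) := rfl
      rw [h2, h]
      ring
    | G k =>
      simp only [LL, resp]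
      generalize ((k : ℂ) • S.e0) = a
      rw [inner_add_left, inner_add_right, Complex.add_re, Complex.add_im, ih, inner_smul_left,
        inner_smul_right u]
      have h := key 0 0 (inner ℂ (S.xv (S.ev w)) y) (inner ℂ u a)
      have h2 : (S.ev w).symm (zop F (S.ev w S.OmH)) = S.xv (S.ev w) := rfl
      rw [h2, h]
      ring

lemma re_resp_iota (y : HH F) (w : List Gate) :
    (inner ℂ (S.iota y) (S.resp y w) : ℂ).re = S.eaux y w := by
  induction w with
  | nil => simp [resp, eaux]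
  | cons g w ih =>
    cases g with
    | B b => exact ih
    | C g =>
      simp only [resp, eaux]
      rw [inner_add_right, Complex.add_re, ih, inner_smul_right, inner_smul_right,
        LinearIsometry.inner_map_map]
      have h : (inner ℂ y (S.xv (S.ev w)) : ℂ) = conj (inner ℂ (S.xv (S.ev w)) y) :=
        (inner_conj_symm _ _).symm
      rw [h]
      generalize (inner ℂ (S.xv (S.ev w)) y : ℂ) = z
      rw [pow_two]
      simp only [Complex.mul_re, Complex.mul_im, Complex.ofReal_re, Complex.ofReal_im,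
        Complex.conj_re, Complex.conj_im]
      ring
    | G k =>
      simp only [resp, eaux]
      have h : (inner ℂ (S.iota y) S.e0 : ℂ) = 0 := by
        rw [← inner_conj_symm, S.e0_perp, map_zero]
      rw [inner_add_right, Complex.add_re, ih, inner_smul_right, inner_smul_right, h]
      simp

lemma inner_e0_e0 : (inner ℂ S.e0 S.e0 : ℂ) = 1 := by
  rw [inner_self_eq_norm_sq_to_K, S.norm_e0]
  simp

lemma re_resp_e0 (y : HH F) (w : List Gate) :
    (inner ℂ S.e0 (S.resp y w) : ℂ).re = -(2 * S.laux y w) := by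
  induction w with
  | nil => simp [resp, laux]
  | cons g w ih =>
    cases g with
    | B b => exact ih
    | C g =>
      simp only [resp, laux]
      rw [inner_add_right, Complex.add_re, ih, inner_smul_right, inner_smul_right, S.e0_perp]
      simp
    | G k =>
      simp only [resp, laux]
      rw [inner_add_right, Complex.add_re, ih, inner_smul_right, inner_smul_right, S.inner_e0_e0,
        mul_one, ← Complex.ofReal_mul, Complex.ofReal_re]
      ring

variable [CompleteSpace F]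

lemma DQ_Mt (u : K) : DQ (fun n => S.Mt (((tau n : ℝ) : ℂ) • u) S.OmH) S.OmH (S.Psi u) := by
  unfold DQ
  have h := (S.tendsto_W_quot u).const_smul (((Real.sqrt 2)⁻¹ : ℝ) : ℂ)
  refine tendsto_HH ?_ ?_
  · refine h.congr fun n => ?_
    have e1 : ((((tau n)⁻¹ : ℝ) : ℂ) • (S.Mt (((tau n : ℝ) : ℂ) • u) S.OmH - S.OmH)).fst
        = (((tau n)⁻¹ : ℝ) : ℂ) • (S.W (((tau n : ℝ) : ℂ) • u)
          ((((Real.sqrt 2)⁻¹ : ℝ) : ℂ) • S.Om) - (((Real.sqrt 2)⁻¹ : ℝ) : ℂ) • S.Om) := rfl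
    rw [e1, map_smul, ← smul_sub, smul_comm]
  · refine h.congr fun n => ?_
    have e1 : ((((tau n)⁻¹ : ℝ) : ℂ) • (S.Mt (((tau n : ℝ) : ℂ) • u) S.OmH - S.OmH)).snd
        = (((tau n)⁻¹ : ℝ) : ℂ) • (S.W (((tau n : ℝ) : ℂ) • u)
          ((((Real.sqrt 2)⁻¹ : ℝ) : ℂ) • S.Om) - (((Real.sqrt 2)⁻¹ : ℝ) : ℂ) • S.Om) := rfl
    rw [e1, map_smul, ← smul_sub, smul_comm]

omit [CompleteSpace F] in
lemma inner_Mt (u : K) (x y : HH F) : inner ℂ (S.Mt u x) (S.Mt u y) = (inner ℂ x y : ℂ) :=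
  LinearIsometryEquiv.inner_map_map _ _ _

omit [CompleteSpace F] in
lemma Mt_Mt_neg (u : K) (x : HH F) : S.Mt u (S.Mt (-u) x) = x := by
  have := S.Mt_neg_Mt (-u) x
  rwa [neg_neg] at this

omit [CompleteSpace F] in
lemma pair_eq (u : K) (w : List Gate) :
    (inner ℂ (S.Mt (-u) S.OmH) (S.xv (S.ev w)) : ℂ)
      = inner ℂ (S.evp u w S.OmH) (zop F (S.evp u w (S.Mt u S.OmH))) := by
  have h1 : (inner ℂ (S.Mt (-u) S.OmH) (S.xv (S.ev w)) : ℂ)
      = inner ℂ (S.ev w (S.Mt (-u) S.OmH)) (zop F (S.ev w S.OmH)) := by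
    rw [← LinearIsometryEquiv.inner_map_map (S.ev w)]
    congr 1
    unfold xv
    rw [LinearIsometryEquiv.apply_symm_apply]
  rw [h1, ← LinearIsometryEquiv.inner_map_map (S.Mt u), S.Mt_ev, S.Mt_Mt_neg, S.Mt_zop, S.Mt_ev]

lemma re_inner_Psi (u : K) (w : List Gate) : (inner ℂ (S.Psi u) (S.xv (S.ev w)) : ℂ).re
    = (inner ℂ u (S.resp (S.xv (S.ev w)) w) : ℂ).im := by
  have hx : S.ev w (S.xv (S.ev w)) = zop F (S.ev w S.OmH) := by
    unfold xv
    rw [LinearIsometryEquiv.apply_symm_apply]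
  have hzz : ∀ a b : HH F, inner ℂ a (zop F b) = (inner ℂ (zop F a) b : ℂ) := by
    intro a b
    rw [inner_HH, inner_HH]
    simp
  have hL := (S.DQ_Mt (-u)).inner (DQ.const (f0 := S.xv (S.ev w)))
  have hA := S.DQ_evp u w (DQ.const (f0 := S.OmH))
  have hB := (S.DQ_evp u w (S.DQ_Mt u)).map (zop F)
  have hR := hA.inner hB
  have h0 : (inner ℂ S.OmH (S.xv (S.ev w)) : ℂ) = inner ℂ (S.ev w S.OmH) (zop F (S.ev w S.OmH)) := by
    rw [← LinearIsometryEquiv.inner_map_map (S.ev w), hx]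
  have heq : ∀ n, (((tau n)⁻¹ : ℝ) : ℂ) * (inner ℂ (S.Mt (((tau n : ℝ) : ℂ) • -u) S.OmH)
      (S.xv (S.ev w)) - inner ℂ S.OmH (S.xv (S.ev w)))
      = (((tau n)⁻¹ : ℝ) : ℂ) * (inner ℂ (S.evp (((tau n : ℝ) : ℂ) • u) w S.OmH)
        (zop F (S.evp (((tau n : ℝ) : ℂ) • u) w (S.Mt (((tau n : ℝ) : ℂ) • u) S.OmH)))
        - inner ℂ (S.ev w S.OmH) (zop F (S.ev w S.OmH))) := by
    intro n
    rw [smul_neg, S.pair_eq, h0]
  simp_rw [heq] at hL
  have h1 := tendsto_nhds_unique hL hR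
  rw [inner_zero_right, add_zero, zero_add, hzz (S.ev w S.OmH), ← hx,
    LinearIsometryEquiv.inner_map_map, LinearIsometryEquiv.inner_map_map, inner_add_right] at h1
  have h2 : S.Psi (-u) = -S.Psi u := by
    have := S.Psi_smul (-1) u
    simpa using this
  rw [h2, inner_neg_left] at h1
  have h3 := congrArg Complex.re h1
  rw [Complex.neg_re, Complex.add_re, Complex.add_re] at h3
  have h4 : (inner ℂ (S.xv (S.ev w)) (S.Psi u) : ℂ).re
      = (inner ℂ (S.Psi u) (S.xv (S.ev w)) : ℂ).re := by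
    rw [← inner_conj_symm, Complex.conj_re]
  have h5 : (inner ℂ (S.xv (S.ev w)) (S.LL u S.OmH w) : ℂ).re
      = (inner ℂ (S.LL u S.OmH w) (S.xv (S.ev w)) : ℂ).re := by
    rw [← inner_conj_symm, Complex.conj_re]
  rw [h4, h5, S.re_LL] at h3
  linarith

/-- overlap of `phi(u)` on the vacuum with the field vector of a word -/
theorem inner_Phi (u : K) (w : List Gate) :
    (inner ℂ (S.Phi u) (S.xv (S.ev w)) : ℂ) = inner ℂ u (S.resp (S.xv (S.ev w)) w) := by
  have h1 := S.re_inner_Psi u w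
  have h2 := S.re_inner_Psi (Complex.I • u) w
  rw [S.Psi_smul, inner_smul_left, inner_smul_left] at h2
  rw [S.Phi_apply, inner_smul_left]
  generalize (inner ℂ (S.Psi u) (S.xv (S.ev w)) : ℂ) = z at *
  generalize (inner ℂ u (S.resp (S.xv (S.ev w)) w) : ℂ) = r at *
  simp only [Complex.conj_I, Complex.mul_re, Complex.mul_im, Complex.neg_re, Complex.neg_im,
    Complex.I_re, Complex.I_im] at h2
  apply Complex.ext
  · simp only [map_neg, Complex.conj_I, Complex.mul_re, Complex.neg_re, Complex.neg_im,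
      Complex.I_re, Complex.I_im]
    linarith
  · simp only [map_neg, Complex.conj_I, Complex.mul_im, Complex.neg_re, Complex.neg_im,
      Complex.I_re, Complex.I_im]
    linarith

/-- the energy functional of a field vector -/
noncomputable def Ef (x : HH F) : ℝ := (inner ℂ (S.Phi (S.iota x)) x : ℂ).re

/-- **energy formula** -/
theorem energy_eq (w : List Gate) : S.energy w = S.Ef (S.xv (S.ev w)) := by
  unfold energy Ef
  rw [S.inner_Phi, S.re_resp_iota]

/-- **alignment formula** -/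
theorem al_eq (w : List Gate) :
    S.al w = -(1 / 2) * (inner ℂ (S.Phi S.e0) (S.xv (S.ev w)) : ℂ).re := by
  unfold al
  rw [S.inner_Phi, S.re_resp_e0]
  ring

lemma continuous_Ef : Continuous S.Ef := by
  unfold Ef
  exact Complex.continuous_re.comp
    ((S.Phi.continuous.comp S.iota.continuous).inner continuous_id)

lemma abs_Ef_sub_le (x y : HH F) : |S.Ef x - S.Ef y| ≤ (‖x‖ + ‖y‖) * ‖x - y‖ := by
  have h1 : S.Ef x - S.Ef y = ((inner ℂ (S.Phi (S.iota (x - y))) x : ℂ)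
      + inner ℂ (S.Phi (S.iota y)) (x - y)).re := by
    unfold Ef
    rw [map_sub, map_sub, inner_sub_left, inner_sub_right, Complex.add_re, Complex.sub_re,
      Complex.sub_re]
    ring
  rw [h1]
  refine (Complex.abs_re_le_norm _).trans ((norm_add_le _ _).trans ?_)
  have h2 := norm_inner_le_norm (𝕜 := ℂ) (S.Phi (S.iota (x - y))) x
  have h3 := norm_inner_le_norm (𝕜 := ℂ) (S.Phi (S.iota y)) (x - y)
  rw [LinearIsometry.norm_map, LinearIsometry.norm_map] at h2 h3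
  nlinarith

/-- energies converge along strongly convergent (or merely field-convergent) words -/
theorem tendsto_energy {α : Type*} {l : Filter α} {w : α → List Gate} {x : HH F}
    (h : Tendsto (fun i => S.xv (S.ev (w i))) l (𝓝 x)) :
    Tendsto (fun i => S.energy (w i)) l (𝓝 (S.Ef x)) := by
  simp_rw [S.energy_eq]
  exact (S.continuous_Ef.tendsto x).comp h

/-- the energy of every state in the closure of the words is approximated by words -/
theorem exists_word_of_mem_Cl {V : St F} (hV : V ∈ S.Cl) {d : ℝ} (hd : 0 < d) :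
    ∃ w : List Gate, |S.energy w - S.Ef (S.xv V)| < d := by
  have hc : Continuous fun V : St F => S.Ef (S.xv V) :=
    continuous_iff_continuousAt.2 fun V0 =>
      (S.continuous_Ef.tendsto _).comp (S.tendsto_xv (tendsto_id (x := 𝓝 V0)))
  have h1 := (Metric.continuous_iff'.1 hc) V d hd
  obtain ⟨V', hV', w, hw⟩ := mem_closure_iff_nhds.1 hV _ h1
  refine ⟨w, ?_⟩
  rw [S.energy_eq, hw, ← Real.dist_eq]
  exact hV'

end Weyl

end Vale.Agent.P367.NI
end

section

/-! P367, block B: functional calculus, base and exit statements, tower and final statements for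
label systems. -/

namespace Vale.Agent.P367.A

open Complex Filter Topology MeasureTheory ProbabilityTheory

namespace LSys

variable {H K : Type*} [NormedAddCommGroup H] [InnerProductSpace ℂ H]
  [NormedAddCommGroup K] [InnerProductSpace ℂ K] (L : LSys H K)

/-- the base control algebra: label functions -/
def alg0 : Set (H →L[ℂ] H) := {a | ∃ f, Bm f ∧ a = L.lab f}

/-- law of (label, `n` standard Gaussians) -/
noncomputable def law (n : ℕ) : Measure (ℝ × (Fin n → ℝ)) :=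
  L.mu.prod (Measure.pi fun _ => gaussianReal 0 1)

/-- bounded measurable -/
def Bmn {n : ℕ} (f : ℝ × (Fin n → ℝ) → ℂ) : Prop := Measurable f ∧ ∃ C : ℝ, ∀ x, ‖f x‖ ≤ C

/-- functional calculus of the labels and of the commuting fields `phi(y_i)` -/
structure FCal {n : ℕ} (y : Fin n → K) (fc : (ℝ × (Fin n → ℝ) → ℂ) → (H →L[ℂ] H)) : Prop where
  lab : ∀ f, Bm f → fc (fun z => f z.1) = L.lab f
  W : ∀ k : Fin n → ℝ, ∀ x, fc (fun z => Complex.exp (Complex.I * ((∑ i, k i * z.2 i : ℝ) : ℂ))) x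
    = L.W (∑ i, (k i : ℂ) • y i) x
  add : ∀ f g, Bmn f → Bmn g → fc (fun z => f z + g z) = fc f + fc g
  mul : ∀ f g, Bmn f → Bmn g → fc (fun z => f z * g z) = fc f * fc g
  adj : ∀ f, Bmn f → ∀ x x', inner ℂ (fc f x) x'
    = inner ℂ x (fc (fun z => (starRingEnd ℂ) (f z)) x')
  norm : ∀ f, Bmn f → ∀ C : ℝ, (∀ z, ‖f z‖ ≤ C) → ∀ x, ‖fc f x‖ ≤ C * ‖x‖
  comm : ∀ f, Bmn f → ∀ B : H →L[ℂ] H, (∀ g, Bm g → L.lab g * B = B * L.lab g) →
    (∀ k : Fin n → ℝ, ∀ x, L.W (∑ i, (k i : ℂ) • y i) (B x) = B (L.W (∑ i, (k i : ℂ) • y i) x)) →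
    fc f * B = B * fc f
  vac : ∀ f, Bmn f → inner ℂ L.Om (fc f L.Om) = ∫ z, f z ∂(L.law n)
  lim : ∀ (f : ℕ → ℝ × (Fin n → ℝ) → ℂ) (f0 : ℝ × (Fin n → ℝ) → ℂ) (C : ℝ), (∀ m, Bmn (f m)) →
    Bmn f0 → (∀ m z, ‖f m z‖ ≤ C) → (∀ᵐ z ∂(L.law n), Tendsto (fun m => f m z) atTop (𝓝 (f0 z))) →
    ∀ x, Tendsto (fun m => fc (f m) x) atTop (𝓝 (fc f0 x))

/-- `J u` = creation operator on the vacuum, as a derivative -/
def IsJ (J : K → H) : Prop :=
  ∀ u, Tendsto (fun t : ℝ => ((t : ℂ)⁻¹) • (L.W (-((Complex.I * (t : ℂ)) • u)) L.Om - L.Om))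
    (𝓝[≠] 0) (𝓝 (J u))

/-- the energy functional -/
noncomputable def En (J : K → H) (x : H) : ℝ := (inner ℂ x (J (L.iota x)) : ℂ).re

/-- `L` (with creation map `J`) is a gauge fixed form of the Weyl system `S`: functional calculus,
level 0 reachability predicates, and the exit to labelled words of `S`. -/
structure IsBase {F K0 : Type} [NormedAddCommGroup F] [InnerProductSpace ℂ F]
    [NormedAddCommGroup K0] [InnerProductSpace ℂ K0] (S : NI.Weyl F K0) (J : K → H) : Prop where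
  isJ : L.IsJ J
  fcal : ∀ (n : ℕ) (y : Fin n → K), Orthonormal ℂ y → ∃ fc, L.FCal y fc
  reach : ∀ G : Set ℝ, MeasurableSet G → ∃ Rch : Set ℝ → Set ℝ → (H ≃ₗᵢ[ℂ] H) → Prop,
    L.Closed G L.alg0 Rch ∧ Rch G Gᶜ 1 ∧
    ∀ M R V, Rch M R V → ∀ x : H, ‖x‖ ≤ 1 → L.E M x = x → ∀ ε > 0, ∃ w : List NI.Gate,
      L.En J x - 2 * (‖L.E M (L.xv V) - x‖ + Real.sqrt (L.mu.real Mᶜ) + ε) ≤ S.energy w

/-- BASE: for some Weyl system (cyclic, on complete spaces) there is a gauge fixed label system. -/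
def BaseStmt : Prop :=
  ∃ (S : NI.Weyl NI.FN NI.L2N) (K' : Type) (_ : NormedAddCommGroup K')
    (_ : InnerProductSpace ℂ K') (L : LSys (NI.HH NI.FN) K') (J : K' → NI.HH NI.FN),
    L.IsBase S J

/-- iterated control algebras: level `k` algebra for the field vectors `y 0, y 1, ...` -/
def alg (y : ℕ → K) : ℕ → Set (H →L[ℂ] H)
  | 0 => L.alg0
  | k + 1 => L.nxt (alg y k) (y k)

/-- TOWER: `psi k` = finite combination of sign-valued controls of level `k`,
`y k = iota (psi k Om)`; `Th` a control of level `n` on `G`. -/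
def TowerStmt : Prop :=
  ∀ (G : Set ℝ) (Rch : Set ℝ → Set ℝ → (H ≃ₗᵢ[ℂ] H) → Prop), MeasurableSet G →
    L.mu Gᶜ ≠ 0 → L.Closed G L.alg0 Rch → Rch G Gᶜ 1 →
    ∀ (n : ℕ) (m : ℕ → ℕ) (sg : (k : ℕ) → Fin (m k) → (H →L[ℂ] H)) (c : (k : ℕ) → Fin (m k) → ℝ)
      (y : ℕ → K), (∀ k < n, y k = L.iota ((∑ i, (c k i : ℂ) • sg k i) L.Om)) →
    (∀ k < n, ∀ i, L.Sgn G (L.alg y k) (sg k i)) →
    ∀ (Th : H →L[ℂ] H), Th ∈ L.alg y n → Sa Th → Th * L.E G = Th →
    ∀ U, L.IsRot Th 1 U → ∀ ε > 0, ∃ R V, Rch G R V ∧ ‖L.E G (L.xv V) - L.E G (L.xv U)‖ < ε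

end LSys

end Vale.Agent.P367.A
end

section

/-! P367, block B: the tower of levels (helper739). -/

namespace Vale.Agent.P367.A

open Complex Filter Topology MeasureTheory

/-- splitting a set of positive mass of an atomless measure on the line -/
lemma exists_split_atomless (μ : Measure ℝ) (hμ : ∀ t, μ {t} = 0) {R : Set ℝ}
    (hR : MeasurableSet R) (hR0 : μ R ≠ 0) :
    ∃ R' : Set ℝ, MeasurableSet R' ∧ R' ⊆ R ∧ μ R' ≠ 0 ∧ μ (R \ R') ≠ 0 := by
  by_contra hcon
  push Not at hcon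
  have key : ∀ t : ℝ, μ (R ∩ Set.Iic t) = 0 ∨ μ (R ∩ Set.Ioi t) = 0 := by
    intro t
    by_cases h : μ (R ∩ Set.Iic t) = 0
    · exact Or.inl h
    · right
      have h1 := hcon (R ∩ Set.Iic t) (hR.inter measurableSet_Iic) Set.inter_subset_left h
      have h2 : R \ (R ∩ Set.Iic t) = R ∩ Set.Ioi t := by
        ext x
        simp only [Set.mem_sdiff, Set.mem_inter_iff, Set.mem_Iic, Set.mem_Ioi]
        constructor
        · rintro ⟨h1, h2⟩
          exact ⟨h1, not_le.1 fun h => h2 ⟨h1, h⟩⟩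
        · rintro ⟨h1, h2⟩
          exact ⟨h1, fun h => absurd h.2 (not_le.2 h2)⟩
      rwa [h2] at h1
  apply hR0
  refine measure_null_of_locally_null R fun x hx => ?_
  by_cases h1 : ∃ t < x, μ (R ∩ Set.Ioi t) = 0
  · obtain ⟨t, ht, h⟩ := h1
    exact ⟨R ∩ Set.Ioi t, inter_mem self_mem_nhdsWithin
      (mem_nhdsWithin_of_mem_nhds (Ioi_mem_nhds ht)), h⟩
  by_cases h2 : ∃ t > x, μ (R ∩ Set.Iic t) = 0
  · obtain ⟨t, ht, h⟩ := h2
    exact ⟨R ∩ Set.Iic t, inter_mem self_mem_nhdsWithin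
      (mem_nhdsWithin_of_mem_nhds (Iic_mem_nhds ht)), h⟩
  exfalso
  apply hR0
  have h3 : μ (R \ {x}) = 0 := by
    refine measure_null_of_locally_null _ fun y hy => ?_
    rcases lt_or_gt_of_ne hy.2 with hyx | hyx
    · obtain ⟨t, ht1, ht2⟩ := exists_between hyx
      have h4 : μ (R ∩ Set.Iic t) = 0 := by
        rcases key t with h | h
        · exact h
        · exact absurd ⟨t, ht2, h⟩ h1
      refine ⟨R ∩ Set.Iic t, inter_mem ?_ (mem_nhdsWithin_of_mem_nhds (Iic_mem_nhds ht1)), h4⟩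
      exact mem_of_superset self_mem_nhdsWithin Set.sdiff_subset
    · obtain ⟨t, ht1, ht2⟩ := exists_between hyx
      have h4 : μ (R ∩ Set.Ioi t) = 0 := by
        rcases key t with h | h
        · exact absurd ⟨t, ht1, h⟩ h2
        · exact h
      refine ⟨R ∩ Set.Ioi t, inter_mem ?_ (mem_nhdsWithin_of_mem_nhds (Ioi_mem_nhds ht2)), h4⟩
      exact mem_of_superset self_mem_nhdsWithin Set.sdiff_subset
  have h5 : μ R ≤ μ (R \ {x}) + μ {x} := by
    refine (measure_mono ?_).trans (measure_union_le _ _)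
    intro y hy
    by_cases h : y = x
    · right; exact h
    · left; exact ⟨hy, h⟩
  rw [h3, hμ x, add_zero] at h5
  exact nonpos_iff_eq_zero.1 h5

namespace LSys

variable {H K : Type*} [NormedAddCommGroup H] [InnerProductSpace ℂ H]
  [NormedAddCommGroup K] [InnerProductSpace ℂ K] (L : LSys H K)

lemma tw_Bm_const (c : ℂ) : Bm fun _ => c := ⟨measurable_const, ‖c‖, fun _ => le_rfl⟩

lemma tw_ctl0 : L.Ctl L.alg0 where
  lab f hf := ⟨f, hf, rfl⟩
  add := by
    rintro a b ⟨f, hf, rfl⟩ ⟨g, hg, rfl⟩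
    obtain ⟨hf1, C, hC⟩ := hf
    obtain ⟨hg1, D, hD⟩ := hg
    exact ⟨fun t => f t + g t, ⟨hf1.add hg1, C + D, fun x => (norm_add_le _ _).trans
      (add_le_add (hC x) (hD x))⟩, (L.lab_add f g ⟨hf1, C, hC⟩ ⟨hg1, D, hD⟩).symm⟩
  mul := by
    rintro a b ⟨f, hf, rfl⟩ ⟨g, hg, rfl⟩
    obtain ⟨hf1, C, hC⟩ := hf
    obtain ⟨hg1, D, hD⟩ := hg
    refine ⟨fun t => f t * g t, ⟨hf1.mul hg1, C * D, fun x => ?_⟩,
      (L.lab_mul f g ⟨hf1, C, hC⟩ ⟨hg1, D, hD⟩).symm⟩
    rw [norm_mul]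
    exact mul_le_mul (hC x) (hD x) (norm_nonneg _) ((norm_nonneg _).trans (hC x))
  adj := by
    rintro a ⟨f, hf, rfl⟩
    refine ⟨L.lab (fun t => (starRingEnd ℂ) (f t)), ⟨_, ⟨?_, ?_⟩, rfl⟩, L.lab_adj f hf⟩
    · exact Complex.continuous_conj.measurable.comp hf.1
    · obtain ⟨C, hC⟩ := hf.2
      exact ⟨C, fun x => by rw [RCLike.norm_conj]; exact hC x⟩
  comm := by
    rintro a b ⟨f, hf, rfl⟩ ⟨g, hg, rfl⟩
    rw [← L.lab_mul f g hf hg, ← L.lab_mul g f hg hf]
    congr 1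
    funext t
    exact mul_comm _ _
  X := by
    rintro a ⟨f, hf, rfl⟩ x
    exact L.lab_X f x
  Z := by
    rintro a ⟨f, hf, rfl⟩ x
    exact L.lab_Z f x
  W := by
    rintro a ⟨f, hf, rfl⟩ T _ _ x
    exact L.lab_W f _ x

lemma tw_ctl_smul {𝔄 : Set (H →L[ℂ] H)} (h : L.Ctl 𝔄) (c : ℂ) {a : H →L[ℂ] H} (ha : a ∈ 𝔄) :
    c • a ∈ 𝔄 := by
  have h1 := h.mul _ _ (h.lab (fun _ => c) (tw_Bm_const c)) ha
  rw [L.lab_const, smul_mul_assoc, one_mul] at h1
  exact h1

lemma tw_ctl_sum {𝔄 : Set (H →L[ℂ] H)} (h : L.Ctl 𝔄) {n : ℕ} (sg : Fin n → (H →L[ℂ] H))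
    (c : Fin n → ℝ) (hs : ∀ i, sg i ∈ 𝔄) : (∑ i, (c i : ℂ) • sg i) ∈ 𝔄 := by
  refine Finset.sum_induction _ (fun a => a ∈ 𝔄) (fun a b ha hb => h.add a b ha hb) ?_ ?_
  · have h1 := h.lab (fun _ => 0) (tw_Bm_const 0)
    rw [L.lab_const, zero_smul] at h1
    exact h1
  · intro i _
    exact L.tw_ctl_smul h _ (hs i)

lemma tw_Sa_sum {n : ℕ} (sg : Fin n → (H →L[ℂ] H)) (c : Fin n → ℝ) (hs : ∀ i, Sa (sg i)) :
    Sa (∑ i, (c i : ℂ) • sg i) := by
  intro x y
  rw [sum_apply, sum_apply, sum_inner, inner_sum]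
  refine Finset.sum_congr rfl fun i _ => ?_
  rw [smul_apply, smul_apply, inner_smul_left, inner_smul_right, hs i, Complex.conj_ofReal]

/-- **the tower** -/
theorem tower (h2 : L.T2Stmt) (hC : L.NestCtlStmt) (hN : L.NestStmt) : L.TowerStmt := by
  intro G Rch hG hG0 hcl hst n m sg c y hy hsg Th hTh hSa hThG U hU ε hε
  have hctl : ∀ k ≤ n, L.Ctl (L.alg y k) := by
    intro k
    induction k with
    | zero => intro _; exact L.tw_ctl0
    | succ k ih =>
      intro hk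
      have h1 := ih (by omega)
      have h3 := hsg k (by omega)
      change L.Ctl (L.nxt (L.alg y k) (y k))
      rw [hy k (by omega)]
      exact hC _ _ h1 (L.tw_ctl_sum h1 _ _ fun i => (h3 i).1)
        (tw_Sa_sum _ _ fun i => (h3 i).2.1)
  have main : ∀ k ≤ n, ∃ Rk : Set ℝ → Set ℝ → (H ≃ₗᵢ[ℂ] H) → Prop,
      L.Closed G (L.alg y k) Rk ∧ Rk G Gᶜ 1 ∧
      ∀ R V, Rk G R V → L.mu R ≠ 0 → ∀ ε > 0, ∃ R'' V', Rch G R'' V' ∧
        ‖L.E G (L.xv V') - L.E G (L.xv V)‖ < ε := by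
    intro k
    induction k with
    | zero =>
      intro _
      refine ⟨Rch, hcl, hst, fun R V h _ ε hε => ⟨R, V, h, ?_⟩⟩
      rw [sub_self, norm_zero]
      exact hε
    | succ k ih =>
      intro hk
      obtain ⟨Rk, hcl1, hst1, hd1⟩ := ih (by omega)
      have h3 := hsg k (by omega)
      obtain ⟨Rk', hcl2, hst2, hd2⟩ := hN G (L.alg y k) Rk hG (hctl k (by omega)) hcl1
        (h2 G (L.alg y k) Rk hG (hctl k (by omega)) hcl1) (m k) (sg k) (c k) h3
      refine ⟨Rk', ?_, ?_, ?_⟩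
      · change L.Closed G (L.nxt (L.alg y k) (y k)) Rk'
        rw [hy k (by omega)]
        exact hcl2
      · exact hst2 G Gᶜ 1 hst1 fun a _ x => rfl
      · intro R V hRV hR0 ε hε
        have hRm := (hcl2.meas G R V hRV).2.1
        obtain ⟨R', hR'm, hR's, hR'0, hR'1⟩ := exists_split_atomless L.mu L.noAtoms hRm hR0
        obtain ⟨V1, hV1, hV1'⟩ := hd2 G R R' V hRV hR'm hR's hR'1 (ε / 2) (by linarith)
        obtain ⟨R'', V', h4, h5⟩ := hd1 R' V1 hV1 hR'0 (ε / 2) (by linarith)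
        refine ⟨R'', V', h4, ?_⟩
        have e : L.E G (L.xv V') - L.E G (L.xv V) = (L.E G (L.xv V') - L.E G (L.xv V1))
            + (L.E G (L.xv V1) - L.E G (L.xv V)) := by abel
        rw [e]
        exact (norm_add_le _ _).trans_lt (by linarith)
  obtain ⟨Rn, hcln, hstn, hdn⟩ := main n le_rfl
  have h5 : Rn G Gᶜ (U * 1) := hcln.rot G Gᶜ 1 Th 1 U hstn hTh hSa hThG hU
  rw [mul_one] at h5
  exact hdn Gᶜ U h5 hG0 ε hε

end LSys

end Vale.Agent.P367.A
end

section

/-! P367, block B: the next control algebra is a control algebra (helper739). -/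

namespace Vale.Agent.P367.A

open Complex Filter Topology MeasureTheory

namespace LSys

variable {H K : Type*} [NormedAddCommGroup H] [InnerProductSpace ℂ H]
  [NormedAddCommGroup K] [InnerProductSpace ℂ K] (L : LSys H K)

/-- the Weyl operators of the field `y` -/
noncomputable def Wc (v : K) : H →L[ℂ] H :=
  (L.W v).toContinuousLinearEquiv.toContinuousLinearMap

lemma Wc_apply (v : K) (x : H) : L.Wc v x = L.W v x := rfl

/-- Weyl operators with vanishing symplectic form commute -/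
lemma W_comm_of_im {a b : K} (h : (inner ℂ a b : ℂ).im = 0) (x : H) :
    L.W a (L.W b x) = L.W b (L.W a x) := by
  have h2 : (inner ℂ b a : ℂ).im = 0 := by
    have : (inner ℂ b a : ℂ) = (starRingEnd ℂ) (inner ℂ a b) := (inner_conj_symm _ _).symm
    rw [this, Complex.conj_im, h, neg_zero]
  rw [L.WW, L.WW, h, h2, add_comm]

/-- the pairing of two commuting self-adjoint operators in the vacuum is real -/
lemma im_inner_real {S T : H →L[ℂ] H} (hS : Sa S) (hT : Sa T) (h : S * T = T * S) (u : H) :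
    (inner ℂ (S u) (T u) : ℂ).im = 0 := by
  have e1 : inner ℂ (S u) (T u) = inner ℂ u (S (T u)) := hS _ _
  have e2 : inner ℂ (T u) (S u) = inner ℂ u (T (S u)) := hT _ _
  have e3 : S (T u) = T (S u) := by
    have := congrArg (fun A : H →L[ℂ] H => A u) h
    exact this
  have e4 : (inner ℂ (S u) (T u) : ℂ) = inner ℂ (T u) (S u) := by rw [e1, e2, e3]
  have e5 : (inner ℂ (T u) (S u) : ℂ) = (starRingEnd ℂ) (inner ℂ (S u) (T u)) :=
    (inner_conj_symm _ _).symm
  rw [e5] at e4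
  have e6 := congrArg Complex.im e4
  rw [Complex.conj_im] at e6
  linarith

lemma Sa.smul {T : H →L[ℂ] H} (hT : Sa T) (s : ℝ) : Sa ((s : ℂ) • T) := by
  intro x y
  rw [smul_apply, smul_apply, inner_smul_left,
    inner_smul_right, hT, Complex.conj_ofReal]

section

variable {L} {𝔄 : Set (H →L[ℂ] H)} {psi : H →L[ℂ] H}

lemma im_iota_real {S T : H →L[ℂ] H} (hS : Sa S) (hT : Sa T) (h : S * T = T * S) :
    (inner ℂ (L.iota (S L.Om)) (L.iota (T L.Om)) : ℂ).im = 0 := by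
  rw [LinearIsometry.inner_map_map]
  exact im_inner_real hS hT h L.Om

lemma smul_y (s : ℝ) : (s : ℂ) • L.iota (psi L.Om) = L.iota (((s : ℂ) • psi) L.Om) := by
  rw [smul_apply, map_smul]

/-- base elements commute with the Weyl operators of the new field -/
lemma base_Wc (hA : L.Ctl 𝔄) (hp : psi ∈ 𝔄) (hs : Sa psi) {a : H →L[ℂ] H} (ha : a ∈ 𝔄) (s : ℝ)
    (x : H) : a (L.W ((s : ℂ) • L.iota (psi L.Om)) x) = L.W ((s : ℂ) • L.iota (psi L.Om)) (a x) := by
  rw [smul_y]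
  refine hA.W a ha ((s : ℂ) • psi) (hs.smul s) ?_ x
  intro b hb
  rw [smul_mul_assoc, mul_smul_comm, hA.comm psi b hp hb]

/-- elements of the next algebra commute with everything commuting with the generators -/
lemma gen_comm {y : K} {T : H → H} (hTadd : ∀ x z, T (x + z) = T x + T z)
    (hTc : Continuous T) (h1 : ∀ a ∈ 𝔄, ∀ x, a (T x) = T (a x))
    (h2 : ∀ (s : ℝ) (x : H), L.W ((s : ℂ) • y) (T x) = T (L.W ((s : ℂ) • y) x))
    {a : H →L[ℂ] H} (ha : L.Gen 𝔄 y a) : ∀ x, a (T x) = T (a x) := by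
  induction ha with
  | base a ha => exact h1 a ha
  | W s => exact h2 s
  | add a b _ _ iha ihb =>
    intro x
    rw [add_apply, add_apply, iha, ihb, hTadd]
  | mul a b _ _ iha ihb =>
    intro x
    change a (b (T x)) = T (a (b x))
    rw [ihb, iha]
  | lim a a0 C _ _ hlim ih =>
    intro x
    have e1 : Tendsto (fun n => a n (T x)) atTop (𝓝 (a0 (T x))) := hlim (T x)
    have e2 : Tendsto (fun n => T (a n x)) atTop (𝓝 (T (a0 x))) := (hTc.tendsto _).comp (hlim x)
    have e3 : (fun n => a n (T x)) = fun n => T (a n x) := funext fun n => ih n x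
    rw [e3] at e1
    exact tendsto_nhds_unique e1 e2

/-- commutativity of the next algebra -/
lemma gen_comm_gen (hA : L.Ctl 𝔄) (hp : psi ∈ 𝔄) (hs : Sa psi) {a b : H →L[ℂ] H}
    (ha : L.Gen 𝔄 (L.iota (psi L.Om)) a) (hb : L.Gen 𝔄 (L.iota (psi L.Om)) b) (x : H) :
    a (b x) = b (a x) := by
  -- `b` commutes with base elements
  have hb1 : ∀ c ∈ 𝔄, ∀ x, c (b x) = b (c x) := by
    intro c hc x
    have h := gen_comm (L := L) (𝔄 := 𝔄) (y := L.iota (psi L.Om)) (T := fun x => c x)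
      (fun x z => map_add c x z) c.continuous
      (fun a ha x => by
        have := congrArg (fun A : H →L[ℂ] H => A x) (hA.comm a c ha hc)
        exact this)
      (fun s x => (base_Wc hA hp hs hc s x).symm) hb x
    exact h.symm
  have hb2 : ∀ (s : ℝ) (x : H), L.W ((s : ℂ) • L.iota (psi L.Om)) (b x)
      = b (L.W ((s : ℂ) • L.iota (psi L.Om)) x) := by
    intro s x
    have h := gen_comm (L := L) (𝔄 := 𝔄) (y := L.iota (psi L.Om))
      (T := fun x => L.W ((s : ℂ) • L.iota (psi L.Om)) x)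
      (fun x z => map_add _ x z) (L.W _).continuous
      (fun a ha x => base_Wc hA hp hs ha s x)
      (fun t x => by
        apply L.W_comm_of_im
        rw [inner_smul_left, inner_smul_right, inner_self_eq_norm_sq_to_K]
        simp [← Complex.ofReal_pow, ← Complex.ofReal_mul]) hb x
    exact h.symm
  exact gen_comm (fun x z => map_add b x z) b.continuous hb1 hb2 ha x

lemma gen_adj [CompleteSpace H] (hA : L.Ctl 𝔄) (hp : psi ∈ 𝔄) (hs : Sa psi) {a : H →L[ℂ] H}
    (ha : L.Gen 𝔄 (L.iota (psi L.Om)) a) :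
    ∃ b, L.Gen 𝔄 (L.iota (psi L.Om)) b ∧ ∀ x y, inner ℂ (a x) y = inner ℂ x (b y) := by
  induction ha with
  | base a ha =>
    obtain ⟨b, hb, h⟩ := hA.adj a ha
    exact ⟨b, Gen.base b hb, h⟩
  | W s =>
    refine ⟨_, Gen.W (-s), ?_⟩
    intro x y
    change inner ℂ (L.W ((s : ℂ) • L.iota (psi L.Om)) x) y
      = inner ℂ x (L.W (((-s : ℝ) : ℂ) • L.iota (psi L.Om)) y)
    rw [L.inner_W]
    congr 3
    push_cast
    rw [neg_smul]
  | add a b _ _ iha ihb =>
    obtain ⟨a', ha', h1⟩ := iha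
    obtain ⟨b', hb', h2⟩ := ihb
    refine ⟨a' + b', Gen.add _ _ ha' hb', ?_⟩
    intro x y
    rw [add_apply, add_apply, inner_add_left,
      inner_add_right, h1, h2]
  | mul a b _ _ iha ihb =>
    obtain ⟨a', ha', h1⟩ := iha
    obtain ⟨b', hb', h2⟩ := ihb
    refine ⟨b' * a', Gen.mul _ _ hb' ha', ?_⟩
    intro x y
    change inner ℂ (a (b x)) y = inner ℂ x (b' (a' y))
    rw [h1, h2]
  | lim a a0 C hg hC hlim ih =>
    choose b hb hab using ih
    -- normality
    have hadj : ∀ n m u v, inner ℂ ((a n - a m) u) v = inner ℂ u ((b n - b m) v) := by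
      intro n m u v
      rw [sub_apply, sub_apply, inner_sub_left,
        inner_sub_right, hab, hab]
    have hadj' : ∀ n m u v, inner ℂ ((b n - b m) u) v = inner ℂ u ((a n - a m) v) := by
      intro n m u v
      rw [← inner_conj_symm, ← hadj, inner_conj_symm]
    have hnorm : ∀ n m x, ‖(b n - b m) x‖ = ‖(a n - a m) x‖ := by
      intro n m x
      have hc : (a n - a m) ((b n - b m) x) = (b n - b m) ((a n - a m) x) := by
        simp only [sub_apply, map_sub]
        rw [gen_comm_gen hA hp hs (hg n) (hb n), gen_comm_gen hA hp hs (hg m) (hb n),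
          gen_comm_gen hA hp hs (hg n) (hb m), gen_comm_gen hA hp hs (hg m) (hb m)]
        abel
      have h1 : inner ℂ ((b n - b m) x) ((b n - b m) x)
          = inner ℂ ((a n - a m) x) ((a n - a m) x) := by
        rw [hadj', hc, ← hadj]
      rw [inner_self_eq_norm_sq_to_K, inner_self_eq_norm_sq_to_K] at h1
      have h2 : ‖(b n - b m) x‖ ^ 2 = ‖(a n - a m) x‖ ^ 2 := by exact_mod_cast h1
      exact (sq_eq_sq₀ (norm_nonneg _) (norm_nonneg _)).1 h2
    have hcau : ∀ x, CauchySeq fun n => b n x := by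
      intro x
      have h1 : CauchySeq fun n => a n x := (hlim x).cauchySeq
      rw [Metric.cauchySeq_iff] at h1 ⊢
      intro e he
      obtain ⟨N, hN⟩ := h1 e he
      refine ⟨N, fun m hm n hn => ?_⟩
      have h2 := hN m hm n hn
      rw [dist_eq_norm] at h2 ⊢
      have h3 := hnorm m n x
      rw [sub_apply, sub_apply] at h3
      rwa [h3]
    have hlim' : ∀ x, ∃ z, Tendsto (fun n => b n x) atTop (𝓝 z) := fun x =>
      cauchySeq_tendsto_of_complete (hcau x)
    have hb0 : ∀ x, Tendsto (fun n => b n x) atTop (𝓝 (ContinuousLinearMap.adjoint a0 x)) := by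
      intro x
      obtain ⟨z, hz⟩ := hlim' x
      have e : z = ContinuousLinearMap.adjoint a0 x := by
        refine ext_inner_left ℂ fun v => ?_
        rw [ContinuousLinearMap.adjoint_inner_right]
        have e1 : Tendsto (fun n => (inner ℂ v (b n x) : ℂ)) atTop (𝓝 (inner ℂ v z)) :=
          tendsto_const_nhds.inner hz
        have e2 : Tendsto (fun n => (inner ℂ (a n v) x : ℂ)) atTop (𝓝 (inner ℂ (a0 v) x)) :=
          (hlim v).inner tendsto_const_nhds
        have e3 : (fun n => (inner ℂ v (b n x) : ℂ)) = fun n => inner ℂ (a n v) x :=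
          funext fun n => (hab n v x).symm
        rw [e3] at e1
        exact tendsto_nhds_unique e1 e2
      rw [← e]
      exact hz
    have hbn : ∀ n, ‖b n‖ ≤ C := by
      intro n
      have hbe : b n = ContinuousLinearMap.adjoint (a n) := by
        rw [ContinuousLinearMap.eq_adjoint_iff]
        intro x y
        have h := hab n y x
        rw [← inner_conj_symm, ← h, inner_conj_symm]
      rw [hbe, LinearIsometryEquiv.norm_map]
      exact hC n
    refine ⟨ContinuousLinearMap.adjoint a0, Gen.lim b _ C hb hbn hb0, ?_⟩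
    intro x y
    rw [ContinuousLinearMap.adjoint_inner_right]

/-- NEST0 -/
theorem nestCtl [CompleteSpace H] (L : LSys H K) : L.NestCtlStmt := by
  intro 𝔄 psi hA hp hs
  refine ⟨fun f hf => Gen.base _ (hA.lab f hf), fun a b ha hb => Gen.add a b ha hb,
    fun a b ha hb => Gen.mul a b ha hb, ?_, ?_, ?_, ?_, ?_⟩
  · intro a ha
    obtain ⟨b, hb, h⟩ := gen_adj hA hp hs ha
    exact ⟨b, hb, h⟩
  · intro a b ha hb
    ext x
    exact gen_comm_gen hA hp hs ha hb x
  · intro a ha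
    exact gen_comm (fun x z => map_add L.X x z) L.X.continuous hA.X (fun s x => L.WX _ x) ha
  · intro a ha
    exact gen_comm (fun x z => map_add L.Z x z) L.Z.continuous hA.Z (fun s x => L.WZ _ x) ha
  · intro a ha T hT hTc
    refine gen_comm (fun x z => map_add (L.W (L.iota (T L.Om))) x z) (L.W _).continuous ?_ ?_ ha
    · intro c hc x
      exact hA.W c hc T hT (fun b hb => hTc b (Gen.base b hb)) x
    · intro s x
      apply L.W_comm_of_im
      rw [inner_smul_left, Complex.conj_ofReal, Complex.im_ofReal_mul]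
      rw [im_iota_real hs hT (hTc psi (Gen.base psi hp)).symm, mul_zero]

end

end LSys

end Vale.Agent.P367.A
end

section

/-! P367 block B, T1: words in the gates `B b`, `G k` are dense in the label dependent one-site
rotations (odd functions times `Z`, `Y`, even functions times `X`). -/

namespace Vale.Agent.P367.B

open Complex MeasureTheory Filter Topology
open Vale.Agent.P367.NI (Gate)
open scoped Matrix Matrix.Norms.L2Operator

/-- 2 x 2 matrices -/
abbrev M2 : Type := Matrix (Fin 2) (Fin 2) ℂ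

/-- `exp(-i θ P)` for an involution `P` -/
noncomputable def Er {𝔸 : Type*} [Ring 𝔸] [Algebra ℂ 𝔸] (P : 𝔸) (θ : ℝ) : 𝔸 :=
  (Real.cos θ : ℂ) • (1 : 𝔸) - (Complex.I * (Real.sin θ : ℂ)) • P

section alg

variable {𝔸 : Type*} [NormedRing 𝔸] [NormedAlgebra ℂ 𝔸] [CompleteSpace 𝔸]

omit [CompleteSpace 𝔸] in
lemma Er_add {P : 𝔸} (hP : P * P = 1) (a b : ℝ) : Er P a * Er P b = Er P (a + b) := by
  unfold Er
  rw [Real.cos_add, Real.sin_add]
  simp only [sub_mul, mul_sub, smul_mul_smul_comm, hP, one_mul, mul_one]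
  push_cast
  have hI := Complex.I_mul_I
  have e : (Complex.cos a : ℂ) * Complex.cos b + (Complex.I * (Complex.sin a : ℂ))
      * (Complex.I * (Complex.sin b : ℂ))
      = Complex.cos a * Complex.cos b - Complex.sin a * Complex.sin b := by
    linear_combination ((Complex.sin a : ℂ) * Complex.sin b) * hI
  rw [← e]
  module

/-- spectral homomorphism of an involution -/
noncomputable def specHom {P : 𝔸} (hP : P * P = 1) : ℂ × ℂ →ₐ[ℂ] 𝔸 :=
  AlgHom.ofLinearMap
    { toFun := fun z => (z.1 * (1 / 2)) • (1 + P) + (z.2 * (1 / 2)) • (1 - P)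
      map_add' := by
        intro x y
        simp only [Prod.fst_add, Prod.snd_add]
        module
      map_smul' := by
        intro c x
        simp only [Prod.smul_fst, Prod.smul_snd, smul_eq_mul, RingHom.id_apply]
        module }
    (by
      simp only [LinearMap.coe_mk, AddHom.coe_mk, Prod.fst_one, Prod.snd_one]
      module)
    (by
      intro x y
      simp only [LinearMap.coe_mk, AddHom.coe_mk, Prod.fst_mul, Prod.snd_mul]
      simp only [add_mul, mul_add, sub_mul, mul_sub, smul_mul_smul_comm, hP, one_mul, mul_one]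
      module)

omit [CompleteSpace 𝔸] in
lemma exp_inv {P : 𝔸} (hP : P * P = 1) (θ : ℝ) :
    NormedSpace.exp ((-(Complex.I * (θ : ℂ))) • P) = Er P θ := by
  let _ : NormedAlgebra ℚ 𝔸 := NormedAlgebra.restrictScalars ℚ ℂ 𝔸
  have hc : Continuous (specHom hP) := by
    have : (specHom hP : ℂ × ℂ → 𝔸)
        = fun z => (z.1 * (1 / 2)) • (1 + P) + (z.2 * (1 / 2)) • (1 - P) := rfl
    rw [this]
    fun_prop
  have h := NormedSpace.map_exp (specHom hP) hc (-(Complex.I * (θ : ℂ)), (Complex.I * (θ : ℂ)))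
  have e1 : specHom hP (-(Complex.I * (θ : ℂ)), (Complex.I * (θ : ℂ)))
      = (-(Complex.I * (θ : ℂ))) • P := by
    change ((-(Complex.I * (θ : ℂ))) * (1 / 2)) • (1 + P)
      + ((Complex.I * (θ : ℂ)) * (1 / 2)) • (1 - P) = _
    module
  rw [← e1, ← h]
  have f1 := Prod.fst_exp (-(Complex.I * (θ : ℂ)), (Complex.I * (θ : ℂ)))
  have f2 := Prod.snd_exp (-(Complex.I * (θ : ℂ)), (Complex.I * (θ : ℂ)))
  have e2 : ∀ x : ℂ × ℂ, specHom hP x
      = (x.1 * (1 / 2)) • (1 + P) + (x.2 * (1 / 2)) • (1 - P) := fun x => rfl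
  rw [e2, f1, f2]
  simp only
  rw [← Complex.exp_eq_exp_ℂ]
  have g1 : Complex.exp (-(Complex.I * (θ : ℂ))) = Real.cos θ - Complex.I * Real.sin θ := by
    rw [show -(Complex.I * (θ : ℂ)) = ((-θ : ℝ) : ℂ) * Complex.I by push_cast; ring,
      Complex.exp_mul_I]
    push_cast
    rw [Complex.cos_neg, Complex.sin_neg]
    ring
  have g2 : Complex.exp (Complex.I * (θ : ℂ)) = Real.cos θ + Complex.I * Real.sin θ := by
    rw [mul_comm, Complex.exp_mul_I]
    push_cast
    ring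
  rw [g1, g2]
  unfold Er
  module

end alg

/-! ### matrices -/

/-- Pauli matrices -/
def sX : M2 := !![0, 1; 1, 0]
def sY : M2 := !![0, -Complex.I; Complex.I, 0]
def sZ : M2 := !![1, 0; 0, -1]

lemma sX_sq : sX * sX = 1 := by
  ext i j; fin_cases i <;> fin_cases j <;> simp [sX, Matrix.mul_apply, Fin.sum_univ_two]

lemma sY_sq : sY * sY = 1 := by
  ext i j; fin_cases i <;> fin_cases j <;> simp [sY, Matrix.mul_apply, Fin.sum_univ_two]

lemma sZ_sq : sZ * sZ = 1 := by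
  ext i j; fin_cases i <;> fin_cases j <;> simp [sZ, Matrix.mul_apply, Fin.sum_univ_two]

/-- rotated Pauli matrix in the XY plane -/
noncomputable def sP (α : ℝ) : M2 := (Real.cos α : ℂ) • sX + (Real.sin α : ℂ) • sY

lemma cs1 (α : ℝ) : (Complex.cos α : ℂ) * Complex.cos α + Complex.sin α * Complex.sin α = 1 := by
  have := Complex.cos_sq_add_sin_sq (α : ℂ)
  linear_combination this

lemma sP_sq (α : ℝ) : sP α * sP α = 1 := by
  have h := cs1 α
  have hI := Complex.I_mul_I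
  ext i j; fin_cases i <;> fin_cases j <;>
    simp [sP, sX, sY, Matrix.mul_apply, Fin.sum_univ_two]
  · linear_combination h - (Complex.sin α * Complex.sin α) * hI
  · linear_combination h - (Complex.sin α * Complex.sin α) * hI

/-- conjugation by a `Z` rotation -/
lemma conj_Z (s θ : ℝ) : Er sZ s * Er sX θ * Er sZ (-s) = Er (sP (2 * s)) θ := by
  have h := cs1 s
  have hI := Complex.I_mul_I
  have h2 : Complex.cos (2 * s) = Complex.cos s * Complex.cos s - Complex.sin s * Complex.sin s := by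
    rw [Complex.cos_two_mul]; linear_combination h
  have h3 : Complex.sin (2 * s) = 2 * Complex.sin s * Complex.cos s := Complex.sin_two_mul _
  ext i j; fin_cases i <;> fin_cases j <;>
    simp [sP, sX, sY, sZ, Er, Matrix.mul_apply, Fin.sum_univ_two, h2, h3, Real.cos_neg,
      Real.sin_neg]
  · linear_combination (Complex.cos θ) * h - (Complex.cos θ * Complex.sin s * Complex.sin s) * hI
  · linear_combination (Complex.I * Complex.sin θ * Complex.sin s * Complex.sin s) * hI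
  · linear_combination (Complex.I * Complex.sin θ * Complex.sin s * Complex.sin s) * hI
  · linear_combination (Complex.cos θ) * h - (Complex.cos θ * Complex.sin s * Complex.sin s) * hI

/-- conjugation by an `X` rotation by `π/4` turns `Y` into `Z` -/
lemma conj_X (θ : ℝ) : Er sX (Real.pi / 4) * Er sY θ * Er sX (-(Real.pi / 4)) = Er sZ θ := by
  have h : ((Real.sqrt 2 : ℝ) : ℂ) * ((Real.sqrt 2 : ℝ) : ℂ) = 2 := by
    rw [← Complex.ofReal_mul, Real.mul_self_sqrt (by norm_num)]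
    norm_num
  have hI := Complex.I_mul_I
  have c1 : ((Real.cos (Real.pi / 4) : ℝ) : ℂ) = ((Real.sqrt 2 : ℝ) : ℂ) / 2 := by
    rw [Real.cos_pi_div_four]; push_cast; ring
  have s1 : ((Real.sin (Real.pi / 4) : ℝ) : ℂ) = ((Real.sqrt 2 : ℝ) : ℂ) / 2 := by
    rw [Real.sin_pi_div_four]; push_cast; ring
  unfold Er
  rw [Real.cos_neg, Real.sin_neg, Complex.ofReal_neg, c1, s1]
  set r : ℂ := ((Real.sqrt 2 : ℝ) : ℂ)
  set c : ℂ := ((Real.cos θ : ℝ) : ℂ)
  set t : ℂ := ((Real.sin θ : ℝ) : ℂ)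
  ext i j; fin_cases i <;> fin_cases j <;>
    simp [sX, sY, sZ, Matrix.mul_apply, Fin.sum_univ_two]
  · linear_combination ((c * (1 - Complex.I * Complex.I)
      + 2 * Complex.I * Complex.I * Complex.I * t) / 4) * h + (-c / 2 + Complex.I * t) * hI
  · linear_combination (r * r / 4 * Complex.I * Complex.I * t) * hI
  · linear_combination (-r * r / 4 * Complex.I * Complex.I * t) * hI
  · linear_combination ((c * (1 - Complex.I * Complex.I)
      - 2 * Complex.I * Complex.I * Complex.I * t) / 4) * h + (-c / 2 - Complex.I * t) * hI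

/-! ### words -/

/-- matrix of a word at label `η` (`C` gates are ignored); the head of the list is the last gate -/
noncomputable def mw : List Gate → ℝ → M2
  | [], _ => 1
  | Gate.B b :: w, η => Er sX b * mw w η
  | Gate.G k :: w, η => Er sZ (k * η) * mw w η
  | Gate.C _ :: w, η => mw w η

/-- words without `C` gates -/
def NoC (w : List Gate) : Prop := ∀ g ∈ w, ∀ c, g ≠ Gate.C c

lemma mw_append (w w' : List Gate) (η : ℝ) : mw (w ++ w') η = mw w η * mw w' η := by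
  induction w with
  | nil => simp [mw]
  | cons g w ih =>
    cases g <;> simp [mw, ih, mul_assoc]

lemma NoC.append {w w' : List Gate} (h : NoC w) (h' : NoC w') : NoC (w ++ w') := by
  intro g hg c
  rcases List.mem_append.1 hg with hg | hg
  · exact h g hg c
  · exact h' g hg c

/-- repetition of a word -/
def rep (w : List Gate) : ℕ → List Gate
  | 0 => []
  | n + 1 => w ++ rep w n

lemma mw_rep (w : List Gate) (n : ℕ) (η : ℝ) : mw (rep w n) η = mw w η ^ n := by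
  induction n with
  | zero => simp [rep, mw]
  | succ n ih => rw [rep, mw_append, ih, pow_succ']

lemma NoC.rep {w : List Gate} (h : NoC w) (n : ℕ) : NoC (rep w n) := by
  induction n with
  | zero => intro g hg; simp [B.rep] at hg
  | succ n ih => exact h.append ih

lemma Er_star {P : M2} (hP : star P = P) (hP2 : P * P = 1) (θ : ℝ) : Er P θ ∈ unitary M2 := by
  have h1 : star (Er P θ) = Er P (-θ) := by
    unfold Er
    rw [star_sub, star_smul, star_smul, hP, star_one]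
    simp only [RCLike.star_def, map_mul, Complex.conj_I, Complex.conj_ofReal, Real.cos_neg,
      Real.sin_neg, Complex.ofReal_neg]
    module
  rw [Unitary.mem_iff, h1, Er_add hP2, Er_add hP2]
  have : Er P 0 = 1 := by simp [Er]
  constructor <;> simpa using this

lemma star_sX : star sX = sX := by
  ext i j; fin_cases i <;> fin_cases j <;> simp [sX]

lemma star_sZ : star sZ = sZ := by
  ext i j; fin_cases i <;> fin_cases j <;> simp [sZ]

lemma star_sY : star sY = sY := by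
  ext i j; fin_cases i <;> fin_cases j <;> simp [sY]

lemma mw_unitary (w : List Gate) (η : ℝ) : mw w η ∈ unitary M2 := by
  induction w with
  | nil => exact one_mem _
  | cons g w ih =>
    cases g with
    | B b => exact mul_mem (Er_star star_sX sX_sq b) ih
    | G k => exact mul_mem (Er_star star_sZ sZ_sq _) ih
    | C c => exact ih

lemma norm_of_unitary {A : M2} (h : A ∈ unitary M2) : ‖A‖ = 1 := by
  have := CStarRing.norm_of_mem_unitary h
  exact this

lemma continuous_Er (P : M2) : Continuous (fun θ : ℝ => Er P θ) := by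
  unfold Er
  fun_prop

lemma continuous_mw (w : List Gate) : Continuous (mw w) := by
  induction w with
  | nil => exact continuous_const
  | cons g w ih =>
    cases g with
    | B b => exact continuous_const.mul ih
    | G k => exact ((continuous_Er sZ).comp (continuous_const.mul continuous_id)).mul ih
    | C c => exact ih

/-- `U` is an `L¹` limit of words -/
structure Cls (μ : Measure ℝ) (U : ℝ → M2) : Prop where
  meas : AEStronglyMeasurable U μ
  le : ∀ η, ‖U η‖ ≤ 1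
  app : ∀ ε > 0, ∃ w, NoC w ∧ ∫ η, ‖mw w η - U η‖ ∂μ < ε

section cls

variable {μ : Measure ℝ} [IsFiniteMeasure μ]

lemma integrable_sub {U V : ℝ → M2} (hU : AEStronglyMeasurable U μ)
    (hV : AEStronglyMeasurable V μ) (h1 : ∀ η, ‖U η‖ ≤ 1) (h2 : ∀ η, ‖V η‖ ≤ 1) :
    Integrable (fun η => ‖U η - V η‖) μ := by
  refine Integrable.of_bound (hU.sub hV).norm 2 (ae_of_all _ fun η => ?_)
  rw [norm_norm]
  have := norm_sub_le (U η) (V η)
  linarith [h1 η, h2 η]

omit [IsFiniteMeasure μ] in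
lemma Cls.word {w : List Gate} (hw : NoC w) : Cls μ (mw w) where
  meas := (continuous_mw w).aestronglyMeasurable
  le η := (norm_of_unitary (mw_unitary w η)).le
  app ε hε := ⟨w, hw, by simpa using hε⟩

lemma mw_meas (w : List Gate) : AEStronglyMeasurable (mw w) μ :=
  (continuous_mw w).aestronglyMeasurable

lemma mw_le (w : List Gate) (η : ℝ) : ‖mw w η‖ ≤ 1 := (norm_of_unitary (mw_unitary w η)).le

lemma Cls.mul {U V : ℝ → M2} (hU : Cls μ U) (hV : Cls μ V) : Cls μ (fun η => U η * V η) where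
  meas := hU.meas.mul hV.meas
  le η := (norm_mul_le _ _).trans (mul_le_one₀ (hU.le η) (norm_nonneg _) (hV.le η))
  app ε hε := by
    obtain ⟨w, hw, h1⟩ := hU.app (ε / 2) (half_pos hε)
    obtain ⟨w', hw', h2⟩ := hV.app (ε / 2) (half_pos hε)
    refine ⟨w ++ w', hw.append hw', ?_⟩
    have i1 := integrable_sub (mw_meas (μ := μ) w) hU.meas (mw_le w) hU.le
    have i2 := integrable_sub (mw_meas (μ := μ) w') hV.meas (mw_le w') hV.le
    have : ∫ η, ‖mw (w ++ w') η - U η * V η‖ ∂μ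
        ≤ ∫ η, (‖mw w η - U η‖ + ‖mw w' η - V η‖) ∂μ := by
      refine integral_mono_of_nonneg (ae_of_all _ fun η => norm_nonneg _) (i1.add i2)
        (ae_of_all _ fun η => ?_)
      simp only [mw_append]
      have e : mw w η * mw w' η - U η * V η
          = (mw w η - U η) * mw w' η + U η * (mw w' η - V η) := by noncomm_ring
      rw [e]
      refine (norm_add_le _ _).trans (add_le_add ?_ ?_)
      · refine (norm_mul_le _ _).trans ?_
        exact mul_le_of_le_one_right (norm_nonneg _) (mw_le w' η)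
      · refine (norm_mul_le _ _).trans ?_
        exact mul_le_of_le_one_left (norm_nonneg _) (hU.le η)
    rw [integral_add i1 i2] at this
    linarith

/-- closure under pointwise limits -/
lemma Cls.lim {U : ℕ → ℝ → M2} {V : ℝ → M2} (hU : ∀ n, Cls μ (U n))
    (hV : ∀ η, ‖V η‖ ≤ 1) (h : ∀ᵐ η ∂μ, Tendsto (fun n => U n η) atTop (𝓝 (V η))) :
    Cls μ V where
  meas := aestronglyMeasurable_of_tendsto_ae atTop (fun n => (hU n).meas) h
  le := hV
  app ε hε := by
    have hVm : AEStronglyMeasurable V μ :=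
      aestronglyMeasurable_of_tendsto_ae atTop (fun n => (hU n).meas) h
    have h0 : Tendsto (fun n => ∫ η, ‖U n η - V η‖ ∂μ) atTop (𝓝 (∫ _η : ℝ, (0 : ℝ) ∂μ)) := by
      refine tendsto_integral_of_dominated_convergence (fun _ => 2)
        (fun n => ((hU n).meas.sub hVm).norm) (integrable_const 2)
        (fun n => ae_of_all _ fun η => ?_) ?_
      · rw [norm_norm]
        have := norm_sub_le (U n η) (V η)
        linarith [(hU n).le η, hV η]
      · filter_upwards [h] with η hη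
        have := (hη.sub_const (V η)).norm
        simpa using this
    simp only [integral_zero] at h0
    obtain ⟨n, hn⟩ := (h0.eventually (gt_mem_nhds (half_pos hε))).exists
    obtain ⟨w, hw, h1⟩ := (hU n).app (ε / 2) (half_pos hε)
    refine ⟨w, hw, ?_⟩
    have i1 := integrable_sub (mw_meas (μ := μ) w) (hU n).meas (mw_le w) (hU n).le
    have i2 := integrable_sub (hU n).meas hVm (hU n).le hV
    have : ∫ η, ‖mw w η - V η‖ ∂μ ≤ ∫ η, (‖mw w η - U n η‖ + ‖U n η - V η‖) ∂μ := by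
      refine integral_mono_of_nonneg (ae_of_all _ fun η => norm_nonneg _) (i1.add i2)
        (ae_of_all _ fun η => ?_)
      exact norm_sub_le_norm_sub_add_norm_sub _ _ _
    rw [integral_add i1 i2] at this
    linarith

end cls

/-! ### generators -/

/-- word of a rotated `X` rotation -/
noncomputable def wP (s θ : ℝ) : List Gate := [Gate.G (s / 2), Gate.B θ, Gate.G (-(s / 2))]

lemma noC_wP (s θ : ℝ) : NoC (wP s θ) := by
  intro g hg c
  simp only [wP, List.mem_cons, List.not_mem_nil, or_false] at hg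
  rcases hg with rfl | rfl | rfl <;> simp

lemma mw_wP (s θ η : ℝ) : mw (wP s θ) η = Er (sP (s * η)) θ := by
  have h := conj_Z (s / 2 * η) θ
  have e : 2 * (s / 2 * η) = s * η := by ring
  rw [e] at h
  simp only [wP, mw, mul_one]
  rw [← h, mul_assoc]
  congr 3
  ring

lemma exp_scaled {P : M2} (hP : P * P = 1) (t : ℝ) (m : ℕ) :
    NormedSpace.exp (((m : ℂ)⁻¹) • ((-(Complex.I * (t : ℂ))) • P)) = Er P (t / m) := by
  rw [← exp_inv hP, smul_smul]
  congr 2
  push_cast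
  ring

lemma trot {P Q : M2} (hP : P * P = 1) (hQ : Q * Q = 1) (t u : ℝ) :
    Tendsto (fun m : ℕ => (Er P (t / m) * Er Q (u / m)) ^ m) atTop
      (𝓝 (NormedSpace.exp ((-(Complex.I * (t : ℂ))) • P + (-(Complex.I * (u : ℂ))) • Q))) := by
  have h1 : ‖(1 : M2)‖ ≤ 1 := (norm_of_unitary (one_mem _)).le
  have h := lie_trotter h1 ((-(Complex.I * (t : ℂ))) • P) ((-(Complex.I * (u : ℂ))) • Q)
  simp_rw [exp_scaled hP, exp_scaled hQ] at h
  exact h

variable {μ : Measure ℝ} [IsFiniteMeasure μ]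

lemma norm_Er_le {P : M2} (hs : star P = P) (hP : P * P = 1) (θ : ℝ) : ‖Er P θ‖ ≤ 1 :=
  (norm_of_unitary (Er_star hs hP θ)).le

lemma cls_X_cos (s t : ℝ) : Cls μ (fun η => Er sX (t * Real.cos (s * η))) := by
  refine Cls.lim (U := fun m η => mw (rep (wP s (t / 2 / m) ++ wP (-s) (t / 2 / m)) m) η)
    (fun m => Cls.word (((noC_wP _ _).append (noC_wP _ _)).rep m))
    (fun η => norm_Er_le star_sX sX_sq _) (ae_of_all _ fun η => ?_)
  simp only [mw_rep, mw_append, mw_wP]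
  have h := trot (sP_sq (s * η)) (sP_sq (-s * η)) (t / 2) (t / 2)
  convert h using 2
  rw [← exp_inv sX_sq]
  congr 1
  have : sP (s * η) + sP (-s * η) = (2 * Real.cos (s * η) : ℂ) • sX := by
    unfold sP
    have e : -s * η = -(s * η) := by ring
    rw [e, Real.cos_neg, Real.sin_neg]
    push_cast
    module
  rw [← smul_add, this, smul_smul]
  congr 1
  push_cast
  ring

lemma cls_Y_sin (s t : ℝ) : Cls μ (fun η => Er sY (t * Real.sin (s * η))) := by
  refine Cls.lim (U := fun m η => mw (rep (wP s (t / 2 / m) ++ wP (-s) (-(t / 2) / m)) m) η)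
    (fun m => Cls.word (((noC_wP _ _).append (noC_wP _ _)).rep m))
    (fun η => norm_Er_le star_sY sY_sq _) (ae_of_all _ fun η => ?_)
  simp only [mw_rep, mw_append, mw_wP]
  have h := trot (sP_sq (s * η)) (sP_sq (-s * η)) (t / 2) (-(t / 2))
  convert h using 2
  rw [← exp_inv sY_sq]
  congr 1
  unfold sP
  have e : -s * η = -(s * η) := by ring
  rw [e, Real.cos_neg, Real.sin_neg]
  push_cast
  module

lemma cls_B (b : ℝ) : Cls μ (fun _ => Er sX b) := by
  have h : Cls μ (mw [Gate.B b]) := Cls.word (by intro g hg c; simp at hg; simp [hg])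
  have e : mw [Gate.B b] = fun _ => Er sX b := by
    funext η; simp [mw]
  rwa [e] at h

lemma cls_Z_of_Y {f : ℝ → ℝ} (h : Cls μ (fun η => Er sY (f η))) :
    Cls μ (fun η => Er sZ (f η)) := by
  have h2 := ((cls_B (μ := μ) (Real.pi / 4)).mul h).mul (cls_B (μ := μ) (-(Real.pi / 4)))
  have e : (fun η => Er sX (Real.pi / 4) * Er sY (f η) * Er sX (-(Real.pi / 4)))
      = fun η => Er sZ (f η) := by
    funext η; exact conj_X _
  rwa [e] at h2

lemma cls_add {P : M2} (hP : P * P = 1) {f g : ℝ → ℝ} (hf : Cls μ (fun η => Er P (f η)))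
    (hg : Cls μ (fun η => Er P (g η))) : Cls μ (fun η => Er P (f η + g η)) := by
  have h := hf.mul hg
  have e : (fun η => Er P (f η) * Er P (g η)) = fun η => Er P (f η + g η) := by
    funext η; exact Er_add hP _ _
  rwa [e] at h

lemma norm_Er_sub_le {P : M2} (hs : star P = P) (hP : P * P = 1) (a b : ℝ) :
    ‖Er P a - Er P b‖ ≤ 2 * |a - b| := by
  have hn : ‖P‖ ≤ 1 := by
    refine (norm_of_unitary ?_).le
    rw [Unitary.mem_iff, hs]
    exact ⟨hP, hP⟩
  have h1 : ‖(1 : M2)‖ ≤ 1 := (norm_of_unitary (one_mem _)).le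
  have e : Er P a - Er P b = ((Real.cos a - Real.cos b : ℝ) : ℂ) • (1 : M2)
      - (Complex.I * ((Real.sin a - Real.sin b : ℝ) : ℂ)) • P := by
    unfold Er
    push_cast
    module
  rw [e]
  refine (norm_sub_le _ _).trans ?_
  rw [norm_smul, norm_smul, norm_mul, Complex.norm_I, one_mul, Complex.norm_real,
    Complex.norm_real, Real.norm_eq_abs, Real.norm_eq_abs]
  have c1 : |Real.cos a - Real.cos b| ≤ |a - b| := by
    have := Real.abs_cos_sub_cos_le a b
    exact this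
  have c2 : |Real.sin a - Real.sin b| ≤ |a - b| := by
    have := Real.abs_sin_sub_sin_le a b
    exact this
  have n1 : |Real.cos a - Real.cos b| * ‖(1 : M2)‖ ≤ |a - b| * 1 :=
    mul_le_mul c1 h1 (norm_nonneg _) (abs_nonneg _)
  have n2 : |Real.sin a - Real.sin b| * ‖P‖ ≤ |a - b| * 1 :=
    mul_le_mul c2 hn (norm_nonneg _) (abs_nonneg _)
  linarith

/-- trigonometric sum -/
noncomputable def trg : List (ℝ × ℝ × ℝ) → ℝ → ℝ
  | [], _ => 0
  | (a, b, s) :: l, η => (a * Real.cos (s * η) + b * Real.sin (s * η)) + trg l η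

lemma continuous_trg (l : List (ℝ × ℝ × ℝ)) : Continuous (trg l) := by
  induction l with
  | nil => exact continuous_const
  | cons x l ih =>
    obtain ⟨a, b, s⟩ := x
    have : trg ((a, b, s) :: l)
        = fun η => (a * Real.cos (s * η) + b * Real.sin (s * η)) + trg l η := rfl
    rw [this]
    fun_prop

/-- even part of a trigonometric sum -/
def evn (l : List (ℝ × ℝ × ℝ)) : List (ℝ × ℝ × ℝ) := l.map fun x => (x.1, 0, x.2.2)

/-- odd part of a trigonometric sum -/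
def odn (l : List (ℝ × ℝ × ℝ)) : List (ℝ × ℝ × ℝ) := l.map fun x => (0, x.2.1, x.2.2)

lemma trg_evn (l : List (ℝ × ℝ × ℝ)) (η : ℝ) : trg (evn l) η = (trg l η + trg l (-η)) / 2 := by
  induction l with
  | nil => simp [evn, trg]
  | cons x l ih =>
    obtain ⟨a, b, s⟩ := x
    have e : s * -η = -(s * η) := by ring
    have h1 : trg (evn ((a, b, s) :: l)) η
        = (a * Real.cos (s * η) + 0 * Real.sin (s * η)) + trg (evn l) η := rfl
    have h2 : ∀ η, trg ((a, b, s) :: l) η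
        = (a * Real.cos (s * η) + b * Real.sin (s * η)) + trg l η := fun η => rfl
    rw [h1, h2, h2, ih, e, Real.cos_neg, Real.sin_neg]
    ring

lemma trg_odn (l : List (ℝ × ℝ × ℝ)) (η : ℝ) : trg (odn l) η = (trg l η - trg l (-η)) / 2 := by
  induction l with
  | nil => simp [odn, trg]
  | cons x l ih =>
    obtain ⟨a, b, s⟩ := x
    have e : s * -η = -(s * η) := by ring
    have h1 : trg (odn ((a, b, s) :: l)) η
        = (0 * Real.cos (s * η) + b * Real.sin (s * η)) + trg (odn l) η := rfl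
    have h2 : ∀ η, trg ((a, b, s) :: l) η
        = (a * Real.cos (s * η) + b * Real.sin (s * η)) + trg l η := fun η => rfl
    rw [h1, h2, h2, ih, e, Real.cos_neg, Real.sin_neg]
    ring

lemma cls_trg_X (l : List (ℝ × ℝ × ℝ)) : Cls μ (fun η => Er sX (trg (evn l) η)) := by
  induction l with
  | nil =>
    have : (fun η => Er sX (trg (evn []) η)) = mw [] := by
      funext η
      simp [evn, trg, mw, Er]
    rw [this]
    exact Cls.word (by intro g hg; simp at hg)
  | cons x l ih =>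
    obtain ⟨a, b, s⟩ := x
    have h := cls_add sX_sq (cls_X_cos (μ := μ) s a) ih
    have e : (fun η => Er sX (trg (evn ((a, b, s) :: l)) η))
        = fun η => Er sX (a * Real.cos (s * η) + trg (evn l) η) := by
      funext η
      congr 1
      have h1 : trg (evn ((a, b, s) :: l)) η
        = (a * Real.cos (s * η) + 0 * Real.sin (s * η)) + trg (evn l) η := rfl
      rw [h1]; ring
    rwa [e]

lemma cls_trg_Y (l : List (ℝ × ℝ × ℝ)) : Cls μ (fun η => Er sY (trg (odn l) η)) := by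
  induction l with
  | nil =>
    have : (fun η => Er sY (trg (odn []) η)) = mw [] := by
      funext η
      simp [odn, trg, mw, Er]
    rw [this]
    exact Cls.word (by intro g hg; simp at hg)
  | cons x l ih =>
    obtain ⟨a, b, s⟩ := x
    have h := cls_add sY_sq (cls_Y_sin (μ := μ) s b) ih
    have e : (fun η => Er sY (trg (odn ((a, b, s) :: l)) η))
        = fun η => Er sY (b * Real.sin (s * η) + trg (odn l) η) := by
      funext η
      congr 1
      have h1 : trg (odn ((a, b, s) :: l)) η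
        = (0 * Real.cos (s * η) + b * Real.sin (s * η)) + trg (odn l) η := rfl
      rw [h1]; ring
    rwa [e]

/-- `L¹` closedness -/
lemma Cls.of_near {U : ℝ → M2} (hm : AEStronglyMeasurable U μ) (hU : ∀ η, ‖U η‖ ≤ 1)
    (h : ∀ ε > 0, ∃ V, Cls μ V ∧ ∫ η, ‖V η - U η‖ ∂μ < ε) : Cls μ U where
  meas := hm
  le := hU
  app ε hε := by
    obtain ⟨V, hV, h1⟩ := h (ε / 2) (half_pos hε)
    obtain ⟨w, hw, h2⟩ := hV.app (ε / 2) (half_pos hε)
    refine ⟨w, hw, ?_⟩
    have i1 := integrable_sub (mw_meas (μ := μ) w) hV.meas (mw_le w) hV.le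
    have i2 := integrable_sub hV.meas hm hV.le hU
    have : ∫ η, ‖mw w η - U η‖ ∂μ ≤ ∫ η, (‖mw w η - V η‖ + ‖V η - U η‖) ∂μ := by
      refine integral_mono_of_nonneg (ae_of_all _ fun η => norm_nonneg _) (i1.add i2)
        (ae_of_all _ fun η => ?_)
      exact norm_sub_le_norm_sub_add_norm_sub _ _ _
    rw [integral_add i1 i2] at this
    linarith

end Vale.Agent.P367.B
end

section

/-! P367, block B, NEST (N1): rotations controlled by the next control algebra.

`UU` is a class of unitaries closed under products and strong limits which contains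
`exp(-iaP)` for the old controls `a` and the label gates `zr (k y)` on the system labels.
Then it contains `exp(-iaP)` for all controls `a` of the next level. -/

namespace Vale.Agent.P367.A

open Complex Filter Topology
open Vale.Agent.P367.B (ex ex_add ex_zero ex_commute star_ex norm_ex norm_ex_sub_ex_le ex_neg_mul
  ex_mul_neg lie_trotter)

namespace LSys

variable {H K : Type} [NormedAddCommGroup H] [InnerProductSpace ℂ H] [CompleteSpace H]
  [NormedAddCommGroup K] [InnerProductSpace ℂ K] (L : LSys H K)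

/-- bounded operator of a Pauli operator -/
noncomputable def pc (P : Fin 3) : H →L[ℂ] H :=
  (L.pau P).toContinuousLinearEquiv.toContinuousLinearMap

omit [CompleteSpace H] in
lemma pc_apply (P : Fin 3) (x : H) : L.pc P x = L.pau P x := rfl

/-- class of admissible unitaries -/
structure UCl (G : Set ℝ) (𝔄 : Set (H →L[ℂ] H)) (y : K) (UU : Set (H ≃ₗᵢ[ℂ] H)) : Prop where
  mul : ∀ U V, U ∈ UU → V ∈ UU → U * V ∈ UU
  lim : ∀ (U : ℕ → (H ≃ₗᵢ[ℂ] H)) (U0 : H ≃ₗᵢ[ℂ] H), (∀ n, U n ∈ UU) →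
    (∀ a ∈ L.nxt 𝔄 y, ∀ x, a (U0 x) = U0 (a x)) →
    (∀ x, Tendsto (fun n => U n x) atTop (𝓝 (U0 x))) → U0 ∈ UU
  rot : ∀ a P U, a ∈ 𝔄 → Sa a → a * L.E G = a → L.IsRot a P U → U ∈ UU
  zrG : ∀ (k : ℝ) (U : H ≃ₗᵢ[ℂ] H),
    (∀ x, U x = L.zr ((k : ℂ) • y) (L.E G x) + (x - L.E G x)) → U ∈ UU

/-- the unitary `exp(-iA)` of a bounded self-adjoint operator -/
noncomputable def eU (A : H →L[ℂ] H) (hA : IsSelfAdjoint A) : H ≃ₗᵢ[ℂ] H :=
  mkU (ex (-A)).toLinearMap (ex A).toLinearMap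
    (fun x => by
      have := congrArg (fun T : H →L[ℂ] H => T x) (ex_mul_neg A)
      exact this)
    (fun x => by
      have := congrArg (fun T : H →L[ℂ] H => T x) (ex_neg_mul A)
      exact this)
    (fun x y => by
      have h : star (ex (-A)) = ex A := by
        rw [star_ex hA.neg, neg_neg]
      change inner ℂ (ex (-A) x) y = inner ℂ x (ex A y)
      rw [← h, ContinuousLinearMap.star_eq_adjoint, ContinuousLinearMap.adjoint_inner_right])

lemma eU_apply (A : H →L[ℂ] H) (hA : IsSelfAdjoint A) (x : H) : eU A hA x = ex (-A) x := rfl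

/-! ### operator algebra -/

lemma opext {A B : H →L[ℂ] H} (h : ∀ x, A x = B x) : A = B := ContinuousLinearMap.ext h

lemma sa_iff {A : H →L[ℂ] H} : Sa A ↔ IsSelfAdjoint A := by
  rw [ContinuousLinearMap.isSelfAdjoint_iff_isSymmetric]
  rfl

lemma isRot_iff {a : H →L[ℂ] H} {P : Fin 3} {U : H ≃ₗᵢ[ℂ] H} :
    L.IsRot a P U ↔ ∀ x, U x = ex (-(a * L.pc P)) x := by
  unfold IsRot ex pc
  rw [smul_neg, ← neg_smul]

omit [CompleteSpace H] in
lemma pau_zero' : L.pau 0 = L.X := rfl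
omit [CompleteSpace H] in
lemma pau_one' : L.pau 1 = L.Zt (-(Real.pi / 4)) := rfl
omit [CompleteSpace H] in
lemma pau_two' : L.pau 2 = L.Z := rfl

omit [CompleteSpace H] in
lemma pc_one_apply (x : H) : L.pc 1 x = Complex.I • L.X (L.Z x) := by
  rw [pc_apply, pau_one', L.Zt_apply]
  have : 2 * -(Real.pi / 4) = -(Real.pi / 2) := by ring
  rw [this, L.xr_neg_pi_div_two]

omit [CompleteSpace H] in
lemma pc_sq (P : Fin 3) : L.pc P * L.pc P = 1 := by
  refine ContinuousLinearMap.ext fun x => ?_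
  change L.pau P (L.pau P x) = x
  fin_cases P
  · exact L.XX x
  · exact L.Zt_sq _ x
  · exact L.ZZ x

lemma pc_sa (P : Fin 3) : IsSelfAdjoint (L.pc P) := by
  rw [← sa_iff]
  intro x y
  change inner ℂ (L.pau P x) y = inner ℂ x (L.pau P y)
  fin_cases P
  · exact L.inner_X x y
  · exact L.inner_Zt _ x y
  · exact L.inner_Z x y

omit [CompleteSpace H] in
lemma pc_Wc (P : Fin 3) (a : K) : Commute (L.pc P) (L.Wc a) := by
  refine ContinuousLinearMap.ext fun x => ?_
  change L.pau P (L.W a x) = L.W a (L.pau P x)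
  fin_cases P
  · exact (L.WX a x).symm
  · exact (L.W_ZtA a _ x).symm
  · exact (L.WZ a x).symm

omit [CompleteSpace H] in
lemma pc_ctl {𝔄 : Set (H →L[ℂ] H)} (h : L.Ctl 𝔄) {a : H →L[ℂ] H} (ha : a ∈ 𝔄) (P : Fin 3) :
    Commute (L.pc P) a := by
  have hX := h.X a ha
  have hZ := h.Z a ha
  refine ContinuousLinearMap.ext fun x => ?_
  fin_cases P
  · exact (hX x).symm
  · change L.pc 1 (a x) = a (L.pc 1 x)
    rw [pc_one_apply, pc_one_apply, map_smul, hX, hZ]
  · exact (hZ x).symm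

omit [CompleteSpace H] in
/-- `X Z = - Z X` -/
lemma pX_pZ : L.pc 0 * L.pc 2 = -(L.pc 2 * L.pc 0) := by
  refine ContinuousLinearMap.ext fun x => ?_
  exact L.XZ x

omit [CompleteSpace H] in
/-- `Y = i X Z` -/
lemma pY_eq : L.pc 1 = Complex.I • (L.pc 0 * L.pc 2) := by
  refine ContinuousLinearMap.ext fun x => ?_
  exact L.pc_one_apply x

omit [CompleteSpace H] in
lemma Wc_zero : L.Wc 0 = 1 := by
  refine ContinuousLinearMap.ext fun x => ?_
  exact L.W_zero_apply x

omit [CompleteSpace H] in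
lemma Wc_mul (y : K) (s t : ℝ) :
    L.Wc ((s : ℂ) • y) * L.Wc ((t : ℂ) • y) = L.Wc (((s + t : ℝ) : ℂ) • y) := by
  refine ContinuousLinearMap.ext fun x => ?_
  change L.W ((s : ℂ) • y) (L.W ((t : ℂ) • y) x) = L.W (((s + t : ℝ) : ℂ) • y) x
  rw [L.WW', th_smul_left, th_smul_right, th_self]
  have : (s : ℂ) • y + (t : ℂ) • y = ((s + t : ℝ) : ℂ) • y := by push_cast; module
  rw [this]
  simp

lemma Wc_star (a : K) : star (L.Wc a) = L.Wc (-a) := by
  rw [ContinuousLinearMap.star_eq_adjoint]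
  symm
  rw [ContinuousLinearMap.eq_adjoint_iff]
  intro x y
  change inner ℂ (L.W (-a) x) y = inner ℂ x (L.W a y)
  rw [L.inner_W, neg_neg]

/-- `cos (phi (k y))` -/
noncomputable def csY (y : K) (k : ℝ) : H →L[ℂ] H :=
  (1 / 2 : ℂ) • (L.Wc ((k : ℂ) • y) + L.Wc (((-k : ℝ) : ℂ) • y))

/-- `sin (phi (k y))` -/
noncomputable def snY (y : K) (k : ℝ) : H →L[ℂ] H :=
  (-(Complex.I / 2) : ℂ) • (L.Wc ((k : ℂ) • y) - L.Wc (((-k : ℝ) : ℂ) • y))

omit [CompleteSpace H] in
lemma Wc_eq (y : K) (k : ℝ) : L.Wc ((k : ℂ) • y) = L.csY y k + Complex.I • L.snY y k := by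
  unfold csY snY
  rw [smul_smul]
  have : Complex.I * (-(Complex.I / 2)) = 1 / 2 := by
    linear_combination (-(1 / 2) : ℂ) * Complex.I_mul_I
  rw [this]
  module

omit [CompleteSpace H] in
lemma Wc_neg_eq (y : K) (k : ℝ) :
    L.Wc (((-k : ℝ) : ℂ) • y) = L.csY y k - Complex.I • L.snY y k := by
  unfold csY snY
  rw [smul_smul]
  have : Complex.I * (-(Complex.I / 2)) = 1 / 2 := by
    linear_combination (-(1 / 2) : ℂ) * Complex.I_mul_I
  rw [this]
  module

lemma Wc_star_real (y : K) (k : ℝ) : star (L.Wc ((k : ℂ) • y)) = L.Wc (((-k : ℝ) : ℂ) • y) := by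
  rw [Wc_star]
  congr 1
  push_cast
  module

lemma csY_sa (y : K) (k : ℝ) : IsSelfAdjoint (L.csY y k) := by
  unfold csY
  rw [IsSelfAdjoint, star_smul, star_add, Wc_star_real, Wc_star_real, neg_neg, add_comm]
  congr 1
  simp

lemma snY_sa (y : K) (k : ℝ) : IsSelfAdjoint (L.snY y k) := by
  unfold snY
  rw [IsSelfAdjoint, star_smul, star_sub, Wc_star_real, Wc_star_real, neg_neg]
  have : star (-(Complex.I / 2) : ℂ) = Complex.I / 2 := by
    simp [Complex.conj_I, neg_div]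
  rw [this]
  module

omit [CompleteSpace H] in
lemma csY_neg (y : K) (k : ℝ) : L.csY y (-k) = L.csY y k := by
  unfold csY
  rw [neg_neg, add_comm]

omit [CompleteSpace H] in
lemma snY_neg (y : K) (k : ℝ) : L.snY y (-k) = -L.snY y k := by
  unfold snY
  rw [neg_neg]
  module

/-- operator of `zr (k y)` -/
noncomputable def zc (y : K) (k : ℝ) : H →L[ℂ] H :=
  L.csY y k - Complex.I • (L.snY y k * L.pc 2)

omit [CompleteSpace H] in
lemma zc_apply (y : K) (k : ℝ) (x : H) : L.zc y k x = L.zr ((k : ℂ) • y) x := by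
  have e : (-((k : ℂ) • y)) = ((-k : ℝ) : ℂ) • y := by push_cast; module
  rw [L.zr_apply, e]
  change L.csY y k x - Complex.I • (L.snY y k (L.Z x)) = _
  have h1 : ∀ z, L.W ((k : ℂ) • y) z = L.csY y k z + Complex.I • L.snY y k z := by
    intro z
    have := congrArg (fun T : H →L[ℂ] H => T z) (L.Wc_eq y k)
    exact this
  have h2 : ∀ z, L.W (((-k : ℝ) : ℂ) • y) z = L.csY y k z - Complex.I • L.snY y k z := by
    intro z
    have := congrArg (fun T : H →L[ℂ] H => T z) (L.Wc_neg_eq y k)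
    exact this
  rw [h1, h2, h1, h2]
  module

/-! ### the class of good generators -/

section good

variable {L} {G : Set ℝ} {𝔄 : Set (H →L[ℂ] H)} {y : K} {UU : Set (H ≃ₗᵢ[ℂ] H)}

/-- generators whose exponentials lie in `UU` -/
structure Gd (L : LSys H K) (𝔄 : Set (H →L[ℂ] H)) (y : K) (UU : Set (H ≃ₗᵢ[ℂ] H))
    (A : H →L[ℂ] H) : Prop where
  sa : IsSelfAdjoint A
  cm : ∀ a ∈ L.nxt 𝔄 y, Commute A a
  mem : ∀ U : H ≃ₗᵢ[ℂ] H, (∀ x, U x = ex (-A) x) → U ∈ UU

lemma Gd.eU {A : H →L[ℂ] H} (h : Gd L 𝔄 y UU A) : eU A h.sa ∈ UU :=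
  h.mem _ fun x => eU_apply A h.sa x

lemma Gd.of_eU {A : H →L[ℂ] H} (hA : IsSelfAdjoint A) (hc : ∀ a ∈ L.nxt 𝔄 y, Commute A a)
    (h : LSys.eU A hA ∈ UU) : Gd L 𝔄 y UU A := by
  refine ⟨hA, hc, fun U hU => ?_⟩
  have : U = LSys.eU A hA := LinearIsometryEquiv.ext fun x => by rw [hU, eU_apply]
  rwa [this]

lemma eU_commute {A a : H →L[ℂ] H} (hA : IsSelfAdjoint A) (h : Commute A a) (x : H) :
    a (LSys.eU A hA x) = LSys.eU A hA (a x) := by
  have h1 : Commute (ex (-A)) a := ex_commute h.neg_left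
  have := congrArg (fun T : H →L[ℂ] H => T x) h1
  exact this.symm

lemma Gd.add (hU : L.UCl G 𝔄 y UU) {A B : H →L[ℂ] H} (hA : Gd L 𝔄 y UU A) (hB : Gd L 𝔄 y UU B)
    (h : Commute A B) : Gd L 𝔄 y UU (A + B) := by
  refine Gd.of_eU (hA.sa.add hB.sa) (fun a ha => (hA.cm a ha).add_left (hB.cm a ha)) ?_
  have e : LSys.eU (A + B) (hA.sa.add hB.sa) = LSys.eU A hA.sa * LSys.eU B hB.sa := by
    refine LinearIsometryEquiv.ext fun x => ?_
    change ex (-(A + B)) x = ex (-A) (ex (-B) x)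
    rw [neg_add, ex_add (h.neg_left.neg_right)]
    rfl
  rw [e]
  exact hU.mul _ _ hA.eU hB.eU

/-- strong limits of good generators -/
lemma Gd.lim (hU : L.UCl G 𝔄 y UU) {A : ℕ → H →L[ℂ] H} {A0 : H →L[ℂ] H}
    (hA : ∀ n, Gd L 𝔄 y UU (A n)) (h0 : IsSelfAdjoint A0) (hc : ∀ a ∈ L.nxt 𝔄 y, Commute A0 a)
    (hcom : ∀ n, Commute (A n) A0) (h : ∀ x, Tendsto (fun n => A n x) atTop (𝓝 (A0 x))) :
    Gd L 𝔄 y UU A0 := by
  refine Gd.of_eU h0 hc ?_
  refine hU.lim (fun n => LSys.eU (A n) (hA n).sa) _ (fun n => (hA n).eU)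
    (fun a ha x => eU_commute h0 (hc a ha) x) fun x => ?_
  rw [tendsto_iff_norm_sub_tendsto_zero]
  refine squeeze_zero (fun n => norm_nonneg _) (fun n => ?_)
    (tendsto_iff_norm_sub_tendsto_zero.1 (h x))
  have h1 := norm_ex_sub_ex_le (hA n).sa.neg h0.neg ((hcom n).neg_left.neg_right) x
  have e : (-(A n) - -A0) x = -(A n x - A0 x) := by
    change -(A n x) - -(A0 x) = _
    abel
  rw [e, norm_neg] at h1
  exact h1

lemma Gd.zero (hL : L.Ctl 𝔄) (hU : L.UCl G 𝔄 y UU) : Gd L 𝔄 y UU 0 := by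
  refine ⟨IsSelfAdjoint.zero _, fun a _ => Commute.zero_left a, fun U hU' => ?_⟩
  have h0 : (0 : H →L[ℂ] H) ∈ 𝔄 := by
    have := hL.lab (fun _ => 0) ⟨measurable_const, 0, fun x => by simp⟩
    rw [L.lab_const] at this
    simpa using this
  refine hU.rot 0 0 U h0 (fun x y => by simp) (by simp) ?_
  rw [isRot_iff]
  intro x
  rw [hU']
  simp

lemma pow_mem (hL : L.Ctl 𝔄) (hU : L.UCl G 𝔄 y UU) {U : H ≃ₗᵢ[ℂ] H} (h : U ∈ UU) (n : ℕ) :
    U ^ n ∈ UU := by
  induction n with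
  | zero =>
    rw [pow_zero]
    refine (Gd.zero hL hU).mem 1 fun x => ?_
    rw [neg_zero, ex_zero]
    rfl
  | succ n ih =>
    rw [pow_succ]
    exact hU.mul _ _ ih h

lemma coe_pow (U : H ≃ₗᵢ[ℂ] H) (T : H →L[ℂ] H) (h : ∀ x, U x = T x) (n : ℕ) (x : H) :
    (U ^ n) x = (T ^ n) x := by
  induction n generalizing x with
  | zero => rfl
  | succ n ih =>
    rw [pow_succ, pow_succ]
    change (U ^ n) (U x) = (T ^ n) (T x)
    rw [h, ih]

lemma real_smul_sa {A : H →L[ℂ] H} (hA : IsSelfAdjoint A) (t : ℝ) :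
    IsSelfAdjoint ((t : ℂ) • A) := by
  rw [IsSelfAdjoint, star_smul, hA.star_eq]
  congr 1
  exact Complex.conj_ofReal t

/-- Lie-Trotter -/
lemma Gd.trot (hL : L.Ctl 𝔄) (hU : L.UCl G 𝔄 y UU) {A B : H →L[ℂ] H}
    (hA : ∀ t : ℝ, Gd L 𝔄 y UU ((t : ℂ) • A)) (hB : ∀ t : ℝ, Gd L 𝔄 y UU ((t : ℂ) • B)) :
    Gd L 𝔄 y UU (A + B) := by
  have hA1 : Gd L 𝔄 y UU A := by simpa using hA 1
  have hB1 : Gd L 𝔄 y UU B := by simpa using hB 1
  refine Gd.of_eU (hA1.sa.add hB1.sa) (fun a ha => (hA1.cm a ha).add_left (hB1.cm a ha)) ?_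
  refine hU.lim (fun m : ℕ => (LSys.eU _ (hA ((m : ℝ)⁻¹)).sa * LSys.eU _ (hB ((m : ℝ)⁻¹)).sa) ^ m) _
    (fun m => pow_mem hL hU (hU.mul _ _ (hA _).eU (hB _).eU) m)
    (fun a ha x => eU_commute _ ((hA1.cm a ha).add_left (hB1.cm a ha)) x) fun x => ?_
  have h1 : ‖(1 : H →L[ℂ] H)‖ ≤ 1 := ContinuousLinearMap.norm_id_le
  have h := lie_trotter h1 (Complex.I • (-A)) (Complex.I • (-B))
  have h2 : Tendsto (fun m : ℕ => ((NormedSpace.exp (((m : ℂ)⁻¹) • (Complex.I • (-A)))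
      * NormedSpace.exp (((m : ℂ)⁻¹) • (Complex.I • (-B)))) ^ m) x) atTop
      (𝓝 (NormedSpace.exp (Complex.I • (-A) + Complex.I • (-B)) x)) :=
    ((ContinuousLinearMap.apply ℂ H x).continuous.tendsto _).comp h
  have e0 : NormedSpace.exp (Complex.I • (-A) + Complex.I • (-B)) x
      = LSys.eU (A + B) (hA1.sa.add hB1.sa) x := by
    change _ = NormedSpace.exp (Complex.I • (-(A + B))) x
    rw [← smul_add, neg_add]
  rw [e0] at h2
  refine h2.congr fun m => ?_
  symm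
  refine coe_pow _ _ (fun z => ?_) m x
  change NormedSpace.exp (Complex.I • (-((((m : ℝ)⁻¹ : ℝ) : ℂ) • A)))
      (NormedSpace.exp (Complex.I • (-((((m : ℝ)⁻¹ : ℝ) : ℂ) • B))) z) = _
  have e1 : ∀ T : H →L[ℂ] H, Complex.I • (-((((m : ℝ)⁻¹ : ℝ) : ℂ) • T))
      = ((m : ℂ)⁻¹) • (Complex.I • (-T)) := by
    intro T
    push_cast
    module
  rw [e1, e1]
  rfl

/-- conjugation by members of the class -/
lemma Gd.conj (hU : L.UCl G 𝔄 y UU) {A : H →L[ℂ] H} (hA : Gd L 𝔄 y UU A)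
    {V V' : H ≃ₗᵢ[ℂ] H} (hV : V ∈ UU) (hV' : V' ∈ UU) {T T' : H →L[ℂ] H}
    (hT : ∀ x, V x = T x) (hT' : ∀ x, V' x = T' x) (h1 : T * T' = 1) (h2 : T' * T = 1)
    (h3 : star T = T') (hc : ∀ a ∈ L.nxt 𝔄 y, Commute T a) : Gd L 𝔄 y UU (T * A * T') := by
  have hc' : ∀ a ∈ L.nxt 𝔄 y, Commute T' a := by
    intro a ha
    have h := hc a ha
    change T' * a = a * T'
    calc T' * a = T' * a * (T * T') := by rw [h1, mul_one]
      _ = T' * (a * T) * T' := by noncomm_ring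
      _ = T' * (T * a) * T' := by rw [h.eq]
      _ = (T' * T) * a * T' := by noncomm_ring
      _ = a * T' := by rw [h2, one_mul]
  have hsa : IsSelfAdjoint (T * A * T') := by
    rw [IsSelfAdjoint, star_mul, star_mul, hA.sa.star_eq, h3, ← h3, star_star, h3, mul_assoc]
  refine Gd.of_eU hsa (fun a ha => ((hc a ha).mul_left (hA.cm a ha)).mul_left (hc' a ha)) ?_
  have e : LSys.eU (T * A * T') hsa = V * (LSys.eU A hA.sa * V') := by
    refine LinearIsometryEquiv.ext fun x => ?_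
    change ex (-(T * A * T')) x = V (ex (-A) (V' x))
    rw [hT, hT']
    have e2 : ex (-(T * A * T')) = T * ex (-A) * T' := by
      let _ : NormedAlgebra ℚ (H →L[ℂ] H) := .restrictScalars ℚ ℂ (H →L[ℂ] H)
      unfold ex
      have h := NormedSpace.exp_units_conj (⟨T, T', h1, h2⟩ : (H →L[ℂ] H)ˣ) (Complex.I • (-A))
      change NormedSpace.exp (T * (Complex.I • (-A)) * T')
        = T * NormedSpace.exp (Complex.I • (-A)) * T' at h
      rw [← h]
      congr 1
      rw [mul_smul_comm, smul_mul_assoc, mul_neg, neg_mul]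
    rw [e2]
    rfl
  rw [e]
  exact hU.mul _ _ hV (hU.mul _ _ hA.eU hV')

end good

/-! ### exponential of a projected involution -/

lemma exp_mul_of_zero {E D : H →L[ℂ] H} (h : E * D = 0) : E * NormedSpace.exp D = E := by
  let _ : NormedAlgebra ℚ (H →L[ℂ] H) := .restrictScalars ℚ ℂ (H →L[ℂ] H)
  have hs := NormedSpace.expSeries_summable' (𝕂 := ℂ) D
  rw [NormedSpace.exp_eq_tsum ℂ]
  change E * (∑' n : ℕ, ((n.factorial : ℂ)⁻¹) • D ^ n) = E
  rw [← hs.tsum_mul_left, tsum_eq_single 0]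
  · simp
  · intro n hn
    obtain ⟨m, rfl⟩ := Nat.exists_eq_succ_of_ne_zero hn
    rw [pow_succ', mul_smul_comm, ← mul_assoc, h, zero_mul, smul_zero]

/-- `exp(E C) = E exp(C) + (1 - E)` for a commuting idempotent `E` -/
lemma exp_idem {E C : H →L[ℂ] H} (hE : E * E = E) (hc : Commute E C) :
    NormedSpace.exp (E * C) = E * NormedSpace.exp C + (1 - E) := by
  let _ : NormedAlgebra ℚ (H →L[ℂ] H) := .restrictScalars ℚ ℂ (H →L[ℂ] H)
  have h1 : E * ((1 - E) * C) = 0 := by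
    rw [← mul_assoc, mul_sub, mul_one, hE, sub_self, zero_mul]
  have h2 : (1 - E) * (E * C) = 0 := by
    rw [← mul_assoc, sub_mul, one_mul, hE, sub_self, zero_mul]
  have h3 := exp_mul_of_zero h1
  have h4 := exp_mul_of_zero h2
  have hcc : Commute ((1 - E) * C) (E * C) := by
    have e1 : Commute E (E * C) := (Commute.refl E).mul_right hc
    have e2 : Commute C (E * C) := hc.symm.mul_right (Commute.refl C)
    exact (((Commute.one_left _).sub_left e1)).mul_left e2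
  have h5 : NormedSpace.exp C = NormedSpace.exp ((1 - E) * C) * NormedSpace.exp (E * C) := by
    rw [← NormedSpace.exp_add_of_commute hcc]
    congr 1
    noncomm_ring
  calc NormedSpace.exp (E * C) = E * NormedSpace.exp (E * C) + (1 - E) * NormedSpace.exp (E * C) := by
        noncomm_ring
    _ = E * NormedSpace.exp (E * C) + (1 - E) := by rw [h4]
    _ = (E * NormedSpace.exp ((1 - E) * C)) * NormedSpace.exp (E * C) + (1 - E) := by rw [h3]
    _ = E * NormedSpace.exp C + (1 - E) := by rw [h5, mul_assoc]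

/-- rotation of the labels in `G` about the axis `P` -/
noncomputable def rc (E P : H →L[ℂ] H) (θ : ℝ) : H →L[ℂ] H :=
  E * ((Real.cos θ : ℂ) • (1 : H →L[ℂ] H) - (Complex.I * (Real.sin θ : ℂ)) • P) + (1 - E)

lemma ex_rot {E P : H →L[ℂ] H} (hE : E * E = E) (hP : P * P = 1) (hc : Commute E P) (θ : ℝ) :
    ex (-((θ : ℂ) • (E * P))) = rc E P θ := by
  have h := exp_idem hE (C := (-(Complex.I * (θ : ℂ))) • P) (hc.smul_right _)
  rw [Vale.Agent.P367.B.exp_inv hP θ] at h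
  unfold rc ex
  change _ = E * Vale.Agent.P367.B.Er P θ + (1 - E)
  rw [← h]
  congr 1
  rw [mul_smul_comm]
  module

/-! ### the algebra of the label gates -/

section alg

variable {L} {G : Set ℝ} {𝔄 : Set (H →L[ℂ] H)} {y : K} {UU : Set (H ≃ₗᵢ[ℂ] H)}

omit [CompleteSpace H] in
lemma Ec_idem (hG : MeasurableSet G) : L.E G * L.E G = L.E G :=
  ContinuousLinearMap.ext fun x => L.E_E hG x

lemma Ec_sa (hG : MeasurableSet G) : IsSelfAdjoint (L.E G) := by
  rw [← sa_iff]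
  intro x y
  exact L.E_sa hG x y

omit [CompleteSpace H] in
lemma Ec_mem (hG : MeasurableSet G) (hL : L.Ctl 𝔄) : L.E G ∈ 𝔄 := hL.lab _ (Bm.ind hG 1)

omit [CompleteSpace H] in
lemma Ec_pc (P : Fin 3) : Commute (L.E G) (L.pc P) :=
  ContinuousLinearMap.ext fun x => L.E_pau G P x

omit [CompleteSpace H] in
lemma Ec_Wc (a : K) : Commute (L.E G) (L.Wc a) :=
  ContinuousLinearMap.ext fun x => L.E_W G a x

omit [CompleteSpace H] in
lemma Wc_Wc (s t : ℝ) : Commute (L.Wc ((s : ℂ) • y)) (L.Wc ((t : ℂ) • y)) := by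
  change L.Wc ((s : ℂ) • y) * L.Wc ((t : ℂ) • y) = L.Wc ((t : ℂ) • y) * L.Wc ((s : ℂ) • y)
  rw [Wc_mul, Wc_mul, add_comm]

omit [CompleteSpace H] in
/-- what commutes with the Weyl operators commutes with `cos` and `sin` -/
lemma com_cs {T : H →L[ℂ] H} (h : ∀ s : ℝ, Commute T (L.Wc ((s : ℂ) • y))) (k : ℝ) :
    Commute T (L.csY y k) :=
  ((h k).add_right (h (-k))).smul_right _

omit [CompleteSpace H] in
lemma com_sn {T : H →L[ℂ] H} (h : ∀ s : ℝ, Commute T (L.Wc ((s : ℂ) • y))) (k : ℝ) :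
    Commute T (L.snY y k) :=
  ((h k).sub_right (h (-k))).smul_right _

omit [CompleteSpace H] in
lemma cs_Wc (k s : ℝ) : Commute (L.csY y k) (L.Wc ((s : ℂ) • y)) :=
  (com_cs (fun t => Wc_Wc s t) k).symm

omit [CompleteSpace H] in
lemma sn_Wc (k s : ℝ) : Commute (L.snY y k) (L.Wc ((s : ℂ) • y)) :=
  (com_sn (fun t => Wc_Wc s t) k).symm

omit [CompleteSpace H] in
lemma cs_sn (k l : ℝ) : Commute (L.csY y k) (L.snY y l) := com_sn (fun s => cs_Wc k s) l

omit [CompleteSpace H] in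
lemma I_I_smul (T : H →L[ℂ] H) : Complex.I • (Complex.I • T) = -T := by
  rw [smul_smul, Complex.I_mul_I]
  module

omit [CompleteSpace H] in
lemma cs_sq_add (k : ℝ) : L.csY y k * L.csY y k + L.snY y k * L.snY y k = 1 := by
  have h1 : L.Wc ((k : ℂ) • y) * L.Wc (((-k : ℝ) : ℂ) • y) = 1 := by
    rw [Wc_mul, add_neg_cancel]
    simp [Wc_zero]
  rw [Wc_eq, Wc_neg_eq] at h1
  rw [← h1]
  have h2 : L.csY y k * L.snY y k = L.snY y k * L.csY y k := cs_sn k k
  simp only [add_mul, mul_sub, smul_mul_assoc, mul_smul_comm, h2, smul_add, smul_sub,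
    I_I_smul]
  module

omit [CompleteSpace H] in
lemma cs_double (k : ℝ) : L.csY y (2 * k) = L.csY y k * L.csY y k - L.snY y k * L.snY y k := by
  have h1 : L.Wc (((2 * k : ℝ) : ℂ) • y) = L.Wc ((k : ℂ) • y) * L.Wc ((k : ℂ) • y) := by
    rw [Wc_mul, two_mul]
  have h2 : L.Wc (((-(2 * k) : ℝ) : ℂ) • y)
      = L.Wc (((-k : ℝ) : ℂ) • y) * L.Wc (((-k : ℝ) : ℂ) • y) := by
    rw [Wc_mul]
    congr 3
    ring
  have h4 : L.csY y k * L.snY y k = L.snY y k * L.csY y k := cs_sn k k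
  conv_lhs => unfold csY
  rw [h1, h2, Wc_eq, Wc_neg_eq]
  simp only [add_mul, mul_add, sub_mul, mul_sub, smul_mul_assoc, mul_smul_comm, h4, smul_add,
    smul_sub, I_I_smul]
  module

omit [CompleteSpace H] in
lemma sn_double (k : ℝ) : L.snY y (2 * k) = (2 : ℂ) • (L.csY y k * L.snY y k) := by
  have h1 : L.Wc (((2 * k : ℝ) : ℂ) • y) = L.Wc ((k : ℂ) • y) * L.Wc ((k : ℂ) • y) := by
    rw [Wc_mul, two_mul]
  have h2 : L.Wc (((-(2 * k) : ℝ) : ℂ) • y)
      = L.Wc (((-k : ℝ) : ℂ) • y) * L.Wc (((-k : ℝ) : ℂ) • y) := by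
    rw [Wc_mul]
    congr 3
    ring
  have h4 : L.snY y k * L.csY y k = L.csY y k * L.snY y k := (cs_sn k k).symm
  conv_lhs => unfold snY
  rw [h1, h2, Wc_eq, Wc_neg_eq]
  simp only [add_mul, mul_add, sub_mul, mul_sub, smul_mul_assoc, mul_smul_comm, h4, smul_add,
    smul_sub, I_I_smul]
  have h5 : -(Complex.I / 2) * Complex.I = 1 / 2 := by
    linear_combination (-(1 / 2) : ℂ) * Complex.I_mul_I
  have h6 : ∀ T : H →L[ℂ] H, -(Complex.I / 2) • (Complex.I • T) = (1 / 2 : ℂ) • T := by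
    intro T
    rw [smul_smul, h5]
  simp only [smul_add, smul_sub, h6]
  module

omit [CompleteSpace H] in
/-- what commutes with the Weyl operators and `Z` commutes with `zr` -/
lemma com_zc {T : H →L[ℂ] H} (h : ∀ s : ℝ, Commute T (L.Wc ((s : ℂ) • y)))
    (hZ : Commute T (L.pc 2)) (k : ℝ) : Commute T (L.zc y k) :=
  (com_cs h k).sub_right (((com_sn h k).mul_right hZ).smul_right _)

omit [CompleteSpace H] in
lemma pc_cs (P : Fin 3) (k : ℝ) : Commute (L.pc P) (L.csY y k) :=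
  com_cs (fun s => L.pc_Wc P _) k

omit [CompleteSpace H] in
lemma pc_sn (P : Fin 3) (k : ℝ) : Commute (L.pc P) (L.snY y k) :=
  com_sn (fun s => L.pc_Wc P _) k

omit [CompleteSpace H] in
/-- `Z X = i Y` -/
lemma pZ_pX : L.pc 2 * L.pc 0 = Complex.I • L.pc 1 := by
  rw [pY_eq, I_I_smul, pX_pZ, neg_neg]

omit [CompleteSpace H] in
/-- `X Z = -i Y` -/
lemma pX_pZ' : L.pc 0 * L.pc 2 = -(Complex.I • L.pc 1) := by
  rw [pX_pZ, pZ_pX]

omit [CompleteSpace H] in
/-- `X Y = i Z` -/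
lemma pX_pY : L.pc 0 * L.pc 1 = Complex.I • L.pc 2 := by
  rw [pY_eq, mul_smul_comm, ← mul_assoc, pc_sq, one_mul]

omit [CompleteSpace H] in
/-- `Y X = -i Z` -/
lemma pY_pX : L.pc 1 * L.pc 0 = -(Complex.I • L.pc 2) := by
  rw [pY_eq, smul_mul_assoc, mul_assoc, pZ_pX, mul_smul_comm, pX_pY, I_I_smul]

omit [CompleteSpace H] in
/-- `Y Z = i X` -/
lemma pY_pZ : L.pc 1 * L.pc 2 = Complex.I • L.pc 0 := by
  rw [pY_eq, smul_mul_assoc, mul_assoc, pc_sq, mul_one]

omit [CompleteSpace H] in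
/-- `Z Y = -i X` -/
lemma pZ_pY : L.pc 2 * L.pc 1 = -(Complex.I • L.pc 0) := by
  rw [pY_eq, mul_smul_comm, ← mul_assoc, pZ_pX, smul_mul_assoc, pY_pZ, I_I_smul]

omit [CompleteSpace H] in
lemma pX_pY_anti : L.pc 0 * L.pc 1 = -(L.pc 1 * L.pc 0) := by rw [pX_pY, pY_pX, neg_neg]

omit [CompleteSpace H] in
lemma pY_pZ_anti : L.pc 1 * L.pc 2 = -(L.pc 2 * L.pc 1) := by rw [pY_pZ, pZ_pY, neg_neg]

omit [CompleteSpace H] in
lemma zc_eq_neg (k : ℝ) : L.zc y (-k) = L.csY y k + Complex.I • (L.snY y k * L.pc 2) := by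
  unfold zc
  rw [csY_neg, snY_neg, neg_mul, smul_neg, sub_neg_eq_add]

omit [CompleteSpace H] in
lemma zc_sq (k : ℝ) : L.zc y k * L.zc y k
    = L.csY y (2 * k) - Complex.I • (L.snY y (2 * k) * L.pc 2) := by
  have hc : L.pc 2 * L.csY y k = L.csY y k * L.pc 2 := pc_cs 2 k
  have hs : L.pc 2 * L.snY y k = L.snY y k * L.pc 2 := pc_sn 2 k
  have h4 : L.snY y k * L.csY y k = L.csY y k * L.snY y k := (cs_sn k k).symm
  have hz : L.pc 2 * L.pc 2 = 1 := L.pc_sq 2
  have e1 : L.snY y k * L.pc 2 * L.csY y k = L.csY y k * L.snY y k * L.pc 2 := by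
    rw [mul_assoc, hc, ← mul_assoc, h4]
  have e2 : L.snY y k * L.pc 2 * L.snY y k * L.pc 2 = L.snY y k * L.snY y k := by
    calc L.snY y k * L.pc 2 * L.snY y k * L.pc 2
        = L.snY y k * (L.pc 2 * L.snY y k) * L.pc 2 := by noncomm_ring
      _ = L.snY y k * (L.snY y k * L.pc 2) * L.pc 2 := by rw [hs]
      _ = L.snY y k * L.snY y k * (L.pc 2 * L.pc 2) := by noncomm_ring
      _ = L.snY y k * L.snY y k := by rw [hz, mul_one]
  rw [cs_double, sn_double]
  unfold zc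
  simp only [sub_mul, mul_sub, smul_mul_assoc, mul_smul_comm, smul_sub, I_I_smul, e1, e2,
    ← mul_assoc]
  module

omit [CompleteSpace H] in
lemma zc_mul_neg (k : ℝ) : L.zc y k * L.zc y (-k) = 1 := by
  have hc : L.pc 2 * L.csY y k = L.csY y k * L.pc 2 := pc_cs 2 k
  have hs : L.pc 2 * L.snY y k = L.snY y k * L.pc 2 := pc_sn 2 k
  have h4 : L.snY y k * L.csY y k = L.csY y k * L.snY y k := (cs_sn k k).symm
  have hz : L.pc 2 * L.pc 2 = 1 := L.pc_sq 2
  have e1 : L.snY y k * L.pc 2 * L.csY y k = L.csY y k * L.snY y k * L.pc 2 := by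
    rw [mul_assoc, hc, ← mul_assoc, h4]
  have e2 : L.snY y k * L.pc 2 * L.snY y k * L.pc 2 = L.snY y k * L.snY y k := by
    calc L.snY y k * L.pc 2 * L.snY y k * L.pc 2
        = L.snY y k * (L.pc 2 * L.snY y k) * L.pc 2 := by noncomm_ring
      _ = L.snY y k * (L.snY y k * L.pc 2) * L.pc 2 := by rw [hs]
      _ = L.snY y k * L.snY y k * (L.pc 2 * L.pc 2) := by noncomm_ring
      _ = L.snY y k * L.snY y k := by rw [hz, mul_one]
  rw [zc_eq_neg, ← cs_sq_add (L := L) (y := y) k]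
  unfold zc
  simp only [sub_mul, mul_add, smul_mul_assoc, mul_smul_comm, smul_add, smul_sub, I_I_smul, e1,
    e2, ← mul_assoc]
  module

omit [CompleteSpace H] in
lemma zc_neg_mul (k : ℝ) : L.zc y (-k) * L.zc y k = 1 := by
  have h := zc_mul_neg (L := L) (y := y) (-k)
  rwa [neg_neg] at h

lemma zc_star (k : ℝ) : star (L.zc y k) = L.zc y (-k) := by
  have hs : L.pc 2 * L.snY y k = L.snY y k * L.pc 2 := pc_sn 2 k
  rw [zc_eq_neg]
  unfold zc
  rw [star_sub, star_smul, star_mul, (L.csY_sa y k).star_eq, (L.snY_sa y k).star_eq,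
    (L.pc_sa 2).star_eq, hs]
  have : star Complex.I = -Complex.I := Complex.conj_I
  rw [this]
  module

omit [CompleteSpace H] in
/-- an operator anticommuting with `Z` -/
lemma anti_zc {T : H →L[ℂ] H} (h : ∀ s : ℝ, Commute T (L.Wc ((s : ℂ) • y)))
    (hZ : T * L.pc 2 = -(L.pc 2 * T)) (k : ℝ) : T * L.zc y (-k) = L.zc y k * T := by
  have hc : T * L.csY y k = L.csY y k * T := com_cs h k
  have hs : T * L.snY y k = L.snY y k * T := com_sn h k
  rw [zc_eq_neg]
  unfold zc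
  rw [mul_add, sub_mul, mul_smul_comm, smul_mul_assoc, ← mul_assoc, hs, hc, mul_assoc, hZ,
    mul_assoc]
  rw [mul_neg]
  module

omit [CompleteSpace H] in
lemma zc_X (k : ℝ) : L.zc y k * L.pc 0 * L.zc y (-k)
    = L.csY y (2 * k) * L.pc 0 + L.snY y (2 * k) * L.pc 1 := by
  rw [mul_assoc, anti_zc (fun s => L.pc_Wc 0 _) L.pX_pZ k, ← mul_assoc, zc_sq, sub_mul,
    smul_mul_assoc, mul_assoc (L.snY y (2 * k)), pZ_pX, mul_smul_comm, I_I_smul, sub_neg_eq_add]

omit [CompleteSpace H] in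
lemma zc_Y (k : ℝ) : L.zc y k * L.pc 1 * L.zc y (-k)
    = L.csY y (2 * k) * L.pc 1 - L.snY y (2 * k) * L.pc 0 := by
  rw [mul_assoc, anti_zc (fun s => L.pc_Wc 1 _) pY_pZ_anti k, ← mul_assoc, zc_sq, sub_mul,
    smul_mul_assoc, mul_assoc (L.snY y (2 * k)), pZ_pY, mul_neg, mul_smul_comm, smul_neg,
    I_I_smul, neg_neg]

end alg

/-! ### rotations of a block -/

section blk

variable {L} {G : Set ℝ} {𝔄 : Set (H →L[ℂ] H)} {y : K} {UU : Set (H ≃ₗᵢ[ℂ] H)}

/-- `T` on the labels of `E`, identity elsewhere -/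
noncomputable def on (E T : H →L[ℂ] H) : H →L[ℂ] H := T * E + (1 - E)

omit [CompleteSpace H] in
lemma on_mul {E T T' : H →L[ℂ] H} (hE : E * E = E) (hc : Commute E T') (h : T * T' = 1) :
    on E T * on E T' = 1 := by
  unfold on
  have h1 : (1 - E) * E = 0 := by rw [sub_mul, one_mul, hE, sub_self]
  have h2 : E * (1 - E) = 0 := by rw [mul_sub, mul_one, hE, sub_self]
  have h3 : (1 - E) * (1 - E) = 1 - E := by rw [mul_sub, mul_one, h1, sub_zero]
  calc (T * E + (1 - E)) * (T' * E + (1 - E))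
      = T * (E * T') * E + T * (E * (1 - E)) + (1 - E) * T' * E + (1 - E) * (1 - E) := by
        noncomm_ring
    _ = T * (T' * E) * E + 0 + (T' * ((1 - E) * E)) + (1 - E) := by
        rw [hc.eq, h2, h3, mul_zero]
        congr 2
        have : (1 - E) * T' = T' * (1 - E) := by
          rw [sub_mul, mul_sub, hc.eq, one_mul, mul_one]
        rw [this, mul_assoc]
    _ = T * T' * (E * E) + (1 - E) := by rw [h1, mul_zero, add_zero, add_zero]; noncomm_ring
    _ = 1 := by rw [h, one_mul, hE]; noncomm_ring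

lemma on_star {E T T' : H →L[ℂ] H} (hE : IsSelfAdjoint E) (hc : Commute E T') (h : star T = T') :
    star (on E T) = on E T' := by
  unfold on
  rw [star_add, star_mul, star_sub, star_one, hE.star_eq, h, hc.eq]

omit [CompleteSpace H] in
lemma on_conj {E T T' m : H →L[ℂ] H} (hT : Commute E T') (hm : Commute E m)
    (h : m * E = m) : on E T * m * on E T' = T * m * T' := by
  unfold on
  have h1 : E * m = m := by rw [hm.eq, h]
  have h2 : (1 - E) * m = 0 := by rw [sub_mul, one_mul, h1, sub_self]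
  have h3 : m * T' * E = m * T' := by rw [mul_assoc, ← hT.eq, ← mul_assoc, h]
  have h4 : m * (1 - E) = 0 := by rw [mul_sub, mul_one, h, sub_self]
  calc (T * E + (1 - E)) * m * (T' * E + (1 - E))
      = (T * (E * m) + (1 - E) * m) * (T' * E + (1 - E)) := by noncomm_ring
    _ = T * (m * T' * E) + T * (m * (1 - E)) := by rw [h1, h2]; noncomm_ring
    _ = T * m * T' := by rw [h3, h4]; noncomm_ring

omit [CompleteSpace H] in
lemma on_com {E T a : H →L[ℂ] H} (hT : Commute T a) (hE : Commute E a) : Commute (on E T) a :=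
  (hT.mul_left hE).add_left ((Commute.one_left a).sub_left hE)

omit [CompleteSpace H] in
lemma rc_eq_on {E P : H →L[ℂ] H} (hc : Commute E P) (θ : ℝ) : rc E P θ
    = on E ((Real.cos θ : ℂ) • (1 : H →L[ℂ] H) - (Complex.I * (Real.sin θ : ℂ)) • P) := by
  unfold rc on
  congr 1
  exact ((Commute.one_right E).smul_right _).sub_right (hc.smul_right _)

omit [CompleteSpace H] in
lemma smul_mem (hL : L.Ctl 𝔄) {b : H →L[ℂ] H} (hb : b ∈ 𝔄) (c : ℂ) : c • b ∈ 𝔄 := by
  have := hL.mul _ _ (hL.lab (fun _ => c) ⟨measurable_const, ‖c‖, fun _ => le_rfl⟩) hb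
  rw [L.lab_const, smul_mul_assoc, one_mul] at this
  exact this

lemma star_mem' (hL : L.Ctl 𝔄) {b : H →L[ℂ] H} (hb : b ∈ 𝔄) : star b ∈ 𝔄 := by
  obtain ⟨c, hc, h⟩ := hL.adj b hb
  have : star b = c := by
    rw [ContinuousLinearMap.star_eq_adjoint]
    symm
    rw [ContinuousLinearMap.eq_adjoint_iff]
    intro x z
    have h1 := h z x
    rw [← inner_conj_symm, ← h1, inner_conj_symm]
  rwa [this]

/-- nice controls -/
structure Nc (L : LSys H K) (G : Set ℝ) (𝔄 : Set (H →L[ℂ] H)) (b : H →L[ℂ] H) : Prop where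
  mem : b ∈ 𝔄
  sa : IsSelfAdjoint b
  mE : b * L.E G = b

lemma Nc.smul (hL : L.Ctl 𝔄) {b : H →L[ℂ] H} (hb : Nc L G 𝔄 b) (t : ℝ) :
    Nc L G 𝔄 ((t : ℂ) • b) :=
  ⟨smul_mem hL hb.mem _, real_smul_sa hb.sa t, by rw [smul_mul_assoc, hb.mE]⟩

/-- the standing hypotheses -/
structure Nst (L : LSys H K) (G : Set ℝ) (𝔄 : Set (H →L[ℂ] H)) (y : K)
    (UU : Set (H ≃ₗᵢ[ℂ] H)) : Prop where
  hG : MeasurableSet G
  hL : L.Ctl 𝔄
  hN : L.Ctl (L.nxt 𝔄 y)
  hW : ∀ a ∈ 𝔄, ∀ s : ℝ, Commute a (L.Wc ((s : ℂ) • y))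
  hU : L.UCl G 𝔄 y UU

lemma Nst.E (h : Nst L G 𝔄 y UU) : Nc L G 𝔄 (L.E G) :=
  ⟨Ec_mem h.hG h.hL, Ec_sa h.hG, Ec_idem h.hG⟩

lemma Nst.base (_h : Nst L G 𝔄 y UU) {a : H →L[ℂ] H} (ha : a ∈ 𝔄) : a ∈ L.nxt 𝔄 y :=
  Gen.base a ha

lemma Nst.Wc (_h : Nst L G 𝔄 y UU) (s : ℝ) : L.Wc ((s : ℂ) • y) ∈ L.nxt 𝔄 y := Gen.W s

lemma Nst.cs (h : Nst L G 𝔄 y UU) (k : ℝ) : L.csY y k ∈ L.nxt 𝔄 y :=
  smul_mem h.hN (h.hN.add _ _ (h.Wc _) (h.Wc _)) _

lemma Nst.sn (h : Nst L G 𝔄 y UU) (k : ℝ) : L.snY y k ∈ L.nxt 𝔄 y := by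
  refine smul_mem h.hN ?_ _
  have h1 := h.hN.add _ _ (h.Wc k) (smul_mem h.hN (h.Wc (-k)) (-1))
  rw [neg_one_smul, ← sub_eq_add_neg] at h1
  exact h1

lemma Nst.com (h : Nst L G 𝔄 y UU) {a b : H →L[ℂ] H} (ha : a ∈ L.nxt 𝔄 y)
    (hb : b ∈ L.nxt 𝔄 y) : Commute a b := h.hN.comm a b ha hb

lemma Nst.pc (h : Nst L G 𝔄 y UU) {a : H →L[ℂ] H} (ha : a ∈ L.nxt 𝔄 y) (P : Fin 3) :
    Commute (L.pc P) a := L.pc_ctl h.hN ha P

lemma Nst.gsa (h : Nst L G 𝔄 y UU) {a : H →L[ℂ] H} (ha : a ∈ L.nxt 𝔄 y)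
    (hs : IsSelfAdjoint a) (P : Fin 3) : IsSelfAdjoint (a * L.pc P) := by
  rw [IsSelfAdjoint, star_mul, hs.star_eq, (L.pc_sa P).star_eq, (h.pc ha P).eq]

lemma Nst.gcm (h : Nst L G 𝔄 y UU) {a : H →L[ℂ] H} (ha : a ∈ L.nxt 𝔄 y) (P : Fin 3) :
    ∀ b ∈ L.nxt 𝔄 y, Commute (a * L.pc P) b := fun b hb =>
  (h.com ha hb).mul_left (h.pc hb P)

lemma Nst.gd (h : Nst L G 𝔄 y UU) {b : H →L[ℂ] H} (hb : Nc L G 𝔄 b) (P : Fin 3) :
    Gd L 𝔄 y UU (b * L.pc P) := by
  refine ⟨h.gsa (h.base hb.mem) hb.sa P, h.gcm (h.base hb.mem) P, fun U hU => ?_⟩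
  exact h.hU.rot b P U hb.mem (sa_iff.2 hb.sa) hb.mE (L.isRot_iff.2 hU)

/-- the gates `zr (k y)` on `G` -/
lemma Nst.gate (h : Nst L G 𝔄 y UU) (k : ℝ) :
    ∃ V ∈ UU, ∀ x, V x = on (L.E G) (L.zc y k) x := by
  have hz : ∀ x, L.E G (L.zr ((k : ℂ) • y) x) = L.zr ((k : ℂ) • y) (L.E G x) := L.E_zr G _
  refine ⟨L.bU h.hG (L.zr ((k : ℂ) • y)) hz, h.hU.zrG k _ (fun x => L.bU_apply h.hG _ hz x), ?_⟩
  intro x
  rw [bU_apply]
  change _ = L.zc y k (L.E G x) + (x - L.E G x)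
  rw [zc_apply]

lemma Nst.gate_com (h : Nst L G 𝔄 y UU) (k : ℝ) :
    ∀ a ∈ L.nxt 𝔄 y, Commute (on (L.E G) (L.zc y k)) a := by
  intro a ha
  refine on_com ?_ (h.com (h.base h.E.mem) ha)
  exact (com_zc (fun s => h.com ha (h.Wc s)) (h.pc ha 2).symm k).symm

lemma Ec_zc (k : ℝ) : Commute (L.E G) (L.zc y k) :=
  com_zc (fun _ => Ec_Wc _) (Ec_pc 2) k

/-- conjugation by the gates -/
lemma Nst.conjZ (h : Nst L G 𝔄 y UU) {m : H →L[ℂ] H} (hm : Gd L 𝔄 y UU m) (hE : m * L.E G = m)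
    (k : ℝ) : Gd L 𝔄 y UU (L.zc y k * m * L.zc y (-k)) := by
  obtain ⟨V, hV, hVe⟩ := h.gate k
  obtain ⟨V', hV', hVe'⟩ := h.gate (-k)
  have hc : Commute (L.E G) m := (hm.cm _ (h.base h.E.mem)).symm
  have hg := hm.conj h.hU hV hV' hVe hVe'
    (on_mul (Ec_idem h.hG) (Ec_zc (-k)) (zc_mul_neg k))
    (on_mul (Ec_idem h.hG) (Ec_zc k) (zc_neg_mul k))
    (on_star (Ec_sa h.hG) (Ec_zc (-k)) (zc_star k)) (h.gate_com k)
  rwa [on_conj (Ec_zc (-k)) hc hE] at hg

omit [CompleteSpace H] in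
lemma mul_pc_E (P : Fin 3) {m : H →L[ℂ] H} (hE : m * L.E G = m) :
    m * L.pc P * L.E G = m * L.pc P := by
  rw [mul_assoc, ← (Ec_pc (L := L) (G := G) P).eq, ← mul_assoc, hE]

lemma Nst.zc_nc (h : Nst L G 𝔄 y UU) {b : H →L[ℂ] H} (hb : Nc L G 𝔄 b) (k : ℝ) :
    Commute b (L.zc y k) :=
  com_zc (fun s => h.hW b hb.mem s) (h.pc (h.base hb.mem) 2).symm k

lemma Nst.gdX (h : Nst L G 𝔄 y UU) {b : H →L[ℂ] H} (hb : Nc L G 𝔄 b) (k : ℝ) :
    Gd L 𝔄 y UU (b * (L.csY y (2 * k) * L.pc 0 + L.snY y (2 * k) * L.pc 1)) := by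
  have h1 := h.conjZ (h.gd hb 0) (mul_pc_E 0 hb.mE) k
  rwa [← mul_assoc, ← (h.zc_nc hb k).eq, mul_assoc b, mul_assoc b, zc_X] at h1

lemma Nst.gdY (h : Nst L G 𝔄 y UU) {b : H →L[ℂ] H} (hb : Nc L G 𝔄 b) (k : ℝ) :
    Gd L 𝔄 y UU (b * (L.csY y (2 * k) * L.pc 1 - L.snY y (2 * k) * L.pc 0)) := by
  have h1 := h.conjZ (h.gd hb 1) (mul_pc_E 1 hb.mE) k
  rwa [← mul_assoc, ← (h.zc_nc hb k).eq, mul_assoc b, mul_assoc b, zc_Y] at h1

/-- `b cos(phi(k y)) X`, `b sin(phi(k y)) X`, ... -/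
lemma Nst.gcX (h : Nst L G 𝔄 y UU) {b : H →L[ℂ] H} (hb : Nc L G 𝔄 b) (k : ℝ) :
    Gd L 𝔄 y UU (b * L.csY y k * L.pc 0) := by
  have h1 : ∀ t : ℝ, Gd L 𝔄 y UU ((t : ℂ) • ((1 / 2 : ℂ) • (b *
      (L.csY y k * L.pc 0 + L.snY y k * L.pc 1)))) := by
    intro t
    have := h.gdX (hb.smul h.hL (t / 2)) (k / 2)
    rw [mul_div_cancel₀ k (by norm_num : (2 : ℝ) ≠ 0), smul_mul_assoc] at this
    rw [smul_smul]
    push_cast at this
    convert this using 2
    ring
  have h2 : ∀ t : ℝ, Gd L 𝔄 y UU ((t : ℂ) • ((1 / 2 : ℂ) • (b *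
      (L.csY y k * L.pc 0 - L.snY y k * L.pc 1)))) := by
    intro t
    have := h.gdX (hb.smul h.hL (t / 2)) (-k / 2)
    rw [mul_div_cancel₀ (-k) (by norm_num : (2 : ℝ) ≠ 0), smul_mul_assoc, csY_neg, snY_neg,
      neg_mul, ← sub_eq_add_neg] at this
    rw [smul_smul]
    push_cast at this
    convert this using 2
    ring
  have h3 := Gd.trot h.hL h.hU h1 h2
  convert h3 using 1
  rw [mul_assoc]
  simp only [mul_add, mul_sub]
  module

lemma Nst.gsY (h : Nst L G 𝔄 y UU) {b : H →L[ℂ] H} (hb : Nc L G 𝔄 b) (k : ℝ) :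
    Gd L 𝔄 y UU (b * L.snY y k * L.pc 1) := by
  have h1 : ∀ t : ℝ, Gd L 𝔄 y UU ((t : ℂ) • ((1 / 2 : ℂ) • (b *
      (L.csY y k * L.pc 0 + L.snY y k * L.pc 1)))) := by
    intro t
    have := h.gdX (hb.smul h.hL (t / 2)) (k / 2)
    rw [mul_div_cancel₀ k (by norm_num : (2 : ℝ) ≠ 0), smul_mul_assoc] at this
    rw [smul_smul]
    push_cast at this
    convert this using 2
    ring
  have h2 : ∀ t : ℝ, Gd L 𝔄 y UU ((t : ℂ) • ((-(1 / 2) : ℂ) • (b *
      (L.csY y k * L.pc 0 - L.snY y k * L.pc 1)))) := by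
    intro t
    have := h.gdX (hb.smul h.hL (-(t / 2))) (-k / 2)
    rw [mul_div_cancel₀ (-k) (by norm_num : (2 : ℝ) ≠ 0), smul_mul_assoc, csY_neg, snY_neg,
      neg_mul, ← sub_eq_add_neg] at this
    rw [smul_smul]
    push_cast at this
    convert this using 2
    ring
  have h3 := Gd.trot h.hL h.hU h1 h2
  convert h3 using 1
  rw [mul_assoc]
  simp only [mul_add, mul_sub]
  module

lemma Nst.gcY (h : Nst L G 𝔄 y UU) {b : H →L[ℂ] H} (hb : Nc L G 𝔄 b) (k : ℝ) :
    Gd L 𝔄 y UU (b * L.csY y k * L.pc 1) := by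
  have h1 : ∀ t : ℝ, Gd L 𝔄 y UU ((t : ℂ) • ((1 / 2 : ℂ) • (b *
      (L.csY y k * L.pc 1 - L.snY y k * L.pc 0)))) := by
    intro t
    have := h.gdY (hb.smul h.hL (t / 2)) (k / 2)
    rw [mul_div_cancel₀ k (by norm_num : (2 : ℝ) ≠ 0), smul_mul_assoc] at this
    rw [smul_smul]
    push_cast at this
    convert this using 2
    ring
  have h2 : ∀ t : ℝ, Gd L 𝔄 y UU ((t : ℂ) • ((1 / 2 : ℂ) • (b *
      (L.csY y k * L.pc 1 + L.snY y k * L.pc 0)))) := by
    intro t
    have := h.gdY (hb.smul h.hL (t / 2)) (-k / 2)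
    rw [mul_div_cancel₀ (-k) (by norm_num : (2 : ℝ) ≠ 0), smul_mul_assoc, csY_neg, snY_neg,
      neg_mul, sub_neg_eq_add] at this
    rw [smul_smul]
    push_cast at this
    convert this using 2
    ring
  have h3 := Gd.trot h.hL h.hU h1 h2
  convert h3 using 1
  rw [mul_assoc]
  simp only [mul_add, mul_sub]
  module

lemma Nst.gsX (h : Nst L G 𝔄 y UU) {b : H →L[ℂ] H} (hb : Nc L G 𝔄 b) (k : ℝ) :
    Gd L 𝔄 y UU (b * L.snY y k * L.pc 0) := by
  have h1 : ∀ t : ℝ, Gd L 𝔄 y UU ((t : ℂ) • ((-(1 / 2) : ℂ) • (b *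
      (L.csY y k * L.pc 1 - L.snY y k * L.pc 0)))) := by
    intro t
    have := h.gdY (hb.smul h.hL (-(t / 2))) (k / 2)
    rw [mul_div_cancel₀ k (by norm_num : (2 : ℝ) ≠ 0), smul_mul_assoc] at this
    rw [smul_smul]
    push_cast at this
    convert this using 2
    ring
  have h2 : ∀ t : ℝ, Gd L 𝔄 y UU ((t : ℂ) • ((1 / 2 : ℂ) • (b *
      (L.csY y k * L.pc 1 + L.snY y k * L.pc 0)))) := by
    intro t
    have := h.gdY (hb.smul h.hL (t / 2)) (-k / 2)
    rw [mul_div_cancel₀ (-k) (by norm_num : (2 : ℝ) ≠ 0), smul_mul_assoc, csY_neg, snY_neg,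
      neg_mul, sub_neg_eq_add] at this
    rw [smul_smul]
    push_cast at this
    convert this using 2
    ring
  have h3 := Gd.trot h.hL h.hU h1 h2
  convert h3 using 1
  rw [mul_assoc]
  simp only [mul_add, mul_sub]
  module

/-- the operator `cos(t) - i sin(t) Y` -/
noncomputable def ry (L : LSys H K) (t : ℝ) : H →L[ℂ] H :=
  (Real.cos t : ℂ) • (1 : H →L[ℂ] H) - (Complex.I * (Real.sin t : ℂ)) • L.pc 1

omit [CompleteSpace H] in
lemma ry_mul (s t : ℝ) : ry L s * ry L t = ry L (s + t) := by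
  unfold ry
  have h := L.pc_sq 1
  rw [Real.cos_add, Real.sin_add]
  simp only [sub_mul, mul_sub, smul_mul_assoc, mul_smul_comm, one_mul, mul_one, smul_sub, h]
  push_cast
  have e : ∀ (a b : ℂ) (T : H →L[ℂ] H), (Complex.I * a) • ((Complex.I * b) • T)
      = -((a * b) • T) := by
    intro a b T
    rw [smul_smul, ← neg_smul]
    congr 1
    linear_combination (a * b) * Complex.I_mul_I
  rw [e]
  module

omit [CompleteSpace H] in
lemma ry_zero : ry L 0 = 1 := by
  unfold ry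
  simp

lemma ry_star (t : ℝ) : star (ry L t) = ry L (-t) := by
  unfold ry
  rw [star_sub, star_smul, star_smul, star_one, (L.pc_sa 1).star_eq, Real.cos_neg, Real.sin_neg]
  have e1 : star (Real.cos t : ℂ) = (Real.cos t : ℂ) := Complex.conj_ofReal _
  have e2 : star (Complex.I * (Real.sin t : ℂ)) = Complex.I * ((-Real.sin t : ℝ) : ℂ) := by
    rw [star_mul']
    have h1 : star (Real.sin t : ℂ) = (Real.sin t : ℂ) := Complex.conj_ofReal _
    have h2 : star Complex.I = -Complex.I := Complex.conj_I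
    rw [h1, h2]
    push_cast
    ring
  rw [e1, e2]

omit [CompleteSpace H] in
lemma ry_X (t : ℝ) : ry L t * L.pc 0 = L.pc 0 * ry L (-t) := by
  unfold ry
  have h : L.pc 1 * L.pc 0 = -(L.pc 0 * L.pc 1) := by rw [pX_pY_anti, neg_neg]
  rw [Real.cos_neg, Real.sin_neg, sub_mul, mul_sub, smul_mul_assoc, smul_mul_assoc,
    mul_smul_comm, mul_smul_comm, h]
  push_cast
  simp only [one_mul, mul_one]
  module

omit [CompleteSpace H] in
lemma ry_half : ry L (Real.pi / 2) = -(Complex.I • L.pc 1) := by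
  unfold ry
  rw [Real.cos_pi_div_two, Real.sin_pi_div_two]
  simp

lemma Nst.rot_mem (h : Nst L G 𝔄 y UU) (t : ℝ) :
    ∃ V ∈ UU, ∀ x, V x = on (L.E G) (ry L t) x := by
  have hg := h.gd (h.E.smul h.hL t) 1
  rw [smul_mul_assoc] at hg
  refine ⟨_, hg.eU, fun x => ?_⟩
  rw [eU_apply, ex_rot (Ec_idem h.hG) (L.pc_sq 1) (Ec_pc 1), rc_eq_on (Ec_pc 1)]
  rfl

omit [CompleteSpace H] in
lemma Ec_ry (t : ℝ) : Commute (L.E G) (ry L t) :=
  ((Commute.one_right _).smul_right _).sub_right ((Ec_pc 1).smul_right _)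

/-- from the axis `X` to the axis `Z` -/
lemma Nst.gdZ (h : Nst L G 𝔄 y UU) {m : H →L[ℂ] H} (hm : m ∈ L.nxt 𝔄 y) (hE : m * L.E G = m)
    (hg : Gd L 𝔄 y UU (m * L.pc 0)) : Gd L 𝔄 y UU (m * L.pc 2) := by
  obtain ⟨V, hV, hVe⟩ := h.rot_mem (-(Real.pi / 4))
  obtain ⟨V', hV', hVe'⟩ := h.rot_mem (Real.pi / 4)
  have hst : star (ry L (-(Real.pi / 4))) = ry L (Real.pi / 4) := by rw [ry_star, neg_neg]
  have h1 : ry L (-(Real.pi / 4)) * ry L (Real.pi / 4) = 1 := by
    rw [ry_mul, neg_add_cancel, ry_zero]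
  have h2 : ry L (Real.pi / 4) * ry L (-(Real.pi / 4)) = 1 := by
    rw [ry_mul, add_neg_cancel, ry_zero]
  have hcm : ∀ a ∈ L.nxt 𝔄 y, Commute (on (L.E G) (ry L (-(Real.pi / 4)))) a := by
    intro a ha
    refine on_com ?_ (h.com (h.base h.E.mem) ha)
    exact ((Commute.one_left a).smul_left _).sub_left ((h.pc ha 1).smul_left _)
  have hc : Commute (L.E G) (m * L.pc 0) := (hg.cm _ (h.base h.E.mem)).symm
  have hk := hg.conj h.hU hV hV' hVe hVe'
    (on_mul (Ec_idem h.hG) (Ec_ry _) h1) (on_mul (Ec_idem h.hG) (Ec_ry _) h2)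
    (on_star (Ec_sa h.hG) (Ec_ry _) hst) hcm
  rw [on_conj (Ec_ry _) hc (mul_pc_E 0 hE)] at hk
  have hmr : Commute (ry L (-(Real.pi / 4))) m :=
    ((Commute.one_left m).smul_left _).sub_left ((h.pc hm 1).smul_left _)
  have e : ry L (-(Real.pi / 4)) * (m * L.pc 0) * ry L (Real.pi / 4) = m * L.pc 2 := by
    rw [← mul_assoc, hmr.eq, mul_assoc m, ry_X, neg_neg, mul_assoc, mul_assoc, ry_mul]
    have : Real.pi / 4 + Real.pi / 4 = Real.pi / 2 := by ring
    rw [this, ry_half, mul_neg, mul_smul_comm, pX_pY, I_I_smul, neg_neg]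
  rwa [e] at hk

lemma Nst.gc (h : Nst L G 𝔄 y UU) {b : H →L[ℂ] H} (hb : Nc L G 𝔄 b) (k : ℝ) (P : Fin 3) :
    Gd L 𝔄 y UU (b * L.csY y k * L.pc P) := by
  fin_cases P
  · exact h.gcX hb k
  · exact h.gcY hb k
  · refine h.gdZ (h.hN.mul _ _ (h.base hb.mem) (h.cs k)) ?_ (h.gcX hb k)
    rw [mul_assoc, ← (com_cs (fun _ => Ec_Wc _) k : Commute (L.E G) (L.csY y k)).eq, ← mul_assoc,
      hb.mE]

lemma Nst.gs (h : Nst L G 𝔄 y UU) {b : H →L[ℂ] H} (hb : Nc L G 𝔄 b) (k : ℝ) (P : Fin 3) :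
    Gd L 𝔄 y UU (b * L.snY y k * L.pc P) := by
  fin_cases P
  · exact h.gsX hb k
  · exact h.gsY hb k
  · refine h.gdZ (h.hN.mul _ _ (h.base hb.mem) (h.sn k)) ?_ (h.gsX hb k)
    rw [mul_assoc, ← (com_sn (fun _ => Ec_Wc _) k : Commute (L.E G) (L.snY y k)).eq, ← mul_assoc,
      hb.mE]

end blk

/-! ### the next algebra -/

section next

variable {L} {G : Set ℝ} {𝔄 : Set (H →L[ℂ] H)} {y : K} {UU : Set (H ≃ₗᵢ[ℂ] H)}

/-- normal form of the elements of the next algebra -/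
inductive T0 (L : LSys H K) (𝔄 : Set (H →L[ℂ] H)) (y : K) : (H →L[ℂ] H) → Prop
  | gen (b : H →L[ℂ] H) (s : ℝ) : b ∈ 𝔄 → T0 L 𝔄 y (b * L.Wc ((s : ℂ) • y))
  | add (a b) : T0 L 𝔄 y a → T0 L 𝔄 y b → T0 L 𝔄 y (a + b)
  | lim (a : ℕ → H →L[ℂ] H) (a0 : H →L[ℂ] H) (C : ℝ) : (∀ n, T0 L 𝔄 y (a n)) →
      (∀ n, ‖a n‖ ≤ C) → (∀ x, Tendsto (fun n => a n x) atTop (𝓝 (a0 x))) → T0 L 𝔄 y a0

lemma T0.nxt {a : H →L[ℂ] H} (ha : T0 L 𝔄 y a) : a ∈ L.nxt 𝔄 y := by
  induction ha with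
  | gen b s hb => exact Gen.mul _ _ (Gen.base b hb) (Gen.W s)
  | add a b _ _ iha ihb => exact Gen.add _ _ iha ihb
  | lim a a0 C _ hC hlim ih => exact Gen.lim a a0 C ih hC hlim

lemma T0.gen_mul (h : Nst L G 𝔄 y UU) {b : H →L[ℂ] H} (hb : b ∈ 𝔄) (s : ℝ) {c : H →L[ℂ] H}
    (hc : T0 L 𝔄 y c) : T0 L 𝔄 y (b * L.Wc ((s : ℂ) • y) * c) := by
  induction hc with
  | gen b' t hb' =>
    have e : b * L.Wc ((s : ℂ) • y) * (b' * L.Wc ((t : ℂ) • y))
        = (b * b') * L.Wc (((s + t : ℝ) : ℂ) • y) := by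
      rw [← L.Wc_mul y s t]
      have := (h.hW b' hb' s).eq
      calc b * L.Wc ((s : ℂ) • y) * (b' * L.Wc ((t : ℂ) • y))
          = b * (L.Wc ((s : ℂ) • y) * b') * L.Wc ((t : ℂ) • y) := by simp only [mul_assoc]
        _ = b * (b' * L.Wc ((s : ℂ) • y)) * L.Wc ((t : ℂ) • y) := by rw [this]
        _ = _ := by simp only [mul_assoc]
    rw [e]
    exact T0.gen _ _ (h.hL.mul _ _ hb hb')
  | add a c _ _ iha ihc =>
    rw [mul_add]
    exact T0.add _ _ iha ihc
  | lim a a0 C _ hC hlim ih =>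
    refine T0.lim (fun n => b * L.Wc ((s : ℂ) • y) * a n) _ (‖b * L.Wc ((s : ℂ) • y)‖ * C) ih
      (fun n => ?_) fun x => ?_
    · exact (norm_mul_le _ _).trans (mul_le_mul_of_nonneg_left (hC n) (norm_nonneg _))
    · exact ((b * L.Wc ((s : ℂ) • y)).continuous.tendsto _).comp (hlim x)

lemma T0.mul (h : Nst L G 𝔄 y UU) {a c : H →L[ℂ] H} (ha : T0 L 𝔄 y a) (hc : T0 L 𝔄 y c) :
    T0 L 𝔄 y (a * c) := by
  induction ha with
  | gen b s hb => exact T0.gen_mul h hb s hc
  | add a b _ _ iha ihb =>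
    rw [add_mul]
    exact T0.add _ _ iha ihb
  | lim a a0 C _ hC hlim ih =>
    refine T0.lim (fun n => a n * c) _ (C * ‖c‖) ih (fun n => ?_) fun x => hlim (c x)
    exact (norm_mul_le _ _).trans (mul_le_mul_of_nonneg_right (hC n) (norm_nonneg _))

lemma T0.of_gen (h : Nst L G 𝔄 y UU) {a : H →L[ℂ] H} (ha : L.Gen 𝔄 y a) : T0 L 𝔄 y a := by
  induction ha with
  | base a ha =>
    have h1 := T0.gen (L := L) (y := y) a 0 ha
    have e : ((0 : ℝ) : ℂ) • y = 0 := by simp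
    rwa [e, L.Wc_zero, mul_one] at h1
  | W s =>
    have h0 : (1 : H →L[ℂ] H) ∈ 𝔄 := by
      have := h.hL.lab (fun _ => 1) ⟨measurable_const, 1, fun x => by simp⟩
      rw [L.lab_const] at this
      simpa using this
    have h1 := T0.gen (L := L) (y := y) 1 s h0
    rwa [one_mul] at h1
  | add a b _ _ iha ihb => exact T0.add _ _ iha ihb
  | mul a b _ _ iha ihb => exact iha.mul h ihb
  | lim a a0 C _ hC hlim ih => exact T0.lim a a0 C ih hC hlim

/-- real part -/
noncomputable def rp (A : H →L[ℂ] H) : H →L[ℂ] H := (1 / 2 : ℂ) • (A + star A)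

lemma star_half : star (1 / 2 : ℂ) = 1 / 2 := by simp

lemma rp_sa (A : H →L[ℂ] H) : IsSelfAdjoint (rp A) := by
  unfold rp
  rw [IsSelfAdjoint, star_smul, star_add, star_star, star_half, add_comm]

lemma rp_add (A B : H →L[ℂ] H) : rp (A + B) = rp A + rp B := by
  unfold rp
  rw [star_add]
  module

lemma rp_of_sa {A : H →L[ℂ] H} (h : IsSelfAdjoint A) : rp A = A := by
  unfold rp
  rw [h.star_eq]
  module

lemma rp_mem {𝔅 : Set (H →L[ℂ] H)} (h : L.Ctl 𝔅) {A : H →L[ℂ] H} (hA : A ∈ 𝔅) : rp A ∈ 𝔅 :=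
  smul_mem h (h.add _ _ hA (star_mem' h hA)) _

/-- strong convergence of adjoints of commuting normal operators -/
lemma Nst.star_lim (h : Nst L G 𝔄 y UU) {a : ℕ → H →L[ℂ] H} {a0 : H →L[ℂ] H}
    (ha : ∀ n, a n ∈ L.nxt 𝔄 y) (h0 : a0 ∈ L.nxt 𝔄 y)
    (hlim : ∀ x, Tendsto (fun n => a n x) atTop (𝓝 (a0 x))) (x : H) :
    Tendsto (fun n => star (a n) x) atTop (𝓝 (star a0 x)) := by
  rw [tendsto_iff_norm_sub_tendsto_zero]
  refine (tendsto_iff_norm_sub_tendsto_zero.1 (hlim x)).congr fun n => ?_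
  have hD : a n - a0 ∈ L.nxt 𝔄 y := by
    have h1 := h.hN.add _ _ (ha n) (smul_mem h.hN h0 (-1))
    rwa [neg_one_smul, ← sub_eq_add_neg] at h1
  have hc : Commute (a n - a0) (star (a n - a0)) := h.com hD (star_mem' h.hN hD)
  have e1 : a n x - a0 x = (a n - a0) x := rfl
  have e2 : star (a n) x - star a0 x = (star (a n - a0)) x := by
    rw [star_sub]
    rfl
  rw [e1, e2]
  have h2 : inner ℂ ((star (a n - a0)) x) ((star (a n - a0)) x)
      = inner ℂ ((a n - a0) x) ((a n - a0) x) := by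
    have e3 : ∀ u v, inner ℂ ((star (a n - a0)) u) v = inner ℂ u ((a n - a0) v) := by
      intro u v
      rw [ContinuousLinearMap.star_eq_adjoint, ContinuousLinearMap.adjoint_inner_left]
    have e4 : ∀ u v, inner ℂ ((a n - a0) u) v = inner ℂ u ((star (a n - a0)) v) := by
      intro u v
      rw [ContinuousLinearMap.star_eq_adjoint, ContinuousLinearMap.adjoint_inner_right]
    rw [e3, e4]
    congr 1
    have := congrArg (fun T : H →L[ℂ] H => T x) hc
    exact this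
  rw [inner_self_eq_norm_sq_to_K, inner_self_eq_norm_sq_to_K] at h2
  have h3 : ‖(star (a n - a0)) x‖ ^ 2 = ‖(a n - a0) x‖ ^ 2 := by exact_mod_cast h2
  exact ((sq_eq_sq₀ (norm_nonneg _) (norm_nonneg _)).1 h3).symm

lemma Nst.pp (h : Nst L G 𝔄 y UU) {a b : H →L[ℂ] H} (ha : a ∈ L.nxt 𝔄 y) (hb : b ∈ L.nxt 𝔄 y)
    (P : Fin 3) : Commute (a * L.pc P) (b * L.pc P) :=
  (h.gcm ha P b hb).mul_right ((h.pc ha P).symm.mul_left (Commute.refl _))

lemma Nst.main (h : Nst L G 𝔄 y UU) {a : H →L[ℂ] H} (ha : T0 L 𝔄 y a) :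
    ∀ (c : ℂ) (P : Fin 3), Gd L 𝔄 y UU (rp (c • (a * L.E G)) * L.pc P) := by
  induction ha with
  | gen b s hb =>
    intro c P
    set β : H →L[ℂ] H := c • (b * L.E G) with hβ
    have hβm : β ∈ 𝔄 := smul_mem h.hL (h.hL.mul _ _ hb h.E.mem) c
    have hβE : β * L.E G = β := by
      rw [hβ, smul_mul_assoc, mul_assoc, Ec_idem h.hG]
    have hβs : star β ∈ 𝔄 := star_mem' h.hL hβm
    have hβE' : star β * L.E G = star β := by
      have h1 : L.E G * β = β := by rw [h.hL.comm _ _ h.E.mem hβm, hβE]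
      have h2 := congrArg star h1
      rwa [star_mul, (Ec_sa h.hG).star_eq] at h2
    set β1 : H →L[ℂ] H := (1 / 2 : ℂ) • (β + star β) with hβ1
    set β2 : H →L[ℂ] H := (Complex.I / 2 : ℂ) • (β - star β) with hβ2
    have h1 : Nc L G 𝔄 β1 := by
      refine ⟨smul_mem h.hL (h.hL.add _ _ hβm hβs) _, rp_sa β, ?_⟩
      rw [hβ1, smul_mul_assoc, add_mul, hβE, hβE']
    have h2 : Nc L G 𝔄 β2 := by
      refine ⟨?_, ?_, ?_⟩
      · refine smul_mem h.hL ?_ _
        have h3 := h.hL.add _ _ hβm (smul_mem h.hL hβs (-1))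
        rwa [neg_one_smul, ← sub_eq_add_neg] at h3
      · rw [hβ2, IsSelfAdjoint, star_smul, star_sub, star_star]
        have : star (Complex.I / 2 : ℂ) = -(Complex.I / 2) := by
          simp [Complex.conj_I, neg_div]
        rw [this]
        module
      · rw [hβ2, smul_mul_assoc, sub_mul, hβE, hβE']
    have hβe : β = β1 - Complex.I • β2 := by
      rw [hβ1, hβ2, smul_smul]
      have : Complex.I * (Complex.I / 2) = -(1 / 2) := by
        linear_combination (1 / 2 : ℂ) * Complex.I_mul_I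
      rw [this]
      module
    have hβe' : star β = β1 + Complex.I • β2 := by
      rw [hβ1, hβ2, smul_smul]
      have : Complex.I * (Complex.I / 2) = -(1 / 2) := by
        linear_combination (1 / 2 : ℂ) * Complex.I_mul_I
      rw [this]
      module
    have e1 : c • (b * L.Wc ((s : ℂ) • y) * L.E G) = β * L.Wc ((s : ℂ) • y) := by
      rw [hβ, smul_mul_assoc, mul_assoc, ← (Ec_Wc (L := L) (G := G) _).eq, ← mul_assoc]
    have e2 : star (β * L.Wc ((s : ℂ) • y)) = star β * L.Wc (((-s : ℝ) : ℂ) • y) := by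
      rw [star_mul, Wc_star_real, (h.hW _ hβs (-s)).eq]
    have e3 : rp (c • (b * L.Wc ((s : ℂ) • y) * L.E G))
        = β1 * L.csY y s + β2 * L.snY y s := by
      rw [e1]
      unfold rp
      rw [e2, L.Wc_eq, L.Wc_neg_eq, hβe', hβe]
      simp only [add_mul, sub_mul, mul_add, mul_sub, smul_mul_assoc, mul_smul_comm, smul_add,
        smul_sub, I_I_smul]
      module
    rw [e3, add_mul]
    exact Gd.add h.hU (h.gc h1 s P) (h.gs h2 s P)
      (h.pp (h.hN.mul _ _ (h.base h1.mem) (h.cs s)) (h.hN.mul _ _ (h.base h2.mem) (h.sn s)) P)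
  | add a b ha hb iha ihb =>
    intro c P
    have e : rp (c • ((a + b) * L.E G)) * L.pc P
        = rp (c • (a * L.E G)) * L.pc P + rp (c • (b * L.E G)) * L.pc P := by
      rw [add_mul, smul_add, rp_add, add_mul]
    rw [e]
    exact Gd.add h.hU (iha c P) (ihb c P)
      (h.pp (rp_mem h.hN (smul_mem h.hN (h.hN.mul _ _ ha.nxt (h.base h.E.mem)) c))
        (rp_mem h.hN (smul_mem h.hN (h.hN.mul _ _ hb.nxt (h.base h.E.mem)) c)) P)
  | lim a a0 C ha hC hlim ih =>
    intro c P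
    have h0 : a0 ∈ L.nxt 𝔄 y := Gen.lim a a0 C (fun n => (ha n).nxt) hC hlim
    have hm : ∀ {b : H →L[ℂ] H}, b ∈ L.nxt 𝔄 y → rp (c • (b * L.E G)) ∈ L.nxt 𝔄 y := by
      intro b hb
      exact rp_mem h.hN (smul_mem h.hN (h.hN.mul _ _ hb (h.base h.E.mem)) c)
    refine Gd.lim h.hU (fun n => ih n c P) (h.gsa (hm h0) (rp_sa _) P) (h.gcm (hm h0) P)
      (fun n => h.pp (hm (ha n).nxt) (hm h0) P) fun x => ?_
    have key : ∀ b : H →L[ℂ] H, (rp (c • (b * L.E G)) * L.pc P) x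
        = (1 / 2 : ℂ) • (c • b (L.E G (L.pc P x)) + (star c) • L.E G (star b (L.pc P x))) := by
      intro b
      unfold rp
      rw [star_smul, star_mul, (Ec_sa h.hG).star_eq]
      rfl
    rw [key]
    simp_rw [key]
    refine Tendsto.const_smul (Tendsto.add ((hlim _).const_smul c) (Tendsto.const_smul ?_ _)) _
    exact ((L.E G).continuous.tendsto _).comp
      (h.star_lim (fun n => (ha n).nxt) h0 hlim (L.pc P x))

end next

/-- controlled rotations of the next level -/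
theorem nest_rot {G : Set ℝ} {𝔄 : Set (H →L[ℂ] H)} {psi : H →L[ℂ] H} {UU : Set (H ≃ₗᵢ[ℂ] H)}
    (hG : MeasurableSet G) (hL : L.Ctl 𝔄) (hN : L.Ctl (L.nxt 𝔄 (L.iota (psi L.Om))))
    (hp : psi ∈ 𝔄) (hs : Sa psi) (hU : L.UCl G 𝔄 (L.iota (psi L.Om)) UU) :
    ∀ a ∈ L.nxt 𝔄 (L.iota (psi L.Om)), Sa a → a * L.E G = a →
      ∀ P U, L.IsRot a P U → U ∈ UU := by
  intro a ha hsa haE P U hrot
  have h : Nst L G 𝔄 (L.iota (psi L.Om)) UU :=
    ⟨hG, hL, hN, fun b hb s => ContinuousLinearMap.ext fun x => base_Wc hL hp hs hb s x, hU⟩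
  have hg := h.main (T0.of_gen h ha) 1 P
  rw [one_smul, haE, rp_of_sa (sa_iff.1 hsa)] at hg
  exact hg.mem U (L.isRot_iff.1 hrot)

end LSys

end Vale.Agent.P367.A
end

section

/-! P367 block B: words in `exp(-i b X)` and `exp(-i (k.z) Z)` are dense (in `L^1(mu)`, a.e. along
sequences) in the equivariant maps `u : E -> SU(2)`, `u(-z) = X u(z) X`; any number of fields. -/

namespace Vale.Agent.P367.B

open Complex MeasureTheory Filter Topology RealInnerProductSpace
open scoped Matrix Matrix.Norms.L2Operator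

set_option linter.dupNamespace false in
/-- label gates with label directions in `κ` -/
inductive LG (κ : Type*) : Type _
  | B (b : ℝ) : LG κ
  | G (k : κ) : LG κ

section words

variable {E : Type*} [NormedAddCommGroup E] [InnerProductSpace ℝ E]

/-- matrix of a word at label `z`; the head of the list is the last gate -/
noncomputable def lw : List (LG E) → E → M2
  | [], _ => 1
  | LG.B b :: w, z => Er sX b * lw w z
  | LG.G k :: w, z => Er sZ (inner ℝ z k) * lw w z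

lemma lw_append (w w' : List (LG E)) (z : E) : lw (w ++ w') z = lw w z * lw w' z := by
  induction w with
  | nil => simp [lw]
  | cons g w ih =>
    cases g <;> simp [lw, ih, mul_assoc]

/-- repetition of a word -/
def lrep (w : List (LG E)) : ℕ → List (LG E)
  | 0 => []
  | n + 1 => w ++ lrep w n

lemma lw_rep (w : List (LG E)) (n : ℕ) (z : E) : lw (lrep w n) z = lw w z ^ n := by
  induction n with
  | zero => simp [lrep, lw]
  | succ n ih => rw [lrep, lw_append, ih, pow_succ']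

lemma lw_unitary (w : List (LG E)) (z : E) : lw w z ∈ unitary M2 := by
  induction w with
  | nil => exact one_mem _
  | cons g w ih =>
    cases g with
    | B b => exact mul_mem (Er_star star_sX sX_sq b) ih
    | G k => exact mul_mem (Er_star star_sZ sZ_sq _) ih

lemma continuous_lw (w : List (LG E)) : Continuous (lw w) := by
  induction w with
  | nil => exact continuous_const
  | cons g w ih =>
    cases g with
    | B b => exact continuous_const.mul ih
    | G k =>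
      have h : Continuous fun z : E => Er sZ (inner ℝ z k) := (continuous_Er sZ).comp (by fun_prop)
      exact h.mul ih

lemma lw_le (w : List (LG E)) (z : E) : ‖lw w z‖ ≤ 1 := (norm_of_unitary (lw_unitary w z)).le

end words

variable {E : Type*} [NormedAddCommGroup E] [InnerProductSpace ℝ E] [CompleteSpace E]
  [SecondCountableTopology E] [MeasurableSpace E] [BorelSpace E]

/-- `U` is an `L¹` limit of words -/
structure ClsE (μ : Measure E) (U : E → M2) : Prop where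
  meas : AEStronglyMeasurable U μ
  le : ∀ z, ‖U z‖ ≤ 1
  app : ∀ ε > 0, ∃ w, ∫ z, ‖lw w z - U z‖ ∂μ < ε

variable {μ : Measure E} [IsFiniteMeasure μ]

omit [NormedAddCommGroup E] [CompleteSpace E] [InnerProductSpace ℝ E] [SecondCountableTopology E]
  [BorelSpace E] in
lemma integrable_subE {U V : E → M2} (hU : AEStronglyMeasurable U μ)
    (hV : AEStronglyMeasurable V μ) (h1 : ∀ z, ‖U z‖ ≤ 1) (h2 : ∀ z, ‖V z‖ ≤ 1) :
    Integrable (fun z => ‖U z - V z‖) μ := by
  refine Integrable.of_bound (hU.sub hV).norm 2 (ae_of_all _ fun z => ?_)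
  rw [norm_norm]
  have := norm_sub_le (U z) (V z)
  linarith [h1 z, h2 z]

omit [CompleteSpace E] [IsFiniteMeasure μ] [SecondCountableTopology E] in
lemma lw_meas (w : List (LG E)) : AEStronglyMeasurable (lw w) μ :=
  (continuous_lw w).stronglyMeasurable.aestronglyMeasurable

omit [CompleteSpace E] [IsFiniteMeasure μ] in
lemma ClsE.word (w : List (LG E)) : ClsE μ (lw w) where
  meas := lw_meas w
  le z := lw_le w z
  app ε hε := ⟨w, by simpa using hε⟩

omit [CompleteSpace E] in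
lemma ClsE.mul {U V : E → M2} (hU : ClsE μ U) (hV : ClsE μ V) : ClsE μ (fun z => U z * V z) where
  meas := hU.meas.mul hV.meas
  le z := (norm_mul_le _ _).trans (mul_le_one₀ (hU.le z) (norm_nonneg _) (hV.le z))
  app ε hε := by
    obtain ⟨w, h1⟩ := hU.app (ε / 2) (half_pos hε)
    obtain ⟨w', h2⟩ := hV.app (ε / 2) (half_pos hε)
    refine ⟨w ++ w', ?_⟩
    have i1 := integrable_subE (lw_meas (μ := μ) w) hU.meas (lw_le w) hU.le
    have i2 := integrable_subE (lw_meas (μ := μ) w') hV.meas (lw_le w') hV.le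
    have : ∫ z, ‖lw (w ++ w') z - U z * V z‖ ∂μ
        ≤ ∫ z, (‖lw w z - U z‖ + ‖lw w' z - V z‖) ∂μ := by
      refine integral_mono_of_nonneg (ae_of_all _ fun z => norm_nonneg _) (i1.add i2)
        (ae_of_all _ fun z => ?_)
      simp only [lw_append]
      have e : lw w z * lw w' z - U z * V z
          = (lw w z - U z) * lw w' z + U z * (lw w' z - V z) := by noncomm_ring
      rw [e]
      refine (norm_add_le _ _).trans (add_le_add ?_ ?_)
      · refine (norm_mul_le _ _).trans ?_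
        exact mul_le_of_le_one_right (norm_nonneg _) (lw_le w' z)
      · refine (norm_mul_le _ _).trans ?_
        exact mul_le_of_le_one_left (norm_nonneg _) (hU.le z)
    rw [integral_add i1 i2] at this
    linarith

omit [CompleteSpace E] in
/-- closure under a.e. limits -/
lemma ClsE.lim {U : ℕ → E → M2} {V : E → M2} (hU : ∀ n, ClsE μ (U n))
    (hV : ∀ z, ‖V z‖ ≤ 1) (h : ∀ᵐ z ∂μ, Tendsto (fun n => U n z) atTop (𝓝 (V z))) :
    ClsE μ V where
  meas := aestronglyMeasurable_of_tendsto_ae atTop (fun n => (hU n).meas) h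
  le := hV
  app ε hε := by
    have hVm : AEStronglyMeasurable V μ :=
      aestronglyMeasurable_of_tendsto_ae atTop (fun n => (hU n).meas) h
    have h0 : Tendsto (fun n => ∫ z, ‖U n z - V z‖ ∂μ) atTop (𝓝 (∫ _z : E, (0 : ℝ) ∂μ)) := by
      refine tendsto_integral_of_dominated_convergence (fun _ => 2)
        (fun n => ((hU n).meas.sub hVm).norm) (integrable_const 2)
        (fun n => ae_of_all _ fun z => ?_) ?_
      · rw [norm_norm]
        have := norm_sub_le (U n z) (V z)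
        linarith [(hU n).le z, hV z]
      · filter_upwards [h] with z hz
        have := (hz.sub_const (V z)).norm
        simpa using this
    simp only [integral_zero] at h0
    obtain ⟨n, hn⟩ := (h0.eventually (gt_mem_nhds (half_pos hε))).exists
    obtain ⟨w, h1⟩ := (hU n).app (ε / 2) (half_pos hε)
    refine ⟨w, ?_⟩
    have i1 := integrable_subE (lw_meas (μ := μ) w) (hU n).meas (lw_le w) (hU n).le
    have i2 := integrable_subE (hU n).meas hVm (hU n).le hV
    have : ∫ z, ‖lw w z - V z‖ ∂μ ≤ ∫ z, (‖lw w z - U n z‖ + ‖U n z - V z‖) ∂μ := by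
      refine integral_mono_of_nonneg (ae_of_all _ fun z => norm_nonneg _) (i1.add i2)
        (ae_of_all _ fun z => ?_)
      exact norm_sub_le_norm_sub_add_norm_sub _ _ _
    rw [integral_add i1 i2] at this
    linarith

/-- word of a rotated `X` rotation -/
noncomputable def wPE (k : E) (θ : ℝ) : List (LG E) :=
  [LG.G ((1 / 2 : ℝ) • k), LG.B θ, LG.G (-((1 / 2 : ℝ) • k))]

omit [CompleteSpace E] [SecondCountableTopology E] [MeasurableSpace E] [BorelSpace E] in
lemma lw_wPE (k : E) (θ : ℝ) (z : E) : lw (wPE k θ) z = Er (sP (inner ℝ z k)) θ := by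
  have h := conj_Z (1 / 2 * inner ℝ z k) θ
  have e : 2 * (1 / 2 * inner ℝ z k) = inner ℝ z k := by ring
  rw [e] at h
  simp only [wPE, lw, mul_one, inner_neg_right, inner_smul_right]
  rw [← h, mul_assoc]

omit [CompleteSpace E] in
lemma clsE_X_cos (k : E) (t : ℝ) : ClsE μ (fun z => Er sX (t * Real.cos (inner ℝ z k))) := by
  refine ClsE.lim (U := fun m z => lw (lrep (wPE k (t / 2 / m) ++ wPE (-k) (t / 2 / m)) m) z)
    (fun m => ClsE.word _)
    (fun z => norm_Er_le star_sX sX_sq _) (ae_of_all _ fun z => ?_)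
  simp only [lw_rep, lw_append, lw_wPE]
  have h := trot (sP_sq (inner ℝ z k)) (sP_sq (inner ℝ z (-k))) (t / 2) (t / 2)
  convert h using 2
  rw [← exp_inv sX_sq]
  congr 1
  have : sP (inner ℝ z k) + sP (inner ℝ z (-k)) = (2 * Real.cos (inner ℝ z k) : ℂ) • sX := by
    unfold sP
    rw [inner_neg_right, Real.cos_neg, Real.sin_neg]
    push_cast
    module
  rw [← smul_add, this, smul_smul]
  congr 1
  push_cast
  ring

omit [CompleteSpace E] in
lemma clsE_Y_sin (k : E) (t : ℝ) : ClsE μ (fun z => Er sY (t * Real.sin (inner ℝ z k))) := by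
  refine ClsE.lim (U := fun m z => lw (lrep (wPE k (t / 2 / m) ++ wPE (-k) (-(t / 2) / m)) m) z)
    (fun m => ClsE.word _)
    (fun z => norm_Er_le star_sY sY_sq _) (ae_of_all _ fun z => ?_)
  simp only [lw_rep, lw_append, lw_wPE]
  have h := trot (sP_sq (inner ℝ z k)) (sP_sq (inner ℝ z (-k))) (t / 2) (-(t / 2))
  convert h using 2
  rw [← exp_inv sY_sq]
  congr 1
  unfold sP
  rw [inner_neg_right, Real.cos_neg, Real.sin_neg]
  push_cast
  module

omit [CompleteSpace E] [IsFiniteMeasure μ] in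
lemma clsE_B (b : ℝ) : ClsE μ (fun _ => Er sX b) := by
  have h : ClsE μ (lw [LG.B b]) := ClsE.word _
  have e : lw [LG.B b] = fun _ : E => Er sX b := by
    funext z; simp [lw]
  rwa [e] at h

omit [CompleteSpace E] in
lemma clsE_Z_of_Y {f : E → ℝ} (h : ClsE μ (fun z => Er sY (f z))) :
    ClsE μ (fun z => Er sZ (f z)) := by
  have h2 := ((clsE_B (μ := μ) (Real.pi / 4)).mul h).mul (clsE_B (μ := μ) (-(Real.pi / 4)))
  have e : (fun z => Er sX (Real.pi / 4) * Er sY (f z) * Er sX (-(Real.pi / 4)))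
      = fun z => Er sZ (f z) := by
    funext z; exact conj_X _
  rwa [e] at h2

omit [CompleteSpace E] in
lemma clsE_add {P : M2} (hP : P * P = 1) {f g : E → ℝ} (hf : ClsE μ (fun z => Er P (f z)))
    (hg : ClsE μ (fun z => Er P (g z))) : ClsE μ (fun z => Er P (f z + g z)) := by
  have h := hf.mul hg
  have e : (fun z => Er P (f z) * Er P (g z)) = fun z => Er P (f z + g z) := by
    funext z; exact Er_add hP _ _
  rwa [e] at h

omit [CompleteSpace E] [IsFiniteMeasure μ] in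
lemma clsE_one : ClsE μ (fun _ => (1 : M2)) := by
  have h : ClsE μ (lw []) := ClsE.word _
  exact h

omit [CompleteSpace E] in
/-- even trigonometric polynomials times `X` -/
lemma clsE_trigE {p : BoundedContinuousFunction E ℝ} (hp : p ∈ trigE E) (t : ℝ) :
    ClsE μ (fun z => Er sX (t * p z)) := by
  unfold trigE at hp
  induction hp using Submodule.span_induction generalizing t with
  | mem x hx => obtain ⟨k, rfl⟩ := hx; simpa using clsE_X_cos k t
  | zero =>
    have : (fun z : E => Er sX (t * (0 : BoundedContinuousFunction E ℝ) z)) = fun _ => (1 : M2) := by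
      funext z; simp [Er]
    rw [this]
    exact clsE_one
  | add x y _ _ hx hy =>
    have h := clsE_add sX_sq (hx t) (hy t)
    have e : (fun z : E => Er sX (t * (x + y) z)) = fun z => Er sX (t * x z + t * y z) := by
      funext z; simp [mul_add]
    rwa [e]
  | smul c x _ hx =>
    have h := hx (t * c)
    have e : (fun z : E => Er sX (t * (c • x) z)) = fun z => Er sX (t * c * x z) := by
      funext z; simp [mul_assoc]
    rwa [e]

omit [CompleteSpace E] in
/-- odd trigonometric polynomials times `Y` -/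
lemma clsE_trigO {p : BoundedContinuousFunction E ℝ} (hp : p ∈ trigO E) (t : ℝ) :
    ClsE μ (fun z => Er sY (t * p z)) := by
  unfold trigO at hp
  induction hp using Submodule.span_induction generalizing t with
  | mem x hx => obtain ⟨k, rfl⟩ := hx; simpa using clsE_Y_sin k t
  | zero =>
    have : (fun z : E => Er sY (t * (0 : BoundedContinuousFunction E ℝ) z)) = fun _ => (1 : M2) := by
      funext z; simp [Er]
    rw [this]
    exact clsE_one
  | add x y _ _ hx hy =>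
    have h := clsE_add sY_sq (hx t) (hy t)
    have e : (fun z : E => Er sY (t * (x + y) z)) = fun z => Er sY (t * x z + t * y z) := by
      funext z; simp [mul_add]
    rwa [e]
  | smul c x _ hx =>
    have h := hx (t * c)
    have e : (fun z : E => Er sY (t * (c • x) z)) = fun z => Er sY (t * c * x z) := by
      funext z; simp [mul_assoc]
    rwa [e]

/-- even functions times `X` -/
lemma clsE_X {f : E → ℝ} (hf : Measurable f) {C : ℝ} (hC : ∀ z, |f z| ≤ C)
    (he : ∀ z, f (-z) = f z) (t : ℝ) : ClsE μ (fun z => Er sX (t * f z)) := by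
  obtain ⟨p, hp, h⟩ := ae_seq_even μ f hf hC he
  refine ClsE.lim (fun n => clsE_trigE (hp n) t) (fun z => norm_Er_le star_sX sX_sq _) ?_
  filter_upwards [h] with z hz
  exact ((continuous_Er sX).tendsto _).comp (hz.const_mul t)

/-- odd functions times `Y` -/
lemma clsE_Y {f : E → ℝ} (hf : Measurable f) {C : ℝ} (hC : ∀ z, |f z| ≤ C)
    (he : ∀ z, f (-z) = -f z) (t : ℝ) : ClsE μ (fun z => Er sY (t * f z)) := by
  obtain ⟨p, hp, h⟩ := ae_seq_odd μ f hf hC he
  refine ClsE.lim (fun n => clsE_trigO (hp n) t) (fun z => norm_Er_le star_sY sY_sq _) ?_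
  filter_upwards [h] with z hz
  exact ((continuous_Er sY).tendsto _).comp (hz.const_mul t)

/-- odd functions times `Z` -/
lemma clsE_Z {f : E → ℝ} (hf : Measurable f) {C : ℝ} (hC : ∀ z, |f z| ≤ C)
    (he : ∀ z, f (-z) = -f z) (t : ℝ) : ClsE μ (fun z => Er sZ (t * f z)) :=
  clsE_Z_of_Y (clsE_Y hf hC he t)

omit [CompleteSpace E] in
lemma ClsE.pow {U : E → M2} (hU : ClsE μ U) (n : ℕ) : ClsE μ (fun z => U z ^ n) := by
  induction n with
  | zero => simpa using clsE_one (μ := μ)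
  | succ n ih =>
    have h := ih.mul hU
    simpa [pow_succ] using h

/-- linear combination of Pauli matrices -/
noncomputable def sN (b c d : ℝ) : M2 := (b : ℂ) • sX + (c : ℂ) • sY + (d : ℂ) • sZ

lemma sN_sq {b c d : ℝ} (h : b ^ 2 + c ^ 2 + d ^ 2 = 1) : sN b c d * sN b c d = 1 := by
  have h' : (b : ℂ) ^ 2 + (c : ℂ) ^ 2 + (d : ℂ) ^ 2 = 1 := by exact_mod_cast h
  have hI := Complex.I_mul_I
  ext i j; fin_cases i <;> fin_cases j <;>
    simp [sN, sX, sY, sZ, Matrix.mul_apply, Fin.sum_univ_two]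
  · linear_combination h' - (c : ℂ) ^ 2 * hI
  · ring
  · ring
  · linear_combination h' - (c : ℂ) ^ 2 * hI

lemma star_sN (b c d : ℝ) : star (sN b c d) = sN b c d := by
  unfold sN
  rw [star_add, star_add, star_smul, star_smul, star_smul, star_sX, star_sY, star_sZ]
  simp

/-- the matrix `a - i (b X + c Y + d Z)` -/
noncomputable def su (a b c d : ℝ) : M2 := (a : ℂ) • (1 : M2) - Complex.I • sN b c d

omit [CompleteSpace E] in
/-- exponentials of sums -/
lemma clsE_exp {f g h : E → ℝ} (hf : ∀ t, ClsE μ (fun z => Er sX (t * f z)))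
    (hg : ∀ t, ClsE μ (fun z => Er sY (t * g z))) (hh : ∀ t, ClsE μ (fun z => Er sZ (t * h z)))
    {V : E → M2} (hV : ∀ z, ‖V z‖ ≤ 1)
    (hVe : ∀ z, V z = NormedSpace.exp ((-(Complex.I * (f z : ℂ))) • sX
      + (-(Complex.I * (g z : ℂ))) • sY + (-(Complex.I * (h z : ℂ))) • sZ)) : ClsE μ V := by
  refine ClsE.lim (U := fun m z => (Er sX ((m : ℝ)⁻¹ * f z) * (Er sY ((m : ℝ)⁻¹ * g z)
    * Er sZ ((m : ℝ)⁻¹ * h z))) ^ m)
    (fun m => ((hf _).mul ((hg _).mul (hh _))).pow m) hV (ae_of_all _ fun z => ?_)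
  have h1 : ‖(1 : M2)‖ ≤ 1 := (norm_of_unitary (one_mem _)).le
  have h2 := lie_trotter_list h1 [(-(Complex.I * (f z : ℂ))) • sX, (-(Complex.I * (g z : ℂ))) • sY,
    (-(Complex.I * (h z : ℂ))) • sZ]
  simp only [List.map_cons, List.map_nil, List.prod_cons, List.prod_nil, mul_one, List.sum_cons,
    List.sum_nil, add_zero, exp_scaled sX_sq, exp_scaled sY_sq, exp_scaled sZ_sq] at h2
  rw [hVe, add_assoc]
  refine h2.congr fun m => ?_
  simp only [div_eq_inv_mul]

/-- the density lemma in coordinates -/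
theorem clsE_su {a b c d : E → ℝ} (ha : Measurable a) (hb : Measurable b) (hc : Measurable c)
    (hd : Measurable d) (h1 : ∀ z, a z ^ 2 + b z ^ 2 + c z ^ 2 + d z ^ 2 = 1)
    (ea : ∀ z, a (-z) = a z) (eb : ∀ z, b (-z) = b z) (oc : ∀ z, c (-z) = -c z)
    (od : ∀ z, d (-z) = -d z) : ClsE μ (fun z => su (a z) (b z) (c z) (d z)) := by
  let s : E → ℝ := fun z => Real.sqrt (1 - a z ^ 2)
  let r : E → ℝ := fun z => Real.arccos (a z)
  have hs : Measurable s := (measurable_const.sub (ha.pow_const 2)).sqrt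
  have hr : Measurable r := Real.measurable_arccos.comp ha
  have es : ∀ z, s (-z) = s z := fun z => by simp only [s, ea]
  have er : ∀ z, r (-z) = r z := fun z => by simp only [r, ea]
  have hs2 : ∀ z, s z ^ 2 = b z ^ 2 + c z ^ 2 + d z ^ 2 := by
    intro z
    have : (0 : ℝ) ≤ 1 - a z ^ 2 := by nlinarith [h1 z, sq_nonneg (b z), sq_nonneg (c z), sq_nonneg (d z)]
    simp only [s]
    rw [Real.sq_sqrt this]
    linarith [h1 z]
  have hs0 : ∀ z, 0 ≤ s z := fun z => Real.sqrt_nonneg _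
  let nb : E → ℝ := fun z => if s z = 0 then 1 else b z / s z
  let nc : E → ℝ := fun z => if s z = 0 then 0 else c z / s z
  let nd : E → ℝ := fun z => if s z = 0 then 0 else d z / s z
  have hset : MeasurableSet {z | s z = 0} := measurableSet_eq_fun hs measurable_const
  have mb : Measurable nb := Measurable.ite hset measurable_const (hb.div hs)
  have mc : Measurable nc := Measurable.ite hset measurable_const (hc.div hs)
  have md : Measurable nd := Measurable.ite hset measurable_const (hd.div hs)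
  have hn : ∀ z, nb z ^ 2 + nc z ^ 2 + nd z ^ 2 = 1 := by
    intro z
    simp only [nb, nc, nd]
    by_cases h : s z = 0
    · simp [h]
    · simp only [h, if_false]
      have h2 := hs2 z
      field_simp
      linarith
  have enb : ∀ z, nb (-z) = nb z := fun z => by simp only [nb, es, eb]
  have onc : ∀ z, nc (-z) = -nc z := fun z => by
    simp only [nc, es, oc]
    by_cases h : s z = 0 <;> simp [h, neg_div]
  have ond : ∀ z, nd (-z) = -nd z := fun z => by
    simp only [nd, es, od]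
    by_cases h : s z = 0 <;> simp [h, neg_div]
  have hrb : ∀ z, |r z| ≤ Real.pi := fun z => by
    rw [abs_of_nonneg (Real.arccos_nonneg _)]
    exact Real.arccos_le_pi _
  have hab : ∀ x y w : ℝ, x ^ 2 + y ^ 2 + w ^ 2 = 1 → |x| ≤ 1 ∧ |y| ≤ 1 ∧ |w| ≤ 1 := by
    intro x y w h
    refine ⟨abs_le_one_iff_mul_self_le_one.2 ?_, abs_le_one_iff_mul_self_le_one.2 ?_,
      abs_le_one_iff_mul_self_le_one.2 ?_⟩ <;> nlinarith [sq_nonneg x, sq_nonneg y, sq_nonneg w]
  have hbd : ∀ g : E → ℝ, (∀ z, |g z| ≤ 1) → ∀ z, |r z * g z| ≤ Real.pi := by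
    intro g hg z
    rw [abs_mul]
    calc |r z| * |g z| ≤ Real.pi * 1 := mul_le_mul (hrb z) (hg z) (abs_nonneg _) Real.pi_pos.le
      _ = Real.pi := mul_one _
  have hP : ∀ z, sN (nb z) (nc z) (nd z) * sN (nb z) (nc z) (nd z) = 1 := fun z => sN_sq (hn z)
  have ha1 : ∀ z, -1 ≤ a z ∧ a z ≤ 1 := by
    intro z
    rw [← abs_le]
    exact abs_le_one_iff_mul_self_le_one.2
      (by nlinarith [h1 z, sq_nonneg (b z), sq_nonneg (c z), sq_nonneg (d z)])
  have key : ∀ z, su (a z) (b z) (c z) (d z) = Er (sN (nb z) (nc z) (nd z)) (r z) := by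
    intro z
    unfold Er su
    simp only [r]
    rw [Real.cos_arccos (ha1 z).1 (ha1 z).2, Real.sin_arccos]
    have e1 : (s z) * nb z = b z ∧ (s z) * nc z = c z ∧ (s z) * nd z = d z := by
      simp only [nb, nc, nd]
      by_cases h : s z = 0
      · have h2 := hs2 z
        rw [h] at h2
        have hb0 : b z = 0 := by nlinarith [sq_nonneg (b z), sq_nonneg (c z), sq_nonneg (d z)]
        have hc0 : c z = 0 := by nlinarith [sq_nonneg (b z), sq_nonneg (c z), sq_nonneg (d z)]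
        have hd0 : d z = 0 := by nlinarith [sq_nonneg (b z), sq_nonneg (c z), sq_nonneg (d z)]
        simp [h, hb0, hc0, hd0]
      · simp only [h, if_false]
        refine ⟨?_, ?_, ?_⟩ <;> field_simp
    obtain ⟨e1, e2, e3⟩ := e1
    congr 1
    change Complex.I • sN (b z) (c z) (d z) = (Complex.I * (s z : ℂ)) • sN (nb z) (nc z) (nd z)
    rw [mul_smul]
    congr 1
    unfold sN
    rw [smul_add, smul_add, smul_smul, smul_smul, smul_smul, ← Complex.ofReal_mul,
      ← Complex.ofReal_mul, ← Complex.ofReal_mul, e1, e2, e3]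
  refine clsE_exp (f := fun z => r z * nb z) (g := fun z => r z * nc z) (h := fun z => r z * nd z)
    (clsE_X (hr.mul mb) (hbd _ fun z => (hab _ _ _ (hn z)).1) fun z => by rw [er, enb])
    (clsE_Y (hr.mul mc) (hbd _ fun z => (hab _ _ _ (hn z)).2.1) fun z => by rw [er, onc]; ring)
    (clsE_Z (hr.mul md) (hbd _ fun z => (hab _ _ _ (hn z)).2.2) fun z => by rw [er, ond]; ring)
    (fun z => ?_) fun z => ?_
  · rw [key]
    exact norm_Er_le (star_sN _ _ _) (hP z) _
  · rw [key, ← exp_inv (hP z)]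
    congr 1
    unfold sN
    push_cast
    module

end Vale.Agent.P367.B
end

section

/-! P367 block B: the label density lemma, final forms. -/

namespace Vale.Agent.P367.B

open Complex MeasureTheory Filter Topology RealInnerProductSpace
open scoped Matrix Matrix.Norms.L2Operator

section seq

variable {E : Type*} [NormedAddCommGroup E] [InnerProductSpace ℝ E]
  [MeasurableSpace E] [BorelSpace E] {μ : Measure E} [IsFiniteMeasure μ]

/-- members of the closure are a.e. limits of sequences of words -/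
theorem ClsE.seq {U : E → M2} (hU : ClsE μ U) :
    ∃ w : ℕ → List (LG E), ∀ᵐ z ∂μ, Tendsto (fun n => lw (w n) z) atTop (𝓝 (U z)) := by
  choose w hw using fun n : ℕ => hU.app ((1 / 2) ^ n) (by positivity)
  refine ⟨w, ?_⟩
  have hint : ∀ n, Integrable (fun z => ‖lw (w n) z - U z‖) μ := fun n =>
    integrable_subE (lw_meas (μ := μ) (w n)) hU.meas (lw_le (w n)) hU.le
  have h1 : ∫⁻ z, ∑' n, ENNReal.ofReal ‖lw (w n) z - U z‖ ∂μ ≠ ⊤ := by
    rw [lintegral_tsum fun n => (hint n).aestronglyMeasurable.aemeasurable.ennreal_ofReal]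
    have h2 : ∀ n, ∫⁻ z, ENNReal.ofReal ‖lw (w n) z - U z‖ ∂μ ≤ ENNReal.ofReal ((1 / 2) ^ n) := by
      intro n
      rw [← ofReal_integral_eq_lintegral_ofReal (hint n)
        (Eventually.of_forall fun z => norm_nonneg _)]
      exact ENNReal.ofReal_le_ofReal (hw n).le
    refine (lt_of_le_of_lt (ENNReal.tsum_le_tsum h2) ?_).ne
    rw [← ENNReal.ofReal_tsum_of_nonneg (fun n => by positivity)
      (summable_geometric_of_lt_one (by norm_num) (by norm_num))]
    exact ENNReal.ofReal_lt_top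
  have hm : AEMeasurable (fun z => ∑' n, ENNReal.ofReal ‖lw (w n) z - U z‖) μ :=
    AEMeasurable.tsum fun n => (hint n).aestronglyMeasurable.aemeasurable.ennreal_ofReal
  filter_upwards [ae_lt_top' hm h1] with z hz
  have h3 := ENNReal.tendsto_atTop_zero_of_tsum_ne_top hz.ne
  have h4 : Tendsto (fun n => ‖lw (w n) z - U z‖) atTop (𝓝 0) := by
    have h5 := (ENNReal.tendsto_toReal ENNReal.zero_ne_top).comp h3
    simp only [ENNReal.toReal_zero] at h5
    refine h5.congr fun n => ?_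
    simp only [Function.comp]
    rw [ENNReal.toReal_ofReal (norm_nonneg _)]
  exact tendsto_iff_norm_sub_tendsto_zero.2 h4

end seq

/-- coordinates of a special unitary matrix -/
lemma su_of_mem {U : M2} (h : U ∈ Matrix.specialUnitaryGroup (Fin 2) ℂ) :
    U = su (U 0 0).re (-(U 1 0).im) (U 1 0).re (-(U 0 0).im) ∧
      (U 0 0).re ^ 2 + (-(U 1 0).im) ^ 2 + (U 1 0).re ^ 2 + (-(U 0 0).im) ^ 2 = 1 := by
  rw [Matrix.mem_specialUnitaryGroup_iff, Matrix.mem_unitaryGroup_iff'] at h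
  obtain ⟨h1, h2⟩ := h
  have h3 : star U = U.adjugate := by
    have h4 : star U * (U * U.adjugate) = U.adjugate := by rw [← mul_assoc, h1, one_mul]
    rwa [Matrix.mul_adjugate, h2, one_smul, mul_one] at h4
  rw [Matrix.adjugate_fin_two] at h3
  have e00 : (starRingEnd ℂ) (U 0 0) = U 1 1 := by
    have := congrFun (congrFun h3 0) 0
    simpa using this
  have e01 : (starRingEnd ℂ) (U 1 0) = -U 0 1 := by
    have := congrFun (congrFun h3 0) 1
    simpa using this
  have n0 : (starRingEnd ℂ) (U 0 0) * U 0 0 + (starRingEnd ℂ) (U 1 0) * U 1 0 = 1 := by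
    have := congrFun (congrFun h1 0) 0
    simpa [Matrix.mul_apply, Fin.sum_univ_two] using this
  refine ⟨?_, ?_⟩
  · have e01' : U 0 1 = -(starRingEnd ℂ) (U 1 0) := by rw [e01, neg_neg]
    ext i j
    fin_cases i <;> fin_cases j
    · apply Complex.ext <;> simp [su, sN, sX, sY, sZ]
    · change U 0 1 = _
      rw [e01']
      apply Complex.ext <;> simp [su, sN, sX, sY, sZ]
    · apply Complex.ext <;> simp [su, sN, sX, sY, sZ]
    · change U 1 1 = _
      rw [← e00]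
      apply Complex.ext <;> simp [su, sN, sX, sY, sZ]
  · have h5 := congrArg Complex.re n0
    simp only [Complex.add_re, Complex.mul_re, Complex.conj_re, Complex.conj_im,
      Complex.one_re] at h5
    nlinarith [h5]

section main

variable {E : Type*} [NormedAddCommGroup E] [InnerProductSpace ℝ E] [CompleteSpace E]
  [SecondCountableTopology E] [MeasurableSpace E] [BorelSpace E]
  {μ : Measure E} [IsFiniteMeasure μ]

/-- THE LABEL DENSITY LEMMA: every measurable `u : E → SU(2)` with `u(-z) = X u(z) X` is an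
`L¹(μ)`-limit of words in `exp(-i b X)`, `exp(-i (k.z) Z)`. -/
theorem clsE_of_su2 {u : E → M2} (hm : ∀ i j, Measurable fun z => u z i j)
    (hu : ∀ z, u z ∈ Matrix.specialUnitaryGroup (Fin 2) ℂ)
    (he : ∀ z, u (-z) = sX * u z * sX) : ClsE μ u := by
  have h0 : ∀ z, u (-z) 0 0 = (starRingEnd ℂ) (u z 0 0) := by
    intro z
    have h := (su_of_mem (hu z)).1
    have e : u z 1 1 = (starRingEnd ℂ) (u z 0 0) := by
      conv_lhs => rw [h]
      apply Complex.ext <;> simp [su, sN, sX, sY, sZ]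
    rw [he, ← e]
    simp [sX, Matrix.mul_apply, Fin.sum_univ_two, Matrix.vecMul, dotProduct]
  have h1 : ∀ z, u (-z) 1 0 = -(starRingEnd ℂ) (u z 1 0) := by
    intro z
    have h := (su_of_mem (hu z)).1
    have e : u z 0 1 = -(starRingEnd ℂ) (u z 1 0) := by
      conv_lhs => rw [h]
      apply Complex.ext <;> simp [su, sN, sX, sY, sZ]
    rw [he, ← e]
    simp [sX, Matrix.mul_apply, Fin.sum_univ_two, Matrix.vecMul, dotProduct]
  have h := clsE_su (μ := μ) (a := fun z => (u z 0 0).re) (b := fun z => -(u z 1 0).im)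
    (c := fun z => (u z 1 0).re) (d := fun z => -(u z 0 0).im)
    (Complex.measurable_re.comp (hm 0 0)) (Complex.measurable_im.comp (hm 1 0)).neg
    (Complex.measurable_re.comp (hm 1 0)) (Complex.measurable_im.comp (hm 0 0)).neg
    (fun z => (su_of_mem (hu z)).2)
    (fun z => by simp [h0]) (fun z => by simp [h1]) (fun z => by simp [h1]) (fun z => by simp [h0])
  have e : (fun z => su (u z 0 0).re (-(u z 1 0).im) (u z 1 0).re (-(u z 0 0).im)) = u := by
    funext z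
    exact ((su_of_mem (hu z)).1).symm
  rwa [e] at h

end main

section pi

variable {ι : Type*} [Fintype ι]

/-- matrix of a word at label `z : ι → ℝ` -/
noncomputable def lwp : List (LG (ι → ℝ)) → (ι → ℝ) → M2
  | [], _ => 1
  | LG.B b :: w, z => Er sX b * lwp w z
  | LG.G k :: w, z => Er sZ (∑ i, k i * z i) * lwp w z

/-- change of coordinates for words -/
def toPi : LG (EuclideanSpace ℝ ι) → LG (ι → ℝ)
  | LG.B b => LG.B b
  | LG.G k => LG.G (WithLp.ofLp k)

lemma lwp_toPi (w : List (LG (EuclideanSpace ℝ ι))) (z : EuclideanSpace ℝ ι) :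
    lwp (w.map toPi) (WithLp.ofLp z) = lw w z := by
  induction w with
  | nil => rfl
  | cons g w ih =>
    cases g with
    | B b => simp only [List.map_cons, toPi, lwp, lw, ih]
    | G k =>
      simp only [List.map_cons, toPi, lwp, lw, ih]
      congr 2

/-- the label density lemma for `ι → ℝ`: a.e. convergence of a sequence of words -/
theorem dens_pi (μ : Measure (ι → ℝ)) [IsFiniteMeasure μ] {u : (ι → ℝ) → M2}
    (hm : ∀ i j, Measurable fun z => u z i j)
    (hu : ∀ z, u z ∈ Matrix.specialUnitaryGroup (Fin 2) ℂ)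
    (he : ∀ z, u (-z) = sX * u z * sX) :
    ∃ w : ℕ → List (LG (ι → ℝ)), ∀ᵐ z ∂μ, Tendsto (fun n => lwp (w n) z) atTop (𝓝 (u z)) := by
  let e : (ι → ℝ) ≃ᵐ EuclideanSpace ℝ ι := MeasurableEquiv.toLp 2 (ι → ℝ)
  have hcl : ClsE (μ.map e) (fun z : EuclideanSpace ℝ ι => u (WithLp.ofLp z)) := by
    refine clsE_of_su2 (fun i j => (hm i j).comp e.symm.measurable) (fun z => hu _) fun z => ?_
    rw [← he]
    rfl
  obtain ⟨w, hw⟩ := hcl.seq
  refine ⟨fun n => (w n).map toPi, ?_⟩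
  have h2 := ae_of_ae_map e.measurable.aemeasurable hw
  filter_upwards [h2] with z hz
  refine hz.congr fun n => ?_
  rw [← lwp_toPi]
  rfl

end pi

section gates

open Vale.Agent.P367.NI (Gate)

/-- words with one label as lists of gates -/
def toGate : LG ℝ → Gate
  | LG.B b => Gate.B b
  | LG.G k => Gate.G k

lemma mw_toGate (w : List (LG ℝ)) (z : ℝ) : mw (w.map toGate) z = lw w z := by
  induction w with
  | nil => rfl
  | cons g w ih =>
    cases g with
    | B b => simp only [List.map_cons, toGate, mw, lw, ih]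
    | G k =>
      simp only [List.map_cons, toGate, mw, lw, ih]
      congr 2

lemma noC_toGate (w : List (LG ℝ)) : NoC (w.map toGate) := by
  intro g hg c
  obtain ⟨x, _, rfl⟩ := List.mem_map.1 hg
  cases x <;> simp [toGate]

/-- the label density lemma for one label, in terms of gates: `L¹` form -/
theorem cls_of_su2 {μ : Measure ℝ} [IsFiniteMeasure μ] {u : ℝ → M2}
    (hm : ∀ i j, Measurable fun z => u z i j)
    (hu : ∀ z, u z ∈ Matrix.specialUnitaryGroup (Fin 2) ℂ)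
    (he : ∀ z, u (-z) = sX * u z * sX) : Cls μ u := by
  have h := clsE_of_su2 (μ := μ) hm hu he
  refine ⟨h.meas, h.le, fun ε hε => ?_⟩
  obtain ⟨w, hw⟩ := h.app ε hε
  refine ⟨w.map toGate, noC_toGate w, ?_⟩
  simpa only [mw_toGate] using hw

/-- the label density lemma for one label, in terms of gates: a.e. form -/
theorem dens_gate (μ : Measure ℝ) [IsFiniteMeasure μ] {u : ℝ → M2}
    (hm : ∀ i j, Measurable fun z => u z i j)
    (hu : ∀ z, u z ∈ Matrix.specialUnitaryGroup (Fin 2) ℂ)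
    (he : ∀ z, u (-z) = sX * u z * sX) :
    ∃ w : ℕ → List Gate, (∀ n, NoC (w n)) ∧
      ∀ᵐ z ∂μ, Tendsto (fun n => mw (w n) z) atTop (𝓝 (u z)) := by
  obtain ⟨w, hw⟩ := (clsE_of_su2 (μ := μ) hm hu he).seq
  refine ⟨fun n => (w n).map toGate, fun n => noC_toGate _, ?_⟩
  simpa only [mw_toGate] using hw

end gates

end Vale.Agent.P367.B
end

section

/-! P367, block B, BASE: exact words of a label system and the basic reachability predicate. -/

namespace Vale.Agent.P367.A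

open Complex Filter Topology MeasureTheory

namespace LSys

variable {H K : Type*} [NormedAddCommGroup H] [InnerProductSpace ℂ H]
  [NormedAddCommGroup K] [InnerProductSpace ℂ K] (L : LSys H K)

/-- real bounded measurable label functions -/
def Br (f : ℝ → ℂ) : Prop := Bm f ∧ ∀ t, (f t).im = 0

/-- exact words: `C` gates and label gates `exp(-i lab f P)` -/
inductive Wd : (H ≃ₗᵢ[ℂ] H) → Prop
  | one : Wd 1
  | C (g : ℝ) (V : H ≃ₗᵢ[ℂ] H) : Wd V → Wd (L.zr ((g : ℂ) • L.iota (L.xv V)) * V)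
  | L (f : ℝ → ℂ) (P : Fin 3) (U V : H ≃ₗᵢ[ℂ] H) : Wd V → Br f → L.IsRot (L.lab f) P U →
      Wd (U * V)

/-- the label functions as controls -/
def A0 : Set (H →L[ℂ] H) := {a | ∃ f, Bm f ∧ a = L.lab f}

/-- label phase `exp(-i g)` -/
noncomputable def phl (g : ℝ → ℂ) : H →L[ℂ] H := L.lab fun t => Complex.exp (-(Complex.I * g t))

/-- basic reachability: strong closure of the words on the labels in `M`, modulo label phases -/
def Rch0 (G M R : Set ℝ) (V : H ≃ₗᵢ[ℂ] H) : Prop :=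
  (MeasurableSet M ∧ MeasurableSet R ∧ Disjoint M R ∧ G ⊆ M) ∧
  (∀ f, Bm f → ∀ x, L.lab f (V x) = V (L.lab f x)) ∧
  ∀ (s : Finset H) (ε : ℝ), 0 < ε → ∃ U : H ≃ₗᵢ[ℂ] H, ∃ g : ℝ → ℂ, L.Wd U ∧ Br g ∧
    (∀ x, L.E R (U x) = L.E R x) ∧
    ∀ x ∈ s, ‖L.E M (U x) - L.phl g (L.E M (V x))‖ < ε

end LSys

end Vale.Agent.P367.A
end

section

/-! P367, block B: exact coupling gates (quadratic polarisation of four `C` gates). -/

namespace Vale.Agent.P367.A

open Complex

open Vale.Agent.P367.NI (Gate)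

namespace Sys

variable {H K : Type*} [NormedAddCommGroup H] [InnerProductSpace ℂ H]
  [NormedAddCommGroup K] [InnerProductSpace ℂ K] (S : Sys H K)

/-- `U` commutes with the Weyl operators `W d`, `d ∈ D` -/
def Cm (D : Set K) (U : H ≃ₗᵢ[ℂ] H) : Prop := ∀ d ∈ D, ∀ x, S.W d (U x) = U (S.W d x)

lemma Cm.one (D : Set K) : S.Cm D 1 := fun _ _ _ => rfl

variable {S}

lemma Cm.mul {D : Set K} {U V : H ≃ₗᵢ[ℂ] H} (hU : S.Cm D U) (hV : S.Cm D V) : S.Cm D (U * V) := by
  intro d hd x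
  change S.W d (U (V x)) = U (V (S.W d x))
  rw [hU d hd, hV d hd]

lemma Cm.inv {D : Set K} {U : H ≃ₗᵢ[ℂ] H} (hU : S.Cm D U) : S.Cm D U⁻¹ := by
  intro d hd x
  have h := hU d hd (U⁻¹ x)
  have h1 : U (U⁻¹ x) = x := U.apply_symm_apply x
  rw [h1] at h
  rw [h]
  exact (U.symm_apply_apply _).symm

variable (S)

lemma Cm.X (D : Set K) : S.Cm D S.X := fun d _ x => S.WX d x

lemma Cm.Z (D : Set K) : S.Cm D S.Z := fun d _ x => S.WZ d x

/-- the axis `U^* Z U` -/
noncomputable def ax (U : H ≃ₗᵢ[ℂ] H) : H ≃ₗᵢ[ℂ] H := U⁻¹ * S.Z * U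

lemma ax_ax (U : H ≃ₗᵢ[ℂ] H) (x : H) : S.ax U (S.ax U x) = x := by
  change U⁻¹ (S.Z (U (U⁻¹ (S.Z (U x))))) = x
  have h1 : ∀ y, U (U⁻¹ y) = y := fun y => U.apply_symm_apply y
  rw [h1, S.ZZ]
  exact U.symm_apply_apply x

lemma inner_ax (U : H ≃ₗᵢ[ℂ] H) (x y : H) : inner ℂ (S.ax U x) y = (inner ℂ x (S.ax U y) : ℂ) := by
  have h := (S.ax U).inner_map_map x (S.ax U y)
  rwa [S.ax_ax] at h

lemma Cm.ax {D : Set K} {U : H ≃ₗᵢ[ℂ] H} (hU : S.Cm D U) : S.Cm D (S.ax U) :=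
  (hU.inv.mul (Cm.Z S D)).mul hU

/-- `exp(-i U^* Z U phi(v))` -/
noncomputable def cz (U : H ≃ₗᵢ[ℂ] H) (v : K) : H ≃ₗᵢ[ℂ] H := U⁻¹ * S.zr v * U

lemma cz_apply {D : Set K} {U : H ≃ₗᵢ[ℂ] H} (hU : S.Cm D U) {v : K} (hv : v ∈ D) (hv' : -v ∈ D)
    (x : H) : S.cz U v x = (1 / 2 : ℂ) • (S.W (-v) x + S.W v x)
      + (1 / 2 : ℂ) • (S.W (-v) (S.ax U x) - S.W v (S.ax U x)) := by
  change U⁻¹ (S.zr v (U x)) = _
  rw [zr_apply]
  have h1 : ∀ y, U⁻¹ (U y) = y := fun y => U.symm_apply_apply y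
  have e1 : S.W (-v) (U x) = U (S.W (-v) x) := hU _ hv' x
  have e2 : S.W v (U x) = U (S.W v x) := hU _ hv x
  have h2 : ∀ y, U (U⁻¹ y) = y := fun y => U.apply_symm_apply y
  have e3 : S.Z (U x) = U (S.ax U x) := (h2 _).symm
  have e4 : S.W (-v) (U (S.ax U x)) = U (S.W (-v) (S.ax U x)) := hU _ hv' _
  have e5 : S.W v (U (S.ax U x)) = U (S.W v (S.ax U x)) := hU _ hv _
  rw [e1, e2, e3, e4, e5]
  simp only [map_add, map_smul, map_sub, h1]

lemma cz_pos {D : Set K} {U : H ≃ₗᵢ[ℂ] H} (hU : S.Cm D U) {v : K} (hv : v ∈ D) (hv' : -v ∈ D)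
    {x : H} (hx : S.ax U x = x) : S.cz U v x = S.W (-v) x := by
  rw [S.cz_apply hU hv hv', hx]
  module

lemma cz_neg {D : Set K} {U : H ≃ₗᵢ[ℂ] H} (hU : S.Cm D U) {v : K} (hv : v ∈ D) (hv' : -v ∈ D)
    {x : H} (hx : S.ax U x = -x) : S.cz U v x = S.W v x := by
  rw [S.cz_apply hU hv hv', hx, map_neg, map_neg]
  module

/-- the eigenvector rule: on `U^* Z U = ε` the gate is the Weyl operator `W (-ε v)` -/
lemma cz_eig {D : Submodule ℝ K} {U : H ≃ₗᵢ[ℂ] H} (hU : S.Cm D U) {v : K} (hv : v ∈ D)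
    {ε : ℝ} (hε : ε = 1 ∨ ε = -1) {x : H} (hx : S.ax U x = ((ε : ℝ) : ℂ) • x) :
    S.cz U v x = S.W (((-ε : ℝ) : ℂ) • v) x := by
  have hv' : -v ∈ (D : Set K) := D.neg_mem hv
  rcases hε with rfl | rfl
  · rw [S.cz_pos hU hv hv' (by rw [hx]; simp)]
    congr 2
    simp
  · rw [S.cz_neg hU hv hv' (by rw [hx]; simp)]
    congr 2
    simp

/-- coupling gate: conjugated `C` gate -/
noncomputable def cg (U : H ≃ₗᵢ[ℂ] H) (g : ℝ) (V : H ≃ₗᵢ[ℂ] H) : H ≃ₗᵢ[ℂ] H :=
  S.cz U ((g : ℂ) • S.iota (V⁻¹ (S.ax U (V S.Om)))) * V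

/-- the conjugated gate as a word: `U`, then `C g`, then `U⁻¹` -/
lemma cg_eq (U : H ≃ₗᵢ[ℂ] H) (g : ℝ) (V : H ≃ₗᵢ[ℂ] H) :
    S.cg U g V = U⁻¹ * S.step (Gate.C g) (U * V) := by
  have h : S.step (Gate.C g) (U * V)
      = S.zr ((g : ℂ) • S.iota (V⁻¹ (S.ax U (V S.Om)))) * (U * V) := rfl
  rw [h]
  unfold cg cz
  simp only [mul_assoc]

lemma cg_step_mul (U : H ≃ₗᵢ[ℂ] H) (g : ℝ) (V : H ≃ₗᵢ[ℂ] H) :
    S.step (Gate.C g) (U * V) = U * S.cg U g V := by
  rw [S.cg_eq, ← mul_assoc, mul_inv_cancel, one_mul]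

lemma W_W_real {a b : K} (h : (inner ℂ a b : ℂ).im = 0) (x : H) :
    S.W a (S.W b x) = S.W (a + b) x := by
  rw [S.WW, h]
  simp

/-- four commuting Weyl factors -/
lemma W4 {a b c d : K} (hab : (inner ℂ b a : ℂ).im = 0) (hac : (inner ℂ c a : ℂ).im = 0)
    (had : (inner ℂ d a : ℂ).im = 0) (hbc : (inner ℂ c b : ℂ).im = 0)
    (hbd : (inner ℂ d b : ℂ).im = 0) (hcd : (inner ℂ d c : ℂ).im = 0) (x : H) :
    S.W d (S.W c (S.W b (S.W a x))) = S.W (a + b + c + d) x := by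
  have e1 : (inner ℂ c (b + a) : ℂ).im = 0 := by
    rw [inner_add_right, Complex.add_im, hac, hbc, add_zero]
  have e2 : (inner ℂ d (c + (b + a)) : ℂ).im = 0 := by
    rw [inner_add_right, inner_add_right, Complex.add_im, Complex.add_im, had, hbd, hcd]
    simp
  rw [S.W_W_real hab, S.W_W_real e1, S.W_W_real e2]
  congr 2
  abel

/-- conjugated gates commute with commuting axes -/
lemma cz_comm {D : Submodule ℝ K} {U A : H ≃ₗᵢ[ℂ] H} (hU : S.Cm D U) (hA : S.Cm D A) {v : K}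
    (hv : v ∈ D) (hAU : ∀ x, A (S.ax U x) = S.ax U (A x)) (x : H) :
    A (S.cz U v x) = S.cz U v (A x) := by
  have hv' : -v ∈ (D : Set K) := D.neg_mem hv
  have hv1 : v ∈ (D : Set K) := hv
  rw [S.cz_apply hU hv1 hv', S.cz_apply hU hv1 hv']
  simp only [map_add, map_smul, map_sub]
  rw [hA _ hv1, hA _ hv', ← hAU, hA _ hv1, hA _ hv']

/-- the field vector of an axis -/
noncomputable def fx (A V : H ≃ₗᵢ[ℂ] H) : H := V⁻¹ (A (V S.Om))

lemma fx_mul {A E V : H ≃ₗᵢ[ℂ] H} (h : ∀ x, A (E x) = E (A x)) : S.fx A (E * V) = S.fx A V := by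
  unfold fx
  change V⁻¹ (E⁻¹ (A (E (V S.Om)))) = _
  rw [h]
  congr 1
  exact E.symm_apply_apply _

lemma im_fx {U U' V : H ≃ₗᵢ[ℂ] H} (h : ∀ x, S.ax U (S.ax U' x) = S.ax U' (S.ax U x)) :
    (inner ℂ (S.fx (S.ax U) V) (S.fx (S.ax U') V) : ℂ).im = 0 := by
  have e1 : (inner ℂ (S.fx (S.ax U) V) (S.fx (S.ax U') V) : ℂ)
      = inner ℂ (S.ax U (V S.Om)) (S.ax U' (V S.Om)) := (V⁻¹).inner_map_map _ _
  have e2 : (inner ℂ (S.ax U (V S.Om)) (S.ax U' (V S.Om)) : ℂ)
      = (starRingEnd ℂ) (inner ℂ (S.ax U (V S.Om)) (S.ax U' (V S.Om))) := by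
    rw [inner_conj_symm]
    rw [S.inner_ax, h, ← S.inner_ax]
  rw [e1]
  have h3 := congrArg Complex.im e2
  rw [Complex.conj_im] at h3
  linarith

/-- data of an exact coupling: four axes `P ± Q ± T` -/
structure Four (D : Submodule ℝ K) (U : Fin 4 → (H ≃ₗᵢ[ℂ] H)) (P Q T : H →ₗ[ℂ] H) : Prop where
  cm : ∀ i, S.Cm D (U i)
  h0 : ∀ x, S.ax (U 0) x = P x + Q x + T x
  h1 : ∀ x, S.ax (U 1) x = P x - Q x + T x
  h2 : ∀ x, S.ax (U 2) x = P x + Q x - T x
  h3 : ∀ x, S.ax (U 3) x = P x - Q x - T x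
  PQ : ∀ x, P (Q x) = 0
  QP : ∀ x, Q (P x) = 0
  PT : ∀ x, P (T x) = 0
  TP : ∀ x, T (P x) = 0
  QT : ∀ x, Q (T x) = 0
  TQ : ∀ x, T (Q x) = 0

namespace Four

variable {S} {D : Submodule ℝ K} {U : Fin 4 → (H ≃ₗᵢ[ℂ] H)} {P Q T : H →ₗ[ℂ] H}

lemma comm (h : S.Four D U P Q T) (i j : Fin 4) (x : H) :
    S.ax (U i) (S.ax (U j) x) = S.ax (U j) (S.ax (U i) x) := by
  fin_cases i <;> fin_cases j <;>
    simp only [Fin.zero_eta, Fin.mk_one, Fin.reduceFinMk, h.h0, h.h1, h.h2, h.h3, map_add, map_sub,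
      h.PQ, h.QP, h.PT, h.TP, h.QT, h.TQ] <;> abel

lemma sum_sq (h : S.Four D U P Q T) (x : H) : P (P x) + Q (Q x) + T (T x) = x := by
  have h1 := S.ax_ax (U 0) x
  simp only [h.h0, map_add, h.PQ, h.QP, h.PT, h.TP, h.QT, h.TQ, add_zero, zero_add] at h1
  exact h1

lemma PPP (h : S.Four D U P Q T) (x : H) : P (P (P x)) = P x := by
  have h1 := congrArg P (h.sum_sq x)
  simpa only [map_add, h.PQ, h.PT, add_zero] using h1

lemma QQQ (h : S.Four D U P Q T) (x : H) : Q (Q (Q x)) = Q x := by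
  have h1 := congrArg Q (h.sum_sq x)
  simpa only [map_add, h.QP, h.QT, add_zero, zero_add] using h1

lemma TTT (h : S.Four D U P Q T) (x : H) : T (T (T x)) = T x := by
  have h1 := congrArg T (h.sum_sq x)
  simpa only [map_add, h.TP, h.TQ, zero_add] using h1

end Four

/-- four commuting conjugated gates on a joint eigenvector -/
lemma four_eig {D : Submodule ℝ K} {U : Fin 4 → (H ≃ₗᵢ[ℂ] H)} (hU : ∀ i, S.Cm D (U i))
    {v : Fin 4 → K} (hv : ∀ i, v i ∈ D) (him : ∀ i j, (inner ℂ (v i) (v j) : ℂ).im = 0)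
    {ε : Fin 4 → ℝ} (hε : ∀ i, ε i = 1 ∨ ε i = -1) {x : H}
    (hx : ∀ i, S.ax (U i) x = ((ε i : ℝ) : ℂ) • x) :
    S.cz (U 3) (v 3) (S.cz (U 2) (v 2) (S.cz (U 1) (v 1) (S.cz (U 0) (v 0) x)))
      = S.W (((-ε 0 : ℝ) : ℂ) • v 0 + ((-ε 1 : ℝ) : ℂ) • v 1 + ((-ε 2 : ℝ) : ℂ) • v 2
        + ((-ε 3 : ℝ) : ℂ) • v 3) x := by
  have hD : ∀ i, ((-ε i : ℝ) : ℂ) • v i ∈ D := by
    intro i
    have : ((-ε i : ℝ) : ℂ) • v i = (-ε i) • v i := Complex.coe_smul _ _
    rw [this]
    exact D.smul_mem _ (hv i)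
  have hW : ∀ (d : K), d ∈ D → ∀ i y, S.ax (U i) y = ((ε i : ℝ) : ℂ) • y →
      S.ax (U i) (S.W d y) = ((ε i : ℝ) : ℂ) • S.W d y := by
    intro d hd i y hy
    rw [← (Cm.ax S (hU i)) d hd, hy, map_smul]
  have him2 : ∀ i j, (inner ℂ (((-ε i : ℝ) : ℂ) • v i) (((-ε j : ℝ) : ℂ) • v j) : ℂ).im = 0 := by
    intro i j
    rw [inner_smul_left, inner_smul_right, Complex.conj_ofReal, Complex.im_ofReal_mul,
      Complex.im_ofReal_mul, him]
    simp
  rw [S.cz_eig (hU 0) (hv 0) (hε 0) (hx 0),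
    S.cz_eig (hU 1) (hv 1) (hε 1) (hW _ (hD 0) 1 _ (hx 1)),
    S.cz_eig (hU 2) (hv 2) (hε 2) (hW _ (hD 1) 2 _ (hW _ (hD 0) 2 _ (hx 2))),
    S.cz_eig (hU 3) (hv 3) (hε 3)
      (hW _ (hD 2) 3 _ (hW _ (hD 1) 3 _ (hW _ (hD 0) 3 _ (hx 3))))]
  exact S.W4 (him2 1 0) (him2 2 0) (him2 3 0) (him2 2 1) (him2 3 1) (him2 3 2) x

/-- the four gates one after the other -/
noncomputable def cg4 (U : Fin 4 → (H ≃ₗᵢ[ℂ] H)) (t : ℝ) (V : H ≃ₗᵢ[ℂ] H) : H ≃ₗᵢ[ℂ] H :=
  S.cg (U 3) t (S.cg (U 2) (-t) (S.cg (U 1) t (S.cg (U 0) (-t) V)))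

/-- signs of the four gates -/
def sg4 : Fin 4 → ℝ := ![-1, 1, -1, 1]

lemma cg4_eq {D : Submodule ℝ K} {U : Fin 4 → (H ≃ₗᵢ[ℂ] H)} {P Q T : H →ₗ[ℂ] H}
    (h : S.Four D U P Q T) (t : ℝ) (V : H ≃ₗᵢ[ℂ] H)
    (hD : ∀ i, S.iota (S.fx (S.ax (U i)) V) ∈ D) :
    S.cg4 U t V = S.cz (U 3) (((sg4 3 * t : ℝ) : ℂ) • S.iota (S.fx (S.ax (U 3)) V)) *
      (S.cz (U 2) (((sg4 2 * t : ℝ) : ℂ) • S.iota (S.fx (S.ax (U 2)) V)) *
      (S.cz (U 1) (((sg4 1 * t : ℝ) : ℂ) • S.iota (S.fx (S.ax (U 1)) V)) *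
      (S.cz (U 0) (((sg4 0 * t : ℝ) : ℂ) • S.iota (S.fx (S.ax (U 0)) V)) * V))) := by
  have hm : ∀ i (r : ℝ), ((r : ℝ) : ℂ) • S.iota (S.fx (S.ax (U i)) V) ∈ D := by
    intro i r
    have : ((r : ℝ) : ℂ) • S.iota (S.fx (S.ax (U i)) V) = r • S.iota (S.fx (S.ax (U i)) V) :=
      Complex.coe_smul _ _
    rw [this]
    exact D.smul_mem _ (hD i)
  have hc : ∀ i j (r : ℝ) x, S.ax (U j) (S.cz (U i) (((r : ℝ) : ℂ) • S.iota (S.fx (S.ax (U i)) V)) x)
      = S.cz (U i) (((r : ℝ) : ℂ) • S.iota (S.fx (S.ax (U i)) V)) (S.ax (U j) x) := by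
    intro i j r x
    exact S.cz_comm (h.cm i) (Cm.ax S (h.cm j)) (hm i r) (fun y => h.comm j i y) x
  have e0 : S.cg (U 0) (-t) V
      = S.cz (U 0) (((sg4 0 * t : ℝ) : ℂ) • S.iota (S.fx (S.ax (U 0)) V)) * V := by
    have : sg4 0 * t = -t := by simp [sg4]
    rw [this]
    rfl
  have e1 : S.cg (U 1) t (S.cg (U 0) (-t) V)
      = S.cz (U 1) (((sg4 1 * t : ℝ) : ℂ) • S.iota (S.fx (S.ax (U 1)) V)) *
        (S.cz (U 0) (((sg4 0 * t : ℝ) : ℂ) • S.iota (S.fx (S.ax (U 0)) V)) * V) := by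
    have h1 : sg4 1 * t = t := by simp [sg4]
    rw [h1, e0]
    change S.cz (U 1) ((t : ℂ) • S.iota (S.fx (S.ax (U 1)) _)) * _ = _
    rw [S.fx_mul (hc 0 1 _)]
  have e2 : S.cg (U 2) (-t) (S.cg (U 1) t (S.cg (U 0) (-t) V))
      = S.cz (U 2) (((sg4 2 * t : ℝ) : ℂ) • S.iota (S.fx (S.ax (U 2)) V)) *
        (S.cz (U 1) (((sg4 1 * t : ℝ) : ℂ) • S.iota (S.fx (S.ax (U 1)) V)) *
        (S.cz (U 0) (((sg4 0 * t : ℝ) : ℂ) • S.iota (S.fx (S.ax (U 0)) V)) * V)) := by
    have h1 : sg4 2 * t = -t := by simp [sg4]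
    rw [h1, e1]
    change S.cz (U 2) (((-t : ℝ) : ℂ) • S.iota (S.fx (S.ax (U 2)) _)) * _ = _
    rw [S.fx_mul (hc 1 2 _), S.fx_mul (hc 0 2 _)]
  unfold cg4
  have h1 : sg4 3 * t = t := by simp [sg4]
  rw [h1, e2]
  change S.cz (U 3) ((t : ℂ) • S.iota (S.fx (S.ax (U 3)) _)) * _ = _
  rw [S.fx_mul (hc 2 3 _), S.fx_mul (hc 1 3 _), S.fx_mul (hc 0 3 _)]

/-- the product of the four conjugated Weyl gates, as an operator -/
noncomputable def c4 (U : Fin 4 → (H ≃ₗᵢ[ℂ] H)) (t : ℝ) (V : H ≃ₗᵢ[ℂ] H) : H ≃ₗᵢ[ℂ] H :=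
  S.cz (U 3) (((sg4 3 * t : ℝ) : ℂ) • S.iota (S.fx (S.ax (U 3)) V)) *
      (S.cz (U 2) (((sg4 2 * t : ℝ) : ℂ) • S.iota (S.fx (S.ax (U 2)) V)) *
      (S.cz (U 1) (((sg4 1 * t : ℝ) : ℂ) • S.iota (S.fx (S.ax (U 1)) V)) *
      (S.cz (U 0) (((sg4 0 * t : ℝ) : ℂ) • S.iota (S.fx (S.ax (U 0)) V)))))

lemma cg4_eq_c4 {D : Submodule ℝ K} {U : Fin 4 → (H ≃ₗᵢ[ℂ] H)} {P Q T : H →ₗ[ℂ] H}
    (h : S.Four D U P Q T) (t : ℝ) (V : H ≃ₗᵢ[ℂ] H)
    (hD : ∀ i, S.iota (S.fx (S.ax (U i)) V) ∈ D) : S.cg4 U t V = S.c4 U t V * V := by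
  rw [S.cg4_eq h t V hD]
  unfold c4
  simp only [mul_assoc]

/-- the field vector of an arbitrary one-site operator -/
noncomputable def fl (P : H →ₗ[ℂ] H) (V : H ≃ₗᵢ[ℂ] H) : K := S.iota (V⁻¹ (P (V S.Om)))

lemma c4_eig {D : Submodule ℝ K} {U : Fin 4 → (H ≃ₗᵢ[ℂ] H)} {P Q T : H →ₗ[ℂ] H}
    (h : S.Four D U P Q T) (t : ℝ) (V : H ≃ₗᵢ[ℂ] H)
    (hD : ∀ i, S.iota (S.fx (S.ax (U i)) V) ∈ D)
    {ε : Fin 4 → ℝ} (hε : ∀ i, ε i = 1 ∨ ε i = -1) {x : H}
    (hx : ∀ i, S.ax (U i) x = ((ε i : ℝ) : ℂ) • x) :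
    S.c4 U t V x = S.W (((t * (ε 0 - ε 1 + ε 2 - ε 3) : ℝ) : ℂ) • S.fl P V
      + ((t * (ε 0 + ε 1 + ε 2 + ε 3) : ℝ) : ℂ) • S.fl Q V
      + ((t * (ε 0 - ε 1 - ε 2 + ε 3) : ℝ) : ℂ) • S.fl T V) x := by
  have hm : ∀ i (r : ℝ), ((r : ℝ) : ℂ) • S.iota (S.fx (S.ax (U i)) V) ∈ D := by
    intro i r
    have : ((r : ℝ) : ℂ) • S.iota (S.fx (S.ax (U i)) V) = r • S.iota (S.fx (S.ax (U i)) V) :=
      Complex.coe_smul _ _
    rw [this]
    exact D.smul_mem _ (hD i)
  have him : ∀ i j, (inner ℂ (((sg4 i * t : ℝ) : ℂ) • S.iota (S.fx (S.ax (U i)) V))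
      (((sg4 j * t : ℝ) : ℂ) • S.iota (S.fx (S.ax (U j)) V)) : ℂ).im = 0 := by
    intro i j
    rw [inner_smul_left, inner_smul_right, Complex.conj_ofReal, Complex.im_ofReal_mul,
      Complex.im_ofReal_mul, LinearIsometry.inner_map_map, S.im_fx (h.comm i j)]
    simp
  have h4 := S.four_eig h.cm (v := fun i => ((sg4 i * t : ℝ) : ℂ) • S.iota (S.fx (S.ax (U i)) V))
    (fun i => hm i (sg4 i * t)) him hε hx
  refine Eq.trans (show S.c4 U t V x = _ from rfl) (h4.trans ?_)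
  refine congrArg (fun a => S.W a x) ?_
  have e0 : S.iota (S.fx (S.ax (U 0)) V) = S.fl P V + S.fl Q V + S.fl T V := by
    unfold fx fl
    rw [h.h0, map_add, map_add, map_add, map_add]
  have e1 : S.iota (S.fx (S.ax (U 1)) V) = S.fl P V - S.fl Q V + S.fl T V := by
    unfold fx fl
    rw [h.h1, map_add, map_sub, map_add, map_sub]
  have e2 : S.iota (S.fx (S.ax (U 2)) V) = S.fl P V + S.fl Q V - S.fl T V := by
    unfold fx fl
    rw [h.h2, map_sub, map_add, map_sub, map_add]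
  have e3 : S.iota (S.fx (S.ax (U 3)) V) = S.fl P V - S.fl Q V - S.fl T V := by
    unfold fx fl
    rw [h.h3, map_sub, map_sub, map_sub, map_sub]
  have s0 : sg4 0 = -1 := by simp [sg4]
  have s1 : sg4 1 = 1 := by simp [sg4]
  have s2 : sg4 2 = -1 := by simp [sg4]
  have s3 : sg4 3 = 1 := by simp [sg4]
  simp only [e0, e1, e2, e3, s0, s1, s2, s3]
  generalize S.fl P V = a1
  generalize S.fl Q V = a2
  generalize S.fl T V = a3
  generalize ε 0 = r0
  generalize ε 1 = r1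
  generalize ε 2 = r2
  generalize ε 3 = r3
  push_cast
  module

/-- **exact coupling**: on `P = ε` the four gates act as `exp(-i c ε phi(fl Q))` -/
theorem c4_P {D : Submodule ℝ K} {U : Fin 4 → (H ≃ₗᵢ[ℂ] H)} {P Q T : H →ₗ[ℂ] H}
    (h : S.Four D U P Q T) (c : ℝ) (V : H ≃ₗᵢ[ℂ] H)
    (hD : ∀ i, S.iota (S.fx (S.ax (U i)) V) ∈ D) {ε : ℝ} (hε : ε = 1 ∨ ε = -1) {x : H}
    (hx : P x = ((ε : ℝ) : ℂ) • x) :
    S.c4 U (-(c / 4)) V x = S.W (((-(ε * c) : ℝ) : ℂ) • S.fl Q V) x := by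
  have hεε : ((ε : ℝ) : ℂ) * ((ε : ℝ) : ℂ) = 1 := by rcases hε with rfl | rfl <;> norm_num
  have hx1 : x = ((ε : ℝ) : ℂ) • P x := by rw [hx, smul_smul, hεε, one_smul]
  have hQ : Q x = 0 := by rw [hx1, map_smul, h.QP, smul_zero]
  have hT : T x = 0 := by rw [hx1, map_smul, h.TP, smul_zero]
  have h1 := S.c4_eig h (-(c / 4)) V hD (ε := fun _ => ε) (fun _ => hε) (x := x) (by
    intro i
    fin_cases i <;>
      simp only [Fin.zero_eta, Fin.mk_one, Fin.reduceFinMk, h.h0, h.h1, h.h2, h.h3, hx, hQ, hT,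
        add_zero, sub_zero])
  rw [h1]
  congr 2
  push_cast
  module

/-- on `Q = ε` the four gates act as `exp(-i c ε phi(fl P))` -/
theorem c4_Q {D : Submodule ℝ K} {U : Fin 4 → (H ≃ₗᵢ[ℂ] H)} {P Q T : H →ₗ[ℂ] H}
    (h : S.Four D U P Q T) (c : ℝ) (V : H ≃ₗᵢ[ℂ] H)
    (hD : ∀ i, S.iota (S.fx (S.ax (U i)) V) ∈ D) {ε : ℝ} (hε : ε = 1 ∨ ε = -1) {x : H}
    (hx : Q x = ((ε : ℝ) : ℂ) • x) :
    S.c4 U (-(c / 4)) V x = S.W (((-(ε * c) : ℝ) : ℂ) • S.fl P V) x := by
  have hεε : ((ε : ℝ) : ℂ) * ((ε : ℝ) : ℂ) = 1 := by rcases hε with rfl | rfl <;> norm_num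
  have hε' : -ε = 1 ∨ -ε = -1 := by rcases hε with rfl | rfl <;> norm_num
  have hx1 : x = ((ε : ℝ) : ℂ) • Q x := by rw [hx, smul_smul, hεε, one_smul]
  have hP : P x = 0 := by rw [hx1, map_smul, h.PQ, smul_zero]
  have hT : T x = 0 := by rw [hx1, map_smul, h.TQ, smul_zero]
  have h1 := S.c4_eig h (-(c / 4)) V hD (ε := ![ε, -ε, ε, -ε]) (by
    intro i
    fin_cases i <;> simp only [Fin.zero_eta, Fin.mk_one, Fin.reduceFinMk, Matrix.cons_val_zero,
      Matrix.cons_val_one, Matrix.cons_val] <;> assumption) (x := x) (by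
    intro i
    fin_cases i <;>
      simp only [Fin.zero_eta, Fin.mk_one, Fin.reduceFinMk, h.h0, h.h1, h.h2, h.h3, hx, hP, hT,
        Matrix.cons_val_zero, Matrix.cons_val_one, Matrix.cons_val, add_zero, sub_zero, zero_add,
        zero_sub, Complex.ofReal_neg, neg_smul])
  rw [h1]
  congr 2
  simp only [Matrix.cons_val_zero, Matrix.cons_val_one, Matrix.cons_val]
  push_cast
  module

/-- on `T = ε` the four gates act trivially -/
theorem c4_T {D : Submodule ℝ K} {U : Fin 4 → (H ≃ₗᵢ[ℂ] H)} {P Q T : H →ₗ[ℂ] H}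
    (h : S.Four D U P Q T) (c : ℝ) (V : H ≃ₗᵢ[ℂ] H)
    (hD : ∀ i, S.iota (S.fx (S.ax (U i)) V) ∈ D) {ε : ℝ} (hε : ε = 1 ∨ ε = -1) {x : H}
    (hx : T x = ((ε : ℝ) : ℂ) • x) : S.c4 U (-(c / 4)) V x = x := by
  have hεε : ((ε : ℝ) : ℂ) * ((ε : ℝ) : ℂ) = 1 := by rcases hε with rfl | rfl <;> norm_num
  have hε' : -ε = 1 ∨ -ε = -1 := by rcases hε with rfl | rfl <;> norm_num
  have hx1 : x = ((ε : ℝ) : ℂ) • T x := by rw [hx, smul_smul, hεε, one_smul]
  have hP : P x = 0 := by rw [hx1, map_smul, h.PT, smul_zero]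
  have hQ : Q x = 0 := by rw [hx1, map_smul, h.QT, smul_zero]
  have h1 := S.c4_eig h (-(c / 4)) V hD (ε := ![ε, ε, -ε, -ε]) (by
    intro i
    fin_cases i <;> simp only [Fin.zero_eta, Fin.mk_one, Fin.reduceFinMk, Matrix.cons_val_zero,
      Matrix.cons_val_one, Matrix.cons_val] <;> assumption) (x := x) (by
    intro i
    fin_cases i <;>
      simp only [Fin.zero_eta, Fin.mk_one, Fin.reduceFinMk, h.h0, h.h1, h.h2, h.h3, hx, hP, hQ,
        Matrix.cons_val_zero, Matrix.cons_val_one, Matrix.cons_val, add_zero, sub_zero, zero_add,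
        zero_sub, Complex.ofReal_neg, neg_smul])
  rw [h1]
  simp only [Matrix.cons_val_zero, Matrix.cons_val_one, Matrix.cons_val]
  have e : ((-(c / 4) * (ε - ε + -ε - -ε) : ℝ) : ℂ) • S.fl P V
      + ((-(c / 4) * (ε + ε + -ε + -ε) : ℝ) : ℂ) • S.fl Q V
      + ((-(c / 4) * (ε - ε - -ε + -ε) : ℝ) : ℂ) • S.fl T V = 0 := by
    push_cast
    module
  rw [e, S.W_zero_apply]

/-- the full exact coupling formula: `exp(-i c P phi(fl Q)) exp(-i c Q phi(fl P))` -/
theorem c4_apply {D : Submodule ℝ K} {U : Fin 4 → (H ≃ₗᵢ[ℂ] H)} {P Q T : H →ₗ[ℂ] H}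
    (h : S.Four D U P Q T) (c : ℝ) (V : H ≃ₗᵢ[ℂ] H)
    (hD : ∀ i, S.iota (S.fx (S.ax (U i)) V) ∈ D) (x : H) :
    S.c4 U (-(c / 4)) V x =
      S.W (((-c : ℝ) : ℂ) • S.fl Q V) ((1 / 2 : ℂ) • (P (P x) + P x))
      + S.W (((c : ℝ) : ℂ) • S.fl Q V) ((1 / 2 : ℂ) • (P (P x) - P x))
      + (S.W (((-c : ℝ) : ℂ) • S.fl P V) ((1 / 2 : ℂ) • (Q (Q x) + Q x))
      + S.W (((c : ℝ) : ℂ) • S.fl P V) ((1 / 2 : ℂ) • (Q (Q x) - Q x)))
      + T (T x) := by
  have hx : x = (1 / 2 : ℂ) • (P (P x) + P x) + (1 / 2 : ℂ) • (P (P x) - P x)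
      + ((1 / 2 : ℂ) • (Q (Q x) + Q x) + (1 / 2 : ℂ) • (Q (Q x) - Q x))
      + ((1 / 2 : ℂ) • (T (T x) + T x) + (1 / 2 : ℂ) • (T (T x) - T x)) := by
    conv_lhs => rw [← h.sum_sq x]
    module
  have p1 := S.c4_P h c V hD (ε := 1) (Or.inl rfl) (x := (1 / 2 : ℂ) • (P (P x) + P x)) (by
    rw [map_smul, map_add, h.PPP]; simp [add_comm])
  have p2 := S.c4_P h c V hD (ε := -1) (Or.inr rfl) (x := (1 / 2 : ℂ) • (P (P x) - P x)) (by
    rw [map_smul, map_sub, h.PPP]; push_cast; module)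
  have q1 := S.c4_Q h c V hD (ε := 1) (Or.inl rfl) (x := (1 / 2 : ℂ) • (Q (Q x) + Q x)) (by
    rw [map_smul, map_add, h.QQQ]; simp [add_comm])
  have q2 := S.c4_Q h c V hD (ε := -1) (Or.inr rfl) (x := (1 / 2 : ℂ) • (Q (Q x) - Q x)) (by
    rw [map_smul, map_sub, h.QQQ]; push_cast; module)
  have t1 := S.c4_T h c V hD (ε := 1) (Or.inl rfl) (x := (1 / 2 : ℂ) • (T (T x) + T x)) (by
    rw [map_smul, map_add, h.TTT]; simp [add_comm])
  have t2 := S.c4_T h c V hD (ε := -1) (Or.inr rfl) (x := (1 / 2 : ℂ) • (T (T x) - T x)) (by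
    rw [map_smul, map_sub, h.TTT]; push_cast; module)
  conv_lhs => rw [hx]
  rw [map_add, map_add, map_add, map_add, map_add, p1, p2, q1, q2, t1, t2]
  simp only [one_mul, neg_mul, neg_neg]
  module

/-- **exact coupling gate**: the word of four `C` gates applied to `V` -/
theorem cg4_apply {D : Submodule ℝ K} {U : Fin 4 → (H ≃ₗᵢ[ℂ] H)} {P Q T : H →ₗ[ℂ] H}
    (h : S.Four D U P Q T) (c : ℝ) (V : H ≃ₗᵢ[ℂ] H)
    (hD : ∀ i, S.iota (S.fx (S.ax (U i)) V) ∈ D) (x : H) :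
    S.cg4 U (-(c / 4)) V x =
      S.W (((-c : ℝ) : ℂ) • S.fl Q V) ((1 / 2 : ℂ) • (P (P (V x)) + P (V x)))
      + S.W (((c : ℝ) : ℂ) • S.fl Q V) ((1 / 2 : ℂ) • (P (P (V x)) - P (V x)))
      + (S.W (((-c : ℝ) : ℂ) • S.fl P V) ((1 / 2 : ℂ) • (Q (Q (V x)) + Q (V x)))
      + S.W (((c : ℝ) : ℂ) • S.fl P V) ((1 / 2 : ℂ) • (Q (Q (V x)) - Q (V x))))
      + T (T (V x)) := by
  rw [S.cg4_eq_c4 h _ V hD]
  exact S.c4_apply h c V hD (V x)

end Sys

end Vale.Agent.P367.A
end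

section

/-! P367, block B, BASE: calculus of label functions. -/

namespace Vale.Agent.P367.A

open Complex Filter Topology MeasureTheory

lemma Bm.cst (c : ℂ) : Bm fun _ => c := ⟨measurable_const, ‖c‖, fun _ => le_rfl⟩

lemma Bm.ad {f g : ℝ → ℂ} (hf : Bm f) (hg : Bm g) : Bm fun t => f t + g t := by
  obtain ⟨C, hC⟩ := hf.2
  obtain ⟨D, hD⟩ := hg.2
  exact ⟨hf.1.add hg.1, C + D, fun t => (norm_add_le _ _).trans (add_le_add (hC t) (hD t))⟩

lemma Bm.ml {f g : ℝ → ℂ} (hf : Bm f) (hg : Bm g) : Bm fun t => f t * g t := by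
  obtain ⟨C, hC⟩ := hf.2
  obtain ⟨D, hD⟩ := hg.2
  refine ⟨hf.1.mul hg.1, C * D, fun t => ?_⟩
  rw [norm_mul]
  exact mul_le_mul (hC t) (hD t) (norm_nonneg _) ((norm_nonneg _).trans (hC t))

lemma Bm.cj {f : ℝ → ℂ} (hf : Bm f) : Bm fun t => (starRingEnd ℂ) (f t) := by
  obtain ⟨C, hC⟩ := hf.2
  refine ⟨Complex.continuous_conj.measurable.comp hf.1, C, fun t => ?_⟩
  rw [RCLike.norm_conj]
  exact hC t

lemma Bm.ndc {b : Set ℝ} (hb : MeasurableSet b) : Bm (b.indicator fun _ => (1 : ℂ)) := by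
  refine ⟨measurable_const.indicator hb, 1, fun t => ?_⟩
  by_cases ht : t ∈ b
  · rw [Set.indicator_of_mem ht]; simp
  · rw [Set.indicator_of_notMem ht]; simp

lemma Bm.cm {f : ℝ → ℂ} (hf : Bm f) (c : ℂ) : Bm fun t => c * f t := (Bm.cst c).ml hf

/-- continuous functions of bounded functions -/
lemma Bm.comp {f : ℝ → ℂ} (hf : Bm f) {φ : ℂ → ℂ} (hφ : Continuous φ) : Bm fun t => φ (f t) := by
  obtain ⟨C, hC⟩ := hf.2
  obtain ⟨D, hD⟩ := (isCompact_closedBall (0 : ℂ) C).exists_bound_of_continuousOn hφ.continuousOn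
  exact ⟨hφ.measurable.comp hf.1, D, fun t => hD _ (by simpa using hC t)⟩

lemma Br.cst (c : ℝ) : LSys.Br fun _ => (c : ℂ) := ⟨Bm.cst _, fun _ => Complex.ofReal_im c⟩

namespace LSys

variable {H K : Type*} [NormedAddCommGroup H] [InnerProductSpace ℂ H]
  [NormedAddCommGroup K] [InnerProductSpace ℂ K] (L : LSys H K)

lemma b_mul {f g : ℝ → ℂ} (hf : Bm f) (hg : Bm g) (x : H) :
    L.lab f (L.lab g x) = L.lab (fun t => f t * g t) x := by
  rw [L.lab_mul f g hf hg]
  rfl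

lemma b_add {f g : ℝ → ℂ} (hf : Bm f) (hg : Bm g) (x : H) :
    L.lab f x + L.lab g x = L.lab (fun t => f t + g t) x := by
  rw [L.lab_add f g hf hg]
  rfl

lemma b_const (c : ℂ) (x : H) : L.lab (fun _ => c) x = c • x := by
  rw [L.lab_const]
  rfl

lemma b_smul {f : ℝ → ℂ} (hf : Bm f) (c : ℂ) (x : H) :
    L.lab (fun t => c * f t) x = c • L.lab f x := by
  rw [← L.b_mul (Bm.cst c) hf, L.b_const]

lemma b_comm {f g : ℝ → ℂ} (hf : Bm f) (hg : Bm g) (x : H) :
    L.lab f (L.lab g x) = L.lab g (L.lab f x) := by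
  rw [L.b_mul hf hg, L.b_mul hg hf]
  congr 2
  funext t
  ring

lemma b_normsq {f : ℝ → ℂ} (hf : Bm f) (x : H) : ((‖L.lab f x‖ ^ 2 : ℝ) : ℂ)
    = inner ℂ x (L.lab (fun t => (starRingEnd ℂ) (f t) * f t) x) := by
  rw [← L.b_mul hf.cj hf, ← L.lab_adj f hf, inner_self_eq_norm_sq_to_K]
  push_cast
  rfl

/-- norm bound for label functions -/
lemma b_norm {f : ℝ → ℂ} (hf : Bm f) {C : ℝ} (hC0 : 0 ≤ C) (hC : ∀ t, ‖f t‖ ≤ C) (x : H) :
    ‖L.lab f x‖ ≤ C * ‖x‖ := by
  set h : ℝ → ℂ := fun t => ((Real.sqrt (C ^ 2 - ‖f t‖ ^ 2) : ℝ) : ℂ) with hh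
  have hpos : ∀ t, 0 ≤ C ^ 2 - ‖f t‖ ^ 2 := by
    intro t
    have := hC t
    have h0 := norm_nonneg (f t)
    nlinarith
  have hm : Bm h := by
    refine ⟨?_, C, fun t => ?_⟩
    · refine Complex.measurable_ofReal.comp ?_
      refine Real.continuous_sqrt.measurable.comp ?_
      exact measurable_const.sub (hf.1.norm.pow_const 2)
    · rw [hh]
      simp only [Complex.norm_real, Real.norm_eq_abs]
      rw [abs_of_nonneg (Real.sqrt_nonneg _)]
      refine (Real.sqrt_le_sqrt (?_ : _ ≤ C ^ 2)).trans ?_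
      · have := sq_nonneg ‖f t‖; linarith
      · rw [Real.sqrt_sq hC0]
  have e1 := L.b_normsq hf x
  have e2 := L.b_normsq hm x
  have e3 : ((‖L.lab f x‖ ^ 2 : ℝ) : ℂ) + ((‖L.lab h x‖ ^ 2 : ℝ) : ℂ) = ((C ^ 2 * ‖x‖ ^ 2 : ℝ) : ℂ) := by
    rw [e1, e2, ← inner_add_right, L.b_add (hf.cj.ml hf) (hm.cj.ml hm)]
    have e4 : (fun t => (starRingEnd ℂ) (f t) * f t + (starRingEnd ℂ) (h t) * h t)
        = fun _ => ((C ^ 2 : ℝ) : ℂ) := by
      funext t
      have e5 : (starRingEnd ℂ) (f t) * f t = ((‖f t‖ ^ 2 : ℝ) : ℂ) := by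
        rw [mul_comm, Complex.mul_conj, Complex.normSq_eq_norm_sq]
      have e6 : (starRingEnd ℂ) (h t) * h t = ((C ^ 2 - ‖f t‖ ^ 2 : ℝ) : ℂ) := by
        rw [hh]
        simp only [Complex.conj_ofReal]
        rw [← Complex.ofReal_mul, Real.mul_self_sqrt (hpos t)]
      rw [e5, e6, ← Complex.ofReal_add]
      congr 1
      ring
    rw [e4, L.b_const, inner_smul_right, inner_self_eq_norm_sq_to_K]
    push_cast
    rfl
  have e7 : ‖L.lab f x‖ ^ 2 + ‖L.lab h x‖ ^ 2 = C ^ 2 * ‖x‖ ^ 2 := by exact_mod_cast e3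
  have e8 : ‖L.lab f x‖ ^ 2 ≤ (C * ‖x‖) ^ 2 := by
    rw [mul_pow]
    nlinarith [sq_nonneg ‖L.lab h x‖]
  exact (pow_le_pow_iff_left₀ (norm_nonneg _) (by positivity) (by norm_num)).1 e8

lemma b_opnorm {f : ℝ → ℂ} (hf : Bm f) {C : ℝ} (hC0 : 0 ≤ C) (hC : ∀ t, ‖f t‖ ≤ C) :
    ‖L.lab f‖ ≤ C := ContinuousLinearMap.opNorm_le_bound _ hC0 (L.b_norm hf hC0 hC)

lemma exp_tail (C : ℝ) (n : ℕ) {z : ℂ} (hz : ‖z‖ ≤ C) :
    ‖Complex.exp z - ∑ m ∈ Finset.range n, z ^ m / (m.factorial : ℂ)‖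
      ≤ Real.exp C - ∑ m ∈ Finset.range n, C ^ m / (m.factorial : ℝ) := by
  refine (Complex.norm_exp_sub_sum_le_exp_norm_sub_sum z n).trans ?_
  have h1 : ∀ r : ℝ, HasSum (fun m : ℕ => r ^ (m + n) / ((m + n).factorial : ℝ))
      (Real.exp r - ∑ m ∈ Finset.range n, r ^ m / (m.factorial : ℝ)) := by
    intro r
    have h2 : HasSum (fun m : ℕ => r ^ m / (m.factorial : ℝ)) (Real.exp r) := by
      rw [Real.exp_eq_exp_ℝ]
      exact NormedSpace.expSeries_div_hasSum_exp r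
    exact (hasSum_nat_add_iff' n).2 h2
  exact hasSum_le (fun m => by gcongr) (h1 ‖z‖) (h1 C)

lemma tail_tendsto (C : ℝ) : Tendsto (fun n : ℕ => Real.exp C
    - ∑ m ∈ Finset.range n, C ^ m / (m.factorial : ℝ)) atTop (𝓝 0) := by
  have h2 : HasSum (fun m : ℕ => C ^ m / (m.factorial : ℝ)) (Real.exp C) := by
    rw [Real.exp_eq_exp_ℝ]
    exact NormedSpace.expSeries_div_hasSum_exp C
  have h3 := (tendsto_const_nhds (x := Real.exp C)).sub h2.tendsto_sum_nat
  simpa using h3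

lemma b_pow {f : ℝ → ℂ} (hf : Bm f) (n : ℕ) : Bm (fun t => f t ^ n) ∧
    (L.lab f) ^ n = L.lab (fun t => f t ^ n) := by
  induction n with
  | zero =>
    refine ⟨by simpa using Bm.cst 1, ?_⟩
    simp only [pow_zero]
    rw [L.lab_const, one_smul]
  | succ n ih =>
    simp only [pow_succ]
    exact ⟨ih.1.ml hf, by rw [ih.2, ← L.lab_mul _ _ ih.1 hf]⟩

lemma b_sum {ι : Type*} (s : Finset ι) (f : ι → ℝ → ℂ) (hf : ∀ i ∈ s, Bm (f i)) :
    Bm (fun t => ∑ i ∈ s, f i t) ∧ ∑ i ∈ s, L.lab (f i) = L.lab (fun t => ∑ i ∈ s, f i t) := by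
  classical
  induction s using Finset.induction_on with
  | empty =>
    simp only [Finset.sum_empty]
    exact ⟨Bm.cst 0, by rw [L.lab_const, zero_smul]⟩
  | insert i s hi ih =>
    have h1 := ih fun j hj => hf j (Finset.mem_insert_of_mem hj)
    have h2 := hf i (Finset.mem_insert_self i s)
    simp only [Finset.sum_insert hi]
    exact ⟨h2.ad h1.1, by rw [h1.2, ← L.lab_add _ _ h2 h1.1]⟩

lemma b_csmul {f : ℝ → ℂ} (hf : Bm f) (c : ℂ) : c • L.lab f = L.lab (fun t => c * f t) := by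
  ext x
  rw [L.b_smul hf]
  rfl

/-- the exponential series of a label function -/
lemma b_exp {f : ℝ → ℂ} (hf : Bm f) : HasSum (fun n : ℕ => ((n.factorial : ℂ)⁻¹) • (L.lab f) ^ n)
    (L.lab (fun t => Complex.exp (f t))) := by
  obtain ⟨C0, hC0⟩ := hf.2
  set C : ℝ := |C0| with hCdef
  have hC : ∀ t, ‖f t‖ ≤ C := fun t => (hC0 t).trans (le_abs_self _)
  have hCn : 0 ≤ C := abs_nonneg _
  have hexp : Bm (fun t => Complex.exp (f t)) := hf.comp Complex.continuous_exp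
  have hterm : ∀ n : ℕ, ((n.factorial : ℂ)⁻¹) • (L.lab f) ^ n
      = L.lab (fun t => (n.factorial : ℂ)⁻¹ * f t ^ n) := by
    intro n
    rw [(L.b_pow hf n).2, L.b_csmul (L.b_pow hf n).1]
  have hbm : ∀ n : ℕ, Bm (fun t => (n.factorial : ℂ)⁻¹ * f t ^ n) := fun n => (L.b_pow hf n).1.cm _
  have hsummable : Summable fun n : ℕ => ‖((n.factorial : ℂ)⁻¹) • (L.lab f) ^ n‖ := by
    have h1 : Summable fun n : ℕ => C ^ n / (n.factorial : ℝ) := Real.summable_pow_div_factorial C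
    refine Summable.of_nonneg_of_le (fun n => norm_nonneg _) (fun n => ?_) h1
    rw [hterm n]
    refine L.b_opnorm (hbm n) (by positivity) fun t => ?_
    rw [norm_mul, norm_inv, norm_pow, Complex.norm_natCast, div_eq_inv_mul]
    have := hC t
    gcongr
  rw [hasSum_iff_tendsto_nat_of_summable_norm hsummable, tendsto_iff_norm_sub_tendsto_zero]
  refine squeeze_zero (fun n => norm_nonneg _) (fun n => ?_) (tail_tendsto C)
  have h2 : ∑ m ∈ Finset.range n, ((m.factorial : ℂ)⁻¹) • (L.lab f) ^ m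
      = L.lab (fun t => ∑ m ∈ Finset.range n, (m.factorial : ℂ)⁻¹ * f t ^ m) := by
    rw [Finset.sum_congr rfl fun m _ => hterm m]
    exact (L.b_sum _ _ fun m _ => hbm m).2
  have hsum := (L.b_sum (Finset.range n) (fun m t => (m.factorial : ℂ)⁻¹ * f t ^ m)
    fun m _ => hbm m).1
  have h3 : L.lab (fun t => ∑ m ∈ Finset.range n, (m.factorial : ℂ)⁻¹ * f t ^ m)
      - L.lab (fun t => Complex.exp (f t))
      = L.lab (fun t => (∑ m ∈ Finset.range n, (m.factorial : ℂ)⁻¹ * f t ^ m)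
        + (-1) * Complex.exp (f t)) := by
    rw [L.lab_add _ _ hsum (hexp.cm (-1)), ← L.b_csmul hexp, neg_smul, one_smul, sub_eq_add_neg]
  rw [h2, h3]
  have h0 : 0 ≤ Real.exp C - ∑ m ∈ Finset.range n, C ^ m / (m.factorial : ℝ) :=
    (norm_nonneg _).trans (exp_tail C n (z := 0) (by simpa using hCn))
  refine L.b_opnorm (hsum.ad (hexp.cm (-1))) h0 fun t => ?_
  have h4 := exp_tail C n (hC t)
  rw [← norm_neg] at h4
  refine le_trans (le_of_eq ?_) h4
  congr 1
  have : ∑ m ∈ Finset.range n, (m.factorial : ℂ)⁻¹ * f t ^ m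
      = ∑ m ∈ Finset.range n, f t ^ m / (m.factorial : ℂ) :=
    Finset.sum_congr rfl fun m _ => by rw [div_eq_inv_mul]
  rw [this]
  ring

lemma b_exp_eq {f : ℝ → ℂ} (hf : Bm f) : NormedSpace.exp (L.lab f)
    = L.lab (fun t => Complex.exp (f t)) := by
  rw [NormedSpace.exp_eq_tsum ℂ]
  exact (L.b_exp hf).tsum_eq

end LSys

end Vale.Agent.P367.A
end

section

/-! P367, block B, BASE: label rotations, strong continuity. -/

namespace Vale.Agent.P367.A

open Complex Filter Topology MeasureTheory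

namespace LSys

variable {H K : Type*} [NormedAddCommGroup H] [InnerProductSpace ℂ H]
  [NormedAddCommGroup K] [InnerProductSpace ℂ K] (L : LSys H K)

/-! ### Pauli operators and label projections -/

lemma b_PP (P : Fin 3) (x : H) : L.pau P (L.pau P x) = x := by
  fin_cases P
  · exact L.XX x
  · exact L.Zt_sq _ x
  · exact L.ZZ x

lemma b_WP (P : Fin 3) (a : K) (x : H) : L.W a (L.pau P x) = L.pau P (L.W a x) := by
  fin_cases P
  · exact L.WX a x
  · exact L.W_ZtA a _ x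
  · exact L.WZ a x

lemma b_innerP (P : Fin 3) (x y : H) :
    inner ℂ (L.pau P x) y = (inner ℂ x (L.pau P y) : ℂ) := by
  have h := (L.pau P).inner_map_map x (L.pau P y)
  rwa [L.b_PP] at h

lemma b_labP (f : ℝ → ℂ) (P : Fin 3) (x : H) : L.lab f (L.pau P x) = L.pau P (L.lab f x) := by
  have hxr : ∀ t x, L.lab f (L.xr t x) = L.xr t (L.lab f x) := by
    intro t x
    rw [L.xr_apply, L.xr_apply, map_sub, map_smul, map_smul, L.lab_X]
  fin_cases P
  · exact L.lab_X f x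
  · change L.lab f (L.Zt _ x) = L.Zt _ (L.lab f x)
    rw [L.Zt_apply, L.Zt_apply, hxr, L.lab_Z]
  · exact L.lab_Z f x

lemma b_EP (b : Set ℝ) (P : Fin 3) (x : H) : L.E b (L.pau P x) = L.pau P (L.E b x) :=
  L.b_labP _ P x

lemma b_EW (b : Set ℝ) (a : K) (x : H) : L.E b (L.W a x) = L.W a (L.E b x) := L.lab_W _ a x

lemma b_EE {a b : Set ℝ} (ha : MeasurableSet a) (hb : MeasurableSet b) (x : H) :
    L.E a (L.E b x) = L.E (a ∩ b) x := by
  unfold E
  rw [L.b_mul (Bm.ndc ha) (Bm.ndc hb)]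
  congr 2
  funext t
  by_cases hta : t ∈ a <;> by_cases htb : t ∈ b <;> simp [hta, htb]

lemma b_Eempty (x : H) : L.E ∅ x = 0 := by
  unfold E
  rw [Set.indicator_empty, L.b_const, zero_smul]

lemma b_Edis {a b : Set ℝ} (ha : MeasurableSet a) (hb : MeasurableSet b) (h : Disjoint a b)
    (x : H) : L.E a (L.E b x) = 0 := by
  rw [L.b_EE ha hb, h.inter_eq, L.b_Eempty]

lemma b_Esub {a b : Set ℝ} (ha : MeasurableSet a) (hb : MeasurableSet b) (h : a ⊆ b)
    (x : H) : L.E a (L.E b x) = L.E a x := by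
  rw [L.b_EE ha hb, Set.inter_eq_left.2 h]

lemma b_Esub' {a b : Set ℝ} (ha : MeasurableSet a) (hb : MeasurableSet b) (h : a ⊆ b)
    (x : H) : L.E b (L.E a x) = L.E a x := by
  rw [L.b_EE hb ha, Set.inter_eq_right.2 h]

lemma b_Eidem {a : Set ℝ} (ha : MeasurableSet a) (x : H) : L.E a (L.E a x) = L.E a x :=
  L.b_Esub ha ha subset_rfl x

lemma b_Esa {b : Set ℝ} (hb : MeasurableSet b) (x y : H) :
    inner ℂ (L.E b x) y = (inner ℂ x (L.E b y) : ℂ) := by
  have h := L.lab_adj _ (Bm.ndc hb) x y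
  have h2 : (fun t => (starRingEnd ℂ) (b.indicator (fun _ => (1 : ℂ)) t))
      = b.indicator fun _ => 1 := by
    funext t
    by_cases ht : t ∈ b <;> simp [ht]
  rw [h2] at h
  exact h

lemma b_Enorm {b : Set ℝ} (hb : MeasurableSet b) (x : H) : ‖L.E b x‖ ≤ ‖x‖ := by
  have h := L.b_norm (Bm.ndc hb) (C := 1) zero_le_one (fun t => by
    by_cases ht : t ∈ b <;> simp [ht]) x
  rwa [one_mul] at h

lemma b_Eunion {a b : Set ℝ} (ha : MeasurableSet a) (hb : MeasurableSet b) (h : Disjoint a b)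
    (x : H) : L.E (a ∪ b) x = L.E a x + L.E b x := by
  unfold E
  rw [L.b_add (Bm.ndc ha) (Bm.ndc hb)]
  congr 2
  funext t
  by_cases hta : t ∈ a
  · have htb : t ∉ b := fun htb => (Set.disjoint_left.1 h) hta htb
    simp [hta, htb]
  · by_cases htb : t ∈ b <;> simp [hta, htb]

lemma b_sub {f g : ℝ → ℂ} (hf : Bm f) (hg : Bm g) (x : H) :
    L.lab f x - L.lab g x = L.lab (fun t => f t - g t) x := by
  have h : (fun t => f t - g t) = fun t => f t + (-1) * g t := by funext t; ring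
  rw [h, ← L.b_add hf (hg.cm (-1)), L.b_smul hg]
  module

/-! ### label rotations -/

/-- Pauli operators as bounded operators -/
noncomputable def b_pc (P : Fin 3) : H →L[ℂ] H :=
  (L.pau P).toContinuousLinearEquiv.toContinuousLinearMap

/-- `exp(-i lab f P)` -/
noncomputable def lr (f : ℝ → ℂ) (P : Fin 3) : H →L[ℂ] H :=
  L.lab (fun t => Complex.cos (f t)) - Complex.I • (L.lab (fun t => Complex.sin (f t)) * L.b_pc P)

lemma lr_apply (f : ℝ → ℂ) (P : Fin 3) (x : H) : L.lr f P x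
    = L.lab (fun t => Complex.cos (f t)) x
      - Complex.I • L.lab (fun t => Complex.sin (f t)) (L.pau P x) := rfl

lemma b_rot {f : ℝ → ℂ} (hf : Bm f) (P : Fin 3) :
    NormedSpace.exp ((-Complex.I) • (L.lab f * L.b_pc P)) = L.lr f P := by
  set Pp : H →L[ℂ] H := (1 / 2 : ℂ) • (1 + L.b_pc P) with hPp
  set Pm : H →L[ℂ] H := (1 / 2 : ℂ) • (1 - L.b_pc P) with hPm
  have hpp : ∀ x, Pp x = (1 / 2 : ℂ) • (x + L.pau P x) := fun x => rfl
  have hpm : ∀ x, Pm x = (1 / 2 : ℂ) • (x - L.pau P x) := fun x => rfl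
  have c1 : Pp * ((-Complex.I) • (L.lab f * L.b_pc P)) = ((-Complex.I) • L.lab f) * Pp := by
    ext x
    change Pp ((-Complex.I) • (L.lab f (L.pau P x))) = (-Complex.I) • L.lab f (Pp x)
    rw [hpp, hpp]
    simp only [map_smul, map_add, L.b_labP, L.b_PP]
    module
  have c2 : Pm * ((-Complex.I) • (L.lab f * L.b_pc P)) = (Complex.I • L.lab f) * Pm := by
    ext x
    change Pm ((-Complex.I) • (L.lab f (L.pau P x))) = Complex.I • L.lab f (Pm x)
    rw [hpm, hpm]
    simp only [map_smul, map_sub, L.b_labP, L.b_PP]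
    module
  have key : ∀ n : ℕ, ((-Complex.I) • (L.lab f * L.b_pc P)) ^ n
      = ((-Complex.I) • L.lab f) ^ n * Pp + (Complex.I • L.lab f) ^ n * Pm := by
    intro n
    induction n with
    | zero =>
      simp only [pow_zero, one_mul]
      rw [hPp, hPm]
      module
    | succ n ih =>
      rw [pow_succ, ih, add_mul, mul_assoc, mul_assoc, c1, c2, ← mul_assoc, ← mul_assoc,
        ← pow_succ, ← pow_succ]
  have e1 := (L.b_exp (hf.cm (-Complex.I))).mul_right Pp
  have e2 := (L.b_exp (hf.cm Complex.I)).mul_right Pm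
  rw [← L.b_csmul hf] at e1 e2
  have e3 := e1.add e2
  have e4 : (fun n : ℕ => ((n.factorial : ℂ)⁻¹ • ((-Complex.I) • L.lab f) ^ n) * Pp
      + ((n.factorial : ℂ)⁻¹ • (Complex.I • L.lab f) ^ n) * Pm)
      = fun n : ℕ => (n.factorial : ℂ)⁻¹ • ((-Complex.I) • (L.lab f * L.b_pc P)) ^ n := by
    funext n
    rw [key, smul_add, smul_mul_assoc, smul_mul_assoc]
  rw [e4] at e3
  rw [NormedSpace.exp_eq_tsum ℂ]
  change (∑' n : ℕ, (n.factorial : ℂ)⁻¹ • ((-Complex.I) • (L.lab f * L.b_pc P)) ^ n) = L.lr f P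
  rw [e3.tsum_eq]
  ext x
  change L.lab (fun t => Complex.exp (-Complex.I * f t)) (Pp x)
    + L.lab (fun t => Complex.exp (Complex.I * f t)) (Pm x) = _
  have hm1 : Bm fun t => Complex.exp (-Complex.I * f t) :=
    (hf.cm (-Complex.I)).comp Complex.continuous_exp
  have hm2 : Bm fun t => Complex.exp (Complex.I * f t) :=
    (hf.cm Complex.I).comp Complex.continuous_exp
  have hc : (fun t => Complex.cos (f t)) = fun t => (1 / 2 : ℂ) * (Complex.exp (-Complex.I * f t)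
      + Complex.exp (Complex.I * f t)) := by
    funext t
    rw [Complex.cos, add_comm (Complex.exp (-Complex.I * f t))]
    rw [show -Complex.I * f t = -(f t) * Complex.I by ring, mul_comm Complex.I]
    ring
  have hs : (fun t => Complex.sin (f t)) = fun t => (Complex.I / 2 : ℂ) *
      (Complex.exp (-Complex.I * f t) - Complex.exp (Complex.I * f t)) := by
    funext t
    rw [Complex.sin]
    rw [show -Complex.I * f t = -(f t) * Complex.I by ring, mul_comm Complex.I (f t)]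
    ring
  have hms : Bm fun t => Complex.exp (-Complex.I * f t) - Complex.exp (Complex.I * f t) := by
    have h : (fun t => Complex.exp (-Complex.I * f t) - Complex.exp (Complex.I * f t))
        = fun t => Complex.exp (-Complex.I * f t) + (-1) * Complex.exp (Complex.I * f t) := by
      funext t; ring
    rw [h]
    exact hm1.ad (hm2.cm (-1))
  rw [lr_apply, hc, hs, L.b_smul (hm1.ad hm2), L.b_smul hms, ← L.b_add hm1 hm2,
    ← L.b_sub hm1 hm2, hpp, hpm]
  simp only [map_smul, map_add, map_sub, L.b_labP]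
  generalize (L.lab fun t => Complex.exp (-Complex.I * f t)) x = u
  generalize (L.lab fun t => Complex.exp (Complex.I * f t)) x = v
  have hI : Complex.I * (Complex.I / 2) = -(1 / 2) := by
    rw [← mul_div_assoc, Complex.I_mul_I]; norm_num
  rw [smul_smul, hI]
  module

lemma b_isRot {f : ℝ → ℂ} (hf : Bm f) (P : Fin 3) (U : H ≃ₗᵢ[ℂ] H) :
    L.IsRot (L.lab f) P U ↔ ∀ x, U x = L.lr f P x := by
  have h := L.b_rot hf P
  unfold b_pc at h
  unfold IsRot
  rw [h]

lemma b_isPh {f : ℝ → ℂ} (hf : Bm f) (U : H ≃ₗᵢ[ℂ] H) :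
    IsPh (L.lab f) U ↔ ∀ x, U x = L.phl f x := by
  unfold IsPh phl
  rw [L.b_csmul hf, L.b_exp_eq (hf.cm _)]
  simp only [neg_mul]

lemma lr_lr {f g : ℝ → ℂ} (hf : Bm f) (hg : Bm g) (P : Fin 3) (x : H) :
    L.lr f P (L.lr g P x) = L.lr (fun t => f t + g t) P x := by
  have cf : Bm fun t => Complex.cos (f t) := hf.comp Complex.continuous_cos
  have cg : Bm fun t => Complex.cos (g t) := hg.comp Complex.continuous_cos
  have sf : Bm fun t => Complex.sin (f t) := hf.comp Complex.continuous_sin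
  have sg : Bm fun t => Complex.sin (g t) := hg.comp Complex.continuous_sin
  have hm1 : Bm fun t => Complex.cos (f t) * Complex.cos (g t) := cf.ml cg
  have hm2 : Bm fun t => Complex.sin (f t) * Complex.sin (g t) := sf.ml sg
  have hm3 : Bm fun t => Complex.sin (f t) * Complex.cos (g t) := sf.ml cg
  have hm4 : Bm fun t => Complex.cos (f t) * Complex.sin (g t) := cf.ml sg
  simp only [lr_apply, Complex.cos_add, Complex.sin_add]
  rw [← L.b_sub hm1 hm2, ← L.b_add hm3 hm4]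
  simp only [map_sub, map_smul, ← L.b_labP, L.b_PP, L.b_mul cf cg, L.b_mul sf sg, L.b_mul sf cg,
    L.b_mul cf sg]
  have hI : Complex.I * Complex.I = -1 := Complex.I_mul_I
  simp only [smul_sub, smul_add, smul_smul, hI]
  module

lemma lr_zero (P : Fin 3) (x : H) : L.lr (fun _ => 0) P x = x := by
  simp only [lr_apply, Complex.cos_zero, Complex.sin_zero, L.b_const]
  module

lemma Br.ng {f : ℝ → ℂ} (hf : Br f) : Br fun t => -f t := by
  refine ⟨?_, fun t => by rw [Complex.neg_im, hf.2 t, neg_zero]⟩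
  have h : (fun t => -f t) = fun t => (-1) * f t := by funext t; ring
  rw [h]
  exact hf.1.cm (-1)

lemma Br.ad {f g : ℝ → ℂ} (hf : Br f) (hg : Br g) : Br fun t => f t + g t :=
  ⟨hf.1.ad hg.1, fun t => by rw [Complex.add_im, hf.2, hg.2, add_zero]⟩

lemma lr_neg_lr {f : ℝ → ℂ} (hf : Br f) (P : Fin 3) (x : H) :
    L.lr (fun t => -f t) P (L.lr f P x) = x := by
  rw [L.lr_lr hf.ng.1 hf.1]
  simp only [neg_add_cancel]
  exact L.lr_zero P x

lemma lr_lr_neg {f : ℝ → ℂ} (hf : Br f) (P : Fin 3) (x : H) :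
    L.lr f P (L.lr (fun t => -f t) P x) = x := by
  rw [L.lr_lr hf.1 hf.ng.1]
  simp only [add_neg_cancel]
  exact L.lr_zero P x

lemma inner_lr {f : ℝ → ℂ} (hf : Br f) (P : Fin 3) (x y : H) :
    inner ℂ (L.lr f P x) y = (inner ℂ x (L.lr (fun t => -f t) P y) : ℂ) := by
  have hc : ∀ t, (starRingEnd ℂ) (f t) = f t := fun t => Complex.conj_eq_iff_im.2 (hf.2 t)
  have cf : Bm fun t => Complex.cos (f t) := hf.1.comp Complex.continuous_cos
  have sf : Bm fun t => Complex.sin (f t) := hf.1.comp Complex.continuous_sin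
  have e1 : (fun t => (starRingEnd ℂ) (Complex.cos (f t))) = fun t => Complex.cos (f t) := by
    funext t; rw [← Complex.cos_conj, hc]
  have e2 : (fun t => (starRingEnd ℂ) (Complex.sin (f t))) = fun t => Complex.sin (f t) := by
    funext t; rw [← Complex.sin_conj, hc]
  simp only [lr_apply, Complex.cos_neg, Complex.sin_neg]
  rw [inner_sub_left, inner_sub_right, inner_smul_left, inner_smul_right, L.lab_adj _ cf,
    L.lab_adj _ sf, e1, e2, L.b_innerP, ← L.b_labP]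
  have e3 : (fun t => -Complex.sin (f t)) = fun t => (-1) * Complex.sin (f t) := by
    funext t; ring
  rw [e3, L.b_smul sf, inner_smul_right, Complex.conj_I]
  ring

/-- `exp(-i lab f P)` as a unitary -/
noncomputable def lru (f : ℝ → ℂ) (hf : Br f) (P : Fin 3) : H ≃ₗᵢ[ℂ] H :=
  mkU (L.lr f P).toLinearMap (L.lr (fun t => -f t) P).toLinearMap (fun x => L.lr_neg_lr hf P x)
    (fun x => L.lr_lr_neg hf P x) (fun x y => L.inner_lr hf P x y)

lemma lru_apply (f : ℝ → ℂ) (hf : Br f) (P : Fin 3) (x : H) :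
    L.lru f hf P x = L.lr f P x := rfl

lemma lru_inv (f : ℝ → ℂ) (hf : Br f) (P : Fin 3) : (L.lru f hf P)⁻¹ = L.lru _ hf.ng P := by
  ext x
  exact Sys.inv_apply_eq (L.lr_lr_neg hf P x)

lemma lru_isRot (f : ℝ → ℂ) (hf : Br f) (P : Fin 3) : L.IsRot (L.lab f) P (L.lru f hf P) :=
  (L.b_isRot hf.1 P _).2 fun _ => rfl

lemma b_lr_lab {f g : ℝ → ℂ} (hf : Bm f) (hg : Bm g) (P : Fin 3) (x : H) :
    L.lab g (L.lr f P x) = L.lr f P (L.lab g x) := by
  have cf : Bm fun t => Complex.cos (f t) := hf.comp Complex.continuous_cos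
  have sf : Bm fun t => Complex.sin (f t) := hf.comp Complex.continuous_sin
  rw [lr_apply, lr_apply, map_sub, map_smul, L.b_comm hg cf, L.b_comm hg sf, L.b_labP]

lemma b_lr_W {f : ℝ → ℂ} (P : Fin 3) (a : K) (x : H) :
    L.W a (L.lr f P x) = L.lr f P (L.W a x) := by
  rw [lr_apply, lr_apply, map_sub, map_smul, ← L.lab_W, ← L.lab_W, L.b_WP]

/-- words are closed under label rotations -/
lemma Wd.rot {V : H ≃ₗᵢ[ℂ] H} (hV : L.Wd V) {f : ℝ → ℂ} (hf : Br f) (P : Fin 3) :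
    L.Wd (L.lru f hf P * V) := Wd.L f P _ V hV hf (L.lru_isRot f hf P)

/-! ### strong continuity -/

lemma b_WOm {α : Type*} {l : Filter α} {a : α → K} {a0 : K} (ha : Tendsto a l (𝓝 a0)) :
    Tendsto (fun i => L.W (a i) L.Om) l (𝓝 (L.W a0 L.Om)) := by
  rw [tendsto_iff_norm_sub_tendsto_zero]
  have hin : ∀ c : K, (inner ℂ (L.W c L.Om) (L.W a0 L.Om) : ℂ)
      = Complex.exp (Complex.I * ((inner ℂ c a0).im : ℂ)) *
        Complex.exp (-((‖a0 - c‖ ^ 2 / 2 : ℝ) : ℂ)) := by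
    intro c
    rw [L.inner_W, L.WW, inner_smul_right, L.vac, inner_neg_left, Complex.neg_im,
      neg_add_eq_sub]
    congr 2
    push_cast
    ring
  have h : ∀ c : K, ‖L.W c L.Om - L.W a0 L.Om‖ = Real.sqrt (2 - 2 * (Complex.exp (Complex.I *
      ((inner ℂ c a0).im : ℂ)) * Complex.exp (-((‖a0 - c‖ ^ 2 / 2 : ℝ) : ℂ))).re) := by
    intro c
    have h1 := @norm_sub_sq ℂ H _ _ _ (L.W c L.Om) (L.W a0 L.Om)
    rw [hin, LinearIsometryEquiv.norm_map, LinearIsometryEquiv.norm_map, L.nOm,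
      RCLike.re_to_complex] at h1
    rw [← Real.sqrt_sq (norm_nonneg (L.W c L.Om - L.W a0 L.Om)), h1]
    congr 1
    ring
  simp_rw [h]
  have hc : Continuous fun c : K => Real.sqrt (2 - 2 * (Complex.exp (Complex.I *
      ((inner ℂ c a0).im : ℂ)) * Complex.exp (-((‖a0 - c‖ ^ 2 / 2 : ℝ) : ℂ))).re) := by
    have h1 : Continuous fun c : K => (inner ℂ c a0 : ℂ) := continuous_id.inner continuous_const
    have h2 : Continuous fun c : K => ((inner ℂ c a0).im : ℂ) :=
      Complex.continuous_ofReal.comp (Complex.continuous_im.comp h1)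
    have h3 : Continuous fun c : K => ((‖a0 - c‖ ^ 2 / 2 : ℝ) : ℂ) := by fun_prop
    have h4 : Continuous fun c : K => (Complex.exp (Complex.I *
      ((inner ℂ c a0).im : ℂ)) * Complex.exp (-((‖a0 - c‖ ^ 2 / 2 : ℝ) : ℂ))).re := by fun_prop
    fun_prop
  have h2 := (hc.tendsto a0).comp ha
  have h3 : Real.sqrt (2 - 2 * (Complex.exp (Complex.I *
      ((inner ℂ a0 a0).im : ℂ)) * Complex.exp (-((‖a0 - a0‖ ^ 2 / 2 : ℝ) : ℂ))).re) = 0 := by
    have h4 : (inner ℂ a0 a0 : ℂ).im = 0 := by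
      rw [inner_self_eq_norm_sq_to_K]
      simp [← Complex.ofReal_pow]
    rw [h4]
    simp
  rw [h3] at h2
  exact h2

/-- the Weyl operators are strongly continuous -/
lemma b_Wcont {α : Type*} {l : Filter α} {a : α → K} {a0 : K} (ha : Tendsto a l (𝓝 a0)) (x : H) :
    Tendsto (fun i => L.W (a i) x) l (𝓝 (L.W a0 x)) := by
  have hx : x ∈ (Submodule.span ℂ {x : H | ∃ (T : H →L[ℂ] H) (a : K),
      (∀ b y, L.W b (T y) = T (L.W b y)) ∧ (∀ f, Bm f → ∀ y, L.lab f (T y) = T (L.lab f y)) ∧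
      x = T (L.W a L.Om)}).topologicalClosure := by rw [L.cyc]; exact Submodule.mem_top
  -- on the span
  have hspan : ∀ y ∈ Submodule.span ℂ {x : H | ∃ (T : H →L[ℂ] H) (a : K),
      (∀ b y, L.W b (T y) = T (L.W b y)) ∧ (∀ f, Bm f → ∀ y, L.lab f (T y) = T (L.lab f y)) ∧
      x = T (L.W a L.Om)}, Tendsto (fun i => L.W (a i) y) l (𝓝 (L.W a0 y)) := by
    intro y hy
    induction hy using Submodule.span_induction with
    | mem y hy =>
      obtain ⟨T, b, hT, -, rfl⟩ := hy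
      simp only [hT]
      refine (T.continuous.tendsto _).comp ?_
      simp only [L.WW]
      have h1 : Tendsto (fun i => Complex.exp (-(Complex.I * ((inner ℂ (a i) b).im : ℂ)))) l
          (𝓝 (Complex.exp (-(Complex.I * ((inner ℂ a0 b).im : ℂ))))) := by
        have hc : Continuous fun c : K =>
            Complex.exp (-(Complex.I * ((inner ℂ c b).im : ℂ))) := by
          have h1 : Continuous fun c : K => (inner ℂ c b : ℂ) :=
            continuous_id.inner continuous_const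
          have h2 : Continuous fun c : K => ((inner ℂ c b).im : ℂ) :=
            Complex.continuous_ofReal.comp (Complex.continuous_im.comp h1)
          fun_prop
        exact (hc.tendsto a0).comp ha
      exact h1.smul (L.b_WOm (ha.add_const b))
    | zero => simp only [map_zero]; exact tendsto_const_nhds
    | add y z _ _ hy hz => simp only [map_add]; exact hy.add hz
    | smul c y _ hy => simp only [map_smul]; exact hy.const_smul c
  rw [Metric.tendsto_nhds]
  intro ε hε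
  rw [← SetLike.mem_coe, Submodule.topologicalClosure_coe, Metric.mem_closure_iff] at hx
  obtain ⟨y, hy, hxy⟩ := hx (ε / 3) (by positivity)
  have h1 := hspan y hy
  rw [Metric.tendsto_nhds] at h1
  filter_upwards [h1 (ε / 3) (by positivity)] with i hi
  have h2 : dist (L.W (a i) x) (L.W (a i) y) < ε / 3 := by rwa [LinearIsometryEquiv.dist_map]
  have h3 : dist (L.W a0 y) (L.W a0 x) < ε / 3 := by
    rw [LinearIsometryEquiv.dist_map, dist_comm]; exact hxy
  calc dist (L.W (a i) x) (L.W a0 x)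
      ≤ dist (L.W (a i) x) (L.W (a i) y) + dist (L.W (a i) y) (L.W a0 y)
        + dist (L.W a0 y) (L.W a0 x) := dist_triangle4 _ _ _ _
    _ < ε := by linarith

/-- epsilon-delta form, for finitely many vectors -/
lemma b_Wfin (a0 : K) (s : Finset H) {ε : ℝ} (hε : 0 < ε) :
    ∃ δ > 0, ∀ a : K, ‖a - a0‖ < δ → ∀ x ∈ s, ‖L.W a x - L.W a0 x‖ < ε := by
  have h : ∀ᶠ a in 𝓝 a0, ∀ x ∈ s, ‖L.W a x - L.W a0 x‖ < ε := by
    rw [Filter.eventually_all_finset]
    intro x _
    have h1 := L.b_Wcont (tendsto_id (α := K) (x := 𝓝 a0)) x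
    rw [Metric.tendsto_nhds] at h1
    filter_upwards [h1 ε hε] with a ha
    rwa [← dist_eq_norm]
  obtain ⟨δ, hδ, h2⟩ := Metric.eventually_nhds_iff.1 h
  exact ⟨δ, hδ, fun a ha => h2 (by rwa [dist_eq_norm])⟩

end LSys

end Vale.Agent.P367.A
end

section

/-! P367, block B, BASE: exact block couplings of words. -/

namespace Vale.Agent.P367.A

open Complex Filter Topology MeasureTheory

open Vale.Agent.P367.NI (Gate)

/-- step functions -/
noncomputable def bst (A B : Set ℝ) (u v w : ℂ) : ℝ → ℂ := by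
  classical
  exact fun t => if t ∈ A then u else if t ∈ B then v else w

lemma bst_map2 (A B : Set ℝ) (u v w u' v' w' : ℂ) (φ : ℂ → ℂ → ℂ) :
    (fun t => φ (bst A B u v w t) (bst A B u' v' w' t)) = bst A B (φ u u') (φ v v') (φ w w') := by
  funext t
  unfold bst
  by_cases h1 : t ∈ A <;> by_cases h2 : t ∈ B <;> simp [h1, h2]

lemma bst_map (A B : Set ℝ) (u v w : ℂ) (φ : ℂ → ℂ) :
    (fun t => φ (bst A B u v w t)) = bst A B (φ u) (φ v) (φ w) :=
  bst_map2 A B u v w u v w (fun a _ => φ a)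

lemma bst_eq {A B : Set ℝ} (h : Disjoint A B) (u v w : ℂ) : bst A B u v w
    = fun t => (u * A.indicator (fun _ => 1) t + v * B.indicator (fun _ => 1) t)
      + w * (1 + ((-1) * A.indicator (fun _ => 1) t + (-1) * B.indicator (fun _ => 1) t)) := by
  funext t
  unfold bst
  by_cases h1 : t ∈ A
  · have h2 : t ∉ B := fun hb => (Set.disjoint_left.1 h) h1 hb
    simp [h1, h2]
  · by_cases h2 : t ∈ B <;> simp [h1, h2]

lemma Bm.bstm {A B : Set ℝ} (hA : MeasurableSet A) (hB : MeasurableSet B) (h : Disjoint A B)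
    (u v w : ℂ) : Bm (bst A B u v w) := by
  rw [bst_eq h]
  exact (((Bm.ndc hA).cm u).ad ((Bm.ndc hB).cm v)).ad
    (((Bm.cst 1).ad (((Bm.ndc hA).cm (-1)).ad ((Bm.ndc hB).cm (-1)))).cm w)

lemma Br.bstr {A B : Set ℝ} (hA : MeasurableSet A) (hB : MeasurableSet B) (h : Disjoint A B)
    (u v w : ℝ) : LSys.Br (bst A B (u : ℂ) (v : ℂ) (w : ℂ)) := by
  refine ⟨Bm.bstm hA hB h _ _ _, fun t => ?_⟩
  unfold bst
  by_cases h1 : t ∈ A <;> by_cases h2 : t ∈ B <;> simp [h1, h2]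

namespace LSys

variable {H K : Type*} [NormedAddCommGroup H] [InnerProductSpace ℂ H]
  [NormedAddCommGroup K] [InnerProductSpace ℂ K] (L : LSys H K)

lemma lab_bst {A B : Set ℝ} (hA : MeasurableSet A) (hB : MeasurableSet B) (h : Disjoint A B)
    (u v w : ℂ) (x : H) : L.lab (bst A B u v w) x
      = u • L.E A x + v • L.E B x + w • (x - L.E A x - L.E B x) := by
  have hA1 := Bm.ndc hA
  have hB1 := Bm.ndc hB
  rw [bst_eq h, ← L.b_add ((hA1.cm u).ad (hB1.cm v))
    (((Bm.cst 1).ad ((hA1.cm (-1)).ad (hB1.cm (-1)))).cm w), ← L.b_add (hA1.cm u) (hB1.cm v),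
    L.b_smul hA1, L.b_smul hB1, L.b_smul ((Bm.cst 1).ad ((hA1.cm (-1)).ad (hB1.cm (-1)))),
    ← L.b_add (Bm.cst 1) ((hA1.cm (-1)).ad (hB1.cm (-1))), ← L.b_add (hA1.cm (-1)) (hB1.cm (-1)),
    L.b_smul hA1, L.b_smul hB1, L.b_const]
  change u • L.E A x + v • L.E B x + w • ((1 : ℂ) • x + ((-1 : ℂ) • L.E A x + (-1 : ℂ) • L.E B x))
    = _
  module

/-! ### the axis of a label rotation -/

lemma pau_one_apply (x : H) : L.pau 1 x = Complex.I • L.X (L.Z x) := by
  change L.Zt (-(Real.pi / 4)) x = _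
  rw [L.Zt_apply, show 2 * (-(Real.pi / 4)) = -(Real.pi / 2) by ring, L.xr_neg_pi_div_two]

lemma Z_lr (f : ℝ → ℂ) {P : Fin 3} (hP : ∀ y, L.Z (L.pau P y) = -L.pau P (L.Z y))
    (hf : Bm f) (x : H) : L.Z (L.lr f P x) = L.lr (fun t => -f t) P (L.Z x) := by
  have sf : Bm fun t => Complex.sin (f t) := hf.comp Complex.continuous_sin
  simp only [lr_apply, Complex.cos_neg, Complex.sin_neg]
  have e3 : (fun t => -Complex.sin (f t)) = fun t => (-1) * Complex.sin (f t) := by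
    funext t; ring
  rw [e3, L.b_smul sf, map_sub, map_smul, ← L.lab_Z, ← L.lab_Z, hP, map_neg]
  module

lemma Z_pau_zero (y : H) : L.Z (L.pau 0 y) = -L.pau 0 (L.Z y) := L.toSys.ZX y

lemma Z_pau_one (y : H) : L.Z (L.pau 1 y) = -L.pau 1 (L.Z y) := by
  rw [L.pau_one_apply, L.pau_one_apply, map_smul, L.toSys.ZX]
  module

lemma X_lr_one (f : ℝ → ℂ) (hf : Bm f) (x : H) :
    L.X (L.lr f 1 x) = L.lr (fun t => -f t) 1 (L.X x) := by
  have sf : Bm fun t => Complex.sin (f t) := hf.comp Complex.continuous_sin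
  simp only [lr_apply, Complex.cos_neg, Complex.sin_neg]
  have e3 : (fun t => -Complex.sin (f t)) = fun t => (-1) * Complex.sin (f t) := by
    funext t; ring
  have hP : L.X (L.pau 1 x) = -L.pau 1 (L.X x) := by
    rw [L.pau_one_apply, L.pau_one_apply, map_smul, L.toSys.ZX, map_neg]
    module
  rw [e3, L.b_smul sf, map_sub, map_smul, ← L.lab_X, ← L.lab_X, hP, map_neg]
  module

lemma b_ax {f g : ℝ → ℂ} (hf : Br f) (hg : Br g) (x : H) :
    L.ax (L.lru f hf 0 * L.lru g hg 1) x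
      = L.lab (fun t => Complex.cos (f t + f t) * Complex.cos (g t + g t)) (L.Z x)
        - L.lab (fun t => Complex.cos (f t + f t) * Complex.sin (g t + g t)) (L.X x)
        + L.lab (fun t => Complex.sin (f t + f t)) (L.pau 1 x) := by
  have e0 : L.ax (L.lru f hf 0 * L.lru g hg 1) x
      = (L.lru g hg 1)⁻¹ ((L.lru f hf 0)⁻¹ (L.Z (L.lr f 0 (L.lr g 1 x)))) := rfl
  rw [e0, L.lru_inv, L.lru_inv, lru_apply, lru_apply, L.Z_lr f L.Z_pau_zero hf.1,
    L.Z_lr g L.Z_pau_one hg.1, L.lr_lr hf.ng.1 hf.ng.1]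
  have hF : (fun t => -f t + -f t) = fun t => -(f t + f t) := by funext t; ring
  have hff : Bm fun t => f t + f t := hf.1.ad hf.1
  have hgg : Bm fun t => g t + g t := hg.1.ad hg.1
  have cf : Bm fun t => Complex.cos (f t + f t) := hff.comp Complex.continuous_cos
  have sf : Bm fun t => Complex.sin (f t + f t) := hff.comp Complex.continuous_sin
  have cg : Bm fun t => Complex.cos (g t + g t) := hgg.comp Complex.continuous_cos
  have sg : Bm fun t => Complex.sin (g t + g t) := hgg.comp Complex.continuous_sin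
  have e3 : (fun t => -Complex.sin (f t + f t)) = fun t => (-1) * Complex.sin (f t + f t) := by
    funext t; ring
  have e4 : (fun t => -Complex.sin (g t + g t)) = fun t => (-1) * Complex.sin (g t + g t) := by
    funext t; ring
  rw [hF, L.lr_apply _ 0]
  simp only [Complex.cos_neg, Complex.sin_neg]
  rw [e3, L.b_smul sf, map_sub, map_smul, map_smul]
  change L.lr (fun t => -g t) 1 (L.lab (fun t => Complex.cos (f t + f t))
      (L.lr (fun t => -g t) 1 (L.Z x))) - Complex.I • ((-1 : ℂ) • L.lr (fun t => -g t) 1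
      (L.lab (fun t => Complex.sin (f t + f t)) (L.X (L.lr (fun t => -g t) 1 (L.Z x))))) = _
  rw [L.X_lr_one _ hg.ng.1, ← L.b_lr_lab hg.ng.1 cf, L.lr_lr hg.ng.1 hg.ng.1]
  simp only [neg_neg]
  rw [← L.b_lr_lab hg.ng.1 sf, L.lr_neg_lr hg]
  have hG : (fun t => -g t + -g t) = fun t => -(g t + g t) := by funext t; ring
  rw [hG, L.lr_apply _ 1]
  simp only [Complex.cos_neg, Complex.sin_neg]
  rw [e4, L.b_smul sg, map_sub, map_smul, map_smul, L.b_mul cf cg, L.b_mul cf sg,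
    L.pau_one_apply, L.pau_one_apply, L.ZZ]
  simp only [map_smul, smul_smul]
  have hI : Complex.I * (-1 * Complex.I) = 1 := by
    linear_combination -Complex.I_mul_I
  rw [hI, one_smul]
  module

/-- angles of the axes -/
noncomputable def aF (P : Fin 3) (s : ℝ) : ℝ := ![0, s * (Real.pi / 4), (1 - s) * (Real.pi / 4)] P

noncomputable def aG (P : Fin 3) (s : ℝ) : ℝ := ![-(s * (Real.pi / 4)), 0, 0] P

lemma b_dir (P : Fin 3) {s : ℝ} (hs : s = 1 ∨ s = -1) (y : H) :
    (Complex.cos ((aF P s : ℂ) + aF P s) * Complex.cos ((aG P s : ℂ) + aG P s)) • L.Z y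
      - (Complex.cos ((aF P s : ℂ) + aF P s) * Complex.sin ((aG P s : ℂ) + aG P s)) • L.X y
      + Complex.sin ((aF P s : ℂ) + aF P s) • L.pau 1 y = (s : ℂ) • L.pau P y := by
  have e : ∀ r : ℝ, Complex.cos ((r : ℂ) + r) = ((Real.cos (2 * r) : ℝ) : ℂ) := by
    intro r; push_cast; congr 1; ring
  have e' : ∀ r : ℝ, Complex.sin ((r : ℂ) + r) = ((Real.sin (2 * r) : ℝ) : ℂ) := by
    intro r; push_cast; congr 1; ring
  simp only [e, e']
  have p1 : 2 * (1 * (Real.pi / 4)) = Real.pi / 2 := by ring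
  have p2 : 2 * (-1 * (Real.pi / 4)) = -(Real.pi / 2) := by ring
  have p3 : 2 * ((1 - 1) * (Real.pi / 4)) = 0 := by ring
  have p4 : 2 * ((1 - -1) * (Real.pi / 4)) = Real.pi := by ring
  have p5 : 2 * -(1 * (Real.pi / 4)) = -(Real.pi / 2) := by ring
  have p6 : 2 * -(-1 * (Real.pi / 4)) = Real.pi / 2 := by ring
  fin_cases P
  · change ((Real.cos (2 * (0 : ℝ)) : ℝ) * ((Real.cos (2 * -(s * (Real.pi / 4))) : ℝ) : ℂ)) • L.Z y
      - ((Real.cos (2 * (0 : ℝ)) : ℝ) * ((Real.sin (2 * -(s * (Real.pi / 4))) : ℝ) : ℂ)) • L.X y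
      + ((Real.sin (2 * (0 : ℝ)) : ℝ) : ℂ) • L.pau 1 y = (s : ℂ) • L.X y
    rcases hs with rfl | rfl
    · rw [p5]; simp
    · rw [p6]; simp
  · change ((Real.cos (2 * (s * (Real.pi / 4))) : ℝ) * ((Real.cos (2 * (0 : ℝ)) : ℝ) : ℂ)) • L.Z y
      - ((Real.cos (2 * (s * (Real.pi / 4))) : ℝ) * ((Real.sin (2 * (0 : ℝ)) : ℝ) : ℂ)) • L.X y
      + ((Real.sin (2 * (s * (Real.pi / 4))) : ℝ) : ℂ) • L.pau 1 y = (s : ℂ) • L.pau 1 y
    rcases hs with rfl | rfl
    · rw [p1]; simp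
    · rw [p2]; simp
  · change ((Real.cos (2 * ((1 - s) * (Real.pi / 4))) : ℝ) * ((Real.cos (2 * (0 : ℝ)) : ℝ) : ℂ)) •
        L.Z y - ((Real.cos (2 * ((1 - s) * (Real.pi / 4))) : ℝ)
          * ((Real.sin (2 * (0 : ℝ)) : ℝ) : ℂ)) • L.X y
      + ((Real.sin (2 * ((1 - s) * (Real.pi / 4))) : ℝ) : ℂ) • L.pau 1 y = (s : ℂ) • L.Z y
    rcases hs with rfl | rfl
    · rw [p3]; simp
    · rw [p4]; simp

/-- the block axis `s1 P` on `A`, `s2 Q` on `B`, `s3 Z` elsewhere -/
noncomputable def gU {A B : Set ℝ} (hA : MeasurableSet A) (hB : MeasurableSet B)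
    (h : Disjoint A B) (P Q : Fin 3) (s1 s2 s3 : ℝ) : H ≃ₗᵢ[ℂ] H :=
  L.lru _ (Br.bstr hA hB h (aF P s1) (aF Q s2) (aF 2 s3)) 0
    * L.lru _ (Br.bstr hA hB h (aG P s1) (aG Q s2) (aG 2 s3)) 1

lemma ax_gU {A B : Set ℝ} (hA : MeasurableSet A) (hB : MeasurableSet B)
    (h : Disjoint A B) (P Q : Fin 3) {s1 s2 s3 : ℝ} (h1 : s1 = 1 ∨ s1 = -1)
    (h2 : s2 = 1 ∨ s2 = -1) (h3 : s3 = 1 ∨ s3 = -1) (x : H) :
    L.ax (L.gU hA hB h P Q s1 s2 s3) x = (s1 : ℂ) • L.pau P (L.E A x)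
      + (s2 : ℂ) • L.pau Q (L.E B x) + (s3 : ℂ) • L.Z (x - L.E A x - L.E B x) := by
  rw [gU, L.b_ax, bst_map2 A B _ _ _ _ _ _
    (fun a b => Complex.cos (a + a) * Complex.cos (b + b)),
    bst_map2 A B _ _ _ _ _ _ (fun a b => Complex.cos (a + a) * Complex.sin (b + b)),
    bst_map A B _ _ _ (fun a => Complex.sin (a + a)), L.lab_bst hA hB h, L.lab_bst hA hB h,
    L.lab_bst hA hB h]
  rw [← L.b_dir P h1, ← L.b_dir Q h2]
  have d3 := L.b_dir 2 h3 (x - L.E A x - L.E B x)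
  change _ = (s3 : ℂ) • L.Z (x - L.E A x - L.E B x) at d3
  rw [← d3]
  have z1 : ∀ b : Set ℝ, L.E b (L.Z x) = L.Z (L.E b x) := fun b => L.lab_Z _ x
  have z2 : ∀ b : Set ℝ, L.E b (L.X x) = L.X (L.E b x) := fun b => L.lab_X _ x
  rw [z1, z1, z2, z2, L.b_EP, L.b_EP]
  simp only [map_sub]
  generalize L.Z (L.E A x) = za
  generalize L.Z (L.E B x) = zb
  generalize L.Z x = z
  generalize L.X (L.E A x) = xa
  generalize L.X (L.E B x) = xb
  generalize L.X x = x'
  generalize (L.pau 1) (L.E A x) = ya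
  generalize (L.pau 1) (L.E B x) = yb
  generalize (L.pau 1) x = y
  module

lemma gU_W {A B : Set ℝ} (hA : MeasurableSet A) (hB : MeasurableSet B)
    (h : Disjoint A B) (P Q : Fin 3) (s1 s2 s3 : ℝ) :
    L.Cm Set.univ (L.gU hA hB h P Q s1 s2 s3) := by
  intro d _ x
  change L.W d (L.lr _ 0 (L.lr _ 1 x)) = L.lr _ 0 (L.lr _ 1 (L.W d x))
  rw [L.b_lr_W, L.b_lr_W]

lemma Wd.gU {V : H ≃ₗᵢ[ℂ] H} (hV : L.Wd V) {A B : Set ℝ} (hA : MeasurableSet A)
    (hB : MeasurableSet B) (h : Disjoint A B) (P Q : Fin 3) (s1 s2 s3 : ℝ) :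
    L.Wd (L.gU hA hB h P Q s1 s2 s3 * V) := by
  unfold LSys.gU
  rw [mul_assoc]
  exact Wd.rot L (Wd.rot L hV _ _) _ _

lemma Wd.gUi {V : H ≃ₗᵢ[ℂ] H} (hV : L.Wd V) {A B : Set ℝ} (hA : MeasurableSet A)
    (hB : MeasurableSet B) (h : Disjoint A B) (P Q : Fin 3) (s1 s2 s3 : ℝ) :
    L.Wd ((L.gU hA hB h P Q s1 s2 s3)⁻¹ * V) := by
  unfold LSys.gU
  rw [mul_inv_rev, mul_assoc, L.lru_inv, L.lru_inv]
  exact Wd.rot L (Wd.rot L hV _ _) _ _

/-- words commute with the labels -/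
lemma Wd.lab {V : H ≃ₗᵢ[ℂ] H} (hV : L.Wd V) : ∀ f, Bm f → ∀ x, L.lab f (V x) = V (L.lab f x) := by
  induction hV with
  | one => intro f _ x; rfl
  | C g V _ ih =>
    intro f hf x
    change L.lab f (L.zr _ (V x)) = L.zr _ (V (L.lab f x))
    rw [L.zr_apply, L.zr_apply, ← ih f hf]
    simp only [map_add, map_sub, map_smul, L.lab_W, L.lab_Z]
  | L f P U V _ hf hU ih =>
    intro g hg x
    have hU' := (L.b_isRot hf.1 P U).1 hU
    change L.lab g (U (V x)) = U (V (L.lab g x))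
    rw [hU', hU', ← ih g hg, L.b_lr_lab hf.1 hg]

lemma b_inv_comm {V : H ≃ₗᵢ[ℂ] H} {T : H →L[ℂ] H} (h : ∀ x, T (V x) = V (T x)) (x : H) :
    T (V⁻¹ x) = V⁻¹ (T x) := by
  apply V.injective
  rw [← h]
  have h1 : ∀ y, V (V⁻¹ y) = y := fun y => V.apply_symm_apply y
  rw [h1, h1]

/-- the block operator `P` on `A` -/
noncomputable def bP (P : Fin 3) (A : Set ℝ) : H →ₗ[ℂ] H := (L.b_pc P * L.E A).toLinearMap

lemma bP_apply (P : Fin 3) (A : Set ℝ) (x : H) : L.bP P A x = L.pau P (L.E A x) := rfl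

/-- the block operator `Z` off `A ∪ B` -/
noncomputable def bT (A B : Set ℝ) : H →ₗ[ℂ] H := (L.b_pc 2 * (1 - L.E A - L.E B)).toLinearMap

lemma bT_apply (A B : Set ℝ) (x : H) : L.bT A B x = L.Z (x - L.E A x - L.E B x) := rfl

/-- **exact coupling of words** -/
theorem b_coup {V : H ≃ₗᵢ[ℂ] H} (hV : L.Wd V) {A B : Set ℝ} (hA : MeasurableSet A)
    (hB : MeasurableSet B) (h : Disjoint A B) (P Q : Fin 3) (c : ℝ) :
    ∃ U, L.IsCoup A B P Q c V U ∧ L.Wd (U * V) := by
  set Us : Fin 4 → (H ≃ₗᵢ[ℂ] H) := ![L.gU hA hB h P Q 1 1 1, L.gU hA hB h P Q 1 (-1) 1,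
    L.gU hA hB h P Q 1 1 (-1), L.gU hA hB h P Q 1 (-1) (-1)] with hUs
  have u0 : Us 0 = L.gU hA hB h P Q 1 1 1 := rfl
  have u1 : Us 1 = L.gU hA hB h P Q 1 (-1) 1 := rfl
  have u2 : Us 2 = L.gU hA hB h P Q 1 1 (-1) := rfl
  have u3 : Us 3 = L.gU hA hB h P Q 1 (-1) (-1) := rfl
  have eA := L.b_Eidem hA
  have eB := L.b_Eidem hB
  have eAB := L.b_Edis hA hB h
  have eBA := L.b_Edis hB hA h.symm
  have z1 : ∀ (b : Set ℝ) (y : H), L.E b (L.Z y) = L.Z (L.E b y) := fun b y => L.lab_Z _ y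
  have hfour : L.Four (⊤ : Submodule ℝ K) Us (L.bP P A) (L.bP Q B) (L.bT A B) := by
    refine ⟨?_, ?_, ?_, ?_, ?_, ?_, ?_, ?_, ?_, ?_, ?_⟩
    · intro i
      have : ((⊤ : Submodule ℝ K) : Set K) = Set.univ := rfl
      rw [this]
      fin_cases i
      · exact L.gU_W hA hB h P Q 1 1 1
      · exact L.gU_W hA hB h P Q 1 (-1) 1
      · exact L.gU_W hA hB h P Q 1 1 (-1)
      · exact L.gU_W hA hB h P Q 1 (-1) (-1)
    · intro x
      rw [u0, L.ax_gU hA hB h P Q (Or.inl rfl) (Or.inl rfl) (Or.inl rfl), bP_apply, bP_apply,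
        bT_apply]
      simp
    · intro x
      rw [u1, L.ax_gU hA hB h P Q (Or.inl rfl) (Or.inr rfl) (Or.inl rfl), bP_apply, bP_apply,
        bT_apply]
      push_cast
      module
    · intro x
      rw [u2, L.ax_gU hA hB h P Q (Or.inl rfl) (Or.inl rfl) (Or.inr rfl), bP_apply, bP_apply,
        bT_apply]
      push_cast
      module
    · intro x
      rw [u3, L.ax_gU hA hB h P Q (Or.inl rfl) (Or.inr rfl) (Or.inr rfl), bP_apply, bP_apply,
        bT_apply]
      push_cast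
      module
    · intro x; rw [bP_apply, bP_apply, L.b_EP, eAB, map_zero, map_zero]
    · intro x; rw [bP_apply, bP_apply, L.b_EP, eBA, map_zero, map_zero]
    · intro x
      rw [bP_apply, bT_apply, z1, map_sub (L.E A), map_sub (L.E A), eA, eAB, sub_self, sub_zero,
        map_zero, map_zero]
    · intro x
      rw [bP_apply, bT_apply, L.b_EP, L.b_EP, eA, eBA, sub_self, map_zero, sub_zero, map_zero]
    · intro x
      rw [bP_apply, bT_apply, z1, map_sub (L.E B), map_sub (L.E B), eB, eBA, sub_zero, sub_self,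
        map_zero, map_zero]
    · intro x
      rw [bP_apply, bT_apply, L.b_EP, L.b_EP, eB, eAB, map_zero, sub_zero, sub_self, map_zero]
  have hD : ∀ i, L.iota (L.fx (L.ax (Us i)) V) ∈ (⊤ : Submodule ℝ K) := fun i => trivial
  refine ⟨L.c4 Us (-(c / 4)) V, ?_, ?_⟩
  · intro x
    have hflQ : L.fl (L.bP Q B) V = L.fv (L.pau Q) B V := by
      unfold Sys.fl fv
      rw [bP_apply, ← L.b_EP, b_inv_comm (T := L.E B) (fun y => Wd.lab L hV _ (Bm.ndc hB) y)]
    have hflP : L.fl (L.bP P A) V = L.fv (L.pau P) A V := by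
      unfold Sys.fl fv
      rw [bP_apply, ← L.b_EP, b_inv_comm (T := L.E A) (fun y => Wd.lab L hV _ (Bm.ndc hA) y)]
    have h1 := L.c4_apply hfour c V hD x
    rw [hflP, hflQ] at h1
    refine (show L.c4 Us (-(c / 4)) V x = _ from h1).trans ?_
    have a1 : L.bP P A (L.bP P A x) = L.E A x := by
      rw [bP_apply, bP_apply, L.b_EP, eA, L.b_PP]
    have a2 : L.bP Q B (L.bP Q B x) = L.E B x := by
      rw [bP_apply, bP_apply, L.b_EP, eB, L.b_PP]
    have a3 : L.bT A B (L.bT A B x) = x - L.E A x - L.E B x := by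
      rw [bT_apply, bT_apply]
      simp only [z1, map_sub, eA, eB, eAB, eBA, L.ZZ]
      simp
    rw [a1, a2, a3, bP_apply, bP_apply]
    unfold pw
    have n1 : ∀ v : K, ((-c : ℝ) : ℂ) • v = -((c : ℂ) • v) := by intro v; push_cast; module
    rw [n1, n1]
    simp only [map_smul, map_add, map_sub]
    module
  · have h2 : L.cg4 Us (-(c / 4)) V = L.c4 Us (-(c / 4)) V * V := L.cg4_eq_c4 hfour _ V hD
    rw [← h2]
    unfold Sys.cg4
    have step : ∀ (W : H ≃ₗᵢ[ℂ] H) (t : ℝ) (s1 s2 s3 : ℝ), L.Wd W →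
        L.Wd (L.cg (L.gU hA hB h P Q s1 s2 s3) t W) := by
      intro W t s1 s2 s3 hW
      rw [L.cg_eq]
      refine Wd.gUi L ?_ hA hB h P Q s1 s2 s3
      exact Wd.C t _ (Wd.gU L hW hA hB h P Q s1 s2 s3)
    rw [u0, u1, u2, u3]
    exact step _ _ _ _ _ (step _ _ _ _ _ (step _ _ _ _ _ (step _ _ _ _ _ hV)))

end LSys

end Vale.Agent.P367.A
end

section

/-! P367, block B, value: induction principles for bounded measurable functions of a label and
`n` real variables. -/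

namespace Vale.Agent.P367.A

open Complex Filter Topology MeasureTheory ProbabilityTheory
open Vale.Agent.P367.B (trigE trigO cosB sinB)

namespace LSys

section bmn

variable {n : ℕ}

lemma val_bmn_const (c : ℂ) : Bmn (fun _ : ℝ × (Fin n → ℝ) => c) :=
  ⟨measurable_const, ‖c‖, fun _ => le_rfl⟩

lemma val_bmn_add {f g : ℝ × (Fin n → ℝ) → ℂ} (hf : Bmn f) (hg : Bmn g) :
    Bmn (fun z => f z + g z) := by
  obtain ⟨h1, C, h2⟩ := hf
  obtain ⟨h3, D, h4⟩ := hg
  exact ⟨h1.add h3, C + D, fun x => (norm_add_le _ _).trans (add_le_add (h2 x) (h4 x))⟩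

lemma val_bmn_mul {f g : ℝ × (Fin n → ℝ) → ℂ} (hf : Bmn f) (hg : Bmn g) :
    Bmn (fun z => f z * g z) := by
  obtain ⟨h1, C, h2⟩ := hf
  obtain ⟨h3, D, h4⟩ := hg
  refine ⟨h1.mul h3, C * D, fun x => ?_⟩
  rw [norm_mul]
  exact mul_le_mul (h2 x) (h4 x) (norm_nonneg _) ((norm_nonneg _).trans (h2 x))

lemma val_bmn_smul {f : ℝ × (Fin n → ℝ) → ℂ} (c : ℂ) (hf : Bmn f) :
    Bmn (fun z => c * f z) := val_bmn_mul (val_bmn_const c) hf

lemma val_bmn_conj {f : ℝ × (Fin n → ℝ) → ℂ} (hf : Bmn f) :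
    Bmn (fun z => (starRingEnd ℂ) (f z)) := by
  obtain ⟨h1, C, h2⟩ := hf
  refine ⟨Complex.continuous_conj.measurable.comp h1, C, fun x => ?_⟩
  rw [Complex.norm_conj]
  exact h2 x

lemma val_bmn_ofReal {f : ℝ × (Fin n → ℝ) → ℝ} (hf : Measurable f) {C : ℝ}
    (hC : ∀ z, |f z| ≤ C) : Bmn (fun z => ((f z : ℝ) : ℂ)) :=
  ⟨Complex.measurable_ofReal.comp hf, C, fun z => by
    rw [Complex.norm_real, Real.norm_eq_abs]; exact hC z⟩

lemma val_bmn_exp (k0 : ℝ) (k : Fin n → ℝ) : Bmn (fun z : ℝ × (Fin n → ℝ) =>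
    Complex.exp (Complex.I * ((k0 * z.1 + ∑ i, k i * z.2 i : ℝ) : ℂ))) := by
  refine ⟨Continuous.measurable (by fun_prop), 1, fun z => ?_⟩
  change ‖Complex.exp (Complex.I * ((k0 * z.1 + ∑ i, k i * z.2 i : ℝ) : ℂ))‖ ≤ 1
  rw [mul_comm, Complex.norm_exp_ofReal_mul_I]

lemma val_bmn_fst {f : ℝ → ℂ} (hf : Bm f) : Bmn (fun z : ℝ × (Fin n → ℝ) => f z.1) := by
  obtain ⟨h1, C, h2⟩ := hf
  exact ⟨h1.comp measurable_fst, C, fun z => h2 _⟩

lemma val_bmn_W (k : Fin n → ℝ) : Bmn (fun z : ℝ × (Fin n → ℝ) =>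
    Complex.exp (Complex.I * ((∑ i, k i * z.2 i : ℝ) : ℂ))) := by
  have h := val_bmn_exp 0 k
  simpa using h

end bmn

/-- the point of Euclidean space belonging to a label and `n` variables -/
noncomputable def val_e {n : ℕ} (z : ℝ × (Fin n → ℝ)) : EuclideanSpace ℝ (Fin (n + 1)) :=
  WithLp.toLp 2 (Fin.cons z.1 z.2 : Fin (n + 1) → ℝ)

/-- the inverse -/
def val_d {n : ℕ} (w : EuclideanSpace ℝ (Fin (n + 1))) : ℝ × (Fin n → ℝ) :=
  (w 0, fun i => w i.succ)

lemma val_d_e {n : ℕ} (z : ℝ × (Fin n → ℝ)) : val_d (val_e z) = z := rfl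

lemma val_e_meas {n : ℕ} : Measurable (val_e (n := n)) := by
  unfold val_e
  refine (WithLp.measurable_toLp 2 _).comp ?_
  rw [measurable_pi_iff]
  intro i
  refine Fin.cases ?_ (fun i => ?_) i
  · exact measurable_fst
  · exact (measurable_pi_apply i).comp measurable_snd

lemma val_d_meas {n : ℕ} : Measurable (val_d (n := n)) := by
  unfold val_d
  refine Measurable.prodMk ?_ ?_
  · fun_prop
  · rw [measurable_pi_iff]
    intro i
    fun_prop

lemma val_inner {n : ℕ} (z : ℝ × (Fin n → ℝ)) (k : EuclideanSpace ℝ (Fin (n + 1))) :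
    (inner ℝ (val_e z) k : ℝ) = k 0 * z.1 + ∑ i : Fin n, k i.succ * z.2 i := by
  rw [PiLp.inner_apply, Fin.sum_univ_succ]
  rfl

/-- approximation in the mean square of a bounded real function -/
lemma val_approx {n : ℕ} (μ : Measure (ℝ × (Fin n → ℝ))) [IsFiniteMeasure μ] (f : ℝ × (Fin n → ℝ) → ℝ) (hf : Measurable f) {C : ℝ} (hC : ∀ z, |f z| ≤ C)
    {ε : ℝ} (hε : 0 < ε) : ∃ p : BoundedContinuousFunction (EuclideanSpace ℝ (Fin (n + 1))) ℝ,
      p ∈ trigE _ ⊔ trigO _ ∧ ∫ z, (f z - p (val_e z)) ^ 2 ∂μ < ε := by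
  have : IsFiniteMeasure (μ.map (val_e (n := n))) := Measure.isFiniteMeasure_map μ _
  obtain ⟨p, hp, q, hq, h⟩ := Vale.Agent.P367.B.exists_trig (μ.map (val_e (n := n)))
    (fun w => f (val_d w)) (hf.comp val_d_meas) (fun w => hC _) hε
  refine ⟨p + q, Submodule.add_mem_sup hp hq, ?_⟩
  rw [integral_map val_e_meas.aemeasurable] at h
  · exact h
  · refine Measurable.aestronglyMeasurable ?_
    have h1 := hf.comp (val_d_meas (n := n))
    have h2 := p.continuous.measurable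
    have h3 := q.continuous.measurable
    exact (h1.sub (h2.add h3)).pow_const 2

section ind

variable {n : ℕ} (μ : Measure (ℝ × (Fin n → ℝ))) [IsFiniteMeasure μ]
  (P : (ℝ × (Fin n → ℝ) → ℂ) → Prop)
  (hexp : ∀ (k0 : ℝ) (k : Fin n → ℝ), P (fun z =>
    Complex.exp (Complex.I * ((k0 * z.1 + ∑ i, k i * z.2 i : ℝ) : ℂ))))
  (hadd : ∀ f g, Bmn f → Bmn g → P f → P g → P (fun z => f z + g z))
  (hsmul : ∀ (c : ℂ) f, Bmn f → P f → P (fun z => c * f z))

include hexp hadd hsmul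

omit [IsFiniteMeasure μ] in
lemma val_trig (p : BoundedContinuousFunction (EuclideanSpace ℝ (Fin (n + 1))) ℝ)
    (hp : p ∈ trigE _ ⊔ trigO _) : Bmn (fun z : ℝ × (Fin n → ℝ) => ((p (val_e z) : ℝ) : ℂ)) ∧
      P (fun z => ((p (val_e z) : ℝ) : ℂ)) := by
  have hb : ∀ q : BoundedContinuousFunction (EuclideanSpace ℝ (Fin (n + 1))) ℝ,
      Bmn (fun z : ℝ × (Fin n → ℝ) => ((q (val_e z) : ℝ) : ℂ)) := fun q =>
    val_bmn_ofReal (C := ‖q‖) (q.continuous.measurable.comp val_e_meas)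
      (fun z => q.norm_coe_le_norm _)
  have hsub : trigE (EuclideanSpace ℝ (Fin (n + 1))) ⊔ trigO _ =
      Submodule.span ℝ (Set.range cosB ∪ Set.range sinB) := by
    unfold trigE trigO
    rw [Submodule.span_union]
  rw [hsub] at hp
  refine ⟨hb p, ?_⟩
  induction hp using Submodule.span_induction with
  | mem x hx =>
    rcases hx with ⟨k, rfl⟩ | ⟨k, rfl⟩
    · have h1 := hexp (k 0) (fun i => k i.succ)
      have h2 := hexp (-k 0) (fun i => -k i.succ)
      have h3 := hadd _ _ (val_bmn_smul (1 / 2) (val_bmn_exp _ _))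
        (val_bmn_smul (1 / 2) (val_bmn_exp _ _)) (hsmul (1 / 2) _ (val_bmn_exp _ _) h1)
        (hsmul (1 / 2) _ (val_bmn_exp _ _) h2)
      convert h3 using 2 with z
      rw [Vale.Agent.P367.B.cosB_apply, val_inner, Complex.ofReal_cos, Complex.cos]
      have e1 : ((-k 0 * z.1 + ∑ i : Fin n, -k i.succ * z.2 i : ℝ) : ℂ) =
          -((k 0 * z.1 + ∑ i : Fin n, k i.succ * z.2 i : ℝ) : ℂ) := by
        push_cast
        rw [neg_add, ← Finset.sum_neg_distrib]
        congr 1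
        · ring
        · exact Finset.sum_congr rfl fun i _ => by ring
      rw [e1]
      ring_nf
    · have h1 := hexp (k 0) (fun i => k i.succ)
      have h2 := hexp (-k 0) (fun i => -k i.succ)
      have h3 := hadd _ _ (val_bmn_smul (-(Complex.I / 2)) (val_bmn_exp _ _))
        (val_bmn_smul (Complex.I / 2) (val_bmn_exp _ _))
        (hsmul (-(Complex.I / 2)) _ (val_bmn_exp _ _) h1)
        (hsmul (Complex.I / 2) _ (val_bmn_exp _ _) h2)
      convert h3 using 2 with z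
      rw [Vale.Agent.P367.B.sinB_apply, val_inner, Complex.ofReal_sin, Complex.sin]
      have e1 : ((-k 0 * z.1 + ∑ i : Fin n, -k i.succ * z.2 i : ℝ) : ℂ) =
          -((k 0 * z.1 + ∑ i : Fin n, k i.succ * z.2 i : ℝ) : ℂ) := by
        push_cast
        rw [neg_add, ← Finset.sum_neg_distrib]
        congr 1
        · ring
        · exact Finset.sum_congr rfl fun i _ => by ring
      rw [e1]
      ring_nf
  | zero =>
    have h := hsmul 0 _ (val_bmn_exp 0 0) (hexp 0 0)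
    convert h using 2 with z
    simp
  | add x y _ _ hx hy =>
    have h := hadd _ _ (hb x) (hb y) hx hy
    convert h using 2 with z
    simp
  | smul c x _ hx =>
    have h := hsmul c _ (hb x) hx
    convert h using 2 with z
    simp

/-- induction principle, mean square limits -/
theorem val_ind2 (hlim : ∀ f0, Bmn f0 → (∀ ε > 0, ∃ f, Bmn f ∧ P f ∧
    ∫ z, ‖f0 z - f z‖ ^ 2 ∂μ < ε) → P f0) : ∀ f, Bmn f → P f := by
  have hreal : ∀ f : ℝ × (Fin n → ℝ) → ℝ, Measurable f → ∀ C : ℝ, (∀ z, |f z| ≤ C) →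
      P (fun z => ((f z : ℝ) : ℂ)) := by
    intro f hf C hC
    refine hlim _ (val_bmn_ofReal hf hC) fun ε hε => ?_
    obtain ⟨p, hp, h⟩ := val_approx μ f hf hC hε
    obtain ⟨h1, h2⟩ := val_trig P hexp hadd hsmul p hp
    refine ⟨_, h1, h2, ?_⟩
    refine lt_of_le_of_lt (le_of_eq ?_) h
    refine integral_congr_ae (Eventually.of_forall fun z => ?_)
    simp only
    rw [← Complex.ofReal_sub, Complex.norm_real, Real.norm_eq_abs, sq_abs]
  intro f hf
  obtain ⟨h1, C, h2⟩ := hf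
  have hre := hreal (fun z => (f z).re) (Complex.measurable_re.comp h1) C
    (fun z => (Complex.abs_re_le_norm _).trans (h2 z))
  have him := hreal (fun z => (f z).im) (Complex.measurable_im.comp h1) C
    (fun z => (Complex.abs_im_le_norm _).trans (h2 z))
  have b1 : Bmn (fun z => (((f z).re : ℝ) : ℂ)) := val_bmn_ofReal (C := C)
    (Complex.measurable_re.comp h1) (fun z => (Complex.abs_re_le_norm _).trans (h2 z))
  have b2 : Bmn (fun z => (((f z).im : ℝ) : ℂ)) := val_bmn_ofReal (C := C)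
    (Complex.measurable_im.comp h1) (fun z => (Complex.abs_im_le_norm _).trans (h2 z))
  have h3 := hadd _ _ b1 (val_bmn_smul Complex.I b2) hre (hsmul Complex.I _ b2 him)
  convert h3 using 2 with z
  rw [mul_comm, Complex.re_add_im]

/-- induction principle, bounded almost sure limits -/
theorem val_ind (hmul : ∀ f g, Bmn f → Bmn g → P f → P g → P (fun z => f z * g z))
    (hlim : ∀ (f : ℕ → ℝ × (Fin n → ℝ) → ℂ) (f0 : ℝ × (Fin n → ℝ) → ℂ) (C : ℝ),
      (∀ m, Bmn (f m)) → Bmn f0 → (∀ m z, ‖f m z‖ ≤ C) →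
      (∀ᵐ z ∂μ, Tendsto (fun m => f m z) atTop (𝓝 (f0 z))) → (∀ m, P (f m)) → P f0) :
    ∀ f, Bmn f → P f := by
  -- continuous functions of a member of the class
  have hcomp : ∀ (f : ℝ × (Fin n → ℝ) → ℝ) (M : ℝ), Measurable f → (∀ z, |f z| ≤ M) →
      P (fun z => ((f z : ℝ) : ℂ)) → ∀ φ : ℝ → ℝ, Continuous φ → ∀ C : ℝ, (∀ x, |φ x| ≤ C) →
      P (fun z => ((φ (f z) : ℝ) : ℂ)) := by
    intro f M hf hM hP φ hφ C hC
    have hpoly : ∀ q : Polynomial ℝ, Bmn (fun z => ((q.eval (f z) : ℝ) : ℂ)) ∧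
        P (fun z => ((q.eval (f z) : ℝ) : ℂ)) := by
      intro q
      induction q using Polynomial.induction_on' with
      | add p q hp hq =>
        refine ⟨?_, ?_⟩
        · have := val_bmn_add hp.1 hq.1
          convert this using 2 with z
          rw [Polynomial.eval_add]; push_cast; rfl
        · have := hadd _ _ hp.1 hq.1 hp.2 hq.2
          convert this using 2 with z
          rw [Polynomial.eval_add]; push_cast; rfl
      | monomial k a =>
        have hk : Bmn (fun z => (((f z) ^ k : ℝ) : ℂ)) ∧ P (fun z => (((f z) ^ k : ℝ) : ℂ)) := by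
          induction k with
          | zero =>
            refine ⟨by simpa using val_bmn_const (n := n) 1, ?_⟩
            have := hexp 0 0
            convert this using 2 with z
            simp
          | succ k ih =>
            have e : (fun z => (((f z) ^ (k + 1) : ℝ) : ℂ)) =
                fun z => (((f z) ^ k : ℝ) : ℂ) * ((f z : ℝ) : ℂ) := by
              funext z
              rw [pow_succ]; push_cast; rfl
            rw [e]
            exact ⟨val_bmn_mul ih.1 (val_bmn_ofReal hf hM),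
              hmul _ _ ih.1 (val_bmn_ofReal hf hM) ih.2 hP⟩
        have e : (fun z => (((Polynomial.monomial k a).eval (f z) : ℝ) : ℂ)) =
            fun z => (a : ℂ) * (((f z) ^ k : ℝ) : ℂ) := by
          funext z
          rw [Polynomial.eval_monomial]; push_cast; rfl
        rw [e]
        exact ⟨val_bmn_smul _ hk.1, hsmul _ _ hk.1 hk.2⟩
    choose q hq using fun j : ℕ => exists_polynomial_near_of_continuousOn (-M) M φ
      hφ.continuousOn (1 / ((j : ℝ) + 1)) (by positivity)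
    have hmem : ∀ z, f z ∈ Set.Icc (-M) M := fun z => abs_le.1 (hM z)
    refine hlim (fun j z => (((q j).eval (f z) : ℝ) : ℂ)) _ (C + 1) (fun j => (hpoly (q j)).1)
      (val_bmn_ofReal (hφ.measurable.comp hf) (fun z => hC _)) (fun j z => ?_) ?_
      (fun j => (hpoly (q j)).2)
    · rw [Complex.norm_real, Real.norm_eq_abs]
      have h1 := hq j (f z) (hmem z)
      have h2 : (1 : ℝ) / ((j : ℝ) + 1) ≤ 1 := by
        rw [div_le_one (by positivity)]
        have : (0 : ℝ) ≤ j := Nat.cast_nonneg j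
        linarith
      have h3 := abs_sub_abs_le_abs_sub ((q j).eval (f z)) (φ (f z))
      have h4 := hC (f z)
      linarith
    · refine Eventually.of_forall fun z => ?_
      have h1 : Tendsto (fun j => (q j).eval (f z)) atTop (𝓝 (φ (f z))) := by
        rw [tendsto_iff_norm_sub_tendsto_zero]
        refine squeeze_zero (fun _ => norm_nonneg _) (fun j => (hq j (f z) (hmem z)).le) ?_
        exact tendsto_one_div_add_atTop_nhds_zero_nat
      exact (Complex.continuous_ofReal.tendsto _).comp h1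
  have hreal : ∀ f : ℝ × (Fin n → ℝ) → ℝ, Measurable f → ∀ C : ℝ, (∀ z, |f z| ≤ C) →
      P (fun z => ((f z : ℝ) : ℂ)) := by
    intro f hf C hC
    have : IsFiniteMeasure (μ.map (val_e (n := n))) := Measure.isFiniteMeasure_map μ _
    obtain ⟨p, hp, hlimp⟩ := Vale.Agent.P367.B.ae_seq (μ.map (val_e (n := n)))
      (fun w => f (val_d w)) (hf.comp val_d_meas) (fun w => hC _) (trigE _ ⊔ trigO _)
      (fun ε hε => by
        obtain ⟨p, hp, q, hq, h⟩ := Vale.Agent.P367.B.exists_trig (μ.map (val_e (n := n)))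
          (fun w => f (val_d w)) (hf.comp val_d_meas) (fun w => hC _) hε
        exact ⟨p + q, Submodule.add_mem_sup hp hq, h⟩)
    have hlim2 : ∀ᵐ z ∂μ, Tendsto (fun m => p m (val_e z)) atTop (𝓝 (f z)) :=
      ae_of_ae_map val_e_meas.aemeasurable hlimp
    have hC0 : 0 ≤ C := (abs_nonneg _).trans (hC (0, 0))
    have hclip : Continuous fun x : ℝ => max (-C) (min C x) := by fun_prop
    have hclipb : ∀ x : ℝ, |max (-C) (min C x)| ≤ C := by
      intro x
      rw [abs_le]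
      exact ⟨le_max_left _ _, max_le (by linarith) (min_le_left _ _)⟩
    have hmeas : ∀ m, Measurable fun z : ℝ × (Fin n → ℝ) => p m (val_e z) := fun m =>
      (p m).continuous.measurable.comp val_e_meas
    refine hlim (fun m z => ((max (-C) (min C (p m (val_e z))) : ℝ) : ℂ)) _ C
      (fun m => val_bmn_ofReal (hclip.measurable.comp (hmeas m)) (fun z => hclipb _))
      (val_bmn_ofReal hf hC) (fun m z => ?_) ?_ (fun m => ?_)
    · rw [Complex.norm_real, Real.norm_eq_abs]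
      exact hclipb _
    · filter_upwards [hlim2] with z hz
      have h1 : f z = max (-C) (min C (f z)) := by
        have := abs_le.1 (hC z)
        rw [min_eq_right this.2, max_eq_right this.1]
      rw [h1]
      exact (Complex.continuous_ofReal.tendsto _).comp ((hclip.tendsto _).comp hz)
    · exact hcomp _ ‖p m‖ (hmeas m) (fun z => (p m).norm_coe_le_norm _)
        (val_trig P hexp hadd hsmul (p m) (hp m)).2 _ hclip C hclipb
  intro f hf
  obtain ⟨h1, C, h2⟩ := hf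
  have hre := hreal (fun z => (f z).re) (Complex.measurable_re.comp h1) C
    (fun z => (Complex.abs_re_le_norm _).trans (h2 z))
  have him := hreal (fun z => (f z).im) (Complex.measurable_im.comp h1) C
    (fun z => (Complex.abs_im_le_norm _).trans (h2 z))
  have b1 : Bmn (fun z => (((f z).re : ℝ) : ℂ)) := val_bmn_ofReal (C := C)
    (Complex.measurable_re.comp h1) (fun z => (Complex.abs_re_le_norm _).trans (h2 z))
  have b2 : Bmn (fun z => (((f z).im : ℝ) : ℂ)) := val_bmn_ofReal (C := C)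
    (Complex.measurable_im.comp h1) (fun z => (Complex.abs_im_le_norm _).trans (h2 z))
  have h3 := hadd _ _ b1 (val_bmn_smul Complex.I b2) hre (hsmul Complex.I _ b2 him)
  convert h3 using 2 with z
  rw [mul_comm, Complex.re_add_im]

end ind

end LSys

end Vale.Agent.P367.A
end

section

/-! P367, block B, value: consequences of the functional calculus; values of the calculus belong to
the control algebras. -/

namespace Vale.Agent.P367.A

open Complex Filter Topology MeasureTheory ProbabilityTheory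

namespace LSys

variable {H K : Type*} [NormedAddCommGroup H] [InnerProductSpace ℂ H]
  [NormedAddCommGroup K] [InnerProductSpace ℂ K] (L : LSys H K)

/-- forget the last variable -/
def val_p {n : ℕ} (z : ℝ × (Fin (n + 1) → ℝ)) : ℝ × (Fin n → ℝ) := (z.1, fun i => z.2 i.castSucc)

lemma val_law_prob (n : ℕ) : IsProbabilityMeasure (L.law n) := by
  have := L.prob
  unfold law
  infer_instance

lemma val_p_mp (n : ℕ) : MeasurePreserving (val_p (n := n)) (L.law (n + 1)) (L.law n) := by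
  have := L.prob
  have h1 := (measurePreserving_piFinSuccAbove (fun _ : Fin (n + 1) => gaussianReal 0 1)
    (Fin.last n))
  have h2 : MeasurePreserving (Prod.snd : ℝ × (Fin n → ℝ) → (Fin n → ℝ))
      ((gaussianReal 0 1).prod (Measure.pi fun _ : Fin n => gaussianReal 0 1))
      (Measure.pi fun _ : Fin n => gaussianReal 0 1) := measurePreserving_snd
  have h3 := h2.comp h1
  have h4 := (MeasurePreserving.id L.mu).prod h3
  have e : val_p (n := n) = Prod.map id (Prod.snd ∘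
      ⇑(MeasurableEquiv.piFinSuccAbove (fun _ : Fin (n + 1) => ℝ) (Fin.last n))) := by
    funext z
    unfold val_p
    refine Prod.ext rfl ?_
    funext i
    change z.2 i.castSucc = z.2 ((Fin.last n).succAbove i)
    rw [Fin.succAbove_last]
  rw [e]
  exact h4

lemma val_bmn_p {n : ℕ} {f : ℝ × (Fin n → ℝ) → ℂ} (hf : Bmn f) :
    Bmn (fun z : ℝ × (Fin (n + 1) → ℝ) => f (val_p z)) := by
  obtain ⟨h1, C, h2⟩ := hf
  refine ⟨h1.comp ?_, C, fun z => h2 _⟩
  unfold val_p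
  refine measurable_fst.prodMk ?_
  rw [measurable_pi_iff]
  intro i
  exact (measurable_pi_apply _).comp measurable_snd

section fcal

variable {L}
variable {n : ℕ} {y : Fin n → K} {fc : (ℝ × (Fin n → ℝ) → ℂ) → (H →L[ℂ] H)} (h : L.FCal y fc)

include h

lemma val_fc_const (c : ℂ) : fc (fun _ => c) = c • (1 : H →L[ℂ] H) := by
  have h1 := h.lab (fun _ => c) ⟨measurable_const, ‖c‖, fun _ => le_rfl⟩
  rw [L.lab_const] at h1
  exact h1

lemma val_fc_smul (c : ℂ) {f : ℝ × (Fin n → ℝ) → ℂ} (hf : Bmn f) :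
    fc (fun z => c * f z) = c • fc f := by
  rw [h.mul _ _ (val_bmn_const c) hf, val_fc_const h]
  ext x
  simp

lemma val_fc_zero : fc (fun _ => 0) = 0 := by
  rw [val_fc_const h, zero_smul]

lemma val_fc_sum {ι : Type*} (s : Finset ι) (f : ι → ℝ × (Fin n → ℝ) → ℂ)
    (hf : ∀ i, Bmn (f i)) : Bmn (fun z => ∑ i ∈ s, f i z) ∧
      fc (fun z => ∑ i ∈ s, f i z) = ∑ i ∈ s, fc (f i) := by
  classical
  induction s using Finset.induction_on with
  | empty =>
    simp only [Finset.sum_empty]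
    exact ⟨val_bmn_const 0, val_fc_zero h⟩
  | insert a s ha ih =>
    simp only [Finset.sum_insert ha]
    refine ⟨val_bmn_add (hf a) ih.1, ?_⟩
    rw [h.add _ _ (hf a) ih.1, ih.2]

lemma val_fc_exp (k0 : ℝ) (k : Fin n → ℝ) (x : H) :
    fc (fun z => Complex.exp (Complex.I * ((k0 * z.1 + ∑ i, k i * z.2 i : ℝ) : ℂ))) x =
      L.lab (fun t => Complex.exp (Complex.I * ((k0 * t : ℝ) : ℂ)))
        (L.W (∑ i, (k i : ℂ) • y i) x) := by
  have hb : Bm (fun t : ℝ => Complex.exp (Complex.I * ((k0 * t : ℝ) : ℂ))) := by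
    refine ⟨Continuous.measurable (by fun_prop), 1, fun t => ?_⟩
    change ‖Complex.exp (Complex.I * ((k0 * t : ℝ) : ℂ))‖ ≤ 1
    rw [mul_comm, Complex.norm_exp_ofReal_mul_I]
  have e : (fun z : ℝ × (Fin n → ℝ) => Complex.exp (Complex.I *
      ((k0 * z.1 + ∑ i, k i * z.2 i : ℝ) : ℂ))) =
      fun z => (fun z : ℝ × (Fin n → ℝ) => Complex.exp (Complex.I * ((k0 * z.1 : ℝ) : ℂ))) z *
        (fun z : ℝ × (Fin n → ℝ) => Complex.exp (Complex.I * ((∑ i, k i * z.2 i : ℝ) : ℂ))) z := by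
    funext z
    simp only
    rw [← Complex.exp_add, ← mul_add, ← Complex.ofReal_add]
  rw [e, h.mul _ _ (val_bmn_fst hb) (val_bmn_W k)]
  have h1 := h.lab _ hb
  rw [h1, mul_apply_eq_comp, h.W]

lemma val_inner_fc {f g : ℝ × (Fin n → ℝ) → ℂ} (hf : Bmn f) (hg : Bmn g) :
    inner ℂ (fc f L.Om) (fc g L.Om) = ∫ z, (starRingEnd ℂ) (f z) * g z ∂(L.law n) := by
  rw [h.adj f hf, ← mul_apply_eq_comp, ← h.mul _ _ (val_bmn_conj hf) hg,
    h.vac _ (val_bmn_mul (val_bmn_conj hf) hg)]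

lemma val_norm_fc {f : ℝ × (Fin n → ℝ) → ℂ} (hf : Bmn f) :
    ‖fc f L.Om‖ ^ 2 = ∫ z, ‖f z‖ ^ 2 ∂(L.law n) := by
  have h1 := val_inner_fc h hf hf
  rw [inner_self_eq_norm_sq_to_K] at h1
  have h2 : ∀ z, (starRingEnd ℂ) (f z) * f z = ((‖f z‖ ^ 2 : ℝ) : ℂ) := by
    intro z
    rw [← Complex.normSq_eq_conj_mul_self, Complex.normSq_eq_norm_sq]
  simp only [h2] at h1
  rw [integral_complex_ofReal] at h1
  exact Complex.ofReal_injective (by rw [← h1]; push_cast; rfl)

/-- compatibility of the calculus for `n + 1` and for `n` fields -/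
theorem val_compat {y' : Fin (n + 1) → K} {fc' : (ℝ × (Fin (n + 1) → ℝ) → ℂ) → (H →L[ℂ] H)}
    (h' : L.FCal y' fc') (hy : ∀ i : Fin n, y' i.castSucc = y i) :
    ∀ f, Bmn f → fc' (fun z => f (val_p z)) = fc f := by
  have := L.val_law_prob n
  refine val_ind (L.law n) (fun f => fc' (fun z => f (val_p z)) = fc f) ?_ ?_ ?_ ?_ ?_
  · intro k0 k
    ext x
    rw [val_fc_exp h]
    have h1 := val_fc_exp h' k0 (Fin.snoc k 0 : Fin (n + 1) → ℝ) x
    have e1 : (fun z : ℝ × (Fin (n + 1) → ℝ) => Complex.exp (Complex.I *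
        ((k0 * z.1 + ∑ i, (Fin.snoc k 0 : Fin (n + 1) → ℝ) i * z.2 i : ℝ) : ℂ))) =
        fun z => (fun z : ℝ × (Fin n → ℝ) => Complex.exp (Complex.I *
          ((k0 * z.1 + ∑ i, k i * z.2 i : ℝ) : ℂ))) (val_p z) := by
      funext z
      simp only [val_p]
      rw [Fin.sum_univ_castSucc]
      simp
    have e2 : ∑ i, (((Fin.snoc k 0 : Fin (n + 1) → ℝ) i : ℝ) : ℂ) • y' i =
        ∑ i, (k i : ℂ) • y i := by
      rw [Fin.sum_univ_castSucc]
      simp [hy]
    rw [e1, e2] at h1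
    exact h1
  · intro f g hf hg e1 e2
    have h1 := h'.add _ _ (val_bmn_p hf) (val_bmn_p hg)
    rw [h.add _ _ hf hg, ← e1, ← e2]
    exact h1
  · intro c f hf e1
    have h1 := val_fc_smul h' c (val_bmn_p hf)
    rw [val_fc_smul h c hf, ← e1]
    exact h1
  · intro f g hf hg e1 e2
    have h1 := h'.mul _ _ (val_bmn_p hf) (val_bmn_p hg)
    rw [h.mul _ _ hf hg, ← e1, ← e2]
    exact h1
  · intro f f0 C hf hf0 hC hlim he
    ext x
    have h1 := h.lim f f0 C hf hf0 hC hlim x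
    have h2 := h'.lim (fun m z => f m (val_p z)) (fun z => f0 (val_p z)) C
      (fun m => val_bmn_p (hf m)) (val_bmn_p hf0) (fun m z => hC m _)
      ((L.val_p_mp n).quasiMeasurePreserving.ae hlim) x
    simp only [he] at h2
    exact tendsto_nhds_unique h2 h1

end fcal

/-! ### the control algebras -/

lemma val_alg0_const (c : ℂ) : c • (1 : H →L[ℂ] H) ∈ L.alg0 :=
  ⟨fun _ => c, ⟨measurable_const, ‖c‖, fun _ => le_rfl⟩, (L.lab_const c).symm⟩

lemma val_alg_mono (Y : ℕ → K) (k : ℕ) : L.alg Y k ⊆ L.alg Y (k + 1) := fun a ha => Gen.base a ha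

lemma val_alg0_sub (Y : ℕ → K) (k : ℕ) : L.alg0 ⊆ L.alg Y k := by
  induction k with
  | zero => exact subset_rfl
  | succ k ih => exact ih.trans (L.val_alg_mono Y k)

lemma val_alg_const (Y : ℕ → K) (k : ℕ) (c : ℂ) : c • (1 : H →L[ℂ] H) ∈ L.alg Y k :=
  L.val_alg0_sub Y k (L.val_alg0_const c)

lemma val_alg_add (Y : ℕ → K) (k : ℕ) {a b : H →L[ℂ] H} (ha : a ∈ L.alg Y k)
    (hb : b ∈ L.alg Y k) : a + b ∈ L.alg Y k := by
  cases k with
  | zero =>
    obtain ⟨f, hf, rfl⟩ := ha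
    obtain ⟨g, hg, rfl⟩ := hb
    refine ⟨fun t => f t + g t, ?_, (L.lab_add f g hf hg).symm⟩
    obtain ⟨h1, C, h2⟩ := hf
    obtain ⟨h3, D, h4⟩ := hg
    exact ⟨h1.add h3, C + D, fun x => (norm_add_le _ _).trans (add_le_add (h2 x) (h4 x))⟩
  | succ k => exact Gen.add a b ha hb

lemma val_alg_mul (Y : ℕ → K) (k : ℕ) {a b : H →L[ℂ] H} (ha : a ∈ L.alg Y k)
    (hb : b ∈ L.alg Y k) : a * b ∈ L.alg Y k := by
  cases k with
  | zero =>
    obtain ⟨f, hf, rfl⟩ := ha
    obtain ⟨g, hg, rfl⟩ := hb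
    refine ⟨fun t => f t * g t, ?_, (L.lab_mul f g hf hg).symm⟩
    obtain ⟨h1, C, h2⟩ := hf
    obtain ⟨h3, D, h4⟩ := hg
    refine ⟨h1.mul h3, C * D, fun x => ?_⟩
    rw [norm_mul]
    exact mul_le_mul (h2 x) (h4 x) (norm_nonneg _) ((norm_nonneg _).trans (h2 x))
  | succ k => exact Gen.mul a b ha hb

lemma val_alg_smul (Y : ℕ → K) (k : ℕ) (c : ℂ) {a : H →L[ℂ] H} (ha : a ∈ L.alg Y k) :
    c • a ∈ L.alg Y k := by
  have h := L.val_alg_mul Y k (L.val_alg_const Y k c) ha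
  have e : (c • (1 : H →L[ℂ] H)) * a = c • a := by
    ext x
    simp
  rwa [e] at h

/-- Weyl operators as bounded operators -/
noncomputable def val_W (v : K) : H →L[ℂ] H := (L.W v).toContinuousLinearEquiv.toContinuousLinearMap

lemma val_W_apply (v : K) (x : H) : L.val_W v x = L.W v x := rfl

lemma val_W_zero : L.val_W 0 = (1 : ℂ) • (1 : H →L[ℂ] H) := by
  ext x
  rw [val_W_apply, L.W_zero_apply]
  simp

lemma val_W_add (a b : K) : L.val_W (a + b) =
    Complex.exp (Complex.I * ((inner ℂ a b : ℂ).im : ℂ)) • (L.val_W a * L.val_W b) := by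
  ext x
  rw [_root_.smul_apply, mul_apply_eq_comp, val_W_apply, val_W_apply,
    val_W_apply, L.WW, smul_smul, ← Complex.exp_add, add_neg_cancel, Complex.exp_zero, one_smul]

lemma val_W_mem (Y : ℕ → K) (k : ℕ) (c : ℕ → ℝ) :
    L.val_W (∑ i ∈ Finset.range k, ((c i : ℝ) : ℂ) • Y i) ∈ L.alg Y k := by
  induction k with
  | zero =>
    rw [Finset.sum_range_zero, val_W_zero]
    exact L.val_alg0_const 1
  | succ k ih =>
    rw [Finset.sum_range_succ, val_W_add]
    refine L.val_alg_smul Y (k + 1) _ (L.val_alg_mul Y (k + 1) (L.val_alg_mono Y k ih) ?_)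
    exact Gen.W (c k)

/-- the calculus has values in the control algebra -/
theorem val_mem (Y : ℕ → K) (n : ℕ) {fc : (ℝ × (Fin n → ℝ) → ℂ) → (H →L[ℂ] H)}
    (h : L.FCal (fun i : Fin n => Y i) fc) : ∀ f, Bmn f → fc f ∈ L.alg Y n := by
  cases n with
  | zero =>
    intro f hf
    obtain ⟨h1, C, h2⟩ := hf
    have hb : Bm (fun t => f (t, Fin.elim0)) :=
      ⟨h1.comp (measurable_id.prodMk measurable_const), C, fun t => h2 _⟩
    have e : fc (fun z => f (z.1, Fin.elim0)) = L.lab (fun t => f (t, Fin.elim0)) := h.lab _ hb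
    have e2 : (fun z : ℝ × (Fin 0 → ℝ) => f (z.1, Fin.elim0)) = f := by
      funext z
      congr 1
      exact Prod.ext rfl (Subsingleton.elim _ _)
    rw [e2] at e
    exact ⟨_, hb, e⟩
  | succ n =>
    have := L.val_law_prob (n + 1)
    refine val_ind (L.law (n + 1)) (fun f => fc f ∈ L.alg Y (n + 1)) ?_ ?_ ?_ ?_ ?_
    · intro k0 k
      have hb : Bm (fun t : ℝ => Complex.exp (Complex.I * ((k0 * t : ℝ) : ℂ))) := by
        refine ⟨Continuous.measurable (by fun_prop), 1, fun t => ?_⟩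
        change ‖Complex.exp (Complex.I * ((k0 * t : ℝ) : ℂ))‖ ≤ 1
        rw [mul_comm, Complex.norm_exp_ofReal_mul_I]
      have e : fc (fun z => Complex.exp (Complex.I * ((k0 * z.1 + ∑ i, k i * z.2 i : ℝ) : ℂ))) =
          L.lab (fun t => Complex.exp (Complex.I * ((k0 * t : ℝ) : ℂ))) *
            L.val_W (∑ i : Fin (n + 1), (k i : ℂ) • Y i) := by
        ext x
        rw [val_fc_exp h]
        rfl
      have e2 : ∑ i : Fin (n + 1), (k i : ℂ) • Y i = ∑ i ∈ Finset.range (n + 1),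
          (((fun i : ℕ => if hi : i < n + 1 then k ⟨i, hi⟩ else 0) i : ℝ) : ℂ) • Y i := by
        rw [Finset.sum_range]
        refine Finset.sum_congr rfl fun i _ => ?_
        simp only [dif_pos i.2, Fin.eta]
      rw [e, e2]
      exact L.val_alg_mul Y (n + 1) (L.val_alg0_sub Y (n + 1) ⟨_, hb, rfl⟩)
        (L.val_W_mem Y (n + 1) _)
    · intro f g hf hg h1 h2
      rw [h.add _ _ hf hg]
      exact L.val_alg_add Y _ h1 h2
    · intro c f hf h1
      rw [val_fc_smul h c hf]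
      exact L.val_alg_smul Y _ c h1
    · intro f g hf hg h1 h2
      rw [h.mul _ _ hf hg]
      exact L.val_alg_mul Y _ h1 h2
    · intro f f0 C hf hf0 hC hlim hm
      have hC0 : 0 ≤ C := (norm_nonneg _).trans (hC 0 (0, 0))
      exact Gen.lim (fun m => fc (f m)) (fc f0) C hm
        (fun m => ContinuousLinearMap.opNorm_le_bound _ hC0 (h.norm _ (hf m) C (hC m)))
        (h.lim f f0 C hf hf0 hC hlim)

/-- sign valued controls -/
theorem val_sgn (Y : ℕ → K) (n : ℕ) {fc : (ℝ × (Fin n → ℝ) → ℂ) → (H →L[ℂ] H)}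
    (h : L.FCal (fun i : Fin n => Y i) fc) {G : Set ℝ} (hG : MeasurableSet G)
    (σ : ℝ × (Fin n → ℝ) → ℝ) (hσ : Measurable σ) (hσ2 : ∀ z, σ z * σ z = 1) :
    L.Sgn G (L.alg Y n) (fc (fun z => ((G.indicator (fun _ => (1 : ℝ)) z.1 * σ z : ℝ) : ℂ))) := by
  have hG1 : Measurable fun z : ℝ × (Fin n → ℝ) => G.indicator (fun _ => (1 : ℝ)) z.1 :=
    (measurable_const.indicator hG).comp measurable_fst
  have hGle : ∀ t : ℝ, |G.indicator (fun _ => (1 : ℝ)) t| ≤ 1 := by
    intro t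
    by_cases ht : t ∈ G
    · simp [Set.indicator_of_mem ht]
    · simp [Set.indicator_of_notMem ht]
  have hσ1 : ∀ z, |σ z| ≤ 1 := fun z => by
    have h1 : |σ z| * |σ z| = 1 := by rw [abs_mul_abs_self, hσ2]
    nlinarith [abs_nonneg (σ z)]
  have hb : Bmn (fun z => ((G.indicator (fun _ => (1 : ℝ)) z.1 * σ z : ℝ) : ℂ)) :=
    val_bmn_ofReal (C := 1) (hG1.mul hσ) (fun z => by
      rw [abs_mul]
      exact mul_le_one₀ (hGle _) (abs_nonneg _) (hσ1 z))
  refine ⟨L.val_mem Y n h _ hb, fun x y => ?_, ?_⟩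
  · rw [h.adj _ hb]
    simp only [Complex.conj_ofReal]
  · rw [← h.mul _ _ hb hb]
    have hB : Bm (G.indicator fun _ => (1 : ℂ)) := by
      refine ⟨measurable_const.indicator hG, 1, fun t => ?_⟩
      by_cases ht : t ∈ G
      · simp [Set.indicator_of_mem ht]
      · simp [Set.indicator_of_notMem ht]
    unfold E
    rw [← h.lab _ hB]
    congr 1
    funext z
    by_cases ht : z.1 ∈ G
    · simp only [Set.indicator_of_mem ht, one_mul]
      rw [← Complex.ofReal_mul, hσ2, Complex.ofReal_one]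
    · simp [Set.indicator_of_notMem ht]

/-- decomposition of a function with finitely many values into sign valued controls -/
theorem val_decomp (Y : ℕ → K) (n : ℕ) {fc : (ℝ × (Fin n → ℝ) → ℂ) → (H →L[ℂ] H)}
    (h : L.FCal (fun i : Fin n => Y i) fc) {G : Set ℝ} (hG : MeasurableSet G)
    (F : ℝ × (Fin n → ℝ) → ℝ) (hF : Measurable F) (hfin : (Set.range F).Finite) :
    ∃ (m : ℕ) (sg : Fin m → (H →L[ℂ] H)) (c : Fin m → ℝ), (∀ i, L.Sgn G (L.alg Y n) (sg i)) ∧
      ∑ i, (c i : ℂ) • sg i =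
        fc (fun z => ((G.indicator (fun _ => (1 : ℝ)) z.1 * F z : ℝ) : ℂ)) := by
  classical
  set s : Finset ℝ := hfin.toFinset with hs
  -- the sign functions
  set σ : s × Bool → ℝ × (Fin n → ℝ) → ℝ := fun p z =>
    if p.2 then 1 else (if F z = p.1 then 1 else -1) with hσ
  have hσm : ∀ p, Measurable (σ p) := by
    intro p
    simp only [hσ]
    by_cases hp : p.2 = true
    · simp only [hp, if_true]
      exact measurable_const
    · simp only [if_neg hp]
      exact Measurable.ite (hF (measurableSet_singleton _)) measurable_const measurable_const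
  have hσ2 : ∀ p z, σ p z * σ p z = 1 := by
    intro p z
    simp only [hσ]
    split_ifs <;> norm_num
  set e := Fintype.equivFin (s × Bool) with he
  refine ⟨Fintype.card (s × Bool), fun i => fc (fun z =>
    ((G.indicator (fun _ => (1 : ℝ)) z.1 * σ (e.symm i) z : ℝ) : ℂ)),
    fun i => ((e.symm i).1 : ℝ) / 2, fun i => L.val_sgn Y n h hG _ (hσm _) (hσ2 _), ?_⟩
  have hG1 : Measurable fun z : ℝ × (Fin n → ℝ) => G.indicator (fun _ => (1 : ℝ)) z.1 :=
    (measurable_const.indicator hG).comp measurable_fst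
  have hGle : ∀ t : ℝ, |G.indicator (fun _ => (1 : ℝ)) t| ≤ 1 := by
    intro t
    by_cases ht : t ∈ G
    · simp [Set.indicator_of_mem ht]
    · simp [Set.indicator_of_notMem ht]
  have hb : ∀ p, Bmn (fun z => ((G.indicator (fun _ => (1 : ℝ)) z.1 * σ p z : ℝ) : ℂ)) := by
    intro p
    refine val_bmn_ofReal (C := 1) (hG1.mul (hσm p)) (fun z => ?_)
    rw [abs_mul]
    have hσ1 : |σ p z| ≤ 1 := by
      have h1 : |σ p z| * |σ p z| = 1 := by rw [abs_mul_abs_self, hσ2]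
      nlinarith [abs_nonneg (σ p z)]
    exact mul_le_one₀ (hGle _) (abs_nonneg _) hσ1
  have e1 : ∑ i, ((((e.symm i).1 : ℝ) / 2 : ℝ) : ℂ) • fc (fun z =>
      ((G.indicator (fun _ => (1 : ℝ)) z.1 * σ (e.symm i) z : ℝ) : ℂ)) =
      ∑ p : s × Bool, ((((p.1 : ℝ) / 2 : ℝ) : ℂ)) • fc (fun z =>
      ((G.indicator (fun _ => (1 : ℝ)) z.1 * σ p z : ℝ) : ℂ)) :=
    Fintype.sum_equiv e.symm _ _ fun i => rfl
  rw [e1]
  have e2 : ∀ p : s × Bool, ((((p.1 : ℝ) / 2 : ℝ) : ℂ)) • fc (fun z =>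
      ((G.indicator (fun _ => (1 : ℝ)) z.1 * σ p z : ℝ) : ℂ)) =
      fc (fun z => ((((p.1 : ℝ) / 2 : ℝ) : ℂ)) *
        ((G.indicator (fun _ => (1 : ℝ)) z.1 * σ p z : ℝ) : ℂ)) := fun p =>
    (val_fc_smul h _ (hb p)).symm
  simp only [e2]
  rw [← (val_fc_sum h Finset.univ _ fun p => val_bmn_smul _ (hb p)).2]
  congr 1
  funext z
  have hz : F z ∈ s := by
    rw [hs, Set.Finite.mem_toFinset]
    exact ⟨z, rfl⟩
  rw [Fintype.sum_prod_type]
  simp only [Fintype.sum_bool, hσ, if_true, Bool.false_eq_true, if_false]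
  rw [Finset.sum_eq_single (⟨F z, hz⟩ : s)]
  · simp only [if_true]
    push_cast
    ring
  · intro v _ hv
    have : ¬ F z = v := fun hh => hv (Subtype.ext hh.symm)
    simp only [if_neg this]
    push_cast
    ring
  · intro hh
    exact absurd (Finset.mem_univ _) hh

end LSys

end Vale.Agent.P367.A
end

section

/-! P367, block B, value: the rotation `exp(-i Th Y)` for a control `Th` given by the functional
calculus. -/

namespace Vale.Agent.P367.A

open Complex Filter Topology MeasureTheory ProbabilityTheory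

namespace LSys

variable {H K : Type*} [NormedAddCommGroup H] [InnerProductSpace ℂ H]
  [NormedAddCommGroup K] [InnerProductSpace ℂ K] (L : LSys H K)

/-- `Y` -/
noncomputable def val_Y : H →L[ℂ] H := (L.pau 1).toContinuousLinearEquiv.toContinuousLinearMap

lemma val_Y_apply (x : H) : L.val_Y x = L.pau 1 x := rfl

lemma val_pau_sq (x : H) : L.pau 1 (L.pau 1 x) = x := L.Zt_sq _ x

lemma val_Y_sq : L.val_Y * L.val_Y = 1 := by
  ext x
  exact L.val_pau_sq x

lemma val_W_pau (a : K) (x : H) : L.W a (L.pau 1 x) = L.pau 1 (L.W a x) := L.W_ZtA a _ x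

lemma val_inner_pau (x y : H) : inner ℂ (L.pau 1 x) y = (inner ℂ x (L.pau 1 y) : ℂ) := by
  have h := (L.pau 1).inner_map_map x (L.pau 1 y)
  rwa [L.val_pau_sq] at h

lemma val_lab_pau (f : ℝ → ℂ) (x : H) : L.lab f (L.pau 1 x) = L.pau 1 (L.lab f x) := by
  change L.lab f (L.Zt (-(Real.pi / 4)) x) = L.Zt (-(Real.pi / 4)) (L.lab f x)
  rw [L.Zt_apply, L.Zt_apply, L.xr_apply, L.xr_apply, map_sub, map_smul, map_smul, L.lab_X,
    L.lab_Z]

/-- semiconjugation of exponentials -/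
lemma val_exp_semi {A : Type*} [NormedRing A] [NormedAlgebra ℂ A] [CompleteSpace A]
    (a b x : A) (h : a * x = x * b) : NormedSpace.exp a * x = x * NormedSpace.exp b := by
  have h1 := (NormedSpace.exp_series_hasSum_exp' (𝕂 := ℂ) a).mul_right x
  have h2 := (NormedSpace.exp_series_hasSum_exp' (𝕂 := ℂ) b).mul_left x
  refine h1.unique ?_
  convert h2 using 2 with n
  have h3 : a ^ n * x = x * b ^ n := by
    induction n with
    | zero => simp
    | succ n ih => rw [pow_succ, mul_assoc, h, ← mul_assoc, ih, mul_assoc, ← pow_succ]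
  rw [smul_mul_assoc, h3, mul_smul_comm]

variable {L}

section fc

variable {n : ℕ} {y : Fin n → K} {fc : (ℝ × (Fin n → ℝ) → ℂ) → (H →L[ℂ] H)} (h : L.FCal y fc)

include h

lemma val_fc_Y {f : ℝ × (Fin n → ℝ) → ℂ} (hf : Bmn f) : fc f * L.val_Y = L.val_Y * fc f := by
  refine h.comm f hf L.val_Y (fun g _ => ?_) (fun k x => L.val_W_pau _ x)
  ext x
  exact L.val_lab_pau g x

lemma val_fc_pow {f : ℝ × (Fin n → ℝ) → ℂ} (hf : Bmn f) (k : ℕ) :
    Bmn (fun z => f z ^ k) ∧ fc (fun z => f z ^ k) = fc f ^ k := by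
  induction k with
  | zero =>
    simp only [pow_zero]
    exact ⟨val_bmn_const 1, by rw [val_fc_const h, one_smul]⟩
  | succ k ih =>
    simp only [pow_succ]
    exact ⟨val_bmn_mul ih.1 hf, by rw [h.mul _ _ ih.1 hf, ih.2]⟩

omit h in
lemma val_bmn_cexp {f : ℝ × (Fin n → ℝ) → ℂ} (hf : Bmn f) : Bmn (fun z => Complex.exp (f z)) := by
  obtain ⟨h1, C, h2⟩ := hf
  refine ⟨Complex.measurable_exp.comp h1, Real.exp C, fun z => ?_⟩
  rw [Complex.norm_exp]
  exact Real.exp_le_exp.2 ((Complex.re_le_norm _).trans (h2 z))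

/-- exponentials -/
lemma val_exp_fc [CompleteSpace H] {f : ℝ × (Fin n → ℝ) → ℂ} (hf : Bmn f) :
    NormedSpace.exp (fc f) = fc (fun z => Complex.exp (f z)) := by
  obtain ⟨C, hC⟩ := hf.2
  have hC0 : 0 ≤ C := (norm_nonneg _).trans (hC (0, 0))
  have h1 : Tendsto (fun N : ℕ => ∑ k ∈ Finset.range N, ((k.factorial : ℂ)⁻¹) • (fc f) ^ k)
      atTop (𝓝 (NormedSpace.exp (fc f))) :=
    (NormedSpace.exp_series_hasSum_exp' (𝕂 := ℂ) (fc f)).tendsto_sum_nat
  have hterm : ∀ k : ℕ, Bmn (fun z => ((k.factorial : ℂ)⁻¹) * f z ^ k) := fun k =>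
    val_bmn_smul _ (val_fc_pow h hf k).1
  have e1 : ∀ N : ℕ, ∑ k ∈ Finset.range N, ((k.factorial : ℂ)⁻¹) • (fc f) ^ k
      = fc (fun z => ∑ k ∈ Finset.range N, ((k.factorial : ℂ)⁻¹) * f z ^ k) := by
    intro N
    rw [(val_fc_sum h (Finset.range N) _ hterm).2]
    refine Finset.sum_congr rfl fun k _ => ?_
    rw [val_fc_smul h _ (val_fc_pow h hf k).1, (val_fc_pow h hf k).2]
  have hsum : ∀ z, HasSum (fun k : ℕ => ((k.factorial : ℂ)⁻¹) * f z ^ k) (Complex.exp (f z)) := by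
    intro z
    have := NormedSpace.exp_series_hasSum_exp' (𝕂 := ℂ) (f z)
    rw [← Complex.exp_eq_exp_ℂ] at this
    simpa [smul_eq_mul] using this
  have hsumC : HasSum (fun k : ℕ => ((k.factorial : ℝ)⁻¹) * C ^ k) (Real.exp C) := by
    have := NormedSpace.exp_series_hasSum_exp' (𝕂 := ℝ) C
    rw [← Real.exp_eq_exp_ℝ] at this
    simpa [smul_eq_mul] using this
  ext x
  have h2 : Tendsto (fun N : ℕ => fc (fun z => ∑ k ∈ Finset.range N,
      ((k.factorial : ℂ)⁻¹) * f z ^ k) x) atTop (𝓝 (fc (fun z => Complex.exp (f z)) x)) := by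
    refine h.lim _ _ (Real.exp C) (fun N => (val_fc_sum h _ _ hterm).1) (val_bmn_cexp hf)
      (fun N z => ?_) (Eventually.of_forall fun z => (hsum z).tendsto_sum_nat) x
    refine (norm_sum_le _ _).trans ?_
    refine le_trans (Finset.sum_le_sum fun k _ => ?_)
      (hsumC.summable.sum_le_tsum (Finset.range N) (fun k _ => by positivity) |>.trans
        (le_of_eq hsumC.tsum_eq))
    rw [norm_mul, norm_inv, norm_pow, Complex.norm_natCast]
    exact mul_le_mul_of_nonneg_left (pow_le_pow_left₀ (norm_nonneg _) (hC z) _) (by positivity)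
  have h3 : Tendsto (fun N : ℕ => (∑ k ∈ Finset.range N, ((k.factorial : ℂ)⁻¹) • (fc f) ^ k) x)
      atTop (𝓝 (NormedSpace.exp (fc f) x)) :=
    ((ContinuousLinearMap.apply ℂ H x).continuous.tendsto _).comp h1
  simp only [e1] at h3
  exact tendsto_nhds_unique h3 h2

lemma val_exp_rot [CompleteSpace H] {θ : ℝ × (Fin n → ℝ) → ℝ} (hθ : Measurable θ) {C : ℝ}
    (hC : ∀ z, |θ z| ≤ C) :
    NormedSpace.exp ((-Complex.I) • (fc (fun z => ((θ z : ℝ) : ℂ)) * L.val_Y)) =
      fc (fun z => ((Real.cos (θ z) : ℝ) : ℂ)) -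
        Complex.I • (fc (fun z => ((Real.sin (θ z) : ℝ) : ℂ)) * L.val_Y) := by
  have hb : Bmn (fun z => ((θ z : ℝ) : ℂ)) := val_bmn_ofReal hθ hC
  have hbc : Bmn (fun z => ((Real.cos (θ z) : ℝ) : ℂ)) :=
    val_bmn_ofReal (C := 1) (Real.measurable_cos.comp hθ) (fun z => Real.abs_cos_le_one _)
  have hbs : Bmn (fun z => ((Real.sin (θ z) : ℝ) : ℂ)) :=
    val_bmn_ofReal (C := 1) (Real.measurable_sin.comp hθ) (fun z => Real.abs_sin_le_one _)
  set T := fc (fun z => ((θ z : ℝ) : ℂ)) with hT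
  set Y := L.val_Y with hY
  have hYY : Y * Y = 1 := L.val_Y_sq
  have hTY : T * Y = Y * T := val_fc_Y h hb
  have hCY := val_fc_Y h hbc
  have hSY := val_fc_Y h hbs
  -- the exponentials of `T`
  have hem : ∀ c : ℂ, NormedSpace.exp (c • T) = fc (fun z => Complex.exp (c * ((θ z : ℝ) : ℂ))) := by
    intro c
    rw [hT, ← val_fc_smul h c hb]
    exact val_exp_fc h (val_bmn_smul c hb)
  have hp : NormedSpace.exp ((-Complex.I) • T) = fc (fun z => ((Real.cos (θ z) : ℝ) : ℂ)) -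
      Complex.I • fc (fun z => ((Real.sin (θ z) : ℝ) : ℂ)) := by
    rw [hem, sub_eq_add_neg, ← neg_smul, ← val_fc_smul h _ hbs,
      ← h.add _ _ hbc (val_bmn_smul _ hbs)]
    congr 1
    funext z
    rw [show -Complex.I * ((θ z : ℝ) : ℂ) = (-(θ z : ℝ) : ℂ) * Complex.I by ring,
      Complex.exp_mul_I, Complex.cos_neg, Complex.sin_neg, Complex.ofReal_cos, Complex.ofReal_sin]
    ring
  have hm : NormedSpace.exp (Complex.I • T) = fc (fun z => ((Real.cos (θ z) : ℝ) : ℂ)) +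
      Complex.I • fc (fun z => ((Real.sin (θ z) : ℝ) : ℂ)) := by
    rw [hem, ← val_fc_smul h _ hbs, ← h.add _ _ hbc (val_bmn_smul _ hbs)]
    congr 1
    funext z
    rw [show Complex.I * ((θ z : ℝ) : ℂ) = ((θ z : ℝ) : ℂ) * Complex.I by ring,
      Complex.exp_mul_I, Complex.ofReal_cos, Complex.ofReal_sin]
    ring
  -- the two projections
  have a1 : ((-Complex.I) • (T * Y)) * (1 + Y) = (1 + Y) * ((-Complex.I) • T) := by
    rw [smul_mul_assoc, mul_smul_comm, mul_add, add_mul, mul_one, one_mul, mul_assoc, hYY,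
      mul_one, hTY, add_comm]
  have a2 : ((-Complex.I) • (T * Y)) * (1 - Y) = (1 - Y) * (Complex.I • T) := by
    rw [smul_mul_assoc, mul_smul_comm, mul_sub, sub_mul, mul_one, one_mul, mul_assoc, hYY,
      mul_one, hTY, neg_smul, ← smul_neg, neg_sub]
  have b1 := val_exp_semi _ _ _ a1
  have b2 := val_exp_semi _ _ _ a2
  rw [hp] at b1
  rw [hm] at b2
  have b3 := congrArg₂ (· + ·) b1 b2
  rw [← mul_add] at b3
  have e1 : (1 : H →L[ℂ] H) + Y + (1 - Y) = (2 : ℂ) • 1 := by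
    rw [two_smul]
    abel
  rw [e1, mul_smul_comm, mul_one] at b3
  set Cc := fc (fun z => ((Real.cos (θ z) : ℝ) : ℂ)) with hCc
  set Ss := fc (fun z => ((Real.sin (θ z) : ℝ) : ℂ)) with hSs
  have b4 : (1 + Y) * (Cc - Complex.I • Ss) + (1 - Y) * (Cc + Complex.I • Ss) =
      (2 : ℂ) • (Cc - Complex.I • (Ss * Y)) := by
    rw [add_mul, sub_mul, one_mul, one_mul, mul_sub, mul_add, mul_smul_comm, hSY, two_smul]
    abel
  rw [b4] at b3
  have h2 : (2 : ℂ) ≠ 0 := two_ne_zero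
  exact smul_right_injective _ h2 b3

/-- **the rotation** -/
theorem val_rot [CompleteSpace H] {θ : ℝ × (Fin n → ℝ) → ℝ} (hθ : Measurable θ) {C : ℝ}
    (hC : ∀ z, |θ z| ≤ C) : ∃ U : H ≃ₗᵢ[ℂ] H, L.IsRot (fc (fun z => ((θ z : ℝ) : ℂ))) 1 U ∧
      (∀ x, U x = fc (fun z => ((Real.cos (θ z) : ℝ) : ℂ)) x -
        Complex.I • L.pau 1 (fc (fun z => ((Real.sin (θ z) : ℝ) : ℂ)) x)) ∧
      ∀ x, U⁻¹ x = fc (fun z => ((Real.cos (θ z) : ℝ) : ℂ)) x +
        Complex.I • L.pau 1 (fc (fun z => ((Real.sin (θ z) : ℝ) : ℂ)) x) := by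
  have hbc : Bmn (fun z => ((Real.cos (θ z) : ℝ) : ℂ)) :=
    val_bmn_ofReal (C := 1) (Real.measurable_cos.comp hθ) (fun z => Real.abs_cos_le_one _)
  have hbs : Bmn (fun z => ((Real.sin (θ z) : ℝ) : ℂ)) :=
    val_bmn_ofReal (C := 1) (Real.measurable_sin.comp hθ) (fun z => Real.abs_sin_le_one _)
  have hSY := val_fc_Y h hbs
  have hCY := val_fc_Y h hbc
  set Cc := fc (fun z => ((Real.cos (θ z) : ℝ) : ℂ)) with hCc
  set Ss := fc (fun z => ((Real.sin (θ z) : ℝ) : ℂ)) with hSs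
  have hCS : Cc * Ss = Ss * Cc := by
    rw [hCc, hSs, ← h.mul _ _ hbc hbs, ← h.mul _ _ hbs hbc]
    congr 1
    funext z
    ring
  have hCCSS : Cc * Cc + Ss * Ss = 1 := by
    rw [hCc, hSs, ← h.mul _ _ hbc hbc, ← h.mul _ _ hbs hbs,
      ← h.add _ _ (val_bmn_mul hbc hbc) (val_bmn_mul hbs hbs)]
    have e : (fun z => ((Real.cos (θ z) : ℝ) : ℂ) * ((Real.cos (θ z) : ℝ) : ℂ) +
        ((Real.sin (θ z) : ℝ) : ℂ) * ((Real.sin (θ z) : ℝ) : ℂ)) = fun _ => (1 : ℂ) := by
      funext z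
      have := Real.cos_sq_add_sin_sq (θ z)
      rw [← Complex.ofReal_mul, ← Complex.ofReal_mul, ← Complex.ofReal_add, ← pow_two,
        ← pow_two, this, Complex.ofReal_one]
    rw [e, val_fc_const h, one_smul]
  set Y := L.val_Y with hY
  have hYY : Y * Y = 1 := L.val_Y_sq
  set A : H →L[ℂ] H := Cc - Complex.I • (Y * Ss) with hA
  set B : H →L[ℂ] H := Cc + Complex.I • (Y * Ss) with hB
  have hYSYS : (Y * Ss) * (Y * Ss) = Ss * Ss := by
    rw [mul_assoc, ← mul_assoc Ss Y Ss, hSY, ← mul_assoc, ← mul_assoc, hYY, one_mul]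
  have hCYS : Cc * (Y * Ss) = (Y * Ss) * Cc := by
    rw [← mul_assoc, hCY, mul_assoc, hCS, mul_assoc]
  have hI : Complex.I * Complex.I = -1 := Complex.I_mul_I
  have hBA : B * A = 1 := by
    rw [hA, hB, add_mul, mul_sub, mul_sub, mul_smul_comm, smul_mul_assoc, smul_mul_assoc,
      mul_smul_comm, smul_smul, hI, hYSYS, hCYS, neg_smul, one_smul, ← hCCSS]
    abel
  have hAB : A * B = 1 := by
    rw [hA, hB, sub_mul, mul_add, mul_add, mul_smul_comm, smul_mul_assoc, smul_mul_assoc,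
      mul_smul_comm, smul_smul, hI, hYSYS, hCYS, neg_smul, one_smul, ← hCCSS]
    abel
  have hadjC : ∀ x x', inner ℂ (Cc x) x' = (inner ℂ x (Cc x') : ℂ) := by
    intro x x'
    rw [hCc, h.adj _ hbc]
    simp only [Complex.conj_ofReal]
  have hadjS : ∀ x x', inner ℂ (Ss x) x' = (inner ℂ x (Ss x') : ℂ) := by
    intro x x'
    rw [hSs, h.adj _ hbs]
    simp only [Complex.conj_ofReal]
  have hAapp : ∀ x, A x = Cc x - Complex.I • L.pau 1 (Ss x) := fun x => rfl
  have hBapp : ∀ x, B x = Cc x + Complex.I • L.pau 1 (Ss x) := fun x => rfl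
  have hSYa : ∀ x, Ss (L.pau 1 x) = L.pau 1 (Ss x) := fun x =>
    congrArg (fun T : H →L[ℂ] H => T x) hSY
  have hadj : ∀ x x', inner ℂ (A x) x' = (inner ℂ x (B x') : ℂ) := by
    intro x x'
    rw [hAapp, hBapp, inner_sub_left, inner_add_right, inner_smul_left, inner_smul_right,
      L.val_inner_pau, hadjC, hadjS, hSYa, Complex.conj_I]
    ring
  obtain ⟨U, hU1, hU2⟩ : ∃ U : H ≃ₗᵢ[ℂ] H, (∀ x, U x = A x) ∧ ∀ x, U.symm x = B x := by
    refine ⟨mkU A.toLinearMap B.toLinearMap (fun x => ?_) (fun x => ?_) hadj, fun x => rfl,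
      fun x => rfl⟩
    · exact congrArg (fun T : H →L[ℂ] H => T x) hBA
    · exact congrArg (fun T : H →L[ℂ] H => T x) hAB
  refine ⟨U, fun x => ?_, fun x => by rw [hU1, hAapp], fun x => ?_⟩
  · have e := val_exp_rot h hθ hC
    rw [hU1]
    change A x = NormedSpace.exp ((-Complex.I) • (fc (fun z => ((θ z : ℝ) : ℂ)) * L.val_Y)) x
    rw [e, hA, ← hCc, ← hSs, hSY]
  · change U.symm x = _
    rw [hU2, hBapp]

end fc

end LSys

end Vale.Agent.P367.A
end

section

/-! P367, block B, value: the field vectors of a simple scheme (recursion over the levels). -/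

namespace Vale.Agent.P367.A

open Complex Filter Topology MeasureTheory ProbabilityTheory

namespace LSys

variable {H K : Type*} [NormedAddCommGroup H] [InnerProductSpace ℂ H]
  [NormedAddCommGroup K] [InnerProductSpace ℂ K] (L : LSys H K)

/-- extension by zero -/
noncomputable def val_ex {N : ℕ} (n : ℕ) (z : Fin N → ℝ) : Fin (n + 1) → ℝ :=
  fun i => if h : (i : ℕ) < N then z ⟨i, h⟩ else 0

lemma val_ex_meas {N : ℕ} (n : ℕ) : Measurable (val_ex (N := N) n) := by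
  rw [measurable_pi_iff]
  intro i
  unfold val_ex
  by_cases h : (i : ℕ) < N
  · simp only [dif_pos h]
    exact measurable_pi_apply _
  · simp only [dif_neg h]
    exact measurable_const

lemma val_ex_self {n : ℕ} (z : Fin (n + 1) → ℝ) : val_ex n z = z := by
  funext i
  unfold val_ex
  rw [dif_pos i.2]

lemma val_bdd_of_fin {α : Type*} {F : α → ℝ} (h : (Set.range F).Finite) :
    ∃ C : ℝ, ∀ z, |F z| ≤ C := by
  obtain ⟨C, hC⟩ := (h.image abs).bddAbove
  exact ⟨C, fun z => hC ⟨F z, ⟨z, rfl⟩, rfl⟩⟩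

/-- integrals of functions of the first variables -/
lemma val_ex_int {n N0 : ℕ} (Φ : (Fin (n + 1) → ℝ) → ℝ) (hΦ : Measurable Φ)
    (hdep : ∀ z z' : Fin (n + 1) → ℝ, (∀ j : Fin (n + 1), (j : ℕ) < N0 → z j = z' j) → Φ z = Φ z') :
    ∀ d N : ℕ, N + d = n + 1 → N0 ≤ N →
      ∫ z, Φ (val_ex n z) ∂(Measure.pi fun _ : Fin N => gaussianReal 0 1) =
      ∫ z, Φ z ∂(Measure.pi fun _ : Fin (n + 1) => gaussianReal 0 1) := by
  intro d
  induction d with
  | zero =>
    intro N hN h0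
    rw [add_zero] at hN
    subst hN
    refine integral_congr_ae (Eventually.of_forall fun z => ?_)
    simp only [val_ex_self]
  | succ d ih =>
    intro N hN h0
    rw [← ih (N + 1) (by omega) (by omega)]
    have h1 := (measurePreserving_piFinSuccAbove (fun _ : Fin (N + 1) => gaussianReal 0 1)
      (Fin.last N))
    have h2 : MeasurePreserving (Prod.snd : ℝ × (Fin N → ℝ) → (Fin N → ℝ))
        ((gaussianReal 0 1).prod (Measure.pi fun _ : Fin N => gaussianReal 0 1))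
        (Measure.pi fun _ : Fin N => gaussianReal 0 1) := measurePreserving_snd
    have h3 := h2.comp h1
    have e : (Prod.snd ∘ ⇑(MeasurableEquiv.piFinSuccAbove (fun _ : Fin (N + 1) => ℝ)
        (Fin.last N))) = fun (z : Fin (N + 1) → ℝ) (i : Fin N) => z i.castSucc := by
      funext z i
      change z ((Fin.last N).succAbove i) = z i.castSucc
      rw [Fin.succAbove_last]
    rw [e] at h3
    have h4 := integral_map (f := fun z : Fin N → ℝ => Φ (val_ex n z)) h3.aemeasurable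
      (hΦ.comp (val_ex_meas n)).aestronglyMeasurable
    rw [h3.map_eq] at h4
    rw [h4]
    refine integral_congr_ae (Eventually.of_forall fun z => ?_)
    refine hdep _ _ fun j hj => ?_
    unfold val_ex
    rw [dif_pos (by omega), dif_pos (by omega)]
    rfl

section fc

variable {L}
variable {n : ℕ} {y : Fin n → K} {fc : (ℝ × (Fin n → ℝ) → ℂ) → (H →L[ℂ] H)} (h : L.FCal y fc)

lemma val_bmn_G {G : Set ℝ} (hG : MeasurableSet G) {A : (Fin n → ℝ) → ℝ} (hA : Measurable A)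
    {C : ℝ} (hC : ∀ z, |A z| ≤ C) :
    Bmn (fun z : ℝ × (Fin n → ℝ) => ((G.indicator (fun _ => (1 : ℝ)) z.1 * A z.2 : ℝ) : ℂ)) := by
  have hG1 : Measurable fun z : ℝ × (Fin n → ℝ) => G.indicator (fun _ => (1 : ℝ)) z.1 :=
    (measurable_const.indicator hG).comp measurable_fst
  refine val_bmn_ofReal (C := 1 * C) (hG1.mul (hA.comp measurable_snd)) (fun z => ?_)
  rw [abs_mul]
  refine mul_le_mul ?_ (hC _) (abs_nonneg _) zero_le_one
  by_cases ht : z.1 ∈ G
  · simp [Set.indicator_of_mem ht]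
  · simp [Set.indicator_of_notMem ht]

lemma val_int_G {G : Set ℝ} (hG : MeasurableSet G) (A : (Fin n → ℝ) → ℝ) :
    ∫ z, G.indicator (fun _ => (1 : ℝ)) z.1 * A z.2 ∂(L.law n) =
      L.mu.real G * ∫ z, A z ∂(Measure.pi fun _ : Fin n => gaussianReal 0 1) := by
  have := L.prob
  unfold law
  rw [integral_prod_mul (fun t => G.indicator (fun _ => (1 : ℝ)) t) A]
  congr 1
  rw [integral_indicator hG]
  simp

include h

lemma val_inner_G {G : Set ℝ} (hG : MeasurableSet G) {A B : (Fin n → ℝ) → ℝ}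
    (hA : Measurable A) (hB : Measurable B) {C D : ℝ} (hC : ∀ z, |A z| ≤ C)
    (hD : ∀ z, |B z| ≤ D) :
    inner ℂ (fc (fun z => ((G.indicator (fun _ => (1 : ℝ)) z.1 * A z.2 : ℝ) : ℂ)) L.Om)
      (fc (fun z => ((G.indicator (fun _ => (1 : ℝ)) z.1 * B z.2 : ℝ) : ℂ)) L.Om) =
      ((L.mu.real G * ∫ z, A z * B z ∂(Measure.pi fun _ : Fin n => gaussianReal 0 1) : ℝ) : ℂ) := by
  rw [val_inner_fc h (val_bmn_G hG hA hC) (val_bmn_G hG hB hD), ← val_int_G (L := L) hG,
    ← integral_complex_ofReal]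
  refine integral_congr_ae (Eventually.of_forall fun z => ?_)
  simp only [Complex.conj_ofReal]
  rw [← Complex.ofReal_mul]
  congr 1
  by_cases ht : z.1 ∈ G
  · simp [Set.indicator_of_mem ht]
  · simp [Set.indicator_of_notMem ht]

end fc

lemma val_alg_congr {Y Y' : ℕ → K} (k : ℕ) (h : ∀ i < k, Y i = Y' i) :
    L.alg Y k = L.alg Y' k := by
  induction k with
  | zero => rfl
  | succ k ih =>
    change L.nxt (L.alg Y k) (Y k) = L.nxt (L.alg Y' k) (Y' k)
    rw [ih (fun i hi => h i (by omega)), h k (by omega)]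

/-- the field vectors of a simple scheme -/
theorem val_tower (hfc : ∀ (n : ℕ) (y : Fin n → K), Orthonormal ℂ y → ∃ fc, L.FCal y fc)
    {G : Set ℝ} (hG : MeasurableSet G) (hG0 : 0 < L.mu.real G) {n : ℕ}
    (φ : Fin (n + 1) → (Fin (n + 1) → ℝ) → ℝ) (hm : ∀ k, Measurable (φ k))
    (hfin : ∀ k, (Set.range (φ k)).Finite)
    (hdep : ∀ (k : Fin (n + 1)) z z', (∀ j : Fin (n + 1), (j : ℕ) < (k : ℕ) → z j = z' j) →
      φ k z = φ k z')
    (horth : ∀ j k, ∫ z, φ j z * φ k z ∂(Measure.pi fun _ : Fin (n + 1) => gaussianReal 0 1) =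
      if j = k then 1 else 0) :
    ∀ N : ℕ, N ≤ n + 1 → ∃ (Y : ℕ → K) (fc : (ℝ × (Fin N → ℝ) → ℂ) → (H →L[ℂ] H)),
      Orthonormal ℂ (fun i : Fin N => Y i) ∧ L.FCal (fun i : Fin N => Y i) fc ∧
      (∀ k : Fin (n + 1), (k : ℕ) < N → Y k = L.iota (fc (fun z =>
        ((G.indicator (fun _ => (1 : ℝ)) z.1 *
          (φ k (val_ex n z.2) / Real.sqrt (L.mu.real G)) : ℝ) : ℂ)) L.Om)) ∧
      (∀ k < N, ∃ (m : ℕ) (sg : Fin m → (H →L[ℂ] H)) (c : Fin m → ℝ),
        (∀ i, L.Sgn G (L.alg Y k) (sg i)) ∧ Y k = L.iota ((∑ i, (c i : ℂ) • sg i) L.Om)) := by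
  intro N
  induction N with
  | zero =>
    intro _
    have ho : Orthonormal ℂ (fun i : Fin 0 => (fun _ : ℕ => (0 : K)) i) :=
      ⟨fun i => i.elim0, fun i => i.elim0⟩
    obtain ⟨fc, h⟩ := hfc 0 _ ho
    exact ⟨fun _ => 0, fc, ho, h, fun k hk => absurd hk (by omega), fun k hk => absurd hk (by omega)⟩
  | succ N ih =>
    intro hN
    obtain ⟨Y, fc, hY, h, hYk, hlev⟩ := ih (by omega)
    set g := L.mu.real G with hg
    have hsg : 0 < Real.sqrt g := Real.sqrt_pos.2 hG0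
    have hsq : Real.sqrt g * Real.sqrt g = g := Real.mul_self_sqrt hG0.le
    have hN' : N < n + 1 := by omega
    -- the functions
    set A : Fin (n + 1) → (Fin N → ℝ) → ℝ := fun k z => φ k (val_ex n z) / Real.sqrt g with hA
    have hAm : ∀ k, Measurable (A k) := fun k => ((hm k).comp (val_ex_meas n)).div_const _
    have hAb : ∀ k, ∃ C, ∀ z, |A k z| ≤ C := by
      intro k
      obtain ⟨C, hC⟩ := val_bdd_of_fin (hfin k)
      refine ⟨C / Real.sqrt g, fun z => ?_⟩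
      simp only [hA]
      rw [abs_div, abs_of_pos hsg]
      exact div_le_div_of_nonneg_right (hC _) hsg.le
    have hinner : ∀ j k : Fin (n + 1), (j : ℕ) ≤ N → (k : ℕ) ≤ N →
        inner ℂ (fc (fun z => ((G.indicator (fun _ => (1 : ℝ)) z.1 * A j z.2 : ℝ) : ℂ)) L.Om)
          (fc (fun z => ((G.indicator (fun _ => (1 : ℝ)) z.1 * A k z.2 : ℝ) : ℂ)) L.Om) =
        ((if j = k then 1 else 0 : ℝ) : ℂ) := by
      intro j k hj hk
      obtain ⟨C, hC⟩ := hAb j
      obtain ⟨D, hD⟩ := hAb k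
      rw [val_inner_G h hG (hAm j) (hAm k) hC hD]
      congr 1
      have h1 : ∀ z, A j z * A k z = (φ j (val_ex n z) * φ k (val_ex n z)) / g := by
        intro z
        simp only [hA]
        rw [div_mul_div_comm, hsq]
      simp only [h1]
      rw [integral_div, val_ex_int (n := n) (N0 := N) (fun z => φ j z * φ k z)
        ((hm j).mul (hm k)) (fun z z' hzz => by
          rw [hdep j z z' (fun i hi => hzz i (by omega)), hdep k z z' (fun i hi => hzz i (by omega))])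
        (n + 1 - N) N (by omega) le_rfl, horth]
      rw [← hg]
      split_ifs
      · field_simp
      · simp
    set kN : Fin (n + 1) := ⟨N, hN'⟩ with hkN
    set v : K := L.iota (fc (fun z => ((G.indicator (fun _ => (1 : ℝ)) z.1 * A kN z.2 : ℝ) : ℂ))
      L.Om) with hv
    set Y' : ℕ → K := Function.update Y N v with hY'
    have hY'N : Y' N = v := Function.update_self _ _ _
    have hY'lt : ∀ i < N, Y' i = Y i := fun i hi => Function.update_of_ne (by omega) _ _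
    have hYA : ∀ k : Fin (n + 1), (k : ℕ) < N + 1 → Y' k = L.iota (fc (fun z =>
        ((G.indicator (fun _ => (1 : ℝ)) z.1 * A k z.2 : ℝ) : ℂ)) L.Om) := by
      intro k hk
      rcases Nat.lt_succ_iff_lt_or_eq.1 hk with hk' | hk'
      · rw [hY'lt _ hk', hYk k hk']
      · have e : k = kN := Fin.ext hk'
        rw [e]
        exact hY'N
    have ho : Orthonormal ℂ (fun i : Fin (N + 1) => Y' i) := by
      rw [orthonormal_iff_ite]
      intro i j
      have hi : (i : ℕ) < n + 1 := by omega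
      have hj : (j : ℕ) < n + 1 := by omega
      have e1 := hYA ⟨i, hi⟩ i.2
      have e2 := hYA ⟨j, hj⟩ j.2
      simp only at e1 e2
      rw [e1, e2, LinearIsometry.inner_map_map, hinner ⟨i, hi⟩ ⟨j, hj⟩ (by simp; omega)
        (by simp; omega)]
      by_cases hij : i = j
      · subst hij
        simp
      · have hne : (⟨i, hi⟩ : Fin (n + 1)) ≠ ⟨j, hj⟩ := fun hh => hij (Fin.ext (Fin.mk.inj hh))
        rw [if_neg hne, if_neg hij, Complex.ofReal_zero]
    obtain ⟨fc', h'⟩ := hfc (N + 1) _ ho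
    have hcomp := val_compat h h' (fun i => hY'lt i i.2)
    refine ⟨Y', fc', ho, h', fun k hk => ?_, fun k hk => ?_⟩
    · rw [hYA k hk]
      obtain ⟨C, hC⟩ := hAb k
      rw [← hcomp _ (val_bmn_G hG (hAm k) hC)]
      congr 3
      funext z
      simp only [val_p, hA]
      have e : φ k (val_ex n fun i => z.2 i.castSucc) = φ k (val_ex n z.2) := by
        refine hdep k _ _ fun j hj => ?_
        unfold val_ex
        rw [dif_pos (by omega), dif_pos (by omega)]
        rfl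
      rw [e]
    · rcases Nat.lt_succ_iff_lt_or_eq.1 hk with hk' | hk'
      · obtain ⟨m, sg, c, h1, h2⟩ := hlev k hk'
        refine ⟨m, sg, c, fun i => ?_, ?_⟩
        · rw [L.val_alg_congr k (fun i hi => hY'lt i (by omega))]
          exact h1 i
        · rw [hY'lt k hk', h2]
      · subst hk'
        have hfinA : (Set.range fun z : ℝ × (Fin k → ℝ) => A kN z.2).Finite := by
          refine ((hfin kN).image (fun x => x / Real.sqrt g)).subset ?_
          rintro _ ⟨z, rfl⟩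
          exact ⟨φ kN (val_ex n z.2), ⟨_, rfl⟩, rfl⟩
        obtain ⟨m, sg, c, h1, h2⟩ := L.val_decomp Y k h hG (fun z => A kN z.2)
          ((hAm kN).comp measurable_snd) hfinA
        refine ⟨m, sg, c, fun i => ?_, ?_⟩
        · rw [L.val_alg_congr k (fun i hi => hY'lt i hi)]
          exact h1 i
        · rw [hY'N, hv, h2]

end LSys

end Vale.Agent.P367.A
end

section

/-! P367 block B, value, E3: the vector `U^* Z U Om` of a field controlled rotation about `Y`. -/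

namespace Vale.Agent.P367.A

open Complex Filter Topology MeasureTheory ProbabilityTheory

namespace LSys

variable {H K : Type*} [NormedAddCommGroup H] [InnerProductSpace ℂ H]
  [NormedAddCommGroup K] [InnerProductSpace ℂ K] (L : LSys H K)

lemma ven3_pau1 (x : H) : L.pau 1 x = Complex.I • L.X (L.Z x) := by
  change L.Zt (-(Real.pi / 4)) x = _
  rw [L.Zt_apply, L.xr_apply]
  have h : 2 * (2 * (-(Real.pi / 4))) / 2 = -(Real.pi / 2) := by ring
  have h' : 2 * (-(Real.pi / 4)) = -(Real.pi / 2) := by ring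
  rw [h', Real.cos_neg, Real.sin_neg, Real.cos_pi_div_two, Real.sin_pi_div_two]
  simp

variable {n : ℕ} {y : Fin n → K} {fc : (ℝ × (Fin n → ℝ) → ℂ) → (H →L[ℂ] H)}

lemma ven3_X (hfc : L.FCal y fc) {f : ℝ × (Fin n → ℝ) → ℂ} (hf : Bmn f) (x : H) :
    fc f (L.X x) = L.X (fc f x) := by
  have h := hfc.comm f hf L.X.toContinuousLinearEquiv.toContinuousLinearMap
    (fun g _ => by ext1 x; exact L.lab_X g x) (fun k x => L.WX _ x)
  exact DFunLike.congr_fun h x

lemma ven3_Z (hfc : L.FCal y fc) {f : ℝ × (Fin n → ℝ) → ℂ} (hf : Bmn f) (x : H) :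
    fc f (L.Z x) = L.Z (fc f x) := by
  have h := hfc.comm f hf L.Z.toContinuousLinearEquiv.toContinuousLinearMap
    (fun g _ => by ext1 x; exact L.lab_Z g x) (fun k x => L.WZ _ x)
  exact DFunLike.congr_fun h x

lemma ven3_bm {g : ℝ × (Fin n → ℝ) → ℝ} (hg : Measurable g) {C : ℝ} (hC : ∀ z, |g z| ≤ C) :
    Bmn fun z => ((g z : ℝ) : ℂ) :=
  ⟨Complex.measurable_ofReal.comp hg, C, fun z => by
    rw [Complex.norm_real, Real.norm_eq_abs]
    exact hC z⟩

lemma ven3_bmc {t : ℝ × (Fin n → ℝ) → ℝ} (ht : Measurable t) :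
    Bmn fun z => ((Real.cos (t z) : ℝ) : ℂ) :=
  ven3_bm (Real.measurable_cos.comp ht) (fun z => Real.abs_cos_le_one _)

lemma ven3_bms {t : ℝ × (Fin n → ℝ) → ℝ} (ht : Measurable t) :
    Bmn fun z => ((Real.sin (t z) : ℝ) : ℂ) :=
  ven3_bm (Real.measurable_sin.comp ht) (fun z => Real.abs_sin_le_one _)

lemma ven3_mul {f g : ℝ × (Fin n → ℝ) → ℂ} (hf : Bmn f) (hg : Bmn g) :
    Bmn fun z => f z * g z := by
  obtain ⟨C, hC⟩ := hf.2
  obtain ⟨D, hD⟩ := hg.2
  refine ⟨hf.1.mul hg.1, C * D, fun z => ?_⟩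
  rw [norm_mul]
  exact mul_le_mul (hC z) (hD z) (norm_nonneg _) ((norm_nonneg _).trans (hC z))

/-- **E3, general form**: if `U = cos t - i Y sin t` then `U^* Z U Om = cos 2t Z Om - sin 2t Om`. -/
theorem ven3_xv (hfc : L.FCal y fc) {t : ℝ × (Fin n → ℝ) → ℝ} (ht : Measurable t)
    {U : H ≃ₗᵢ[ℂ] H} (hU : ∀ x, U x = fc (fun z => ((Real.cos (t z) : ℝ) : ℂ)) x
      - Complex.I • L.pau 1 (fc (fun z => ((Real.sin (t z) : ℝ) : ℂ)) x)) :
    L.xv U = fc (fun z => ((Real.cos (2 * t z) : ℝ) : ℂ)) (L.Z L.Om)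
      - fc (fun z => ((Real.sin (2 * t z) : ℝ) : ℂ)) L.Om := by
  have h2 : Measurable fun z => 2 * t z := ht.const_mul 2
  have bc := ven3_bmc ht
  have bs := ven3_bms ht
  have bc2 := ven3_bmc h2
  have bs2 := ven3_bms h2
  have m : ∀ {f g : ℝ × (Fin n → ℝ) → ℂ}, Bmn f → Bmn g → ∀ x,
      fc f (fc g x) = fc (fun z => f z * g z) x := fun hf hg x =>
    (DFunLike.congr_fun (hfc.mul _ _ hf hg) x).symm
  have hYZ : L.pau 1 (L.Z L.Om) = Complex.I • L.Om := by
    rw [ven3_pau1, L.ZZ, L.XOm]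
  have hY : L.pau 1 L.Om = -(Complex.I • L.Z L.Om) := by
    rw [ven3_pau1, L.XZ, L.XOm, smul_neg]
  have hYf : ∀ {f : ℝ × (Fin n → ℝ) → ℂ}, Bmn f → ∀ x, L.pau 1 (fc f x) = fc f (L.pau 1 x) := by
    intro f hf x
    rw [ven3_pau1, ven3_pau1, map_smul, ven3_X L hfc hf, ven3_Z L hfc hf]
  have hUOm : L.Z (U L.Om) = fc (fun z => ((Real.cos (t z) : ℝ) : ℂ)) (L.Z L.Om)
      - fc (fun z => ((Real.sin (t z) : ℝ) : ℂ)) L.Om := by
    rw [hU, hYf bs, hY, map_neg, map_smul, smul_neg, smul_smul, Complex.I_mul_I, neg_one_smul,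
      neg_neg, sub_eq_add_neg, map_add, map_neg, ← ven3_Z L hfc bc, ← ven3_Z L hfc bs, L.ZZ,
      ← sub_eq_add_neg]
  have hU1 : U (fc (fun z => ((Real.cos (2 * t z) : ℝ) : ℂ)) (L.Z L.Om))
      = fc (fun z => ((Real.cos (t z) : ℝ) : ℂ) * ((Real.cos (2 * t z) : ℝ) : ℂ)) (L.Z L.Om)
        + fc (fun z => ((Real.sin (t z) : ℝ) : ℂ) * ((Real.cos (2 * t z) : ℝ) : ℂ)) L.Om := by
    rw [hU, m bc bc2, m bs bc2, hYf (ven3_mul bs bc2), hYZ, map_smul, smul_smul, Complex.I_mul_I,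
      neg_one_smul, sub_neg_eq_add]
  have hU2 : U (fc (fun z => ((Real.sin (2 * t z) : ℝ) : ℂ)) L.Om)
      = fc (fun z => ((Real.cos (t z) : ℝ) : ℂ) * ((Real.sin (2 * t z) : ℝ) : ℂ)) L.Om
        - fc (fun z => ((Real.sin (t z) : ℝ) : ℂ) * ((Real.sin (2 * t z) : ℝ) : ℂ))
          (L.Z L.Om) := by
    rw [hU, m bc bs2, m bs bs2, hYf (ven3_mul bs bs2), hY, map_neg, map_smul, smul_neg, smul_smul,
      Complex.I_mul_I, neg_one_smul, neg_neg]
  have e1 : (fun z => ((Real.cos (t z) : ℝ) : ℂ)) = fun z =>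
      ((Real.cos (t z) : ℝ) : ℂ) * ((Real.cos (2 * t z) : ℝ) : ℂ)
        + ((Real.sin (t z) : ℝ) : ℂ) * ((Real.sin (2 * t z) : ℝ) : ℂ) := by
    funext z
    have h := Real.cos_sub (2 * t z) (t z)
    rw [show 2 * t z - t z = t z by ring] at h
    rw [← Complex.ofReal_mul, ← Complex.ofReal_mul, ← Complex.ofReal_add]
    congr 1
    linarith
  have e2 : (fun z => ((Real.cos (t z) : ℝ) : ℂ) * ((Real.sin (2 * t z) : ℝ) : ℂ)) = fun z =>
      ((Real.sin (t z) : ℝ) : ℂ) + ((Real.sin (t z) : ℝ) : ℂ) * ((Real.cos (2 * t z) : ℝ) : ℂ) := by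
    funext z
    have h := Real.sin_sub (2 * t z) (t z)
    rw [show 2 * t z - t z = t z by ring] at h
    rw [← Complex.ofReal_mul, ← Complex.ofReal_mul, ← Complex.ofReal_add]
    congr 1
    linarith
  have key : L.Z (U L.Om) = U (fc (fun z => ((Real.cos (2 * t z) : ℝ) : ℂ)) (L.Z L.Om)
      - fc (fun z => ((Real.sin (2 * t z) : ℝ) : ℂ)) L.Om) := by
    rw [map_sub, hUOm, hU1, hU2, e1, hfc.add _ _ (ven3_mul bc bc2) (ven3_mul bs bs2), e2,
      hfc.add _ _ bs (ven3_mul bs bc2)]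
    simp only [add_apply]
    abel
  unfold Sys.xv
  rw [key]
  exact U.symm_apply_apply _

/-- **E3**: on the labels of `G` (`t = 1_G th`) -/
theorem ven3_main (hfc : L.FCal y fc) {G : Set ℝ} (hG : MeasurableSet G)
    {t : ℝ × (Fin n → ℝ) → ℝ} (ht : Measurable t) {U : H ≃ₗᵢ[ℂ] H}
    (hU : ∀ x, U x = fc (fun z => ((Real.cos (t z) : ℝ) : ℂ)) x
      - Complex.I • L.pau 1 (fc (fun z => ((Real.sin (t z) : ℝ) : ℂ)) x)) :
    L.E G (L.xv U)
      = fc (fun z => ((G.indicator (fun _ => (1 : ℝ)) z.1 * Real.cos (2 * t z) : ℝ) : ℂ))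
          (L.Z L.Om)
        + fc (fun z => ((-(G.indicator (fun _ => (1 : ℝ)) z.1 * Real.sin (2 * t z)) : ℝ) : ℂ))
          L.Om := by
  have h2 : Measurable fun z => 2 * t z := ht.const_mul 2
  rw [ven3_xv L hfc ht hU, map_sub]
  have hB : Bm (G.indicator fun _ => (1 : ℂ)) := by
    refine ⟨measurable_const.indicator hG, 1, fun t => ?_⟩
    by_cases h : t ∈ G
    · simp [Set.indicator_of_mem h]
    · simp [Set.indicator_of_notMem h]
  have hB' : Bmn fun z : ℝ × (Fin n → ℝ) => G.indicator (fun _ => (1 : ℂ)) z.1 :=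
    ⟨hB.1.comp measurable_fst, hB.2.choose, fun _ => hB.2.choose_spec _⟩
  have hE : L.E G = fc fun z => G.indicator (fun _ => (1 : ℂ)) z.1 := (hfc.lab _ hB).symm
  have m : ∀ {f g : ℝ × (Fin n → ℝ) → ℂ}, Bmn f → Bmn g → ∀ x,
      fc f (fc g x) = fc (fun z => f z * g z) x := fun hf hg x =>
    (DFunLike.congr_fun (hfc.mul _ _ hf hg) x).symm
  have hi : ∀ z : ℝ × (Fin n → ℝ), G.indicator (fun _ => (1 : ℂ)) z.1
      = ((G.indicator (fun _ => (1 : ℝ)) z.1 : ℝ) : ℂ) := by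
    intro z
    by_cases h : z.1 ∈ G
    · rw [Set.indicator_of_mem h, Set.indicator_of_mem h, Complex.ofReal_one]
    · rw [Set.indicator_of_notMem h, Set.indicator_of_notMem h, Complex.ofReal_zero]
  have mm : Bmn fun z : ℝ × (Fin n → ℝ) =>
      ((G.indicator (fun _ => (1 : ℝ)) z.1 * Real.sin (2 * t z) : ℝ) : ℂ) := by
    have h := ven3_mul hB' (ven3_bms h2)
    have e : (fun z : ℝ × (Fin n → ℝ) =>
        ((G.indicator (fun _ => (1 : ℝ)) z.1 * Real.sin (2 * t z) : ℝ) : ℂ))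
        = fun z => G.indicator (fun _ => (1 : ℂ)) z.1 * ((Real.sin (2 * t z) : ℝ) : ℂ) := by
      funext z
      rw [hi]
      push_cast
      ring
    rw [e]
    exact h
  rw [hE, m hB' (ven3_bmc h2), m hB' (ven3_bms h2)]
  have hneg : fc (fun z => ((-(G.indicator (fun _ => (1 : ℝ)) z.1 * Real.sin (2 * t z)) : ℝ) : ℂ))
      L.Om = -fc (fun z => G.indicator (fun _ => (1 : ℂ)) z.1 * ((Real.sin (2 * t z) : ℝ) : ℂ))
        L.Om := by
    have hc : Bmn fun _ : ℝ × (Fin n → ℝ) => (-1 : ℂ) := ⟨measurable_const, 1, fun _ => by simp⟩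
    have h3 := m hc mm L.Om
    have h4 : fc (fun _ : ℝ × (Fin n → ℝ) => (-1 : ℂ)) = (-1 : ℂ) • (1 : H →L[ℂ] H) := by
      have h5 := hfc.lab (fun _ => (-1 : ℂ)) ⟨measurable_const, 1, fun _ => by simp⟩
      rw [h5]
      exact L.lab_const _
    rw [h4] at h3
    have h6 : (fun z : ℝ × (Fin n → ℝ) =>
        (-1 : ℂ) * ((G.indicator (fun _ => (1 : ℝ)) z.1 * Real.sin (2 * t z) : ℝ) : ℂ))
        = fun z => ((-(G.indicator (fun _ => (1 : ℝ)) z.1 * Real.sin (2 * t z)) : ℝ) : ℂ) := by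
      funext z
      push_cast
      ring
    rw [h6] at h3
    rw [← h3]
    have h7 : (fun z : ℝ × (Fin n → ℝ) =>
        ((G.indicator (fun _ => (1 : ℝ)) z.1 * Real.sin (2 * t z) : ℝ) : ℂ))
        = fun z => G.indicator (fun _ => (1 : ℂ)) z.1 * ((Real.sin (2 * t z) : ℝ) : ℂ) := by
      funext z
      rw [hi]
      push_cast
      ring
    rw [h7]
    exact neg_one_smul ℂ _
  rw [hneg, sub_eq_add_neg]
  congr 3
  funext z
  rw [hi]
  push_cast
  ring

/-- choice of the angle -/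
lemma ven3_choice {α : Type*} [MeasurableSpace α] {m0 : α → ℝ} (hm : Measurable m0)
    (h1 : ∀ z, |m0 z| ≤ 1) : ∃ th : α → ℝ, Measurable th ∧ (∀ z, |th z| ≤ Real.pi / 4) ∧
      (∀ z, -Real.sin (2 * th z) = m0 z) ∧ (∀ z, m0 z = 0 → th z = 0) ∧
      (∀ z, Real.cos (2 * th z) = Real.sqrt (1 - m0 z ^ 2)) := by
  refine ⟨fun z => -(Real.arcsin (m0 z) / 2), ?_, fun z => ?_, fun z => ?_, fun z hz => ?_,
    fun z => ?_⟩
  · exact ((Real.continuous_arcsin.measurable.comp hm).div_const 2).neg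
  · have h2 := Real.arcsin_le_pi_div_two (m0 z)
    have h3 := Real.neg_pi_div_two_le_arcsin (m0 z)
    rw [abs_le]
    constructor <;> linarith
  · have h := h1 z
    rw [abs_le] at h
    have e : 2 * -(Real.arcsin (m0 z) / 2) = -Real.arcsin (m0 z) := by ring
    rw [e, Real.sin_neg, neg_neg, Real.sin_arcsin h.1 h.2]
  · simp [hz]
  · have e : 2 * -(Real.arcsin (m0 z) / 2) = -Real.arcsin (m0 z) := by ring
    rw [e, Real.cos_neg, Real.cos_arcsin]

end LSys

end Vale.Agent.P367.A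
end
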