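import Mathlib
import Vale.Agent.P367.Bd3.B1

set_option linter.all false

section

/-! P367, Theorem A, block N: niceness calculus. -/

namespace Vale.Agent.P367.A

open Complex

namespace Sys

variable {H K : Type*} [NormedAddCommGroup H] [InnerProductSpace ℂ H]
  [NormedAddCommGroup K] [InnerProductSpace ℂ K] (S : Sys H K)

variable {S}

lemma Nice.nrm {c : ℝ} {x : H} (h : S.Nice c x) : ‖x‖ ≤ c := h.m0

lemma Nice.one {c : ℝ} {x : H} (h : S.Nice c x) (a : K) : ‖S.W a x - x‖ ≤ c * ‖a‖ := h.m1 a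

lemma Nice.two {c : ℝ} {x : H} (h : S.Nice c x) (a b : K) :
    ‖S.W a (S.W b x - x) - (S.W b x - x)‖ ≤ c * ‖a‖ * ‖b‖ := by
  rw [mul_assoc]; exact h.m2 a b

lemma Nice.mk' {c : ℝ} {x : H} (h0 : ‖x‖ ≤ c) (h1 : ∀ a, ‖S.W a x - x‖ ≤ c * ‖a‖)
    (h2 : ∀ a b, ‖S.W a (S.W b x - x) - (S.W b x - x)‖ ≤ c * ‖a‖ * ‖b‖) : S.Nice c x :=
  ⟨h0, h1, fun a b => by rw [← mul_assoc]; exact h2 a b⟩

lemma Nice.c0 {c : ℝ} {x : H} (h : S.Nice c x) : 0 ≤ c := (norm_nonneg x).trans h.nrm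

lemma Nice.mono {c d : ℝ} {x : H} (h : S.Nice c x) (hcd : c ≤ d) : S.Nice d x where
  m0 := h.nrm.trans hcd
  m1 a := (h.one a).trans (mul_le_mul_of_nonneg_right hcd (norm_nonneg a))
  m2 a b := (h.m2 a b).trans (mul_le_mul_of_nonneg_right hcd (by positivity))

variable (S) in
lemma nice_zero : S.Nice 0 (0 : H) where
  m0 := by simp
  m1 a := by simp
  m2 a b := by simp

lemma Nice.add {c d : ℝ} {x y : H} (hx : S.Nice c x) (hy : S.Nice d y) :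
    S.Nice (c + d) (x + y) where
  m0 := (norm_add_le x y).trans (add_le_add hx.nrm hy.nrm)
  m1 a := by
    have e : S.W a (x + y) - (x + y) = (S.W a x - x) + (S.W a y - y) := by
      rw [map_add]; abel
    rw [e]
    refine (norm_add_le _ _).trans ?_
    have h1 := hx.one a
    have h2 := hy.one a
    nlinarith
  m2 a b := by
    have e : S.W a (S.W b (x + y) - (x + y)) - (S.W b (x + y) - (x + y))
        = (S.W a (S.W b x - x) - (S.W b x - x)) + (S.W a (S.W b y - y) - (S.W b y - y)) := by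
      simp only [map_add, map_sub]; abel
    rw [e]
    refine (norm_add_le _ _).trans ?_
    have h1 := hx.two a b
    have h2 := hy.two a b
    nlinarith

lemma Nice.smul {c : ℝ} {x : H} (hx : S.Nice c x) (k : ℂ) : S.Nice (‖k‖ * c) (k • x) where
  m0 := by
    rw [norm_smul]
    exact mul_le_mul_of_nonneg_left hx.nrm (norm_nonneg k)
  m1 a := by
    have e : S.W a (k • x) - k • x = k • (S.W a x - x) := by
      rw [map_smul, smul_sub]
    rw [e, norm_smul, mul_assoc]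
    exact mul_le_mul_of_nonneg_left (hx.one a) (norm_nonneg k)
  m2 a b := by
    have e : S.W a (S.W b (k • x) - k • x) - (S.W b (k • x) - k • x)
        = k • (S.W a (S.W b x - x) - (S.W b x - x)) := by
      simp only [map_smul, map_sub, smul_sub]
    rw [e, norm_smul]
    have := mul_le_mul_of_nonneg_left (hx.two a b) (norm_nonneg k)
    calc _ ≤ _ := this
      _ = _ := by ring

lemma Nice.neg {c : ℝ} {x : H} (hx : S.Nice c x) : S.Nice c (-x) := by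
  have := hx.smul (-1)
  simpa using this

lemma Nice.sub {c d : ℝ} {x y : H} (hx : S.Nice c x) (hy : S.Nice d y) :
    S.Nice (c + d) (x - y) := by
  rw [sub_eq_add_neg]
  exact hx.add hy.neg

lemma Nice.sum {ι : Type*} (s : Finset ι) (c : ι → ℝ) (x : ι → H)
    (h : ∀ i ∈ s, S.Nice (c i) (x i)) : S.Nice (∑ i ∈ s, c i) (∑ i ∈ s, x i) := by
  classical
  induction s using Finset.induction_on with
  | empty => simpa using S.nice_zero
  | insert i s hi ih =>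
    rw [Finset.sum_insert hi, Finset.sum_insert hi]
    exact (h i (Finset.mem_insert_self i s)).add
      (ih fun j hj => h j (Finset.mem_insert_of_mem hj))

/-- isometries commuting with the Weyl operators preserve niceness. -/
lemma Nice.comm {c : ℝ} {x : H} (hx : S.Nice c x) (U : H ≃ₗᵢ[ℂ] H)
    (hU : ∀ a y, S.W a (U y) = U (S.W a y)) : S.Nice c (U x) where
  m0 := by rw [U.norm_map]; exact hx.nrm
  m1 a := by
    rw [hU, ← map_sub, U.norm_map]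
    exact hx.one a
  m2 a b := by
    rw [hU b, ← map_sub, hU a, ← map_sub, U.norm_map]
    exact hx.m2 a b

variable (S) in
lemma n_W_X (a : K) (x : H) : S.W a (S.X x) = S.X (S.W a x) := S.WX a x

variable (S) in
lemma n_W_xr (t : ℝ) (a : K) (x : H) : S.W a (S.xr t x) = S.xr t (S.W a x) := by
  rw [S.xr_apply, S.xr_apply, map_sub, map_smul, map_smul, S.WX]

variable (S) in
lemma n_W_Zt (t : ℝ) (a : K) (x : H) : S.W a (S.Zt t x) = S.Zt t (S.W a x) := by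
  change S.W a (S.xr t (S.Z (S.xr (-t) x))) = S.xr t (S.Z (S.xr (-t) (S.W a x)))
  rw [S.n_W_xr, S.WZ, S.n_W_xr]

lemma Nice.X {c : ℝ} {x : H} (hx : S.Nice c x) : S.Nice c (S.X x) := hx.comm S.X S.WX

lemma Nice.Z {c : ℝ} {x : H} (hx : S.Nice c x) : S.Nice c (S.Z x) := hx.comm S.Z S.WZ

lemma Nice.xr {c : ℝ} {x : H} (hx : S.Nice c x) (t : ℝ) : S.Nice c (S.xr t x) :=
  hx.comm _ (S.n_W_xr t)

lemma Nice.Zt {c : ℝ} {x : H} (hx : S.Nice c x) (t : ℝ) : S.Nice c (S.Zt t x) :=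
  hx.comm _ (S.n_W_Zt t)

/-! ### Weyl operators -/

lemma n_norm_expI (t : ℝ) : ‖Complex.exp (Complex.I * (t : ℂ)) - 1‖ ≤ |t| := by
  have := Real.norm_exp_I_mul_ofReal_sub_one_le (x := t)
  simpa [Real.norm_eq_abs] using this

variable (S) in
/-- commutation of Weyl operators -/
lemma n_W_comm (a b : K) (x : H) : S.W a (S.W b x)
    = Complex.exp (Complex.I * ((-(2 * (inner ℂ a b : ℂ).im) : ℝ) : ℂ)) • S.W b (S.W a x) := by
  rw [S.WW, S.WW, smul_smul, ← Complex.exp_add, add_comm b a]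
  congr 2
  have : (inner ℂ b a : ℂ).im = -(inner ℂ a b : ℂ).im := by
    rw [← inner_conj_symm, conj_im]
  rw [this]
  push_cast
  ring

lemma n_abs_im_le (a b : K) : |(inner ℂ a b : ℂ).im| ≤ ‖a‖ * ‖b‖ :=
  (Complex.abs_im_le_norm _).trans (norm_inner_le_norm a b)

/-- the phase of `n_W_comm` -/
noncomputable def n_ph (a b : K) : ℂ :=
  Complex.exp (Complex.I * ((-(2 * (inner ℂ a b : ℂ).im) : ℝ) : ℂ))

variable (S) in
lemma n_W_comm' (a b : K) (x : H) : S.W a (S.W b x) = n_ph a b • S.W b (S.W a x) := S.n_W_comm a b x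

lemma n_norm_ph (a b : K) : ‖n_ph a b‖ = 1 := by
  unfold n_ph
  rw [mul_comm]
  exact Complex.norm_exp_ofReal_mul_I _

lemma n_norm_ph_sub_one (a b : K) : ‖n_ph a b - 1‖ ≤ 2 * ‖b‖ * ‖a‖ := by
  refine (n_norm_expI _).trans ?_
  rw [abs_neg, abs_mul, abs_two]
  have := n_abs_im_le a b
  nlinarith

lemma Nice.W {c : ℝ} {x : H} (hx : S.Nice c x) (b : K) :
    S.Nice (c * (1 + 2 * ‖b‖) ^ 2) (S.W b x) := by
  have hc := hx.c0
  have hb := norm_nonneg b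
  have h1 : (1 : ℝ) ≤ 1 + 2 * ‖b‖ := by linarith
  have h2 : (1 + 2 * ‖b‖) ≤ (1 + 2 * ‖b‖) ^ 2 := by nlinarith
  have key1 : ∀ a y d, ‖S.W a y - y‖ ≤ d * ‖a‖ → ‖y‖ ≤ d →
      ‖n_ph a b • S.W a y - y‖ ≤ d * (1 + 2 * ‖b‖) * ‖a‖ := by
    intro a y d h h'
    have e : n_ph a b • S.W a y - y = n_ph a b • (S.W a y - y) + (n_ph a b - 1) • y := by
      rw [smul_sub, sub_smul, one_smul]; abel
    rw [e]
    refine (norm_add_le _ _).trans ?_
    rw [norm_smul, norm_smul, n_norm_ph, one_mul]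
    have h3 := n_norm_ph_sub_one a b
    have h4 : ‖n_ph a b - 1‖ * ‖y‖ ≤ (2 * ‖b‖ * ‖a‖) * d :=
      mul_le_mul h3 h' (norm_nonneg _) (by positivity)
    nlinarith
  refine Nice.mk' ?_ ?_ ?_
  · rw [LinearIsometryEquiv.norm_map]
    refine hx.nrm.trans ?_
    nlinarith
  · intro a
    rw [S.n_W_comm' a b, ← map_smul, ← map_sub, LinearIsometryEquiv.norm_map]
    refine (key1 a x c (hx.one a) hx.nrm).trans ?_
    have ha := norm_nonneg a
    have : c * (1 + 2 * ‖b‖) ≤ c * (1 + 2 * ‖b‖) ^ 2 := mul_le_mul_of_nonneg_left h2 hc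
    exact mul_le_mul_of_nonneg_right this ha
  · intro a a'
    rw [S.n_W_comm' a' b, ← map_smul, ← map_sub, S.n_W_comm' a b, ← map_smul, ← map_sub,
      LinearIsometryEquiv.norm_map]
    set y := n_ph a' b • S.W a' x - x with hy
    have ha := norm_nonneg a
    have ha' := norm_nonneg a'
    have hy1 : ‖y‖ ≤ c * (1 + 2 * ‖b‖) * ‖a'‖ := key1 a' x c (hx.one a') hx.nrm
    have hy2 : ‖S.W a y - y‖ ≤ (c * (1 + 2 * ‖b‖) * ‖a'‖) * ‖a‖ := by
      have e : S.W a y - y = n_ph a' b • (S.W a (S.W a' x - x) - (S.W a' x - x))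
          + (n_ph a' b - 1) • (S.W a x - x) := by
        rw [hy]
        simp only [map_sub, map_smul, smul_sub, sub_smul, one_smul]
        abel
      rw [e]
      refine (norm_add_le _ _).trans ?_
      rw [norm_smul, norm_smul, n_norm_ph, one_mul]
      have h3 := n_norm_ph_sub_one a' b
      have h4 := hx.two a a'
      have h5 := hx.one a
      have h6 : ‖n_ph a' b - 1‖ * ‖S.W a x - x‖ ≤ (2 * ‖b‖ * ‖a'‖) * (c * ‖a‖) :=
        mul_le_mul h3 h5 (norm_nonneg _) (by positivity)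
      nlinarith
    have := key1 a y (c * (1 + 2 * ‖b‖) * ‖a'‖) hy2 hy1
    refine this.trans (le_of_eq ?_)
    ring

/-! ### pulses -/

lemma Nice.zr {c : ℝ} {x : H} (hx : S.Nice c x) (v : K) :
    S.Nice (2 * c * (1 + 2 * ‖v‖) ^ 2) (S.zr v x) := by
  rw [S.zr_apply]
  have h1 := hx.W (-v)
  have h2 := hx.W v
  have h3 := hx.Z.W (-v)
  have h4 := hx.Z.W v
  rw [norm_neg] at h1 h3
  have := ((h1.add h2).smul (1 / 2)).add ((h3.sub h4).smul (1 / 2))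
  refine this.mono (le_of_eq ?_)
  norm_num
  ring

lemma Nice.pul {c : ℝ} {x : H} (hx : S.Nice c x) (t : ℝ) (v : K) :
    S.Nice (2 * c * (1 + 2 * ‖v‖) ^ 2) (S.pul t v x) := by
  change S.Nice _ (S.xr t (S.zr v (S.xr (-t) x)))
  exact ((hx.xr (-t)).zr v).xr t

/-! ### the vacuum -/

variable (S) in
lemma n_re_vac (a : K) : (inner ℂ S.Om (S.W a S.Om)).re = Real.exp (-(‖a‖ ^ 2 / 2)) := by
  rw [S.vac, ← Complex.ofReal_neg, ← Complex.ofReal_exp, Complex.ofReal_re]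

lemma n_norm_sub_sq (U : H ≃ₗᵢ[ℂ] H) (y : H) :
    ‖U y - y‖ ^ 2 = 2 * ‖y‖ ^ 2 - 2 * (inner ℂ y (U y)).re := by
  have h := norm_sub_sq (𝕜 := ℂ) (U y) y
  rw [U.norm_map] at h
  have e : RCLike.re (inner ℂ (U y) y : ℂ) = (inner ℂ y (U y)).re := by
    rw [← inner_conj_symm y (U y)]
    exact (Complex.conj_re _).symm
  rw [e] at h
  linarith

variable (S) in
lemma n_one_Om_sq (a : K) : ‖S.W a S.Om - S.Om‖ ^ 2 = 2 - 2 * Real.exp (-(‖a‖ ^ 2 / 2)) := by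
  rw [n_norm_sub_sq, S.nOm, S.n_re_vac]
  ring

variable (S) in
lemma n_one_Om (a : K) : ‖S.W a S.Om - S.Om‖ ≤ ‖a‖ := by
  have h := S.n_one_Om_sq a
  have h1 := Real.add_one_le_exp (-(‖a‖ ^ 2 / 2))
  refine abs_le_of_sq_le_sq' ?_ (norm_nonneg a) |>.2
  rw [h]
  linarith

variable (S) in
/-- the four vacuum expectations in the second difference -/
lemma n_two_Om_re (a b : K) :
    (inner ℂ (S.W b S.Om - S.Om) (S.W a (S.W b S.Om - S.Om))).re
      = (1 + Real.cos (2 * (inner ℂ a b : ℂ).im)) * Real.exp (-(‖a‖ ^ 2 / 2))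
        - Real.cos (inner ℂ a b : ℂ).im
          * (Real.exp (-(‖a - b‖ ^ 2 / 2)) + Real.exp (-(‖a + b‖ ^ 2 / 2))) := by
  set w := (inner ℂ a b : ℂ).im with hw
  have cs : ∀ t r : ℝ, (Complex.exp (Complex.I * (t : ℂ)) * Complex.exp (-((r : ℝ) : ℂ))).re
      = Real.cos t * Real.exp (-r) := by
    intro t r
    rw [← Complex.ofReal_neg, ← Complex.ofReal_exp, Complex.re_mul_ofReal, mul_comm Complex.I,
      Complex.exp_ofReal_mul_I_re]
  have t1 : (inner ℂ (S.W b S.Om) (S.W a (S.W b S.Om))).re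
      = Real.cos (2 * w) * Real.exp (-(‖a‖ ^ 2 / 2)) := by
    rw [S.n_W_comm a b, inner_smul_right, (S.W b).inner_map_map, S.vac]
    rw [cs, Real.cos_neg]
  have t2 : (inner ℂ (S.W b S.Om) (S.W a S.Om)).re
      = Real.cos w * Real.exp (-(‖a - b‖ ^ 2 / 2)) := by
    rw [S.inner_W, S.WW, inner_smul_right, S.vac]
    have e : (inner ℂ (-b) a : ℂ).im = w := by
      rw [inner_neg_left, ← inner_conj_symm, Complex.neg_im, Complex.conj_im, neg_neg]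
    rw [e]
    have e2 : -b + a = a - b := by abel
    rw [e2]
    have e3 : -(Complex.I * (w : ℂ)) = Complex.I * ((-w : ℝ) : ℂ) := by push_cast; ring
    rw [e3, cs, Real.cos_neg]
  have t3 : (inner ℂ S.Om (S.W a (S.W b S.Om))).re
      = Real.cos w * Real.exp (-(‖a + b‖ ^ 2 / 2)) := by
    rw [S.WW, inner_smul_right, S.vac]
    have e3 : -(Complex.I * ((inner ℂ a b : ℂ).im : ℂ)) = Complex.I * ((-w : ℝ) : ℂ) := by
      push_cast; ring
    rw [e3, cs, Real.cos_neg]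
  have t4 := S.n_re_vac a
  simp only [map_sub, inner_sub_left, inner_sub_right, Complex.sub_re]
  rw [t1, t2, t3, t4]
  ring

variable (S) in
lemma n_two_Om_sq (a b : K) :
    ‖S.W a (S.W b S.Om - S.Om) - (S.W b S.Om - S.Om)‖ ^ 2
      = 4 * (1 - Real.exp (-(‖b‖ ^ 2 / 2)))
        - 2 * (1 + Real.cos (2 * (inner ℂ a b : ℂ).im)) * Real.exp (-(‖a‖ ^ 2 / 2))
        + 2 * Real.cos (inner ℂ a b : ℂ).im
          * (Real.exp (-(‖a - b‖ ^ 2 / 2)) + Real.exp (-(‖a + b‖ ^ 2 / 2))) := by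
  rw [n_norm_sub_sq, S.n_two_Om_re, S.n_one_Om_sq]
  ring

lemma n_two_Om_real {A B r w : ℝ} (hA : 0 ≤ A) (hB : 0 ≤ B) (h1 : 0 ≤ A + B - r)
    (h2 : 0 ≤ A + B + r) (h : r ^ 2 + w ^ 2 ≤ 4 * (A * B)) :
    4 * (1 - Real.exp (-B)) - 2 * (1 + Real.cos (2 * w)) * Real.exp (-A)
      + 2 * Real.cos w * (Real.exp (-(A + B - r)) + Real.exp (-(A + B + r))) ≤ 20 * (A * B) := by
  have eA : Real.exp (-A) ≤ 1 := Real.exp_le_one_iff.2 (by linarith)
  have eA0 := Real.exp_pos (-A)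
  have eB : Real.exp (-B) ≤ 1 := Real.exp_le_one_iff.2 (by linarith)
  have eB0 := Real.exp_pos (-B)
  have lA : 1 - Real.exp (-A) ≤ A := by linarith [Real.add_one_le_exp (-A)]
  have lB : 1 - Real.exp (-B) ≤ B := by linarith [Real.add_one_le_exp (-B)]
  have p1 : (1 - Real.exp (-A)) * (1 - Real.exp (-B)) ≤ A * B :=
    mul_le_mul lA lB (by linarith) hA
  have c2 : Real.cos (2 * w) = 2 * Real.cos w ^ 2 - 1 := Real.cos_two_mul w
  have sq : Real.sin w ^ 2 ≤ w ^ 2 := by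
    have := Real.abs_sin_le_abs (x := w)
    exact sq_le_sq.2 this
  have cs : Real.cos w ^ 2 = 1 - Real.sin w ^ 2 := by linarith [Real.sin_sq_add_cos_sq w]
  have x1 : Real.exp (-(A + B - r)) ≤ 1 := Real.exp_le_one_iff.2 (by linarith)
  have x2 : Real.exp (-(A + B + r)) ≤ 1 := Real.exp_le_one_iff.2 (by linarith)
  have ch : Real.exp (-(A + B - r)) + Real.exp (-(A + B + r))
      = 2 * (Real.exp (-A) * Real.exp (-B) * Real.cosh r) := by
    rw [Real.cosh_eq, ← Real.exp_add]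
    have e1 : -(A + B - r) = (-A + -B) + r := by ring
    have e2 : -(A + B + r) = (-A + -B) + -r := by ring
    rw [e1, e2, Real.exp_add (-A + -B) r, Real.exp_add (-A + -B) (-r)]
    ring
  have ch0 : 1 ≤ Real.cosh r := Real.one_le_cosh r
  have ch1 : Real.cosh r - 1 ≤ r ^ 2 / 2 * Real.cosh r := by
    have k1 := Real.cosh_le_exp_half_sq r
    have k2 : Real.cosh r * Real.exp (-(r ^ 2 / 2)) ≤ 1 := by
      calc _ ≤ Real.exp (r ^ 2 / 2) * Real.exp (-(r ^ 2 / 2)) :=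
            mul_le_mul_of_nonneg_right k1 (Real.exp_pos _).le
        _ = 1 := by rw [← Real.exp_add]; simp
    have k3 : 1 - r ^ 2 / 2 ≤ Real.exp (-(r ^ 2 / 2)) := by
      linarith [Real.add_one_le_exp (-(r ^ 2 / 2))]
    have k4 : Real.cosh r * (1 - r ^ 2 / 2) ≤ Real.cosh r * Real.exp (-(r ^ 2 / 2)) :=
      mul_le_mul_of_nonneg_left k3 (by linarith)
    nlinarith
  have q0 : 0 ≤ Real.exp (-A) * Real.exp (-B) := by positivity
  have q1 : Real.exp (-A) * Real.exp (-B) * Real.cosh r ≤ 1 := by linarith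
  have q2 : Real.exp (-A) * Real.exp (-B) * (Real.cos w * Real.cosh r - 1) ≤ r ^ 2 / 2 := by
    have m1 : Real.cos w * Real.cosh r - 1 ≤ r ^ 2 / 2 * Real.cosh r := by
      have : Real.cos w * Real.cosh r ≤ 1 * Real.cosh r :=
        mul_le_mul_of_nonneg_right (Real.cos_le_one w) (by linarith)
      linarith
    calc _ ≤ Real.exp (-A) * Real.exp (-B) * (r ^ 2 / 2 * Real.cosh r) :=
          mul_le_mul_of_nonneg_left m1 q0
      _ = (r ^ 2 / 2) * (Real.exp (-A) * Real.exp (-B) * Real.cosh r) := by ring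
      _ ≤ (r ^ 2 / 2) * 1 := mul_le_mul_of_nonneg_left q1 (by positivity)
      _ = _ := by ring
  have q3 : Real.exp (-A) * Real.sin w ^ 2 ≤ w ^ 2 := by
    calc _ ≤ 1 * Real.sin w ^ 2 := mul_le_mul_of_nonneg_right eA (by positivity)
      _ ≤ w ^ 2 := by linarith
  have e : 4 * (1 - Real.exp (-B)) - 2 * (1 + Real.cos (2 * w)) * Real.exp (-A)
      + 2 * Real.cos w * (Real.exp (-(A + B - r)) + Real.exp (-(A + B + r)))
      = 4 * ((1 - Real.exp (-A)) * (1 - Real.exp (-B)) + Real.exp (-A) * Real.sin w ^ 2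
        + Real.exp (-A) * Real.exp (-B) * (Real.cos w * Real.cosh r - 1)) := by
    rw [c2, ch, cs]
    ring
  rw [e]
  nlinarith [sq_nonneg w, sq_nonneg r]

variable (S) in
lemma n_two_Om (a b : K) :
    ‖S.W a (S.W b S.Om - S.Om) - (S.W b S.Om - S.Om)‖ ≤ 3 * ‖a‖ * ‖b‖ := by
  have h := S.n_two_Om_sq a b
  set r := (inner ℂ a b : ℂ).re with hr
  set w := (inner ℂ a b : ℂ).im with hw
  have n1 : ‖a - b‖ ^ 2 = ‖a‖ ^ 2 - 2 * r + ‖b‖ ^ 2 := norm_sub_sq (𝕜 := ℂ) a b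
  have n2 : ‖a + b‖ ^ 2 = ‖a‖ ^ 2 + 2 * r + ‖b‖ ^ 2 := norm_add_sq (𝕜 := ℂ) a b
  have m1 : ‖a - b‖ ^ 2 / 2 = ‖a‖ ^ 2 / 2 + ‖b‖ ^ 2 / 2 - r := by linarith
  have m2 : ‖a + b‖ ^ 2 / 2 = ‖a‖ ^ 2 / 2 + ‖b‖ ^ 2 / 2 + r := by linarith
  have cs : r ^ 2 + w ^ 2 ≤ 4 * ((‖a‖ ^ 2 / 2) * (‖b‖ ^ 2 / 2)) := by
    have k : ‖(inner ℂ a b : ℂ)‖ ^ 2 = r ^ 2 + w ^ 2 := by
      rw [Complex.sq_norm, Complex.normSq_apply]
      ring
    have k2 : ‖(inner ℂ a b : ℂ)‖ ≤ ‖a‖ * ‖b‖ := norm_inner_le_norm a b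
    have k3 : ‖(inner ℂ a b : ℂ)‖ ^ 2 ≤ (‖a‖ * ‖b‖) ^ 2 :=
      pow_le_pow_left₀ (norm_nonneg _) k2 2
    nlinarith
  have key := n_two_Om_real (A := ‖a‖ ^ 2 / 2) (B := ‖b‖ ^ 2 / 2) (r := r) (w := w)
    (by positivity) (by positivity) (by rw [← m1]; positivity) (by rw [← m2]; positivity) cs
  rw [m1, m2] at h
  rw [← h] at key
  have p := mul_nonneg (norm_nonneg a) (norm_nonneg b)
  refine abs_le_of_sq_le_sq' ?_ (by nlinarith) |>.2
  nlinarith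

variable (S) in
lemma nice_Om : S.Nice 3 S.Om where
  m0 := by rw [S.nOm]; norm_num
  m1 a := (S.n_one_Om a).trans (by linarith [norm_nonneg a])
  m2 a b := by rw [← mul_assoc]; exact S.n_two_Om a b

/-! ### pulses minus one -/

variable (S) in
lemma n_zr_sub_one (v : K) (x : H) : S.zr v x - x
    = (1 / 2 : ℂ) • ((S.W (-v) x - x) + (S.W v x - x))
      + (1 / 2 : ℂ) • ((S.W (-v) (S.Z x) - S.Z x) - (S.W v (S.Z x) - S.Z x)) := by
  rw [S.zr_apply]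
  module

variable (S) in
lemma n_xr_xr_neg (t : ℝ) (x : H) : S.xr t (S.xr (-t) x) = x := S.xrL_xrL_neg t x

variable (S) in
lemma n_pul_sub_one (t : ℝ) (v : K) (x : H) : S.pul t v x - x
    = (1 / 2 : ℂ) • ((S.W (-v) x - x) + (S.W v x - x))
      + (1 / 2 : ℂ) • ((S.W (-v) (S.Zt t x) - S.Zt t x) - (S.W v (S.Zt t x) - S.Zt t x)) := by
  have e : S.pul t v x - x = S.xr t (S.zr v (S.xr (-t) x) - S.xr (-t) x) := by
    rw [map_sub, S.n_xr_xr_neg]; rfl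
  have z : S.xr t (S.Z (S.xr (-t) x)) = S.Zt t x := rfl
  rw [e, S.n_zr_sub_one]
  simp only [map_add, map_sub, map_smul, ← S.n_W_xr, S.n_xr_xr_neg, z]

lemma Nice.zr_sub {c : ℝ} {x : H} (hx : S.Nice c x) (v : K) :
    ‖S.zr v x - x‖ ≤ 2 * c * ‖v‖ := by
  rw [S.n_zr_sub_one]
  have h1 := hx.one (-v)
  have h2 := hx.one v
  have h3 := hx.Z.one (-v)
  have h4 := hx.Z.one v
  rw [norm_neg] at h1 h3
  refine (norm_add_le _ _).trans ?_
  rw [norm_smul, norm_smul]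
  have k1 := norm_add_le (S.W (-v) x - x) (S.W v x - x)
  have k2 := norm_sub_le (S.W (-v) (S.Z x) - S.Z x) (S.W v (S.Z x) - S.Z x)
  have k3 : ‖(1 / 2 : ℂ)‖ = 1 / 2 := by norm_num
  rw [k3]
  linarith

lemma Nice.pul_sub {c : ℝ} {x : H} (hx : S.Nice c x) (t : ℝ) (v : K) :
    ‖S.pul t v x - x‖ ≤ 2 * c * ‖v‖ := by
  have e : S.pul t v x - x = S.xr t (S.zr v (S.xr (-t) x) - S.xr (-t) x) := by
    rw [map_sub, S.n_xr_xr_neg]; rfl
  rw [e, LinearIsometryEquiv.norm_map]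
  exact (hx.xr (-t)).zr_sub v

variable (S) in
/-- first differences of a pulse minus one -/
lemma n_pul_aux (t : ℝ) (v : K) (y : H) (d : ℝ)
    (h : ∀ a, ‖S.W a y - y‖ ≤ d * ‖a‖) : ‖S.pul t v y - y‖ ≤ 2 * d * ‖v‖ := by
  have hZ : ∀ a, ‖S.W a (S.Zt t y) - S.Zt t y‖ ≤ d * ‖a‖ := by
    intro a
    rw [S.n_W_Zt, ← map_sub, LinearIsometryEquiv.norm_map]
    exact h a
  rw [S.n_pul_sub_one]
  have h1 := h (-v)
  have h2 := h v
  have h3 := hZ (-v)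
  have h4 := hZ v
  rw [norm_neg] at h1 h3
  refine (norm_add_le _ _).trans ?_
  rw [norm_smul, norm_smul]
  have k1 := norm_add_le (S.W (-v) y - y) (S.W v y - y)
  have k2 := norm_sub_le (S.W (-v) (S.Zt t y) - S.Zt t y) (S.W v (S.Zt t y) - S.Zt t y)
  have k3 : ‖(1 / 2 : ℂ)‖ = 1 / 2 := by norm_num
  rw [k3]
  linarith

/-- product of two pulses minus one is of second order -/
lemma Nice.pul_pul_sub {c : ℝ} {x : H} (hx : S.Nice c x) (t t' : ℝ) (v v' : K) :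
    ‖S.pul t v (S.pul t' v' x - x) - (S.pul t' v' x - x)‖ ≤ 4 * c * ‖v‖ * ‖v'‖ := by
  have key : ∀ a, ‖S.W a (S.pul t' v' x - x) - (S.pul t' v' x - x)‖ ≤ (2 * c * ‖v'‖) * ‖a‖ := by
    intro a
    rw [S.n_pul_sub_one t' v' x]
    have hZ := hx.Zt t'
    have h1 := hx.two a (-v')
    have h2 := hx.two a v'
    have h3 := hZ.two a (-v')
    have h4 := hZ.two a v'
    rw [norm_neg] at h1 h3
    have e : S.W a ((1 / 2 : ℂ) • ((S.W (-v') x - x) + (S.W v' x - x))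
        + (1 / 2 : ℂ) • ((S.W (-v') (S.Zt t' x) - S.Zt t' x) - (S.W v' (S.Zt t' x) - S.Zt t' x)))
        - ((1 / 2 : ℂ) • ((S.W (-v') x - x) + (S.W v' x - x))
        + (1 / 2 : ℂ) • ((S.W (-v') (S.Zt t' x) - S.Zt t' x) - (S.W v' (S.Zt t' x) - S.Zt t' x)))
        = (1 / 2 : ℂ) • ((S.W a (S.W (-v') x - x) - (S.W (-v') x - x))
            + (S.W a (S.W v' x - x) - (S.W v' x - x)))
          + (1 / 2 : ℂ) • ((S.W a (S.W (-v') (S.Zt t' x) - S.Zt t' x)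
              - (S.W (-v') (S.Zt t' x) - S.Zt t' x))
            - (S.W a (S.W v' (S.Zt t' x) - S.Zt t' x) - (S.W v' (S.Zt t' x) - S.Zt t' x))) := by
      simp only [map_add, map_sub, map_smul]
      module
    rw [e]
    refine (norm_add_le _ _).trans ?_
    rw [norm_smul, norm_smul]
    have k1 := norm_add_le (S.W a (S.W (-v') x - x) - (S.W (-v') x - x))
      (S.W a (S.W v' x - x) - (S.W v' x - x))
    have k2 := norm_sub_le (S.W a (S.W (-v') (S.Zt t' x) - S.Zt t' x)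
      - (S.W (-v') (S.Zt t' x) - S.Zt t' x))
      (S.W a (S.W v' (S.Zt t' x) - S.Zt t' x) - (S.W v' (S.Zt t' x) - S.Zt t' x))
    have k3 : ‖(1 / 2 : ℂ)‖ = 1 / 2 := by norm_num
    rw [k3]
    linarith
  refine (S.n_pul_aux t v _ _ key).trans (le_of_eq ?_)
  ring

variable (S) in
/-- BLOCK N -/
theorem nStmt : S.NStmt where
  om := S.nice_Om
  comm U hU c x hx := hx.comm U hU
  smul c x k hx := hx.smul k
  add c d x y hx hy := hx.add hy
  weyl c x b hx := (hx.W b).mono (le_of_eq (by ring))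
  zr c x v hx := (hx.zr v).mono (le_of_eq (by ring))
  pul c x t v hx := (hx.pul t v).mono (le_of_eq (by ring))
  p1 c x t v hx := hx.pul_sub t v
  p2 c x t v t' v' hx := (hx.pul_pul_sub t' t v' v).trans (le_of_eq (by ring))

end Sys

end Vale.Agent.P367.A
end

section

/-! P367, Theorem A, block WW (helper739), part 1: algebra. -/

namespace Vale.Agent.P367.A

open Complex Filter Topology

open Vale.Agent.P367.NI (Gate)

namespace Sys

variable {H K : Type*} [NormedAddCommGroup H] [InnerProductSpace ℂ H]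
  [NormedAddCommGroup K] [InnerProductSpace ℂ K] (S : Sys H K)

lemma ww_mul_apply (U V : H ≃ₗᵢ[ℂ] H) (x : H) : (U * V) x = U (V x) := rfl

lemma ww_inv_apply (U : H ≃ₗᵢ[ℂ] H) (x : H) : U⁻¹ (U x) = x := U.symm_apply_apply x

lemma ww_apply_inv (U : H ≃ₗᵢ[ℂ] H) (x : H) : U (U⁻¹ x) = x := U.apply_symm_apply x

lemma ww_xr_add (s t : ℝ) (x : H) : S.xr s (S.xr t x) = S.xr (s + t) x := by
  simp only [xr_apply, map_sub, map_smul, S.XX, Real.cos_add, Real.sin_add, ofReal_add,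
    ofReal_sub, ofReal_mul]
  have hI := Complex.I_mul_I
  have e : ((Real.cos s : ℂ) * Real.cos t - (Real.sin s : ℂ) * Real.sin t) • x
      = ((Real.cos s : ℂ) * Real.cos t) • x
        + ((Complex.I * (Real.sin s : ℂ)) * (Complex.I * (Real.sin t : ℂ))) • x := by
    rw [← add_smul]
    congr 1
    linear_combination -((Real.sin s : ℂ) * Real.sin t) * hI
  rw [e]
  module

lemma ww_xr_zero (x : H) : S.xr 0 x = x := by
  simp [xr_apply]

lemma ww_X_xr (t : ℝ) (x : H) : S.X (S.xr t x) = S.xr t (S.X x) := by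
  simp only [xr_apply, map_sub, map_smul]

lemma ww_W_xr (t : ℝ) (a : K) (x : H) : S.W a (S.xr t x) = S.xr t (S.W a x) := by
  simp only [xr_apply, map_sub, map_smul, S.WX]

lemma ww_Z_xr (t : ℝ) (x : H) : S.Z (S.xr t x) = S.xr (-t) (S.Z x) := by
  simp only [xr_apply, map_sub, map_smul, S.ZX, Real.cos_neg, Real.sin_neg, ofReal_neg]
  module

lemma ww_Zt (t : ℝ) (x : H) : S.Zt t x = S.xr (2 * t) (S.Z x) := by
  change S.xr t (S.Z (S.xr (-t) x)) = _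
  rw [ww_Z_xr, ww_xr_add]
  have : t + -(-t) = 2 * t := by ring
  rw [this]

lemma ww_Zt_Zt (t t' : ℝ) (x : H) : S.Zt t (S.Zt t' x) = S.xr (2 * (t - t')) x := by
  rw [ww_Zt, ww_Zt, ww_Z_xr, S.ZZ, ww_xr_add]
  congr 1
  ring

lemma ww_Zt_self (t : ℝ) (x : H) : S.Zt t (S.Zt t x) = x := by
  rw [ww_Zt_Zt, sub_self, mul_zero, ww_xr_zero]

lemma ww_W_Zt (t : ℝ) (a : K) (x : H) : S.W a (S.Zt t x) = S.Zt t (S.W a x) := by
  rw [ww_Zt, ww_Zt, ww_W_xr, S.WZ]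

lemma ww_inner_Zt (t : ℝ) (x y : H) : inner ℂ (S.Zt t x) y = inner ℂ x (S.Zt t y) := by
  have h := (S.Zt t).inner_map_map x (S.Zt t y)
  rwa [ww_Zt_self] at h

lemma ww_xr_sub_xr (θ : ℝ) (y : H) : S.xr θ y - S.xr (-θ) y
    = (-(2 * Complex.I * (Real.sin θ : ℂ))) • S.X y := by
  simp only [xr_apply, Real.cos_neg, Real.sin_neg, ofReal_neg]
  module

lemma ww_pul_apply (t : ℝ) (v : K) (x : H) : S.pul t v x
    = (1 / 2 : ℂ) • (S.W (-v) x + S.W v x)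
      + (1 / 2 : ℂ) • (S.W (-v) (S.Zt t x) - S.W v (S.Zt t x)) := by
  change S.xr t (S.zr v (S.xr (-t) x)) = _
  rw [zr_apply]
  simp only [map_add, map_sub, map_smul, ← ww_W_xr]
  have h1 : S.xr t (S.xr (-t) x) = x := by
    rw [ww_xr_add, add_neg_cancel, ww_xr_zero]
  have h2 : S.xr t (S.Z (S.xr (-t) x)) = S.Zt t x := rfl
  rw [h1, h2]

lemma ww_pul_zero (t : ℝ) (x : H) : S.pul t 0 x = x := by
  rw [ww_pul_apply, neg_zero, S.W_zero_apply, S.W_zero_apply]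
  module

/-- the even part minus one -/
noncomputable def wwQ (v : K) (z : H) : H := (1 / 2 : ℂ) • (S.W (-v) z + S.W v z) - z

/-- the odd part -/
noncomputable def wwD (v : K) (z : H) : H := (1 / 2 : ℂ) • (S.W (-v) z - S.W v z)

lemma ww_pul_sub (t : ℝ) (v : K) (x : H) :
    S.pul t v x - x = S.wwQ v x + S.wwD v (S.Zt t x) := by
  rw [ww_pul_apply, wwQ, wwD]
  module

lemma ww_inner_D (v : K) (x y : H) : inner ℂ (S.wwD v x) y = -inner ℂ x (S.wwD v y) := by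
  simp only [wwD, inner_smul_left, inner_smul_right, inner_sub_left, inner_sub_right, S.inner_W,
    neg_neg, map_div₀, map_one, Complex.conj_ofNat]
  ring

lemma ww_D_Zt (t : ℝ) (v : K) (x : H) : S.wwD v (S.Zt t x) = S.Zt t (S.wwD v x) := by
  simp only [wwD, ww_W_Zt, map_smul, map_sub]

lemma ww_D_X (v : K) (x : H) : S.wwD v (S.X x) = S.X (S.wwD v x) := by
  simp only [wwD, S.WX, map_smul, map_sub]

lemma ww_D_Z (v : K) (x : H) : S.wwD v (S.Z x) = S.Z (S.wwD v x) := by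
  simp only [wwD, S.WZ, map_smul, map_sub]

lemma ww_D_sub (v : K) (x y : H) : S.wwD v (x - y) = S.wwD v x - S.wwD v y := by
  simp only [wwD, map_sub]
  module

lemma ww_D_add (v : K) (x y : H) : S.wwD v (x + y) = S.wwD v x + S.wwD v y := by
  simp only [wwD, map_add]
  module

lemma ww_D_neg (v : K) (x : H) : S.wwD v (-x) = -S.wwD v x := by
  simp only [wwD, map_neg]
  module

lemma ww_D_smul (v : K) (k : ℂ) (x : H) : S.wwD v (k • x) = k • S.wwD v x := by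
  simp only [wwD, map_smul]
  module

/-- `(pul v - 1)(pul (-v) - 1) = -2 Q` -/
lemma ww_Q_eq (t : ℝ) (v : K) (x : H) :
    S.wwQ v x = (-(1 / 2) : ℂ) • (S.pul t v (S.pul t (-v) x - x) - (S.pul t (-v) x - x)) := by
  have h1 : S.pul t v (S.pul t (-v) x) = x := by
    change S.xr t (S.zr v (S.xr (-t) (S.xr t (S.zr (-v) (S.xr (-t) x))))) = x
    have h2 : ∀ y, S.xr (-t) (S.xr t y) = y := fun y => by
      rw [ww_xr_add, neg_add_cancel, ww_xr_zero]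
    rw [h2]
    have h3 : S.zr v (S.zr (-v) (S.xr (-t) x)) = S.xr (-t) x := S.zrL_zrL_neg v _
    rw [h3, ww_xr_add, add_neg_cancel, ww_xr_zero]
  rw [map_sub, h1, ww_pul_apply, ww_pul_apply, wwQ, neg_neg]
  module

lemma ww_zr_neg (b : K) (ψ : H) : S.zr (-b) ψ
    = S.W b ((1 / 2 : ℂ) • (ψ + S.Z ψ)) + S.W (-b) ((1 / 2 : ℂ) • (ψ - S.Z ψ)) := by
  rw [zr_apply, neg_neg]
  simp only [map_smul, map_add, map_sub]
  module

end Sys

end Vale.Agent.P367.A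
end

section

/-! P367, Theorem A, block WW (helper739), part 2: second order estimates on frames. -/

namespace Vale.Agent.P367.A

open Complex Filter Topology

open Vale.Agent.P367.NI (Gate)

namespace Sys

variable {H K : Type*} [NormedAddCommGroup H] [InnerProductSpace ℂ H]
  [NormedAddCommGroup K] [InnerProductSpace ℂ K] {S : Sys H K}

lemma ww_Nice_c0 {c : ℝ} {x : H} (h : S.Nice c x) : 0 ≤ c := (norm_nonneg x).trans h.m0

lemma ww_Frm_c0 {c : ℝ} {b : K} {z : H} (h : S.Frm b c z) : 0 ≤ c := by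
  obtain ⟨x, y, hx, -, -⟩ := h
  exact ww_Nice_c0 hx

lemma ww_Frm_norm {c : ℝ} {b : K} {z : H} (h : S.Frm b c z) : ‖z‖ ≤ 2 * c := by
  obtain ⟨x, y, hx, hy, rfl⟩ := h
  refine (norm_add_le _ _).trans ?_
  rw [(S.W b).norm_map, (S.W (-b)).norm_map]
  linarith [hx.m0, hy.m0]

lemma ww_Frm_op (hN : S.NStmt) {c : ℝ} {b : K} {z : H} (h : S.Frm b c z) (U : H ≃ₗᵢ[ℂ] H)
    (hU : ∀ a x, S.W a (U x) = U (S.W a x)) : S.Frm b c (U z) := by
  obtain ⟨x, y, hx, hy, rfl⟩ := h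
  refine ⟨U x, U y, hN.comm U hU c x hx, hN.comm U hU c y hy, ?_⟩
  rw [map_add, hU, hU]

lemma ww_Frm_Z (hN : S.NStmt) {c : ℝ} {b : K} {z : H} (h : S.Frm b c z) : S.Frm b c (S.Z z) :=
  ww_Frm_op hN h S.Z S.WZ

lemma ww_Frm_X (hN : S.NStmt) {c : ℝ} {b : K} {z : H} (h : S.Frm b c z) : S.Frm b c (S.X z) :=
  ww_Frm_op hN h S.X S.WX

lemma ww_Frm_Zt (hN : S.NStmt) {c : ℝ} {b : K} {z : H} (h : S.Frm b c z) (t : ℝ) :
    S.Frm b c (S.Zt t z) :=
  ww_Frm_op hN h (S.Zt t) (fun a x => S.ww_W_Zt t a x)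

lemma ww_mu_nonneg (b v : K) : 0 ≤ mu b v := by unfold mu; positivity

lemma ww_mu_neg (b v : K) : mu b (-v) = mu b v := by
  simp [mu]

lemma ww_mu_neg' (b v : K) : mu (-b) v = mu b v := by
  simp [mu]

lemma ww_mu_zero (b : K) : mu b (0 : K) = 0 := by
  simp [mu]

/-- exchange relation -/
lemma ww_W_comm (h b : K) (x : H) : S.W h (S.W b x)
    = Complex.exp (-(2 * Complex.I * ((inner ℂ h b).im : ℂ))) • S.W b (S.W h x) := by
  have h1 := S.WW h b x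
  have h2 := S.WW b h x
  have h3 : (inner ℂ b h : ℂ).im = -(inner ℂ h b : ℂ).im := by
    rw [← inner_conj_symm b h, Complex.conj_im]
  rw [h1, h2, h3, smul_smul, ← Complex.exp_add, add_comm b h]
  congr 2
  push_cast
  ring

lemma ww_norm_exp (r : ℝ) : ‖Complex.exp (-(2 * Complex.I * (r : ℂ)))‖ = 1 := by
  rw [Complex.norm_exp]
  simp

lemma ww_norm_exp_sub_one (r : ℝ) :
    ‖Complex.exp (-(2 * Complex.I * (r : ℂ))) - 1‖ ≤ 2 * |r| := by
  have h := Real.norm_exp_I_mul_ofReal_sub_one_le (x := -(2 * r))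
  have e : Complex.I * ((-(2 * r) : ℝ) : ℂ) = -(2 * Complex.I * (r : ℂ)) := by
    push_cast
    ring
  rw [e] at h
  refine h.trans ?_
  rw [Real.norm_eq_abs, abs_neg, abs_mul, abs_two]

/-- the conjugated odd part -/
noncomputable def wwY (S : Sys H K) (b v : K) (u : H) : H :=
  (1 / 2 : ℂ) • (Complex.exp (-(2 * Complex.I * ((inner ℂ (-v) b).im : ℂ))) • S.W (-v) u
    - Complex.exp (-(2 * Complex.I * ((inner ℂ v b).im : ℂ))) • S.W v u)

lemma ww_D_W (b v : K) (u : H) : S.wwD v (S.W b u) = S.W b (wwY S b v u) := by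
  rw [wwD, ww_W_comm (-v) b, ww_W_comm v b, wwY]
  simp only [map_smul, map_sub]

/-- splitting of `wwY` -/
lemma ww_Y_eq (b v : K) (u : H) : wwY S b v u
    = (1 / 2 : ℂ) • ((Complex.exp (-(2 * Complex.I * ((inner ℂ (-v) b).im : ℂ))) - 1)
          • S.W (-v) u)
      - (1 / 2 : ℂ) • ((Complex.exp (-(2 * Complex.I * ((inner ℂ v b).im : ℂ))) - 1)
          • S.W v u)
      + (1 / 2 : ℂ) • ((S.W (-v) u - u) - (S.W v u - u)) := by
  rw [wwY]
  module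

lemma ww_W_diff {M : ℝ} {u : H} (hu : S.Nice M u) {w : K} (hw : ‖w‖ ≤ 1) (a : K) :
    ‖S.W a (S.W w u) - S.W w u‖ ≤ 3 * M * ‖a‖ := by
  have h1 : S.W a (S.W w u) - S.W w u
      = Complex.exp (-(2 * Complex.I * ((inner ℂ a w).im : ℂ))) • S.W w (S.W a u - u)
        + (Complex.exp (-(2 * Complex.I * ((inner ℂ a w).im : ℂ))) - 1) • S.W w u := by
    rw [ww_W_comm a w u, map_sub]
    module
  have hM := ww_Nice_c0 hu
  rw [h1]
  refine (norm_add_le _ _).trans ?_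
  rw [norm_smul, norm_smul, ww_norm_exp, one_mul, (S.W w).norm_map, (S.W w).norm_map]
  have h2 := hu.m1 a
  have h3 := ww_norm_exp_sub_one (inner ℂ a w : ℂ).im
  have h4 : |(inner ℂ a w : ℂ).im| ≤ ‖a‖ := by
    refine (Complex.abs_im_le_norm _).trans ((norm_inner_le_norm _ _).trans ?_)
    nlinarith [norm_nonneg a]
  have h5 : ‖Complex.exp (-(2 * Complex.I * ((inner ℂ a w).im : ℂ))) - 1‖ * ‖u‖
      ≤ (2 * ‖a‖) * M := by
    refine mul_le_mul (h3.trans (by linarith)) hu.m0 (norm_nonneg _) (by positivity)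
  nlinarith

lemma ww_half_norm (x : H) : ‖(1 / 2 : ℂ) • x‖ = ‖x‖ / 2 := by
  rw [norm_smul]
  simp
  ring

lemma ww_Y_norm {M : ℝ} {u : H} (hu : S.Nice M u) (b v : K) :
    ‖wwY S b v u‖ ≤ 2 * M * mu b v := by
  have hM := ww_Nice_c0 hu
  rw [ww_Y_eq]
  refine (norm_add_le _ _).trans ?_
  have e1 := norm_sub_le
    ((1 / 2 : ℂ) • ((Complex.exp (-(2 * Complex.I * ((inner ℂ (-v) b).im : ℂ))) - 1)
      • S.W (-v) u))
    ((1 / 2 : ℂ) • ((Complex.exp (-(2 * Complex.I * ((inner ℂ v b).im : ℂ))) - 1)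
      • S.W v u))
  rw [ww_half_norm, ww_half_norm, norm_smul, norm_smul, (S.W _).norm_map, (S.W _).norm_map] at e1
  rw [ww_half_norm]
  have e2 := norm_sub_le (S.W (-v) u - u) (S.W v u - u)
  have e3 := hu.m1 (-v)
  have e4 := hu.m1 v
  rw [norm_neg] at e3
  have e5 := ww_norm_exp_sub_one (inner ℂ (-v) b : ℂ).im
  have e6 := ww_norm_exp_sub_one (inner ℂ v b : ℂ).im
  have e7 : |(inner ℂ (-v) b : ℂ).im| = |(inner ℂ v b : ℂ).im| := by simp
  rw [e7] at e5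
  have e8 := mul_le_mul e5 hu.m0 (norm_nonneg _) (by positivity)
  have e9 := mul_le_mul e6 hu.m0 (norm_nonneg _) (by positivity)
  have e10 : 2 * M * mu b v = 2 * M * ‖v‖ + 2 * M * |(inner ℂ v b : ℂ).im| := by
    unfold mu; ring
  rw [e10]
  nlinarith [mul_nonneg hM (norm_nonneg v), mul_nonneg hM (abs_nonneg (inner ℂ v b : ℂ).im)]

lemma ww_Y_diff {M : ℝ} {u : H} (hu : S.Nice M u) (b v : K) (hv : ‖v‖ ≤ 1)
    (a : K) : ‖S.W a (wwY S b v u) - wwY S b v u‖ ≤ 6 * M * mu b v * ‖a‖ := by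
  have hM := ww_Nice_c0 hu
  have h0 : S.W a (wwY S b v u) - wwY S b v u
      = (1 / 2 : ℂ) • ((Complex.exp (-(2 * Complex.I * ((inner ℂ (-v) b).im : ℂ))) - 1)
          • (S.W a (S.W (-v) u) - S.W (-v) u))
      - (1 / 2 : ℂ) • ((Complex.exp (-(2 * Complex.I * ((inner ℂ v b).im : ℂ))) - 1)
          • (S.W a (S.W v u) - S.W v u))
      + (1 / 2 : ℂ) • ((S.W a (S.W (-v) u - u) - (S.W (-v) u - u))
          - (S.W a (S.W v u - u) - (S.W v u - u))) := by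
    rw [ww_Y_eq]
    simp only [map_add, map_sub, map_smul]
    module
  rw [h0]
  refine (norm_add_le _ _).trans ?_
  have e1 := norm_sub_le
    ((1 / 2 : ℂ) • ((Complex.exp (-(2 * Complex.I * ((inner ℂ (-v) b).im : ℂ))) - 1)
      • (S.W a (S.W (-v) u) - S.W (-v) u)))
    ((1 / 2 : ℂ) • ((Complex.exp (-(2 * Complex.I * ((inner ℂ v b).im : ℂ))) - 1)
      • (S.W a (S.W v u) - S.W v u)))
  rw [ww_half_norm, ww_half_norm, norm_smul, norm_smul] at e1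
  rw [ww_half_norm]
  have e2 := norm_sub_le (S.W a (S.W (-v) u - u) - (S.W (-v) u - u))
    (S.W a (S.W v u - u) - (S.W v u - u))
  have e3 := hu.m2 a (-v)
  have e4 := hu.m2 a v
  rw [norm_neg] at e3
  have e5 := ww_norm_exp_sub_one (inner ℂ (-v) b : ℂ).im
  have e6 := ww_norm_exp_sub_one (inner ℂ v b : ℂ).im
  have e7 : |(inner ℂ (-v) b : ℂ).im| = |(inner ℂ v b : ℂ).im| := by simp
  rw [e7] at e5
  have e8 := mul_le_mul e5 (ww_W_diff hu (w := -v) (by rwa [norm_neg]) a) (norm_nonneg _)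
    (by positivity)
  have e9 := mul_le_mul e6 (ww_W_diff hu hv a) (norm_nonneg _) (by positivity)
  have e10 : 6 * M * mu b v * ‖a‖
      = 6 * (M * ‖a‖ * ‖v‖) + 6 * (M * ‖a‖ * |(inner ℂ v b : ℂ).im|) := by
    unfold mu; ring
  rw [e10]
  have n1 : 0 ≤ M * ‖a‖ * ‖v‖ := by positivity
  have n2 : 0 ≤ M * ‖a‖ * |(inner ℂ v b : ℂ).im| := by positivity
  nlinarith

lemma ww_orth {x y : H} (hx : S.Z x = x) (hy : S.Z y = -y) : (inner ℂ x y : ℂ) = 0 := by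
  have h := S.inner_Z x y
  rw [hx, hy, inner_neg_right] at h
  have : (2 : ℂ) * inner ℂ x y = 0 := by linear_combination h
  simpa using this

lemma ww_orth' {x y : H} (hx : S.Z x = -x) (hy : S.Z y = y) : (inner ℂ x y : ℂ) = 0 := by
  have h := S.inner_Z x y
  rw [hx, hy, inner_neg_left] at h
  have : (2 : ℂ) * inner ℂ x y = 0 := by linear_combination -h
  simpa using this

/-- cross term of a frame with the odd part of a pulse -/
lemma ww_cross (hN : S.NStmt) (hO : S.OStmt) {M : ℝ} {b v : K} {p q : H} (hp : S.Nice M p)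
    (hq : S.Nice M q) (hv : ‖v‖ ≤ 1) (hb : b ≠ 0) :
    ‖(inner ℂ (S.W b p) (S.wwD v (S.W (-b) q)) : ℂ)‖ ≤ 4 * M ^ 2 * mu b v / ‖b‖ := by
  have hM := ww_Nice_c0 hp
  have hb' : 0 < ‖b‖ := norm_pos_iff.2 hb
  have hbb : b ≠ -b := by
    intro h
    apply hb
    have h2 : (2 : ℂ) • b = 0 := by
      rw [two_smul]
      nth_rewrite 2 [h]
      simp
    simpa using h2
  rw [ww_D_W]
  have h1 := hO.inn1 M M (2 * M * mu (-b) v) (6 * M * mu (-b) v) p (wwY S (-b) v q) b (-b)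
    hp.m1 hp.m0 (fun a => ww_Y_diff hq (-b) v hv a) (ww_Y_norm hq (-b) v) hbb
  refine h1.trans ?_
  have e : ‖b - -b‖ = 2 * ‖b‖ := by
    rw [sub_neg_eq_add, ← two_smul ℝ b, norm_smul]
    simp
  rw [e, ww_mu_neg']
  apply le_of_eq
  field_simp
  ring

/-- lemma F: a frame does not see first order flips -/
lemma ww_lemF (hN : S.NStmt) (hO : S.OStmt) {M : ℝ} {b v : K} {p q : H} (hp : S.Nice M p)
    (hq : S.Nice M q) (hZp : S.Z p = p) (hZq : S.Z q = -q) (hv : ‖v‖ ≤ 1) (hb : b ≠ 0) :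
    ‖(inner ℂ (S.W b p + S.W (-b) q)
      (S.wwD v (S.X (S.Z (S.W b p + S.W (-b) q)))) : ℂ)‖ ≤ 8 * M ^ 2 * mu b v / ‖b‖ := by
  have hXp : S.Nice M (S.X p) := hN.comm S.X S.WX M p hp
  have hXq : S.Nice M (S.X q) := hN.comm S.X S.WX M q hq
  have e0 : S.X (S.Z (S.W b p + S.W (-b) q)) = S.W b (S.X p) - S.W (-b) (S.X q) := by
    rw [map_add, map_add, ← S.WZ, ← S.WZ, hZp, hZq, map_neg, map_neg, ← S.WX, ← S.WX]
    abel
  rw [e0, ww_D_sub, inner_sub_right, inner_add_left, inner_add_left]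
  have z1 : (inner ℂ (S.W b p) (S.wwD v (S.W b (S.X p))) : ℂ) = 0 := by
    apply ww_orth (S := S)
    · rw [← S.WZ, hZp]
    · rw [← S.ww_D_Z, ← S.WZ, S.ZX, hZp, map_neg, ww_D_neg]
  have z2 : (inner ℂ (S.W (-b) q) (S.wwD v (S.W (-b) (S.X q))) : ℂ) = 0 := by
    apply ww_orth' (S := S)
    · rw [← S.WZ, hZq, map_neg]
    · rw [← S.ww_D_Z, ← S.WZ, S.ZX, hZq, map_neg S.X, neg_neg]
  rw [z1, z2, zero_add, add_zero]
  have c1 := ww_cross hN hO (b := -b) (v := v) hq hXp hv (neg_ne_zero.2 hb)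
  have c2 := ww_cross hN hO (b := b) (v := v) hp hXq hv hb
  rw [neg_neg, norm_neg, ww_mu_neg'] at c1
  refine (norm_sub_le _ _).trans ?_
  refine (add_le_add c1 c2).trans (le_of_eq ?_)
  ring

/-- lemma T: first order variation of `⟨Z^t P A, P Z A⟩` under one pulse -/
lemma ww_lemT (hN : S.NStmt) (hO : S.OStmt) {M C2 : ℝ} (hC2 : 0 ≤ C2)
    (hP2 : ∀ c z b t v t' v', S.Frm b c z → ‖v‖ ≤ 1 →
      ‖S.pul t' v' (S.pul t v z - z) - (S.pul t v z - z)‖ ≤ C2 * c * (mu b v' * mu b v))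
    {b v : K} {p q : H} (hp : S.Nice M p)
    (hq : S.Nice M q) (hZp : S.Z p = p) (hZq : S.Z q = -q) (hv : ‖v‖ ≤ 1) (hb : b ≠ 0)
    (t t' : ℝ) {A : H} (hA : A = S.W b p + S.W (-b) q) :
    ‖(inner ℂ (S.Zt t (S.pul t' v A - A)) (S.Z A)
      + inner ℂ (S.Zt t A) (S.pul t' v (S.Z A) - S.Z A) : ℂ)‖
      ≤ 2 * C2 * M ^ 2 * mu b v ^ 2 + 16 * M ^ 2 * mu b v / ‖b‖ := by
  have hM := ww_Nice_c0 hp
  have hFA : S.Frm b M A := ⟨p, q, hp, hq, hA⟩
  have hFZA : S.Frm b M (S.Z A) := ww_Frm_Z hN hFA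
  have hμ := ww_mu_nonneg b v
  have hQ : ∀ z, S.Frm b M z → ‖S.wwQ v z‖ ≤ C2 * M * mu b v ^ 2 / 2 := by
    intro z hz
    rw [S.ww_Q_eq 0 v z, norm_smul]
    have h := hP2 M z b 0 (-v) 0 v hz (by rwa [norm_neg])
    rw [ww_mu_neg] at h
    have : ‖(-(1 / 2) : ℂ)‖ = 1 / 2 := by simp
    rw [this]
    nlinarith
  have e1 : (inner ℂ (S.Zt t (S.pul t' v A - A)) (S.Z A)
      + inner ℂ (S.Zt t A) (S.pul t' v (S.Z A) - S.Z A) : ℂ)
      = (inner ℂ (S.Zt t (S.wwQ v A)) (S.Z A) + inner ℂ (S.Zt t A) (S.wwQ v (S.Z A)))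
        + inner ℂ A (S.wwD v (S.Zt t (S.Zt t' (S.Z A)) - S.Zt t' (S.Zt t (S.Z A)))) := by
    rw [ww_pul_sub, ww_pul_sub, map_add, inner_add_left, inner_add_right, ww_D_sub, inner_sub_right]
    have f1 : (inner ℂ (S.Zt t (S.wwD v (S.Zt t' A))) (S.Z A) : ℂ)
        = -inner ℂ A (S.wwD v (S.Zt t' (S.Zt t (S.Z A)))) := by
      rw [ww_inner_Zt, ww_inner_D, ww_inner_Zt, ← ww_D_Zt]
    have f2 : (inner ℂ (S.Zt t A) (S.wwD v (S.Zt t' (S.Z A))) : ℂ)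
        = inner ℂ A (S.wwD v (S.Zt t (S.Zt t' (S.Z A)))) := by
      rw [ww_inner_Zt, ← ww_D_Zt]
    rw [f1, f2]
    ring
  have e2 : S.Zt t (S.Zt t' (S.Z A)) - S.Zt t' (S.Zt t (S.Z A))
      = (-(2 * Complex.I * (Real.sin (2 * (t - t')) : ℂ))) • S.X (S.Z A) := by
    rw [ww_Zt_Zt, ww_Zt_Zt, ← ww_xr_sub_xr]
    have : 2 * (t' - t) = -(2 * (t - t')) := by ring
    rw [this]
  rw [e1, e2, ww_D_smul, inner_smul_right]
  refine (norm_add_le _ _).trans (add_le_add ((norm_add_le _ _).trans ?_) ?_)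
  · have g1 : ‖(inner ℂ (S.Zt t (S.wwQ v A)) (S.Z A) : ℂ)‖
        ≤ (C2 * M * mu b v ^ 2 / 2) * (2 * M) := by
      refine (norm_inner_le_norm _ _).trans ?_
      rw [(S.Zt t).norm_map]
      exact mul_le_mul (hQ A hFA) (ww_Frm_norm hFZA) (norm_nonneg _) (by positivity)
    have g2 : ‖(inner ℂ (S.Zt t A) (S.wwQ v (S.Z A)) : ℂ)‖
        ≤ (2 * M) * (C2 * M * mu b v ^ 2 / 2) := by
      refine (norm_inner_le_norm _ _).trans ?_
      rw [(S.Zt t).norm_map]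
      exact mul_le_mul (ww_Frm_norm hFA) (hQ _ hFZA) (norm_nonneg _) (by positivity)
    calc _ ≤ _ := add_le_add g1 g2
      _ = _ := by ring
  · rw [norm_mul, hA]
    have g3 := ww_lemF hN hO hp hq hZp hZq hv hb
    have g4 : ‖-(2 * Complex.I * (Real.sin (2 * (t - t')) : ℂ))‖ ≤ 2 := by
      rw [norm_neg, norm_mul, norm_mul, Complex.norm_I, Complex.norm_real]
      have := Real.abs_sin_le_one (2 * (t - t'))
      simp only [Complex.norm_ofNat, mul_one, Real.norm_eq_abs]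
      linarith
    calc _ ≤ 2 * (8 * M ^ 2 * mu b v / ‖b‖) :=
          mul_le_mul g4 g3 (norm_nonneg _) (by norm_num)
      _ = _ := by ring

end Sys

end Vale.Agent.P367.A
end

section

/-! P367, Theorem A, block WW (helper739), part 3: three pulses, second order. -/

namespace Vale.Agent.P367.A

open Complex Filter Topology

open Vale.Agent.P367.NI (Gate)

namespace Sys

variable {H K : Type*} [NormedAddCommGroup H] [InnerProductSpace ℂ H]
  [NormedAddCommGroup K] [InnerProductSpace ℂ K] {S : Sys H K}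

/-- three pulses -/
noncomputable def ww3 (S : Sys H K) (τ1 τ2 τ3 : ℝ) (v1 v2 v3 : K) : H ≃ₗᵢ[ℂ] H :=
  S.pul τ3 v3 * (S.pul τ2 v2 * S.pul τ1 v1)

lemma ww3_apply (τ1 τ2 τ3 : ℝ) (v1 v2 v3 : K) (z : H) :
    ww3 S τ1 τ2 τ3 v1 v2 v3 z = S.pul τ3 v3 (S.pul τ2 v2 (S.pul τ1 v1 z)) := rfl

lemma ww3_sub (τ1 τ2 τ3 : ℝ) (v1 v2 v3 : K) (z : H) :
    ‖ww3 S τ1 τ2 τ3 v1 v2 v3 z - z‖
      ≤ ‖S.pul τ1 v1 z - z‖ + ‖S.pul τ2 v2 z - z‖ + ‖S.pul τ3 v3 z - z‖ := by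
  have e : ww3 S τ1 τ2 τ3 v1 v2 v3 z - z
      = S.pul τ3 v3 (S.pul τ2 v2 (S.pul τ1 v1 z - z)) + S.pul τ3 v3 (S.pul τ2 v2 z - z)
        + (S.pul τ3 v3 z - z) := by
    rw [ww3_apply]
    simp only [map_sub]
    abel
  rw [e]
  refine (norm_add₃_le).trans ?_
  rw [(S.pul τ3 v3).norm_map, (S.pul τ3 v3).norm_map, (S.pul τ2 v2).norm_map]

lemma ww3_first (hP1 : ∀ c z b t v, S.Frm b c z → ‖S.pul t v z - z‖ ≤ 4 * c * mu b v)
    {τ1 τ2 τ3 : ℝ} {v1 v2 v3 : K} {b : K} {c μ : ℝ} {z : H} (hz : S.Frm b c z)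
    (h1 : mu b v1 ≤ μ) (h2 : mu b v2 ≤ μ) (h3 : mu b v3 ≤ μ) :
    ‖ww3 S τ1 τ2 τ3 v1 v2 v3 z - z‖ ≤ 12 * c * μ := by
  have hc := ww_Frm_c0 hz
  refine (ww3_sub τ1 τ2 τ3 v1 v2 v3 z).trans ?_
  have e1 := hP1 c z b τ1 v1 hz
  have e2 := hP1 c z b τ2 v2 hz
  have e3 := hP1 c z b τ3 v3 hz
  have f1 : 4 * c * mu b v1 ≤ 4 * c * μ := mul_le_mul_of_nonneg_left h1 (by positivity)
  have f2 : 4 * c * mu b v2 ≤ 4 * c * μ := mul_le_mul_of_nonneg_left h2 (by positivity)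
  have f3 : 4 * c * mu b v3 ≤ 4 * c * μ := mul_le_mul_of_nonneg_left h3 (by positivity)
  linarith

lemma ww3_expand {C2 : ℝ} (hC2 : 0 ≤ C2)
    (hP2 : ∀ c z b t v t' v', S.Frm b c z → ‖v‖ ≤ 1 →
      ‖S.pul t' v' (S.pul t v z - z) - (S.pul t v z - z)‖ ≤ C2 * c * (mu b v' * mu b v))
    {τ1 τ2 τ3 : ℝ} {v1 v2 v3 : K} {b : K} {c μ : ℝ} {z : H} (hz : S.Frm b c z)
    (h1 : mu b v1 ≤ μ) (h2 : mu b v2 ≤ μ) (h3 : mu b v3 ≤ μ) (n1 : ‖v1‖ ≤ 1) (n2 : ‖v2‖ ≤ 1) :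
    ‖ww3 S τ1 τ2 τ3 v1 v2 v3 z - z
      - ((S.pul τ1 v1 z - z) + (S.pul τ2 v2 z - z) + (S.pul τ3 v3 z - z))‖
      ≤ 3 * C2 * c * μ ^ 2 := by
  have hc := ww_Frm_c0 hz
  have m1 := ww_mu_nonneg b v1
  have m2 := ww_mu_nonneg b v2
  have m3 := ww_mu_nonneg b v3
  have hμ : 0 ≤ μ := m1.trans h1
  have e : ww3 S τ1 τ2 τ3 v1 v2 v3 z - z
      - ((S.pul τ1 v1 z - z) + (S.pul τ2 v2 z - z) + (S.pul τ3 v3 z - z))
      = S.pul τ3 v3 (S.pul τ2 v2 (S.pul τ1 v1 z - z) - (S.pul τ1 v1 z - z))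
        + (S.pul τ3 v3 (S.pul τ1 v1 z - z) - (S.pul τ1 v1 z - z))
        + (S.pul τ3 v3 (S.pul τ2 v2 z - z) - (S.pul τ2 v2 z - z)) := by
    rw [ww3_apply]
    simp only [map_sub]
    abel
  rw [e]
  refine (norm_add₃_le).trans ?_
  rw [(S.pul τ3 v3).norm_map]
  have e1 := hP2 c z b τ1 v1 τ2 v2 hz n1
  have e2 := hP2 c z b τ1 v1 τ3 v3 hz n1
  have e3 := hP2 c z b τ2 v2 τ3 v3 hz n2
  have g : ∀ x y, 0 ≤ x → 0 ≤ y → x ≤ μ → y ≤ μ → C2 * c * (x * y) ≤ C2 * c * μ ^ 2 := by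
    intro x y hx hy hxμ hyμ
    refine mul_le_mul_of_nonneg_left ?_ (by positivity)
    rw [pow_two]
    exact mul_le_mul hxμ hyμ hy hμ
  have g1 := g _ _ m2 m1 h2 h1
  have g2 := g _ _ m3 m1 h3 h1
  have g3 := g _ _ m3 m2 h3 h2
  linarith

/-- second order variation on the main frame -/
lemma ww3_main (hN : S.NStmt) (hO : S.OStmt)
    (hP1 : ∀ c z b t v, S.Frm b c z → ‖S.pul t v z - z‖ ≤ 4 * c * mu b v)
    {M C2 : ℝ} (hC2 : 0 ≤ C2)
    (hP2 : ∀ c z b t v t' v', S.Frm b c z → ‖v‖ ≤ 1 →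
      ‖S.pul t' v' (S.pul t v z - z) - (S.pul t v z - z)‖ ≤ C2 * c * (mu b v' * mu b v))
    {b : K} {p q : H} (hp : S.Nice M p)
    (hq : S.Nice M q) (hZp : S.Z p = p) (hZq : S.Z q = -q) (hb : b ≠ 0)
    (t : ℝ) {A : H} (hA : A = S.W b p + S.W (-b) q)
    {τ1 τ2 τ3 : ℝ} {v1 v2 v3 : K} {μ : ℝ}
    (h1 : mu b v1 ≤ μ) (h2 : mu b v2 ≤ μ) (h3 : mu b v3 ≤ μ) (n1 : ‖v1‖ ≤ 1) (n2 : ‖v2‖ ≤ 1)
    (n3 : ‖v3‖ ≤ 1) :
    ‖(inner ℂ (S.Zt t (ww3 S τ1 τ2 τ3 v1 v2 v3 A)) (ww3 S τ1 τ2 τ3 v1 v2 v3 (S.Z A))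
      - inner ℂ (S.Zt t A) (S.Z A) : ℂ)‖
      ≤ (18 * C2 + 144) * M ^ 2 * μ ^ 2 + 48 * M ^ 2 * μ / ‖b‖ := by
  have hM := ww_Nice_c0 hp
  have hb' : 0 < ‖b‖ := norm_pos_iff.2 hb
  have m1 := ww_mu_nonneg b v1
  have m2 := ww_mu_nonneg b v2
  have m3 := ww_mu_nonneg b v3
  have hμ : 0 ≤ μ := m1.trans h1
  have hFA : S.Frm b M A := ⟨p, q, hp, hq, hA⟩
  have hFZA : S.Frm b M (S.Z A) := ww_Frm_Z hN hFA
  set P := ww3 S τ1 τ2 τ3 v1 v2 v3 with hPdef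
  have T1 := ww_lemT hN hO hC2 hP2 hp hq hZp hZq n1 hb t τ1 hA
  have T2 := ww_lemT hN hO hC2 hP2 hp hq hZp hZq n2 hb t τ2 hA
  have T3 := ww_lemT hN hO hC2 hP2 hp hq hZp hZq n3 hb t τ3 hA
  have T' : ∀ x, 0 ≤ x → x ≤ μ → 2 * C2 * M ^ 2 * x ^ 2 + 16 * M ^ 2 * x / ‖b‖
      ≤ 2 * C2 * M ^ 2 * μ ^ 2 + 16 * M ^ 2 * μ / ‖b‖ := by
    intro x hx hxμ
    gcongr
  have EA := ww3_expand hC2 hP2 (τ1 := τ1) (τ2 := τ2) (τ3 := τ3) hFA h1 h2 h3 n1 n2
  have EB := ww3_expand hC2 hP2 (τ1 := τ1) (τ2 := τ2) (τ3 := τ3) hFZA h1 h2 h3 n1 n2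
  have FA := ww3_first hP1 (τ1 := τ1) (τ2 := τ2) (τ3 := τ3) hFA h1 h2 h3
  have FB := ww3_first hP1 (τ1 := τ1) (τ2 := τ2) (τ3 := τ3) hFZA h1 h2 h3
  rw [← hPdef] at EA EB FA FB
  set EAv := P A - A - ((S.pul τ1 v1 A - A) + (S.pul τ2 v2 A - A) + (S.pul τ3 v3 A - A)) with hEA
  set EBv := P (S.Z A) - S.Z A - ((S.pul τ1 v1 (S.Z A) - S.Z A) + (S.pul τ2 v2 (S.Z A) - S.Z A)
    + (S.pul τ3 v3 (S.Z A) - S.Z A)) with hEB
  have e : (inner ℂ (S.Zt t (P A)) (P (S.Z A)) - inner ℂ (S.Zt t A) (S.Z A) : ℂ)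
      = (inner ℂ (S.Zt t (S.pul τ1 v1 A - A)) (S.Z A)
          + inner ℂ (S.Zt t A) (S.pul τ1 v1 (S.Z A) - S.Z A))
        + (inner ℂ (S.Zt t (S.pul τ2 v2 A - A)) (S.Z A)
          + inner ℂ (S.Zt t A) (S.pul τ2 v2 (S.Z A) - S.Z A))
        + (inner ℂ (S.Zt t (S.pul τ3 v3 A - A)) (S.Z A)
          + inner ℂ (S.Zt t A) (S.pul τ3 v3 (S.Z A) - S.Z A))
        + (inner ℂ (S.Zt t EAv) (S.Z A) + inner ℂ (S.Zt t A) EBv)
        + inner ℂ (S.Zt t (P A - A)) (P (S.Z A) - S.Z A) := by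
    rw [hEA, hEB]
    simp only [map_sub, map_add, inner_sub_left, inner_sub_right, inner_add_left,
      inner_add_right]
    ring
  rw [e]
  have G1 : ‖(inner ℂ (S.Zt t EAv) (S.Z A) : ℂ)‖ ≤ (3 * C2 * M * μ ^ 2) * (2 * M) := by
    refine (norm_inner_le_norm _ _).trans ?_
    rw [(S.Zt t).norm_map]
    exact mul_le_mul EA (ww_Frm_norm hFZA) (norm_nonneg _) (by positivity)
  have G2 : ‖(inner ℂ (S.Zt t A) EBv : ℂ)‖ ≤ (2 * M) * (3 * C2 * M * μ ^ 2) := by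
    refine (norm_inner_le_norm _ _).trans ?_
    rw [(S.Zt t).norm_map]
    exact mul_le_mul (ww_Frm_norm hFA) EB (norm_nonneg _) (by positivity)
  have G3 : ‖(inner ℂ (S.Zt t (P A - A)) (P (S.Z A) - S.Z A) : ℂ)‖
      ≤ (12 * M * μ) * (12 * M * μ) := by
    refine (norm_inner_le_norm _ _).trans ?_
    rw [(S.Zt t).norm_map]
    exact mul_le_mul FA FB (norm_nonneg _) (by positivity)
  refine (norm_add_le _ _).trans ?_
  refine (add_le_add ((norm_add_le _ _).trans (add_le_add (norm_add₃_le) (norm_add_le _ _)))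
    le_rfl).trans ?_
  have t1 := T1.trans (T' _ m1 h1)
  have t2 := T2.trans (T' _ m2 h2)
  have t3 := T3.trans (T' _ m3 h3)
  have e48 : 48 * M ^ 2 * μ / ‖b‖ = 3 * (16 * M ^ 2 * μ / ‖b‖) := by ring
  rw [e48]
  nlinarith [t1, t2, t3, G1, G2, G3]

end Sys

end Vale.Agent.P367.A
end

section

/-! P367, Theorem A, block WW (helper739), part 4: states. -/

namespace Vale.Agent.P367.A

open Complex Filter Topology

open Vale.Agent.P367.NI (Gate)

namespace Sys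

variable {H K : Type*} [NormedAddCommGroup H] [InnerProductSpace ℂ H]
  [NormedAddCommGroup K] [InnerProductSpace ℂ K] {S : Sys H K}

lemma ww_inner_inv (U : H ≃ₗᵢ[ℂ] H) (a y : H) : (inner ℂ (U⁻¹ a) y : ℂ) = inner ℂ a (U y) := by
  have h := U.inner_map_map (U⁻¹ a) y
  rw [ww_apply_inv] at h
  exact h.symm

lemma ww_norm_inv (U : H ≃ₗᵢ[ℂ] H) (x : H) : ‖U⁻¹ x‖ = ‖x‖ := (U⁻¹).norm_map x

lemma ww_norm_xt (t : ℝ) (V : H ≃ₗᵢ[ℂ] H) : ‖S.xt t V‖ = 1 := by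
  rw [xt, ww_norm_inv, (S.Zt t).norm_map, V.norm_map, S.nOm]

lemma ww_norm_xv (V : H ≃ₗᵢ[ℂ] H) : ‖S.xv V‖ = 1 := by
  rw [xv, ww_norm_inv, S.Z.norm_map, V.norm_map, S.nOm]

lemma ww_xt_mul_sub (t : ℝ) (P V : H ≃ₗᵢ[ℂ] H) :
    ‖S.xt t (P * V) - S.xt t V‖
      ≤ ‖P (V S.Om) - V S.Om‖ + ‖P (S.Zt t (V S.Om)) - S.Zt t (V S.Om)‖ := by
  have e : (P * V) (S.xt t (P * V) - S.xt t V)
      = S.Zt t (P (V S.Om) - V S.Om) - (P (S.Zt t (V S.Om)) - S.Zt t (V S.Om)) := by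
    rw [map_sub, xt, ww_apply_inv, ww_mul_apply, ww_mul_apply, xt, ww_apply_inv, map_sub]
    abel
  rw [← (P * V).norm_map (S.xt t (P * V) - S.xt t V), e]
  refine (norm_sub_le _ _).trans ?_
  rw [(S.Zt t).norm_map]

lemma ww_inner_xt_mul (t : ℝ) (P V : H ≃ₗᵢ[ℂ] H) :
    (inner ℂ (S.xt t (P * V)) (S.xv V) : ℂ)
      = inner ℂ (S.Zt t (P (V S.Om))) (P (S.Z (V S.Om))) := by
  rw [xt, ww_inner_inv, ww_mul_apply, ww_mul_apply, xv, ww_apply_inv]

lemma ww_inner_xt (t : ℝ) (V : H ≃ₗᵢ[ℂ] H) :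
    (inner ℂ (S.xt t V) (S.xv V) : ℂ) = inner ℂ (S.Zt t (V S.Om)) (S.Z (V S.Om)) := by
  rw [xt, ww_inner_inv, xv, ww_apply_inv]

lemma ww_base (t : ℝ) (ξ : H) :
    |(inner ℂ (S.Zt t ξ) (S.Z ξ) : ℂ).im| ≤ ‖(inner ℂ (S.X ξ) ξ : ℂ)‖ := by
  rw [S.ww_Zt, xr_apply, inner_sub_left, inner_smul_left, inner_smul_left]
  have h1 : (inner ℂ (S.Z ξ) (S.Z ξ) : ℂ) = ((‖S.Z ξ‖ ^ 2 : ℝ) : ℂ) := by
    rw [inner_self_eq_norm_sq_to_K]
    push_cast
    rfl
  have h2 : (inner ℂ (S.X (S.Z ξ)) (S.Z ξ) : ℂ) = -inner ℂ (S.X ξ) ξ := by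
    rw [S.XZ, inner_neg_left, S.Z.inner_map_map]
  rw [h1, h2]
  simp only [map_mul, Complex.conj_ofReal, Complex.conj_I]
  have h3 : (((Real.cos (2 * t) : ℝ) : ℂ) * ((‖S.Z ξ‖ ^ 2 : ℝ) : ℂ)
      - -Complex.I * ((Real.sin (2 * t) : ℝ) : ℂ) * -inner ℂ (S.X ξ) ξ).im
      = -(Real.sin (2 * t) * (inner ℂ (S.X ξ) ξ : ℂ).re) := by
    have e : ((Real.cos (2 * t) : ℝ) : ℂ) * ((‖S.Z ξ‖ ^ 2 : ℝ) : ℂ)
      - -Complex.I * ((Real.sin (2 * t) : ℝ) : ℂ) * -inner ℂ (S.X ξ) ξ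
      = ((Real.cos (2 * t) * ‖S.Z ξ‖ ^ 2 : ℝ) : ℂ)
        - Complex.I * (((Real.sin (2 * t) : ℝ) : ℂ) * inner ℂ (S.X ξ) ξ) := by
      push_cast
      ring
    rw [e, Complex.sub_im, Complex.ofReal_im, Complex.I_mul_im, Complex.re_ofReal_mul]
    ring
  rw [h3, abs_neg, abs_mul]
  have h4 := Real.abs_sin_le_one (2 * t)
  have h5 := Complex.abs_re_le_norm (inner ℂ (S.X ξ) ξ : ℂ)
  calc _ ≤ 1 * ‖(inner ℂ (S.X ξ) ξ : ℂ)‖ := mul_le_mul h4 h5 (abs_nonneg _) zero_le_one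
    _ = _ := one_mul _

/-- the two halves of a nice vector -/
lemma ww_halves (hN : S.NStmt) {M : ℝ} {ψ : H} (hψ : S.Nice M ψ) :
    S.Nice M ((1 / 2 : ℂ) • (ψ + S.Z ψ)) ∧ S.Nice M ((1 / 2 : ℂ) • (ψ - S.Z ψ)) ∧
    S.Z ((1 / 2 : ℂ) • (ψ + S.Z ψ)) = (1 / 2 : ℂ) • (ψ + S.Z ψ) ∧
    S.Z ((1 / 2 : ℂ) • (ψ - S.Z ψ)) = -((1 / 2 : ℂ) • (ψ - S.Z ψ)) := by
  have hZ : S.Nice M (S.Z ψ) := hN.comm S.Z S.WZ M ψ hψ
  have e : ‖(1 / 2 : ℂ)‖ * (M + M) = M := by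
    simp
    ring
  have e1 : ‖(-1 : ℂ)‖ * M = M := by simp
  refine ⟨?_, ?_, ?_, ?_⟩
  · have h := hN.smul _ _ (1 / 2 : ℂ) (hN.add _ _ _ _ hψ hZ)
    rwa [e] at h
  · have h0 := hN.smul _ _ (-1 : ℂ) hZ
    rw [e1, neg_one_smul] at h0
    have h := hN.smul _ _ (1 / 2 : ℂ) (hN.add _ _ _ _ hψ h0)
    rwa [e, ← sub_eq_add_neg] at h
  · rw [map_smul, map_add, S.ZZ, add_comm]
  · rw [map_smul, map_sub, S.ZZ, ← smul_neg, neg_sub]

/-- base estimate: `⟨X ξ, ξ⟩` is small -/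
lemma ww_keyBase (hN : S.NStmt) (hO : S.OStmt) {M δ ε : ℝ} (hM : 0 ≤ M) (hδ : 0 < δ)
    (hε : 0 < ε) (hε1 : ε ≤ 1) {b : K} (hbn : δ / ε ≤ ‖b‖) {p q A r ξ : H} (hp : S.Nice M p)
    (hq : S.Nice M q) (hZp : S.Z p = p) (hZq : S.Z q = -q) (hA : A = S.W b p + S.W (-b) q)
    (hrn : ‖r‖ ≤ 3 * M * ε) (hξ : ξ = A + r) :
    ‖(inner ℂ (S.X ξ) ξ : ℂ)‖ ≤ (2 * M ^ 2 / δ + 21 * M ^ 2) * ε := by
  have hbpos : 0 < ‖b‖ := lt_of_lt_of_le (div_pos hδ hε) hbn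
  have hb0 : b ≠ 0 := norm_pos_iff.1 hbpos
  have hFA : S.Frm b M A := ⟨p, q, hp, hq, hA⟩
  have hAn := ww_Frm_norm hFA
  have hbb : b ≠ -b := by
    intro h
    apply hb0
    have h2 : (2 : ℂ) • b = 0 := by
      rw [two_smul]
      nth_rewrite 2 [h]
      simp
    simpa using h2
  have ebb : ‖b - -b‖ = 2 * ‖b‖ := by
    rw [sub_neg_eq_add, ← two_smul ℝ b, norm_smul]
    simp
  have ebb' : ‖-b - b‖ = 2 * ‖b‖ := by
    rw [← neg_add', norm_neg, ← two_smul ℝ b, norm_smul]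
    simp
  have eXA : S.X A = S.W b (S.X p) + S.W (-b) (S.X q) := by
    rw [hA, map_add, ← S.WX, ← S.WX]
  have z1 : (inner ℂ (S.W b (S.X p)) (S.W b p) : ℂ) = 0 := by
    apply ww_orth' (S := S)
    · rw [← S.WZ, S.ZX, hZp, map_neg]
    · rw [← S.WZ, hZp]
  have z2 : (inner ℂ (S.W (-b) (S.X q)) (S.W (-b) q) : ℂ) = 0 := by
    apply ww_orth (S := S)
    · rw [← S.WZ, S.ZX, hZq, map_neg S.X, neg_neg]
    · rw [← S.WZ, hZq, map_neg]
  have c1 := hO.inn M M (S.X p) q b (-b) (hN.comm S.X S.WX M p hp) hq hbb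
  have c2 := hO.inn M M (S.X q) p (-b) b (hN.comm S.X S.WX M q hq) hp (Ne.symm hbb)
  rw [ebb] at c1
  rw [ebb'] at c2
  have hXAA : ‖(inner ℂ (S.X A) A : ℂ)‖ ≤ 2 * M ^ 2 / ‖b‖ := by
    have e0 : (inner ℂ (S.X A) A : ℂ)
        = inner ℂ (S.W b (S.X p)) (S.W (-b) q) + inner ℂ (S.W (-b) (S.X q)) (S.W b p) := by
      rw [eXA, hA, inner_add_left, inner_add_right, inner_add_right, z1, z2, zero_add, add_zero]
    rw [e0]
    refine (norm_add_le _ _).trans ?_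
    refine (add_le_add c1 c2).trans (le_of_eq ?_)
    field_simp
    ring
  have hM2 : 2 * M ^ 2 / ‖b‖ ≤ 2 * M ^ 2 / δ * ε := by
    have h1 : 2 * M ^ 2 / ‖b‖ ≤ 2 * M ^ 2 / (δ / ε) :=
      div_le_div_of_nonneg_left (by positivity) (div_pos hδ hε) hbn
    have h2 : 2 * M ^ 2 / (δ / ε) = 2 * M ^ 2 / δ * ε := by
      field_simp
    rwa [h2] at h1
  have e3 : (inner ℂ (S.X ξ) ξ : ℂ) = inner ℂ (S.X A) A + inner ℂ (S.X A) r
      + inner ℂ (S.X r) A + inner ℂ (S.X r) r := by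
    rw [hξ, map_add, inner_add_left, inner_add_right, inner_add_right]
    ring
  have g1 : ‖(inner ℂ (S.X A) r : ℂ)‖ ≤ (2 * M) * (3 * M * ε) := by
    refine (norm_inner_le_norm _ _).trans ?_
    rw [S.X.norm_map]
    exact mul_le_mul hAn hrn (norm_nonneg _) (by positivity)
  have g2 : ‖(inner ℂ (S.X r) A : ℂ)‖ ≤ (3 * M * ε) * (2 * M) := by
    refine (norm_inner_le_norm _ _).trans ?_
    rw [S.X.norm_map]
    exact mul_le_mul hrn hAn (norm_nonneg _) (by positivity)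
  have g3 : ‖(inner ℂ (S.X r) r : ℂ)‖ ≤ (3 * M * ε) * (3 * M * ε) := by
    refine (norm_inner_le_norm _ _).trans ?_
    rw [S.X.norm_map]
    exact mul_le_mul hrn hrn (norm_nonneg _) (by positivity)
  rw [e3]
  refine (norm_add_le _ _).trans ?_
  refine (add_le_add (norm_add₃_le) le_rfl).trans ?_
  have h9 : (3 * M * ε) * (3 * M * ε) ≤ 9 * M ^ 2 * ε := by
    have : (3 * M * ε) * (3 * M * ε) = 9 * M ^ 2 * (ε * ε) := by ring
    rw [this]
    exact mul_le_mul_of_nonneg_left (by nlinarith) (by positivity)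
  have h10 := hXAA.trans hM2
  have h11 : (2 * M ^ 2 / δ + 21 * M ^ 2) * ε
      = 2 * M ^ 2 / δ * ε + (2 * M) * (3 * M * ε) + (3 * M * ε) * (2 * M) + 9 * M ^ 2 * ε := by
    ring
  rw [h11]
  linarith

/-- second order estimate with the register part -/
lemma ww_keySecond (hN : S.NStmt) (hO : S.OStmt) {M δ ε B : ℝ} (hM : 0 ≤ M) (hδ : 0 < δ)
    (hε : 0 < ε) {b c' : K} (P : H ≃ₗᵢ[ℂ] H)
    (pf : ∀ (b' : K) (z : H), S.Frm b' M z → S.Frm b' (5832 * M) (P z))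
    (sep1 : δ / ε ≤ ‖b - c'‖) (sep2 : δ / ε ≤ ‖b + c'‖) (t : ℝ) {A φ ρ r ξ : H}
    (hFA : S.Frm b M A) (hφ : S.Frm c' M φ) (hρ : ‖ρ‖ ≤ M * ε ^ 2)
    (hr : r = (ε : ℂ) • φ + ρ) (hrn : ‖r‖ ≤ 3 * M * ε) (hξ : ξ = A + r)
    (main : ‖(inner ℂ (S.Zt t (P A)) (P (S.Z A)) - inner ℂ (S.Zt t A) (S.Z A) : ℂ)‖ ≤ B) :
    ‖(inner ℂ (S.Zt t (P ξ)) (P (S.Z ξ)) - inner ℂ (S.Zt t ξ) (S.Z ξ) : ℂ)‖
      ≤ B + (2 * (16 * (5832 * M) ^ 2 / δ + 4 * M ^ 2) + 18 * M ^ 2) * ε ^ 2 := by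
  have R0 : 0 < δ / ε := div_pos hδ hε
  have hAn := ww_Frm_norm hFA
  have hεn : ‖(ε : ℂ)‖ = ε := by rw [Complex.norm_real, Real.norm_eq_abs, abs_of_pos hε]
  have hFZA := ww_Frm_Z hN hFA
  have fmono : ∀ (b' : K) (z : H), S.Frm b' M z → S.Frm b' (5832 * M) z := by
    rintro b' z ⟨x, y, hx, hy, rfl⟩
    have hmono : ∀ u : H, S.Nice M u → S.Nice (5832 * M) u := by
      intro u hu
      refine ⟨hu.m0.trans (by linarith), fun a => (hu.m1 a).trans ?_,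
        fun a a' => (hu.m2 a a').trans ?_⟩
      · exact mul_le_mul_of_nonneg_right (by linarith) (norm_nonneg _)
      · exact mul_le_mul_of_nonneg_right (by linarith) (by positivity)
    exact ⟨x, y, hmono x hx, hmono y hy, rfl⟩
  have cr1 : ‖(inner ℂ (S.Zt t (P A)) (P (S.Z φ)) - inner ℂ (S.Zt t A) (S.Z φ) : ℂ)‖
      ≤ 16 * (5832 * M) ^ 2 / δ * ε := by
    have a1 := hO.frm _ _ _ _ _ _ _ R0 (ww_Frm_Zt hN (pf b A hFA) t)
      (pf _ _ (ww_Frm_Z hN hφ)) sep1 sep2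
    have a2 := hO.frm _ _ _ _ _ _ _ R0 (ww_Frm_Zt hN (fmono b A hFA) t)
      (fmono _ _ (ww_Frm_Z hN hφ)) sep1 sep2
    refine (norm_sub_le _ _).trans ((add_le_add a1 a2).trans (le_of_eq ?_))
    field_simp
    ring
  have cr2 : ‖(inner ℂ (S.Zt t (P φ)) (P (S.Z A)) - inner ℂ (S.Zt t φ) (S.Z A) : ℂ)‖
      ≤ 16 * (5832 * M) ^ 2 / δ * ε := by
    have s1 : δ / ε ≤ ‖c' - b‖ := by rwa [norm_sub_rev]
    have s2 : δ / ε ≤ ‖c' + b‖ := by rwa [add_comm]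
    have a1 := hO.frm _ _ _ _ _ _ _ R0 (ww_Frm_Zt hN (pf _ φ hφ) t)
      (pf _ _ hFZA) s1 s2
    have a2 := hO.frm _ _ _ _ _ _ _ R0 (ww_Frm_Zt hN (fmono _ φ hφ) t)
      (fmono _ _ hFZA) s1 s2
    refine (norm_sub_le _ _).trans ((add_le_add a1 a2).trans (le_of_eq ?_))
    field_simp
    ring
  have gen : ∀ u w : H, ‖(inner ℂ (S.Zt t (P u)) (P w) - inner ℂ (S.Zt t u) w : ℂ)‖
      ≤ 2 * (‖u‖ * ‖w‖) := by
    intro u w
    refine (norm_sub_le _ _).trans ?_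
    have a1 := norm_inner_le_norm (𝕜 := ℂ) (S.Zt t (P u)) (P w)
    have a2 := norm_inner_le_norm (𝕜 := ℂ) (S.Zt t u) w
    rw [(S.Zt t).norm_map, P.norm_map, P.norm_map] at a1
    rw [(S.Zt t).norm_map] at a2
    linarith
  have hZr : S.Z r = (ε : ℂ) • S.Z φ + S.Z ρ := by rw [hr, map_add, map_smul]
  have e1 : (inner ℂ (S.Zt t (P ξ)) (P (S.Z ξ)) - inner ℂ (S.Zt t ξ) (S.Z ξ) : ℂ)
    = (inner ℂ (S.Zt t (P A)) (P (S.Z A)) - inner ℂ (S.Zt t A) (S.Z A))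
      + (inner ℂ (S.Zt t (P A)) (P (S.Z r)) - inner ℂ (S.Zt t A) (S.Z r))
      + (inner ℂ (S.Zt t (P r)) (P (S.Z A)) - inner ℂ (S.Zt t r) (S.Z A))
      + (inner ℂ (S.Zt t (P r)) (P (S.Z r)) - inner ℂ (S.Zt t r) (S.Z r)) := by
    rw [hξ]
    simp only [map_add, inner_add_left, inner_add_right]
    ring
  have e2 : (inner ℂ (S.Zt t (P A)) (P (S.Z r)) - inner ℂ (S.Zt t A) (S.Z r) : ℂ)
      = (ε : ℂ) * (inner ℂ (S.Zt t (P A)) (P (S.Z φ)) - inner ℂ (S.Zt t A) (S.Z φ))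
        + (inner ℂ (S.Zt t (P A)) (P (S.Z ρ)) - inner ℂ (S.Zt t A) (S.Z ρ)) := by
    rw [hZr]
    simp only [map_add, map_smul, inner_add_right, inner_smul_right]
    ring
  have e3 : (inner ℂ (S.Zt t (P r)) (P (S.Z A)) - inner ℂ (S.Zt t r) (S.Z A) : ℂ)
      = (ε : ℂ) * (inner ℂ (S.Zt t (P φ)) (P (S.Z A)) - inner ℂ (S.Zt t φ) (S.Z A))
        + (inner ℂ (S.Zt t (P ρ)) (P (S.Z A)) - inner ℂ (S.Zt t ρ) (S.Z A)) := by
    rw [hr]
    simp only [map_add, map_smul, inner_add_left, inner_smul_left, Complex.conj_ofReal]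
    ring
  have b1 : ‖(ε : ℂ) * (inner ℂ (S.Zt t (P A)) (P (S.Z φ)) - inner ℂ (S.Zt t A) (S.Z φ))‖
      ≤ ε * (16 * (5832 * M) ^ 2 / δ * ε) := by
    rw [norm_mul, hεn]
    exact mul_le_mul_of_nonneg_left cr1 hε.le
  have b2 : ‖(ε : ℂ) * (inner ℂ (S.Zt t (P φ)) (P (S.Z A)) - inner ℂ (S.Zt t φ) (S.Z A))‖
      ≤ ε * (16 * (5832 * M) ^ 2 / δ * ε) := by
    rw [norm_mul, hεn]
    exact mul_le_mul_of_nonneg_left cr2 hε.le
  have b3 : ‖(inner ℂ (S.Zt t (P A)) (P (S.Z ρ)) - inner ℂ (S.Zt t A) (S.Z ρ) : ℂ)‖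
      ≤ 2 * ((2 * M) * (M * ε ^ 2)) := by
    refine (gen A (S.Z ρ)).trans ?_
    rw [S.Z.norm_map]
    have := mul_le_mul hAn hρ (norm_nonneg _) (by positivity : (0 : ℝ) ≤ 2 * M)
    linarith
  have b4 : ‖(inner ℂ (S.Zt t (P ρ)) (P (S.Z A)) - inner ℂ (S.Zt t ρ) (S.Z A) : ℂ)‖
      ≤ 2 * ((M * ε ^ 2) * (2 * M)) := by
    refine (gen ρ (S.Z A)).trans ?_
    rw [S.Z.norm_map]
    have := mul_le_mul hρ hAn (norm_nonneg _) (by positivity : (0 : ℝ) ≤ M * ε ^ 2)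
    linarith
  have b5 : ‖(inner ℂ (S.Zt t (P r)) (P (S.Z r)) - inner ℂ (S.Zt t r) (S.Z r) : ℂ)‖
      ≤ 2 * ((3 * M * ε) * (3 * M * ε)) := by
    refine (gen r (S.Z r)).trans ?_
    rw [S.Z.norm_map]
    have := mul_le_mul hrn hrn (norm_nonneg _) (by positivity : (0 : ℝ) ≤ 3 * M * ε)
    linarith
  rw [e1]
  refine (norm_add_le _ _).trans ?_
  refine (add_le_add (norm_add₃_le) b5).trans ?_
  have b12 := (norm_add_le ((ε : ℂ) * (inner ℂ (S.Zt t (P A)) (P (S.Z φ))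
    - inner ℂ (S.Zt t A) (S.Z φ)))
    (inner ℂ (S.Zt t (P A)) (P (S.Z ρ)) - inner ℂ (S.Zt t A) (S.Z ρ))).trans (add_le_add b1 b3)
  have b34 := (norm_add_le ((ε : ℂ) * (inner ℂ (S.Zt t (P φ)) (P (S.Z A))
    - inner ℂ (S.Zt t φ) (S.Z A)))
    (inner ℂ (S.Zt t (P ρ)) (P (S.Z A)) - inner ℂ (S.Zt t ρ) (S.Z A))).trans (add_le_add b2 b4)
  rw [← e2] at b12
  rw [← e3] at b34
  have fin : B + (2 * (16 * (5832 * M) ^ 2 / δ + 4 * M ^ 2) + 18 * M ^ 2) * ε ^ 2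
      = B + (ε * (16 * (5832 * M) ^ 2 / δ * ε) + 2 * ((2 * M) * (M * ε ^ 2)))
        + (ε * (16 * (5832 * M) ^ 2 / δ * ε) + 2 * ((M * ε ^ 2) * (2 * M)))
        + 2 * ((3 * M * ε) * (3 * M * ε)) := by ring
  rw [fin]
  linarith

/-- separation of the frames -/
lemma ww_sep {δ ε s' : ℝ} (hε : 0 < ε) {x c : K} (hx : ‖x‖ = 1)
    (hal : δ ≤ |(inner ℂ x c : ℂ).im|) (k : ℝ) (hk : |k| = 1) :
    δ / ε ≤ ‖((s' / ε : ℝ) : ℂ) • x + ((k / ε : ℝ) : ℂ) • c‖ := by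
  have e1 : (inner ℂ x (((s' / ε : ℝ) : ℂ) • x + ((k / ε : ℝ) : ℂ) • c) : ℂ).im
      = k / ε * (inner ℂ x c : ℂ).im := by
    rw [inner_add_right, inner_smul_right, inner_smul_right, inner_self_eq_norm_sq_to_K, hx]
    rw [Complex.add_im, Complex.im_ofReal_mul, Complex.im_ofReal_mul]
    simp
  have e2 : ‖(inner ℂ x (((s' / ε : ℝ) : ℂ) • x + ((k / ε : ℝ) : ℂ) • c) : ℂ)‖
      ≤ ‖((s' / ε : ℝ) : ℂ) • x + ((k / ε : ℝ) : ℂ) • c‖ := by
    refine (norm_inner_le_norm _ _).trans ?_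
    rw [hx, one_mul]
  have e3 := (Complex.abs_im_le_norm _).trans e2
  rw [e1, abs_mul, abs_div, abs_of_pos hε, hk] at e3
  have e4 := mul_le_mul_of_nonneg_left hal (div_nonneg zero_le_one hε.le)
  have e5 : δ / ε = 1 / ε * δ := by ring
  rw [e5]
  linarith

/-- key estimate for three pulses at a state -/
lemma ww_key (hN : S.NStmt) (hO : S.OStmt) (hP : S.PStmt) {M δ : ℝ} (hM : 0 ≤ M) (hδ : 0 < δ)
    {m : ℝ} (hm : 0 ≤ m) : ∃ C, 0 ≤ C ∧ ∀ ε, 0 < ε → ε ≤ 1 → m * ε ≤ 1 →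
    ∀ (s' : ℝ) (V : H ≃ₗᵢ[ℂ] H) (c : K) (t1 t2 : ℝ), S.Ctx M δ ε s' V c t1 t2 →
    ∀ (τ1 τ2 τ3 : ℝ) (v1 v2 v3 : K),
      mu (((s' / ε : ℝ) : ℂ) • S.iota (S.xv V)) v1 ≤ m * ε →
      mu (((s' / ε : ℝ) : ℂ) • S.iota (S.xv V)) v2 ≤ m * ε →
      mu (((s' / ε : ℝ) : ℂ) • S.iota (S.xv V)) v3 ≤ m * ε →
      ∀ t : ℝ,
      ‖S.xt t (ww3 S τ1 τ2 τ3 v1 v2 v3 * V) - S.xt t V‖ ≤ C * ε ∧
      (s' ≠ 0 → |(inner ℂ (S.xt t V) (S.xv V) : ℂ).im| ≤ C * ε) ∧
      (s' ≠ 0 → |(inner ℂ (S.xt t (ww3 S τ1 τ2 τ3 v1 v2 v3 * V)) (S.xv V) : ℂ).im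
        - (inner ℂ (S.xt t V) (S.xv V) : ℂ).im| ≤ C * ε ^ 2) := by
  obtain ⟨C2, hC2, hP2⟩ := hP.p2
  refine ⟨24 * M * m + 12 * M + (2 * M ^ 2 / δ + 21 * M ^ 2)
    + ((18 * C2 + 144) * M ^ 2 * m ^ 2 + 48 * M ^ 2 * m / δ
      + (2 * (16 * (5832 * M) ^ 2 / δ + 4 * M ^ 2) + 18 * M ^ 2)), by positivity, ?_⟩
  intro ε hε hε1 hmε s' V c t1 t2 hctx τ1 τ2 τ3 v1 v2 v3 h1 h2 h3 t
  obtain ⟨ψ, φ, hψ, hφ, hsplit⟩ := hctx.split
  set b : K := ((s' / ε : ℝ) : ℂ) • S.iota (S.xv V) with hb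
  obtain ⟨hp, hq, hZp, hZq⟩ := ww_halves hN hψ
  set p := (1 / 2 : ℂ) • (ψ + S.Z ψ) with hpdef
  set q := (1 / 2 : ℂ) • (ψ - S.Z ψ) with hqdef
  set A : H := S.zr (-b) ψ with hAdef
  have hA : A = S.W b p + S.W (-b) q := S.ww_zr_neg b ψ
  set ξ : H := V S.Om with hξ
  set ρ : H := ξ - A - (ε : ℂ) • φ with hρdef
  have hρ : ‖ρ‖ ≤ M * ε ^ 2 := hsplit
  have hFA : S.Frm b M A := ⟨p, q, hp, hq, hA⟩
  set r : H := (ε : ℂ) • φ + ρ with hr
  have hξr : ξ = A + r := by rw [hr, hρdef]; abel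
  have hφn := ww_Frm_norm hφ
  have hεn : ‖(ε : ℂ)‖ = ε := by rw [Complex.norm_real, Real.norm_eq_abs, abs_of_pos hε]
  have hε2 : ε ^ 2 ≤ ε := by nlinarith
  have hrn : ‖r‖ ≤ 3 * M * ε := by
    rw [hr]
    refine (norm_add_le _ _).trans ?_
    rw [norm_smul, hεn]
    nlinarith [mul_le_mul_of_nonneg_left hφn hε.le, mul_le_mul_of_nonneg_left hε2 hM]
  have nv : ∀ v : K, mu b v ≤ m * ε → ‖v‖ ≤ 1 := by
    intro v hv
    have : ‖v‖ ≤ mu b v := by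
      unfold mu
      linarith [abs_nonneg (inner ℂ v b : ℂ).im]
    linarith
  have n1 := nv v1 h1
  have n2 := nv v2 h2
  have n3 := nv v3 h3
  have hx0 : ‖S.iota (S.xv V)‖ = 1 := by rw [S.iota.norm_map, ww_norm_xv]
  have pos1 : 0 ≤ (18 * C2 + 144) * M ^ 2 * m ^ 2 := by positivity
  have pos2 : 0 ≤ 48 * M ^ 2 * m / δ := by positivity
  have pos3 : 0 ≤ 16 * (5832 * M) ^ 2 / δ := by positivity
  have pos4 : 0 ≤ M * m := by positivity
  have pos5 : 0 ≤ M ^ 2 := by positivity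
  have pos6 : 0 ≤ 2 * M ^ 2 / δ := by positivity
  have hbn : s' ≠ 0 → δ / ε ≤ ‖b‖ := by
    intro hs
    have hsδ : δ ≤ |s'| := hctx.s'_ge.resolve_left hs
    have : ‖b‖ = |s'| / ε := by
      rw [hb, norm_smul, hx0, mul_one, Complex.norm_real, Real.norm_eq_abs, abs_div,
        abs_of_pos hε]
    rw [this]
    exact div_le_div_of_nonneg_right hsδ hε.le
  refine ⟨?_, ?_, ?_⟩
  · -- first order
    have first : ∀ z w : H, S.Frm b M z → ‖w‖ ≤ 3 * M * ε →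
        ‖ww3 S τ1 τ2 τ3 v1 v2 v3 (z + w) - (z + w)‖ ≤ (12 * M * m + 6 * M) * ε := by
      intro z w hz hw
      have e1 := ww3_first hP.p1 (τ1 := τ1) (τ2 := τ2) (τ3 := τ3) hz h1 h2 h3
      have e2 : ww3 S τ1 τ2 τ3 v1 v2 v3 (z + w) - (z + w)
          = (ww3 S τ1 τ2 τ3 v1 v2 v3 z - z) + (ww3 S τ1 τ2 τ3 v1 v2 v3 w - w) := by
        rw [map_add]
        abel
      rw [e2]
      refine (norm_add_le _ _).trans ?_
      have e3 : ‖ww3 S τ1 τ2 τ3 v1 v2 v3 w - w‖ ≤ 2 * ‖w‖ := by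
        refine (norm_sub_le _ _).trans ?_
        rw [(ww3 S τ1 τ2 τ3 v1 v2 v3).norm_map]
        linarith
      linarith
    have e1 := first A r hFA hrn
    have e2 := first (S.Zt t A) (S.Zt t r) (ww_Frm_Zt hN hFA t) (by rwa [(S.Zt t).norm_map])
    rw [← hξr] at e1
    rw [← map_add, ← hξr] at e2
    have e3 := ww_xt_mul_sub (S := S) t (ww3 S τ1 τ2 τ3 v1 v2 v3) V
    rw [← hξ] at e3
    have e4 : ‖S.xt t (ww3 S τ1 τ2 τ3 v1 v2 v3 * V) - S.xt t V‖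
        ≤ (24 * M * m + 12 * M) * ε := by linarith
    refine e4.trans (mul_le_mul_of_nonneg_right ?_ hε.le)
    linarith
  · intro hs
    rw [ww_inner_xt, ← hξ]
    refine (ww_base t ξ).trans ?_
    refine (ww_keyBase hN hO hM hδ hε hε1 (hbn hs) hp hq hZp hZq hA hrn hξr).trans ?_
    refine mul_le_mul_of_nonneg_right ?_ hε.le
    have : 0 ≤ 24 * M * m := by positivity
    linarith
  · intro hs
    have hbpos : 0 < ‖b‖ := lt_of_lt_of_le (div_pos hδ hε) (hbn hs)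
    have hb0 : b ≠ 0 := norm_pos_iff.1 hbpos
    have sep1 : δ / ε ≤ ‖b - ((1 / ε : ℝ) : ℂ) • c‖ := by
      have h := ww_sep (s' := s') hε hx0 hctx.al0 (-1) (by simp)
      have e : ((-1 / ε : ℝ) : ℂ) • c = -(((1 / ε : ℝ) : ℂ) • c) := by
        rw [neg_div, Complex.ofReal_neg, neg_smul]
      rwa [e, ← sub_eq_add_neg] at h
    have sep2 : δ / ε ≤ ‖b + ((1 / ε : ℝ) : ℂ) • c‖ :=
      ww_sep (s' := s') hε hx0 hctx.al0 1 (by simp)
    have pf : ∀ (b' : K) (z : H), S.Frm b' M z →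
        S.Frm b' (5832 * M) (ww3 S τ1 τ2 τ3 v1 v2 v3 z) := by
      intro b' z hz
      have h := hP.p0 _ _ b' τ3 v3 (hP.p0 _ _ b' τ2 v2 (hP.p0 _ _ b' τ1 v1 hz n1) n2) n3
      have e : 18 * (18 * (18 * M)) = 5832 * M := by ring
      rwa [e] at h
    have main := ww3_main hN hO hP.p1 hC2 hP2 hp hq hZp hZq hb0 t hA (τ1 := τ1) (τ2 := τ2)
      (τ3 := τ3) h1 h2 h3 n1 n2 n3
    have tot := ww_keySecond hN hO hM hδ hε (ww3 S τ1 τ2 τ3 v1 v2 v3) pf sep1 sep2 t hFA hφ hρ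
      hr hrn hξr main
    have b6 : 48 * M ^ 2 * (m * ε) / ‖b‖ ≤ 48 * M ^ 2 * m / δ * ε ^ 2 := by
      have g1 : 48 * M ^ 2 * (m * ε) / ‖b‖ ≤ 48 * M ^ 2 * (m * ε) / (δ / ε) :=
        div_le_div_of_nonneg_left (by positivity) (div_pos hδ hε) (hbn hs)
      have g2 : 48 * M ^ 2 * (m * ε) / (δ / ε) = 48 * M ^ 2 * m / δ * ε ^ 2 := by
        field_simp
      rwa [g2] at g1
    rw [ww_inner_xt_mul, ww_inner_xt, ← hξ, ← Complex.sub_im]
    refine (Complex.abs_im_le_norm _).trans (tot.trans ?_)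
    have e5 : (24 * M * m + 12 * M + (2 * M ^ 2 / δ + 21 * M ^ 2)
      + ((18 * C2 + 144) * M ^ 2 * m ^ 2 + 48 * M ^ 2 * m / δ
      + (2 * (16 * (5832 * M) ^ 2 / δ + 4 * M ^ 2) + 18 * M ^ 2))) * ε ^ 2
      = (24 * M * m + 12 * M + (2 * M ^ 2 / δ + 21 * M ^ 2)) * ε ^ 2
        + (18 * C2 + 144) * M ^ 2 * (m * ε) ^ 2 + 48 * M ^ 2 * m / δ * ε ^ 2
        + (2 * (16 * (5832 * M) ^ 2 / δ + 4 * M ^ 2) + 18 * M ^ 2) * ε ^ 2 := by ring
    rw [e5]
    have e6 : 0 ≤ (24 * M * m + 12 * M + (2 * M ^ 2 / δ + 21 * M ^ 2)) * ε ^ 2 := by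
      positivity
    linarith

end Sys

end Vale.Agent.P367.A
end

section

/-! P367, Theorem A, block WW (helper739): the four-pulse word at a state. -/

namespace Vale.Agent.P367.A

open Complex Filter Topology

open Vale.Agent.P367.NI (Gate)

namespace Sys

variable {H K : Type*} [NormedAddCommGroup H] [InnerProductSpace ℂ H]
  [NormedAddCommGroup K] [InnerProductSpace ℂ K] {S : Sys H K}

lemma ww3_one (τ : ℝ) (v : K) : ww3 S τ 0 0 v 0 0 = S.pul τ v := by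
  ext z
  rw [ww3_apply, ww_pul_zero, ww_pul_zero]

lemma ww3_two (τ τ' : ℝ) (v v' : K) : ww3 S τ τ' 0 v v' 0 = S.pul τ' v' * S.pul τ v := by
  ext z
  rw [ww3_apply, ww_pul_zero]
  rfl

lemma ww_im_smul (s k : ℝ) (x y : K) :
    (inner ℂ ((s : ℂ) • x) ((k : ℂ) • y) : ℂ).im = s * k * (inner ℂ x y : ℂ).im := by
  rw [inner_smul_left, inner_smul_right, Complex.conj_ofReal, Complex.im_ofReal_mul,
    Complex.im_ofReal_mul]
  ring

/-- size of a pulse vector -/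
lemma ww_mu_state {κ ε M D s s' : ℝ} (hε : 0 < ε) (hκ : 0 ≤ κ) (hM : 0 ≤ M)
    (hs : |s| ≤ κ * ε) (hs' : |s'| ≤ M) {x x0 : H} (hx : ‖x‖ ≤ 1)
    (hD : s' ≠ 0 → |(inner ℂ x x0 : ℂ).im| ≤ D * ε) (hD0 : 0 ≤ D) :
    mu (((s' / ε : ℝ) : ℂ) • S.iota x0) ((s : ℂ) • S.iota x) ≤ κ * (1 + M * D) * ε := by
  unfold mu
  have h1 : ‖(s : ℂ) • S.iota x‖ ≤ κ * ε := by
    rw [norm_smul, S.iota.norm_map, Complex.norm_real, Real.norm_eq_abs]
    calc |s| * ‖x‖ ≤ (κ * ε) * 1 := mul_le_mul hs hx (norm_nonneg _) (by positivity)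
      _ = κ * ε := mul_one _
  have h2 : |(inner ℂ ((s : ℂ) • S.iota x) (((s' / ε : ℝ) : ℂ) • S.iota x0) : ℂ).im|
      ≤ κ * M * D * ε := by
    rw [ww_im_smul, S.iota.inner_map_map, abs_mul, abs_mul, abs_div, abs_of_pos hε]
    rcases eq_or_ne s' 0 with h0 | h0
    · rw [h0]
      simp
      positivity
    · have h3 := hD h0
      have h4 : |s| * (|s'| / ε) ≤ κ * M := by
        have h5 : |s| * (|s'| / ε) ≤ (κ * ε) * (M / ε) := by
          refine mul_le_mul hs (div_le_div_of_nonneg_right hs' hε.le)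
            (by positivity) (by positivity)
        have h6 : (κ * ε) * (M / ε) = κ * M := by field_simp
        rwa [h6] at h5
      calc |s| * (|s'| / ε) * |(inner ℂ x x0 : ℂ).im| ≤ (κ * M) * (D * ε) :=
            mul_le_mul h4 h3 (abs_nonneg _) (by positivity)
        _ = _ := by ring
  have h3 : κ * (1 + M * D) * ε = κ * ε + κ * M * D * ε := by ring
  rw [h3]
  exact add_le_add h1 h2

/-- size of the difference of two pulse vectors -/
lemma ww_mu_diff {κ ε M D s s' : ℝ} (hε : 0 < ε) (hκ : 0 ≤ κ) (hM : 0 ≤ M)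
    (hs : |s| ≤ κ * ε) (hs' : |s'| ≤ M) {x y x0 : H} (hx : ‖x - y‖ ≤ D * ε)
    (hD : s' ≠ 0 → |(inner ℂ x x0 : ℂ).im - (inner ℂ y x0 : ℂ).im| ≤ D * ε ^ 2)
    (hD0 : 0 ≤ D) :
    mu (((s' / ε : ℝ) : ℂ) • S.iota x0) ((s : ℂ) • S.iota x - (s : ℂ) • S.iota y)
      ≤ κ * (1 + M) * D * ε ^ 2 := by
  have e : (s : ℂ) • S.iota x - (s : ℂ) • S.iota y = (s : ℂ) • S.iota (x - y) := by
    rw [map_sub, smul_sub]
  rw [e]
  unfold mu
  have h1 : ‖(s : ℂ) • S.iota (x - y)‖ ≤ κ * D * ε ^ 2 := by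
    rw [norm_smul, S.iota.norm_map, Complex.norm_real, Real.norm_eq_abs]
    calc |s| * ‖x - y‖ ≤ (κ * ε) * (D * ε) := mul_le_mul hs hx (norm_nonneg _) (by positivity)
      _ = κ * D * ε ^ 2 := by ring
  have h2 : |(inner ℂ ((s : ℂ) • S.iota (x - y)) (((s' / ε : ℝ) : ℂ) • S.iota x0) : ℂ).im|
      ≤ κ * M * D * ε ^ 2 := by
    rw [ww_im_smul, S.iota.inner_map_map, inner_sub_left, Complex.sub_im, abs_mul, abs_mul,
      abs_div, abs_of_pos hε]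
    rcases eq_or_ne s' 0 with h0 | h0
    · rw [h0]
      simp
      positivity
    · have h3 := hD h0
      have h4 : |s| * (|s'| / ε) ≤ κ * M := by
        have h5 : |s| * (|s'| / ε) ≤ (κ * ε) * (M / ε) := by
          refine mul_le_mul hs (div_le_div_of_nonneg_right hs' hε.le)
            (by positivity) (by positivity)
        have h6 : (κ * ε) * (M / ε) = κ * M := by field_simp
        rwa [h6] at h5
      calc |s| * (|s'| / ε) * |(inner ℂ x x0 : ℂ).im - (inner ℂ y x0 : ℂ).im|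
            ≤ (κ * M) * (D * ε ^ 2) :=
            mul_le_mul h4 h3 (abs_nonneg _) (by positivity)
        _ = _ := by ring
  have h3 : κ * (1 + M) * D * ε ^ 2 = κ * D * ε ^ 2 + κ * M * D * ε ^ 2 := by ring
  rw [h3]
  exact add_le_add h1 h2

/-- phases seen by the register frame -/
lemma ww_phase {M δ ε D s : ℝ} (hε : 0 < ε) (hδ : 0 < δ) (hM : 0 ≤ M) (hD0 : 0 ≤ D)
    {V : H ≃ₗᵢ[ℂ] H} {c : K} {t : ℝ} (hc : ‖c‖ ≤ M) (hal : δ ≤ |S.alp t V c|)
    (hs : s = ε * (Real.pi / 2 / S.alp t V c)) {x : H} (hx : ‖x - S.xt t V‖ ≤ D * ε) :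
    |2 * (inner ℂ ((s : ℂ) • S.iota x) (((1 / ε : ℝ) : ℂ) • c) : ℂ).im - Real.pi / 2|
      ≤ 4 * D * M / δ * ε := by
  have ha0 : S.alp t V c ≠ 0 := by
    intro h
    rw [h, abs_zero] at hal
    linarith
  have hapos : 0 < |S.alp t V c| := lt_of_lt_of_le hδ hal
  rw [ww_im_smul]
  have e1 : (inner ℂ (S.iota x) c : ℂ).im
      = (inner ℂ (S.iota (x - S.xt t V)) c : ℂ).im + S.alp t V c / 2 := by
    rw [alp, map_sub, inner_sub_left, Complex.sub_im]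
    ring
  have e2 : 2 * (s * (1 / ε) * (inner ℂ (S.iota x) c : ℂ).im) - Real.pi / 2
      = Real.pi * (inner ℂ (S.iota (x - S.xt t V)) c : ℂ).im / S.alp t V c := by
    rw [e1, hs]
    field_simp
    ring
  rw [e2, abs_div, abs_mul, abs_of_pos Real.pi_pos]
  have h1 : |(inner ℂ (S.iota (x - S.xt t V)) c : ℂ).im| ≤ (D * ε) * M := by
    refine (Complex.abs_im_le_norm _).trans ((norm_inner_le_norm _ _).trans ?_)
    rw [S.iota.norm_map]
    exact mul_le_mul hx hc (norm_nonneg _) (by positivity)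
  have h2 : Real.pi * |(inner ℂ (S.iota (x - S.xt t V)) c : ℂ).im| ≤ 4 * (D * ε * M) :=
    mul_le_mul Real.pi_le_four h1 (abs_nonneg _) (by norm_num)
  calc _ ≤ 4 * (D * ε * M) / δ := by
        refine div_le_div₀ (by positivity) h2 hδ hal
    _ = _ := by ring

lemma ww_s_bound {M δ ε s a : ℝ} (hε : 0 < ε) (hδ : 0 < δ) (hal : δ ≤ |a|)
    (hs : s = ε * (Real.pi / 2 / a)) : |s| ≤ 2 / δ * ε := by
  have _ := M
  rw [hs, abs_mul, abs_of_pos hε, abs_div, abs_of_pos (by positivity : 0 < Real.pi / 2)]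
  have : Real.pi / 2 / |a| ≤ 2 / δ :=
    div_le_div₀ (by norm_num) (by linarith [Real.pi_le_four]) hδ hal
  nlinarith

/-- the estimates along the four pulses -/
lemma ww_pulses (hN : S.NStmt) (hO : S.OStmt) (hP : S.PStmt) {M δ κ : ℝ} (hM : 0 ≤ M)
    (hδ : 0 < δ) (hκ : 0 ≤ κ) : ∃ m D : ℝ, 0 ≤ m ∧ 0 ≤ D ∧ ∀ ε, 0 < ε → ε ≤ 1 → m * ε ≤ 1 →
    ∀ (s' : ℝ) (V : H ≃ₗᵢ[ℂ] H) (c : K) (t1 t2 : ℝ), S.Ctx M δ ε s' V c t1 t2 →
    ∀ s1 s2 : ℝ, |s1| ≤ κ * ε → |s2| ≤ κ * ε → ∀ (V1 V2 V3 : H ≃ₗᵢ[ℂ] H) (v1 v2 v3 v4 b : K),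
      b = ((s' / ε : ℝ) : ℂ) • S.iota (S.xv V) →
      v1 = (s2 : ℂ) • S.iota (S.xt t2 V) → V1 = S.pul t2 v1 * V →
      v2 = (s1 : ℂ) • S.iota (S.xt t1 V1) → V2 = S.pul t1 v2 * V1 →
      v3 = (s2 : ℂ) • S.iota (S.xt t2 V2) → V3 = S.pul t2 (-v3) * V2 →
      v4 = (s1 : ℂ) • S.iota (S.xt t1 V3) →
      (mu b v1 ≤ m * ε ∧ mu b v2 ≤ m * ε ∧ mu b v3 ≤ m * ε ∧ mu b v4 ≤ m * ε) ∧
      (mu b (v3 - v1) ≤ κ * (1 + M) * D * ε ^ 2 ∧ mu b (v4 - v2) ≤ κ * (1 + M) * D * ε ^ 2) ∧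
      ‖S.xt t1 V1 - S.xt t1 V‖ ≤ D * ε ∧ ‖S.xt t2 V2 - S.xt t2 V‖ ≤ D * ε ∧
      ‖S.xt t1 V3 - S.xt t1 V‖ ≤ D * ε := by
  obtain ⟨C0, hC0, K0⟩ := ww_key hN hO hP hM hδ (m := 0) le_rfl
  set m1 : ℝ := κ * (1 + M * C0) with hm1
  have hm1' : 0 ≤ m1 := by positivity
  obtain ⟨D1, hD1, K1⟩ := ww_key hN hO hP hM hδ hm1'
  set m2 : ℝ := m1 + κ * (1 + M * (2 * D1)) with hm2
  have hm2' : 0 ≤ m2 := by positivity
  obtain ⟨D2, hD2, K2⟩ := ww_key hN hO hP hM hδ hm2'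
  set m3 : ℝ := m2 + κ * (1 + M * (2 * D2)) with hm3
  have hm3' : 0 ≤ m3 := by positivity
  obtain ⟨D3, hD3, K3⟩ := ww_key hN hO hP hM hδ hm3'
  set m4 : ℝ := m3 + κ * (1 + M * (2 * D3)) with hm4
  have hm4' : 0 ≤ m4 := by positivity
  have hm12 : m1 ≤ m2 := by rw [hm2]; linarith [show 0 ≤ κ * (1 + M * (2 * D1)) by positivity]
  have hm23 : m2 ≤ m3 := by rw [hm3]; linarith [show 0 ≤ κ * (1 + M * (2 * D2)) by positivity]
  have hm34 : m3 ≤ m4 := by rw [hm4]; linarith [show 0 ≤ κ * (1 + M * (2 * D3)) by positivity]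
  refine ⟨m4, D1 + D2 + D3, hm4', by positivity, ?_⟩
  intro ε hε hεone hm4ε s' V c t1 t2 hctx s1 s2 hs1b hs2b V1 V2 V3 v1 v2 v3 v4 b hb hv1 hV1 hv2
    hV2 hv3 hV3 hv4
  have mε : ∀ m, m ≤ m4 → m * ε ≤ 1 := fun m h =>
    (mul_le_mul_of_nonneg_right h hε.le).trans hm4ε
  have hε2' : ε ^ 2 ≤ ε := by
    rw [pow_two]
    exact mul_le_of_le_one_left hε.le hεone
  have zb : ∀ m : ℝ, 0 ≤ m → mu b (0 : K) ≤ m * ε := by
    intro m hm
    rw [ww_mu_zero]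
    positivity
  have zb' := zb
  rw [hb] at zb'
  have im2 : ∀ D : ℝ, 0 ≤ D → ∀ x y : ℝ, |y| ≤ D * ε → |x - y| ≤ D * ε ^ 2 → |x| ≤ 2 * D * ε := by
    intro D hD x y hy hxy
    have h1 : |x| ≤ |x - y| + |y| := by
      have := abs_add_le (x - y) y
      rwa [sub_add_cancel] at this
    have h2 : D * ε ^ 2 ≤ D * ε := mul_le_mul_of_nonneg_left hε2' hD
    linarith
  -- first pulse
  have B0 := K0 ε hε hεone (by simp) s' V c t1 t2 hctx 0 0 0 0 0 0 (zb' 0 le_rfl) (zb' 0 le_rfl)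
    (zb' 0 le_rfl)
  have b1 : mu b v1 ≤ m1 * ε := by
    rw [hb, hv1]
    exact ww_mu_state hε hκ hM hs2b hctx.s'_le (ww_norm_xt t2 V).le (B0 t2).2.1 hC0
  have b1' : mu b v1 ≤ m2 * ε := b1.trans (mul_le_mul_of_nonneg_right hm12 hε.le)
  have b1'' : mu b v1 ≤ m3 * ε := b1'.trans (mul_le_mul_of_nonneg_right hm23 hε.le)
  -- second pulse
  have B1 := K1 ε hε hεone (mε m1 (hm12.trans (hm23.trans hm34))) s' V c t1 t2 hctx t2 0 0 v1 0 0
    (by rw [← hb]; exact b1) (zb' m1 hm1') (zb' m1 hm1')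
  rw [ww3_one, ← hV1] at B1
  have b2 : mu b v2 ≤ m2 * ε := by
    rw [hb, hv2]
    have h := ww_mu_state (S := S) (D := 2 * D1) hε hκ hM hs1b hctx.s'_le (ww_norm_xt t1 V1).le
      (fun h0 => im2 D1 hD1 _ _ ((B1 t1).2.1 h0) ((B1 t1).2.2 h0)) (by positivity)
    refine h.trans (mul_le_mul_of_nonneg_right ?_ hε.le)
    rw [hm2]
    linarith
  have b2'' : mu b v2 ≤ m3 * ε := b2.trans (mul_le_mul_of_nonneg_right hm23 hε.le)
  -- third pulse
  have B2 := K2 ε hε hεone (mε m2 (hm23.trans hm34)) s' V c t1 t2 hctx t2 t1 0 v1 v2 0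
    (by rw [← hb]; exact b1') (by rw [← hb]; exact b2) (zb' m2 hm2')
  rw [ww3_two, mul_assoc, ← hV1, ← hV2] at B2
  have b3 : mu b v3 ≤ m3 * ε := by
    rw [hb, hv3]
    have h := ww_mu_state (S := S) (D := 2 * D2) hε hκ hM hs2b hctx.s'_le (ww_norm_xt t2 V2).le
      (fun h0 => im2 D2 hD2 _ _ ((B2 t2).2.1 h0) ((B2 t2).2.2 h0)) (by positivity)
    refine h.trans (mul_le_mul_of_nonneg_right ?_ hε.le)
    rw [hm3]
    linarith
  -- fourth pulse
  have B3 := K3 ε hε hεone (mε m3 hm34) s' V c t1 t2 hctx t2 t1 t2 v1 v2 (-v3)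
    (by rw [← hb]; exact b1'') (by rw [← hb]; exact b2'')
    (by rw [← hb, ww_mu_neg]; exact b3)
  rw [ww3, mul_assoc, mul_assoc, ← hV1, ← hV2, ← hV3] at B3
  have b4 : mu b v4 ≤ m4 * ε := by
    rw [hb, hv4]
    have h := ww_mu_state (S := S) (D := 2 * D3) hε hκ hM hs1b hctx.s'_le (ww_norm_xt t1 V3).le
      (fun h0 => im2 D3 hD3 _ _ ((B3 t1).2.1 h0) ((B3 t1).2.2 h0)) (by positivity)
    refine h.trans (mul_le_mul_of_nonneg_right ?_ hε.le)
    rw [hm4]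
    linarith
  have kM : 0 ≤ κ * (1 + M) := by positivity
  have d31 : mu b (v3 - v1) ≤ κ * (1 + M) * D2 * ε ^ 2 := by
    rw [hb, hv3, hv1]
    exact ww_mu_diff hε hκ hM hs2b hctx.s'_le (B2 t2).1 (B2 t2).2.2 hD2
  have d42 : mu b (v4 - v2) ≤ κ * (1 + M) * (D3 + D1) * ε ^ 2 := by
    rw [hb, hv4, hv2]
    refine ww_mu_diff hε hκ hM hs1b hctx.s'_le ?_ ?_ (by positivity)
    · have h1 := (B3 t1).1
      have h2 := (B1 t1).1
      have h3 : S.xt t1 V3 - S.xt t1 V1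
          = (S.xt t1 V3 - S.xt t1 V) - (S.xt t1 V1 - S.xt t1 V) := by abel
      rw [h3]
      refine (norm_sub_le _ _).trans ?_
      linarith
    · intro h0
      have h1 := (B3 t1).2.2 h0
      have h2 := (B1 t1).2.2 h0
      have h3 : (inner ℂ (S.xt t1 V3) (S.xv V) : ℂ).im - (inner ℂ (S.xt t1 V1) (S.xv V) : ℂ).im
          = ((inner ℂ (S.xt t1 V3) (S.xv V) : ℂ).im - (inner ℂ (S.xt t1 V) (S.xv V) : ℂ).im)
            - ((inner ℂ (S.xt t1 V1) (S.xv V) : ℂ).im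
              - (inner ℂ (S.xt t1 V) (S.xv V) : ℂ).im) := by ring
      rw [h3]
      refine (abs_sub _ _).trans ?_
      linarith
  have up : ∀ D : ℝ, D ≤ D1 + D2 + D3 → ∀ r : ℝ, r ≤ D * ε → r ≤ (D1 + D2 + D3) * ε :=
    fun D hD r hr => hr.trans (mul_le_mul_of_nonneg_right hD hε.le)
  have m3ε : m3 * ε ≤ m4 * ε := mul_le_mul_of_nonneg_right hm34 hε.le
  refine ⟨⟨b1''.trans m3ε, b2''.trans m3ε, b3.trans m3ε, b4⟩, ⟨?_, ?_⟩,
    up D1 (by linarith) _ (B1 t1).1, up D2 (by linarith) _ (B2 t2).1,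
    up D3 (by linarith) _ (B3 t1).1⟩
  · refine d31.trans (mul_le_mul_of_nonneg_right ?_ (by positivity))
    exact mul_le_mul_of_nonneg_left (by linarith) kM
  · refine d42.trans (mul_le_mul_of_nonneg_right ?_ (by positivity))
    exact mul_le_mul_of_nonneg_left (by linarith) kM

theorem ww_stmt (hN : S.NStmt) (hO : S.OStmt) (hP : S.PStmt) (hC1 : C1Stmt S) (hC2 : C2Stmt S) :
    WWStmt S := by
  intro M δ hM hδ
  obtain ⟨m, D, hm, hD, hpul⟩ := ww_pulses hN hO hP (κ := 2 / δ) hM hδ (by positivity)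
  obtain ⟨E1, ε1, hE1, hε1, F1⟩ := hC1 (m + 2 / δ * (1 + M) * D) (by positivity)
  obtain ⟨E2, ε2, hE2, hε2, F2⟩ := hC2 (m + 4 * D * M / δ) (by positivity)
  refine ⟨E1 + E2, min (min 1 (1 / (m + 1))) (min ε1 ε2), by positivity, by positivity, ?_⟩
  intro ε hε hεle s' V c t1 t2 hctx s1 s2 hs1 hs2
  have hεone : ε ≤ 1 := hεle.trans ((min_le_left _ _).trans (min_le_left _ _))
  have hεm : ε ≤ 1 / (m + 1) := hεle.trans ((min_le_left _ _).trans (min_le_right _ _))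
  have hεε1 : ε ≤ ε1 := hεle.trans ((min_le_right _ _).trans (min_le_left _ _))
  have hεε2 : ε ≤ ε2 := hεle.trans ((min_le_right _ _).trans (min_le_right _ _))
  have hmε : m * ε ≤ 1 := by
    have h1 : (m + 1) * ε ≤ (m + 1) * (1 / (m + 1)) :=
      mul_le_mul_of_nonneg_left hεm (by positivity)
    have h2 : (m + 1) * (1 / (m + 1)) = 1 := by field_simp
    have h3 : (m + 1) * ε = m * ε + ε := by ring
    linarith
  have hs1b : |s1| ≤ 2 / δ * ε := ww_s_bound (M := M) hε hδ hctx.al1 hs1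
  have hs2b : |s2| ≤ 2 / δ * ε := ww_s_bound (M := M) hε hδ hctx.al2 hs2
  set b : K := ((s' / ε : ℝ) : ℂ) • S.iota (S.xv V) with hb
  set v1 : K := (s2 : ℂ) • S.iota (S.xt t2 V) with hv1
  set V1 : H ≃ₗᵢ[ℂ] H := S.pul t2 v1 * V with hV1
  set v2 : K := (s1 : ℂ) • S.iota (S.xt t1 V1) with hv2
  set V2 : H ≃ₗᵢ[ℂ] H := S.pul t1 v2 * V1 with hV2
  set v3 : K := (s2 : ℂ) • S.iota (S.xt t2 V2) with hv3
  set V3 : H ≃ₗᵢ[ℂ] H := S.pul t2 (-v3) * V2 with hV3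
  set v4 : K := (s1 : ℂ) • S.iota (S.xt t1 V3) with hv4
  obtain ⟨⟨b1, b2, b3, b4⟩, ⟨d31, d42⟩, x1, x2, x3⟩ := hpul ε hε hεone hmε s' V c t1 t2 hctx s1 s2
    hs1b hs2b V1 V2 V3 v1 v2 v3 v4 b hb hv1 hV1 hv2 hV2 hv3 hV3 hv4
  -- the word
  have eneg : ∀ (s : ℝ) (x : H), ((-s : ℝ) : ℂ) • S.iota x = -((s : ℂ) • S.iota x) := by
    intro s x
    rw [Complex.ofReal_neg, neg_smul]
  have eW : S.wv t1 t2 s1 s2 V = S.pul t1 (-v4) * V3 := by
    have e1 : S.ps t2 s2 V = V1 := rfl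
    have e2 : S.ps t1 s1 V1 = V2 := rfl
    have e3 : S.ps t2 (-s2) V2 = V3 := by rw [ps, eneg]
    have e4 : S.ps t1 (-s1) V3 = S.pul t1 (-v4) * V3 := by rw [ps, eneg]
    rw [wv, e1, e2, e3, e4]
  have eWz : ∀ z, (S.wv t1 t2 s1 s2 V * V⁻¹) z
      = S.pul t1 (-v4) (S.pul t2 (-v3) (S.pul t1 v2 (S.pul t2 v1 z))) := by
    intro z
    rw [eW, hV3, hV2, hV1]
    simp only [ww_mul_apply, ww_apply_inv]
  have nv : ∀ v : K, ‖v‖ ≤ mu b v := by
    intro v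
    unfold mu
    linarith [abs_nonneg (inner ℂ v b : ℂ).im]
  have kM : 0 ≤ 2 / δ * (1 + M) * D := by positivity
  have kM2 : 0 ≤ 4 * D * M / δ := by positivity
  refine ⟨?_, ?_⟩
  · intro c0 z hz
    rw [eWz]
    have hc0 := ww_Frm_c0 hz
    have up1 : ∀ {x : ℝ}, x ≤ m * ε → x ≤ (m + 2 / δ * (1 + M) * D) * ε := fun h =>
      h.trans (mul_le_mul_of_nonneg_right (by linarith) hε.le)
    have up3 : ∀ {x : ℝ}, x ≤ 2 / δ * (1 + M) * D * ε ^ 2
        → x ≤ (m + 2 / δ * (1 + M) * D) * ε ^ 2 := fun h =>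
      h.trans (mul_le_mul_of_nonneg_right (by linarith) (by positivity))
    have h := F1 ε hε hεε1 b c0 z t1 t2 v1 v2 v3 v4 hz (up1 b1) (up1 b2) (up1 b3) (up1 b4)
      (up3 d31) (up3 d42)
    refine h.trans ?_
    have e : (E1 + E2) * c0 * ε ^ 2 = E1 * c0 * ε ^ 2 + E2 * c0 * ε ^ 2 := by ring
    rw [e]
    have : 0 ≤ E2 * c0 * ε ^ 2 := by positivity
    linarith
  · intro c0 z hz
    rw [eWz]
    have hc0 := ww_Frm_c0 hz
    have up2 : ∀ {x : ℝ}, x ≤ m * ε → x ≤ (m + 4 * D * M / δ) * ε := fun h =>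
      h.trans (mul_le_mul_of_nonneg_right (by linarith) hε.le)
    have up4 : ∀ {x : ℝ}, x ≤ 4 * D * M / δ * ε → x ≤ (m + 4 * D * M / δ) * ε := fun h =>
      h.trans (mul_le_mul_of_nonneg_right (by linarith) hε.le)
    have p1 := ww_phase hε hδ hM hD hctx.c_le hctx.al2 hs2 (x := S.xt t2 V)
      (by rw [sub_self, norm_zero]; positivity)
    have p2 := ww_phase hε hδ hM hD hctx.c_le hctx.al1 hs1 x1
    have p3 := ww_phase hε hδ hM hD hctx.c_le hctx.al2 hs2 x2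
    have p4 := ww_phase hε hδ hM hD hctx.c_le hctx.al1 hs1 x3
    have h := F2 ε hε hεε2 (((1 / ε : ℝ) : ℂ) • c) c0 z t1 t2 v1 v2 v3 v4 hz
      (up2 ((nv v1).trans b1)) (up2 ((nv v2).trans b2)) (up2 ((nv v3).trans b3))
      (up2 ((nv v4).trans b4)) (up4 p1) (up4 p2) (up4 p3) (up4 p4)
    refine h.trans ?_
    have e : (E1 + E2) * c0 * ε = E1 * c0 * ε + E2 * c0 * ε := by ring
    rw [e]
    have : 0 ≤ E1 * c0 * ε := by positivity
    linarith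

end Sys

end Vale.Agent.P367.A
end

section

/-! P367, Theorem A, block SB: the simulated `B`-gate. -/

namespace Vale.Agent.P367.A

open Complex Filter Topology

namespace Sys

variable {H K : Type*} [NormedAddCommGroup H] [InnerProductSpace ℂ H]
  [NormedAddCommGroup K] [InnerProductSpace ℂ K] (S : Sys H K)

namespace SB

lemma inv_l (U : H ≃ₗᵢ[ℂ] H) (x : H) : U⁻¹ (U x) = x := U.symm_apply_apply x

lemma inv_r (U : H ≃ₗᵢ[ℂ] H) (x : H) : U (U⁻¹ x) = x := U.apply_symm_apply x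

lemma mul_app (U V : H ≃ₗᵢ[ℂ] H) (x : H) : (U * V) x = U (V x) := rfl

lemma mul_inv_app (U V : H ≃ₗᵢ[ℂ] H) (x : H) : (U * V)⁻¹ x = V⁻¹ (U⁻¹ x) := by
  apply inv_apply_eq
  rw [mul_app, inv_r, inv_r]

lemma W_xr (a : K) (b : ℝ) (x : H) : S.W a (S.xr b x) = S.xr b (S.W a x) := by
  simp only [xr_apply, map_sub, map_smul, S.WX]

lemma xr_xr (b c : ℝ) (x : H) : S.xr b (S.xr c x) = S.xr (b + c) x := by
  simp only [xr_apply, map_sub, map_smul, S.XX, Real.cos_add, Real.sin_add, ofReal_sub,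
    ofReal_add, ofReal_mul]
  have hI := Complex.I_mul_I
  have e : (Real.cos b : ℂ) * Real.cos c + (Complex.I * (Real.sin b : ℂ))
      * (Complex.I * (Real.sin c : ℂ)) = Real.cos b * Real.cos c - Real.sin b * Real.sin c := by
    linear_combination (Real.sin b : ℂ) * (Real.sin c) * hI
  rw [← e]
  module

lemma xr_zero (x : H) : S.xr 0 x = x := by
  simp [xr_apply]

lemma xr_neg_xr (b : ℝ) (x : H) : S.xr (-b) (S.xr b x) = x := by
  rw [xr_xr, neg_add_cancel, xr_zero]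

lemma xr_xr_neg (b : ℝ) (x : H) : S.xr b (S.xr (-b) x) = x := by
  rw [xr_xr, add_neg_cancel, xr_zero]

lemma xr_inv (b : ℝ) (x : H) : (S.xr b)⁻¹ x = S.xr (-b) x :=
  inv_apply_eq (xr_xr_neg S b x)

lemma Z_xr (b : ℝ) (x : H) : S.Z (S.xr b x) = S.xr (-b) (S.Z x) := by
  simp only [xr_apply, map_sub, map_smul, S.ZX, Real.cos_neg, Real.sin_neg, ofReal_neg]
  module

lemma Zt_app (t : ℝ) (x : H) : S.Zt t x = S.xr (2 * t) (S.Z x) := by
  change S.xr t (S.Z (S.xr (-t) x)) = _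
  rw [Z_xr, neg_neg, xr_xr, two_mul]

lemma zr_zero (x : H) : S.zr 0 x = x := by
  rw [zr_apply, neg_zero]
  simp only [S.W_zero_apply, sub_self, smul_zero, add_zero]
  module

lemma nice_mono {c d : ℝ} {x : H} (h : S.Nice c x) (hcd : c ≤ d) : S.Nice d x where
  m0 := h.m0.trans hcd
  m1 a := (h.m1 a).trans (mul_le_mul_of_nonneg_right hcd (norm_nonneg _))
  m2 a b := (h.m2 a b).trans (mul_le_mul_of_nonneg_right hcd (by positivity))

lemma nice_c0 {c : ℝ} {x : H} (h : S.Nice c x) : 0 ≤ c := (norm_nonneg _).trans h.m0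

lemma nice_zero {c : ℝ} (hc : 0 ≤ c) : S.Nice c (0 : H) where
  m0 := by simpa using hc
  m1 a := by simp only [map_zero, sub_zero, norm_zero]; positivity
  m2 a b := by simp only [map_zero, sub_zero, norm_zero]; positivity

lemma nice_xr (hN : S.NStmt) {c : ℝ} {x : H} (h : S.Nice c x) (b : ℝ) : S.Nice c (S.xr b x) :=
  hN.comm (S.xr b) (fun a y => W_xr S a b y) c x h

lemma nice_Z (hN : S.NStmt) {c : ℝ} {x : H} (h : S.Nice c x) : S.Nice c (S.Z x) :=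
  hN.comm S.Z S.WZ c x h

lemma frm_of_nice {c : ℝ} {x : H} (h : S.Nice c x) : S.Frm 0 c x := by
  refine ⟨x, 0, h, nice_zero S (nice_c0 S h), ?_⟩
  rw [S.W_zero_apply, map_zero, add_zero]

lemma frm_xr (hN : S.NStmt) {b : K} {c : ℝ} {z : H} (h : S.Frm b c z) (t : ℝ) :
    S.Frm b c (S.xr t z) := by
  obtain ⟨x, y, hx, hy, rfl⟩ := h
  refine ⟨S.xr t x, S.xr t y, nice_xr S hN hx t, nice_xr S hN hy t, ?_⟩
  rw [map_add, W_xr, W_xr]

lemma frm_Z (hN : S.NStmt) {b : K} {c : ℝ} {z : H} (h : S.Frm b c z) :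
    S.Frm b c (S.Z z) := by
  obtain ⟨x, y, hx, hy, rfl⟩ := h
  refine ⟨S.Z x, S.Z y, nice_Z S hN hx, nice_Z S hN hy, ?_⟩
  rw [map_add, S.WZ, S.WZ]

lemma frm_zr (hN : S.NStmt) {c : ℝ} {x : H} (h : S.Nice c x) (u : K) :
    S.Frm u c (S.zr (-u) x) := by
  have hZ := nice_Z S hN h
  have h1 := hN.smul _ _ (1 / 2 : ℂ) (hN.add _ _ _ _ h hZ)
  have h2 := hN.smul _ _ (1 / 2 : ℂ) (hN.add _ _ _ _ h (hN.smul _ _ (-1 : ℂ) hZ))
  have n2 : ‖(1 / 2 : ℂ)‖ = 1 / 2 := by simp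
  have n1 : ‖(-1 : ℂ)‖ = 1 := by simp
  refine ⟨(1 / 2 : ℂ) • (x + S.Z x), (1 / 2 : ℂ) • (x + (-1 : ℂ) • S.Z x),
    nice_mono S h1 (le_of_eq ?_), nice_mono S h2 (le_of_eq ?_), ?_⟩
  · rw [n2]; ring
  · rw [n2, n1]; ring
  · rw [zr_apply, neg_neg]
    simp only [map_smul, map_add]
    module

/-- dependence of the alignment on the axis -/
lemma alp_form (V : H ≃ₗᵢ[ℂ] H) (c : K) : ∃ B : ℝ, ∀ t : ℝ,
    S.alp t V c = 2 * (inner ℂ (S.iota (S.xv V)) c : ℂ).im * Real.cos (2 * t)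
      - B * Real.sin (2 * t) := by
  refine ⟨2 * (inner ℂ (S.iota (Complex.I • V⁻¹ (S.X (S.Z (V S.Om))))) c : ℂ).im, fun t => ?_⟩
  unfold alp xt
  rw [Zt_app, xr_apply, map_sub, map_smul, map_smul]
  have h1 : V⁻¹ (S.Z (V S.Om)) = S.xv V := rfl
  rw [h1]
  have h2 : (Complex.I * (Real.sin (2 * t) : ℂ)) • V⁻¹ (S.X (S.Z (V S.Om)))
      = (Real.sin (2 * t) : ℂ) • (Complex.I • V⁻¹ (S.X (S.Z (V S.Om)))) := by
    rw [smul_smul, mul_comm]
  rw [h2, map_sub, map_smul, map_smul, inner_sub_left, inner_smul_left, inner_smul_left,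
    Complex.conj_ofReal, Complex.conj_ofReal, Complex.sub_im, Complex.im_ofReal_mul,
    Complex.im_ofReal_mul]
  ring

/-- choice of the axes -/
lemma axes (V : H ≃ₗᵢ[ℂ] H) (c : K) (β δ : ℝ) (hβ : |β| ≤ Real.pi / 4)
    (hδ : 0 < δ) (hal : δ ≤ |(inner ℂ (S.iota (S.xv V)) c : ℂ).im|) :
    ∃ t1 t2 : ℝ, t1 - t2 = -β ∧ δ ≤ |S.alp t1 V c| ∧ δ ≤ |S.alp t2 V c| := by
  obtain ⟨B, hB⟩ := alp_form S V c
  set A : ℝ := 2 * (inner ℂ (S.iota (S.xv V)) c : ℂ).im with hA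
  set z : ℂ := ⟨A, B⟩ with hz
  have h1 : ‖z‖ * Real.cos z.arg = A := by rw [Complex.norm_mul_cos_arg]
  have h2 : ‖z‖ * Real.sin z.arg = B := by rw [Complex.norm_mul_sin_arg]
  have hval : ∀ t, S.alp t V c = ‖z‖ * Real.cos (2 * t + z.arg) := by
    intro t
    rw [hB, Real.cos_add, ← h1, ← h2]
    ring
  have hcos : Real.sqrt 2 / 2 ≤ Real.cos β := by
    rw [← Real.cos_abs β, ← Real.cos_pi_div_four]
    apply Real.cos_le_cos_of_nonneg_of_le_pi (abs_nonneg _) _ hβ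
    linarith [Real.pi_pos]
  have hAz : |A| ≤ ‖z‖ := by
    have := Complex.abs_re_le_norm z
    simpa [hz] using this
  have hA2 : 2 * δ ≤ |A| := by
    rw [hA, abs_mul, abs_two]
    linarith
  have hs2 : 1 ≤ Real.sqrt 2 := by
    rw [Real.one_le_sqrt]; norm_num
  have hbig : δ ≤ |‖z‖ * Real.cos β| := by
    rw [abs_of_nonneg (mul_nonneg (norm_nonneg _) (by linarith [Real.sqrt_nonneg 2]))]
    calc δ ≤ (2 * δ) * (Real.sqrt 2 / 2) := by nlinarith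
      _ ≤ ‖z‖ * Real.cos β := by
        apply mul_le_mul (hA2.trans hAz) hcos (by positivity) (norm_nonneg _)
  refine ⟨-z.arg / 2 - β / 2, -z.arg / 2 + β / 2, by ring, ?_, ?_⟩
  · rw [hval]
    have : 2 * (-z.arg / 2 - β / 2) + z.arg = -β := by ring
    rwa [this, Real.cos_neg]
  · rw [hval]
    have : 2 * (-z.arg / 2 + β / 2) + z.arg = β := by ring
    rwa [this]

lemma norm_smul_re {E : Type*} [NormedAddCommGroup E] [InnerProductSpace ℂ E]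
    (r : ℝ) (x : E) : ‖(r : ℂ) • x‖ = |r| * ‖x‖ := by
  rw [norm_smul, Complex.norm_real, Real.norm_eq_abs]

end SB

open SB in
/-- Block SB -/
theorem sb (hN : S.NStmt) (hWW : S.WWStmt) : S.SBStmt := by
  intro C b δ hC hb hδ
  obtain ⟨D, ε₁, hD, hε₁, hW⟩ := hWW (4 * C + Real.pi) δ (by positivity) hδ
  refine ⟨C + 4 * (D * C) + Real.pi / (2 * δ), min ε₁ 1, ?_, lt_min hε₁ one_pos, ?_⟩
  · have : 0 ≤ Real.pi / (2 * δ) := by positivity
    nlinarith [mul_nonneg hD hC]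
  intro ε hε hε' V T θ σ a η e hSt hal
  have hεε : ε ≤ ε₁ := hε'.trans (min_le_left _ _)
  have hε1 : ε ≤ 1 := hε'.trans (min_le_right _ _)
  have hDC : 0 ≤ D * C := mul_nonneg hD hC
  have hpd : 0 ≤ Real.pi / (2 * δ) := by positivity
  set VB : H ≃ₗᵢ[ℂ] H := S.xr b * V with hVB
  set c : K := (σ : ℂ) • a with hc
  have hσ : |σ| = 1 := by rcases hSt.sg with h | h <;> rw [h] <;> norm_num
  have halc : δ ≤ |(inner ℂ (S.iota (S.xv VB)) c : ℂ).im| := by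
    rw [hc, inner_smul_right, Complex.im_ofReal_mul, abs_mul, hσ, one_mul]
    exact hal
  obtain ⟨t1, t2, ht, ha1, ha2⟩ := axes S VB c (b / 4) δ (by rw [abs_div]; norm_num; linarith)
    hδ halc
  set U : H := S.zr (-(((σ / ε : ℝ) : ℂ) • a)) η with hU
  have hfrU : S.Frm (((1 / ε : ℝ) : ℂ) • c) C U := by
    have h := frm_zr S hN hSt.eta (((σ / ε : ℝ) : ℂ) • a)
    have e1 : (((1 / ε : ℝ) : ℂ) • c) = ((σ / ε : ℝ) : ℂ) • a := by
      rw [hc, smul_smul]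
      congr 1
      push_cast
      ring
    rw [e1]
    exact h
  have hψ : S.Nice (3 * C) (θ • S.xr b (T S.Om)) := by
    have h1 := (hSt.T_nice 3 S.Om hN.om).1
    have h2 := hN.smul _ _ θ (nice_xr S hN h1 b)
    rw [hSt.th, one_mul, mul_comm C 3] at h2
    exact h2
  have hsplit : V S.Om - θ • T S.Om - (ε : ℂ) • U
      = (V S.Om - θ • T S.Om - (ε : ℂ) • U) := rfl
  have hVBOm : VB S.Om - θ • S.xr b (T S.Om) - (ε : ℂ) • S.xr b U
      = S.xr b (V S.Om - θ • T S.Om - (ε : ℂ) • U) := by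
    rw [map_sub, map_sub, map_smul, map_smul, hVB, mul_app]
  have hres : ‖VB S.Om - θ • S.xr b (T S.Om) - (ε : ℂ) • S.xr b U‖ ≤ C * ε ^ 2 := by
    rw [hVBOm, LinearIsometryEquiv.norm_map]
    exact hSt.i1
  have hctx : S.Ctx (4 * C + Real.pi) δ ε 0 VB c t1 t2 := by
    refine ⟨?_, Or.inl rfl, ?_, ⟨θ • S.xr b (T S.Om), S.xr b U, ?_, ?_, ?_⟩, halc, ha1, ha2⟩
    · rw [abs_zero]; positivity
    · rw [hc, norm_smul_re, hσ, one_mul]
      linarith [hSt.a_le, Real.pi_pos]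
    · exact nice_mono S hψ (by linarith [Real.pi_pos])
    · obtain ⟨x, y, hx, hy, hxy⟩ := frm_xr S hN hfrU b
      exact ⟨x, y, nice_mono S hx (by linarith [Real.pi_pos]),
        nice_mono S hy (by linarith [Real.pi_pos]), hxy⟩
    · have e0 : -(((0 / ε : ℝ) : ℂ) • S.iota (S.xv VB)) = 0 := by simp
      rw [e0, zr_zero]
      refine hres.trans ?_
      have : 0 ≤ ε ^ 2 := by positivity
      nlinarith [Real.pi_pos]
  set s1 : ℝ := ε * (Real.pi / 2 / S.alp t1 VB c) with hs1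
  set s2 : ℝ := ε * (Real.pi / 2 / S.alp t2 VB c) with hs2
  have hsb : ∀ A : ℝ, δ ≤ |A| → |ε * (Real.pi / 2 / A)| ≤
      (C + 4 * (D * C) + Real.pi / (2 * δ)) * ε := by
    intro A hA
    rw [abs_mul, abs_of_pos hε, abs_div, abs_of_pos (by positivity : (0:ℝ) < Real.pi / 2)]
    have h1 : Real.pi / 2 / |A| ≤ Real.pi / (2 * δ) := by
      rw [div_div]
      apply div_le_div_of_nonneg_left Real.pi_pos.le (by positivity)
      linarith
    nlinarith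
  obtain ⟨w1, w2⟩ := hW ε hε hεε 0 VB c t1 t2 hctx s1 s2 hs1 hs2
  obtain ⟨Wd, hWd⟩ : ∃ Wd : H ≃ₗᵢ[ℂ] H, Wd = S.wv t1 t2 s1 s2 VB * VB⁻¹ := ⟨_, rfl⟩
  rw [← hWd] at w1 w2
  have hrot : 4 * (t1 - t2) = -b := by rw [ht]; ring
  simp only [hrot] at w2
  have w1' : ∀ c0 z, S.Nice c0 z → ‖Wd z - z‖ ≤ D * c0 * ε ^ 2 := by
    intro c0 z hz
    apply w1 c0 z
    have e0 : (((0 / ε : ℝ) : ℂ) • S.iota (S.xv VB)) = 0 := by simp
    rw [e0]
    exact frm_of_nice S hz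
  have hnew : ∀ x, S.wv t1 t2 s1 s2 VB x = Wd (VB x) := by
    intro x
    rw [hWd, mul_app, inv_l]
  refine ⟨t1, t2, s1, s2, hsb _ ha1, hsb _ ha2, ?_⟩
  have hCC : C ≤ C + 4 * (D * C) + Real.pi / (2 * δ) := by nlinarith
  refine ⟨hSt.th, hSt.sg, hSt.a_le.trans hCC, nice_mono S hSt.eta hCC, ?_, ?_, ?_, ?_⟩
  · intro c0 x hx
    have hc0 := nice_c0 S hx
    refine ⟨?_, ?_⟩
    · rw [mul_app]
      exact nice_mono S (nice_xr S hN (hSt.T_nice c0 x hx).1 b)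
        (mul_le_mul_of_nonneg_right hCC hc0)
    · rw [mul_inv_app, xr_inv]
      exact nice_mono S (hSt.T_nice c0 _ (nice_xr S hN hx (-b))).2
        (mul_le_mul_of_nonneg_right hCC hc0)
  · -- i1
    rw [hnew]
    change ‖Wd (VB S.Om) - θ • S.xr b (T S.Om) - (ε : ℂ) • U‖ ≤ _
    set r : H := VB S.Om - θ • S.xr b (T S.Om) - (ε : ℂ) • S.xr b U with hr
    have e1 : Wd (VB S.Om) - θ • S.xr b (T S.Om) - (ε : ℂ) • U
        = Wd r + θ • (Wd (S.xr b (T S.Om)) - S.xr b (T S.Om))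
          + (ε : ℂ) • (Wd (S.xr b U) - U) := by
      rw [hr]
      simp only [map_sub, map_smul]
      module
    have n1 : ‖Wd r‖ ≤ C * ε ^ 2 := by rw [LinearIsometryEquiv.norm_map]; exact hres
    have n2 : ‖Wd (S.xr b (T S.Om)) - S.xr b (T S.Om)‖ ≤ D * (C * 3) * ε ^ 2 :=
      w1' _ _ (nice_xr S hN (hSt.T_nice 3 S.Om hN.om).1 b)
    have n3 : ‖Wd (S.xr b U) - U‖ ≤ D * C * ε := by
      have := w2 C (S.xr b U) (frm_xr S hN hfrU b)
      rwa [xr_neg_xr] at this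
    rw [e1]
    calc ‖Wd r + θ • (Wd (S.xr b (T S.Om)) - S.xr b (T S.Om)) + (ε : ℂ) • (Wd (S.xr b U) - U)‖
        ≤ ‖Wd r‖ + ‖θ • (Wd (S.xr b (T S.Om)) - S.xr b (T S.Om))‖
          + ‖(ε : ℂ) • (Wd (S.xr b U) - U)‖ :=
          (norm_add_le _ _).trans (add_le_add (norm_add_le _ _) le_rfl)
      _ ≤ C * ε ^ 2 + D * (C * 3) * ε ^ 2 + ε * (D * C * ε) := by
          rw [norm_smul, hSt.th, one_mul, norm_smul_re, abs_of_pos hε]
          gcongr
      _ ≤ _ := by nlinarith [sq_nonneg ε, mul_nonneg hpd (sq_nonneg ε)]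
  · -- i2
    intro c0 x hx
    have hc0 := nice_c0 S hx
    rw [hnew]
    change ‖Wd (S.xr b (V x)) - θ • S.xr b (T x)‖ ≤ _
    have e1 : Wd (S.xr b (V x)) - θ • S.xr b (T x)
        = Wd (S.xr b (V x - θ • T x)) + θ • (Wd (S.xr b (T x)) - S.xr b (T x)) := by
      simp only [map_sub, map_smul]
      module
    have n1 : ‖Wd (S.xr b (V x - θ • T x))‖ ≤ C * c0 * ε := by
      rw [LinearIsometryEquiv.norm_map, LinearIsometryEquiv.norm_map]
      exact hSt.i2 c0 x hx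
    have n2 : ‖Wd (S.xr b (T x)) - S.xr b (T x)‖ ≤ D * (C * c0) * ε ^ 2 :=
      w1' _ _ (nice_xr S hN (hSt.T_nice c0 x hx).1 b)
    rw [e1]
    calc _ ≤ ‖Wd (S.xr b (V x - θ • T x))‖ + ‖θ • (Wd (S.xr b (T x)) - S.xr b (T x))‖ :=
          norm_add_le _ _
      _ ≤ C * c0 * ε + D * (C * c0) * ε ^ 2 := by
          rw [norm_smul, hSt.th, one_mul]
          gcongr
      _ ≤ C * c0 * ε + D * (C * c0) * ε := by
          have : ε ^ 2 ≤ ε := by nlinarith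
          have h0 : 0 ≤ D * (C * c0) := by positivity
          nlinarith
      _ ≤ _ := by
          have h1 : 0 ≤ c0 * ε := by positivity
          have h2 : 0 ≤ (3 * (D * C) + Real.pi / (2 * δ)) * (c0 * ε) := by positivity
          nlinarith
  · -- i6
    rw [← hU]
    set z : H := S.xr b (S.Z U) with hz
    have hfz : S.Frm (((1 / ε : ℝ) : ℂ) • c) C z := frm_xr S hN (frm_Z S hN hfrU) b
    have n1 : ‖Wd z - S.Z U‖ ≤ D * C * ε := by
      have := w2 C z hfz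
      rwa [hz, xr_neg_xr] at this
    have e2 : S.wv t1 t2 s1 s2 VB = Wd * VB := by
      ext x
      exact hnew x
    have e3 : (S.wv t1 t2 s1 s2 VB)⁻¹ (S.Z U) - (σ : ℂ) • e
        = (VB⁻¹ (Wd⁻¹ (S.Z U)) - VB⁻¹ z) + (V⁻¹ (S.Z U) - (σ : ℂ) • e) := by
      rw [e2, mul_inv_app]
      have : VB⁻¹ z = V⁻¹ (S.Z U) := by
        rw [hVB, mul_inv_app, hz, inv_l]
      rw [this]
      abel
    have n2 : ‖VB⁻¹ (Wd⁻¹ (S.Z U)) - VB⁻¹ z‖ ≤ D * C * ε := by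
      rw [← map_sub, LinearIsometryEquiv.norm_map]
      have : Wd⁻¹ (S.Z U) - z = Wd⁻¹ (S.Z U - Wd z) := by
        rw [map_sub, inv_l]
      rw [this, LinearIsometryEquiv.norm_map, norm_sub_rev]
      exact n1
    rw [e3]
    refine (norm_add_le _ _).trans ((add_le_add n2 hSt.i6).trans ?_)
    nlinarith [mul_nonneg hpd hε.le]

end Sys

end Vale.Agent.P367.A
end

section

/-! P367, Theorem A, block SC: the `C`-gate. -/

namespace Vale.Agent.P367.A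

open Complex Filter Topology

namespace Sys

variable {H K : Type*} [NormedAddCommGroup H] [InnerProductSpace ℂ H]
  [NormedAddCommGroup K] [InnerProductSpace ℂ K] (S : Sys H K)

open SB in
/-- Block SC -/
theorem sc (hN : S.NStmt) : S.SCStmt := by
  intro C γ hC
  set A : ℝ := 2 * (1 + 2 * |γ|) ^ 2 with hA
  have hA1 : 1 ≤ A := by
    rw [hA]
    nlinarith [abs_nonneg γ, sq_nonneg (1 + 2 * |γ|)]
  have hCA : C ≤ A * C := by nlinarith
  refine ⟨A * C, 1, hCA, one_pos, ?_⟩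
  intro ε hε hε1 V T θ σ a η e hSt
  set v : K := (γ : ℂ) • S.iota (S.xv V) with hv
  have hvn : ‖v‖ = |γ| := by
    rw [hv, norm_smul, Complex.norm_real, Real.norm_eq_abs, S.iota.norm_map]
    have : ‖S.xv V‖ = 1 := S.norm_xv V
    rw [this, mul_one]
  set u : K := ((σ / ε : ℝ) : ℂ) • a with hu
  set ph : ℂ := Complex.exp (-(2 * Complex.I * (th v (-u) : ℂ))) with hph
  have hphn : ‖ph‖ = 1 := by
    rw [hph, show -(2 * Complex.I * (th v (-u) : ℂ)) = ((-(2 * th v (-u)) : ℝ) : ℂ) * Complex.I by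
      push_cast; ring]
    exact Complex.norm_exp_ofReal_mul_I _
  have hex : ∀ x, S.zr v (S.zr (-u) x) = S.zr (-u) (ph • S.zr v x) := by
    intro x
    rw [map_smul, zr_zr, zr_zr, smul_smul, hph, ← Complex.exp_add, add_comm (-u) v,
      th_swap (-u) v]
    congr 2
    push_cast
    ring
  have hzr : ∀ c x, S.Nice c x → S.Nice (A * c) (S.zr v x) := by
    intro c x hx
    have := hN.zr c x v hx
    rwa [hvn] at this
  have hzr' : ∀ c x, S.Nice c x → S.Nice (A * c) (S.zr (-v) x) := by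
    intro c x hx
    have := hN.zr c x (-v) hx
    rwa [norm_neg, hvn] at this
  refine ⟨ph • S.zr v η, hSt.th, hSt.sg, hSt.a_le.trans hCA, ?_, ?_, ?_, ?_, ?_⟩
  · have := hN.smul _ _ ph (hzr _ _ hSt.eta)
    rwa [hphn, one_mul] at this
  · intro c x hx
    refine ⟨?_, ?_⟩
    · have := hzr _ _ (hSt.T_nice c x hx).1
      rwa [← mul_assoc] at this
    · rw [mul_inv_app, zr_inv]
      have := (hSt.T_nice _ _ (hzr' c x hx)).2
      refine nice_mono S this (le_of_eq ?_)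
      ring
  · change ‖S.zr v (V S.Om) - θ • S.zr v (T S.Om) - (ε : ℂ) • S.zr (-u) (ph • S.zr v η)‖ ≤ _
    have e : S.zr v (V S.Om) - θ • S.zr v (T S.Om) - (ε : ℂ) • S.zr (-u) (ph • S.zr v η)
        = S.zr v (V S.Om - θ • T S.Om - (ε : ℂ) • S.zr (-u) η) := by
      rw [← hex, map_sub, map_sub, map_smul, map_smul]
    rw [e, LinearIsometryEquiv.norm_map]
    refine hSt.i1.trans ?_
    exact mul_le_mul_of_nonneg_right hCA (sq_nonneg _)
  · intro c x hx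
    have hc := nice_c0 S hx
    change ‖S.zr v (V x) - θ • S.zr v (T x)‖ ≤ _
    have e : S.zr v (V x) - θ • S.zr v (T x) = S.zr v (V x - θ • T x) := by
      rw [map_sub, map_smul]
    rw [e, LinearIsometryEquiv.norm_map]
    refine (hSt.i2 c x hx).trans ?_
    gcongr
  · have e1 : (S.zr v * V)⁻¹ (S.Z (S.zr (-u) (ph • S.zr v η))) = V⁻¹ (S.Z (S.zr (-u) η)) := by
      rw [← hex, mul_inv_app, zr_inv]
      congr 1
      rw [S.Z_zr, zr_neg_zr]
    rw [e1]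
    refine hSt.i6.trans ?_
    gcongr

end Sys

end Vale.Agent.P367.A
end

section

/-! P367, block B: T2 from its finite form (helper96). -/

namespace Vale.Agent.P367.A

open Complex Filter Topology MeasureTheory

namespace LSys

lemma bm_expI {f : ℝ → ℝ} (hf : Measurable f) :
    Bm (fun t => Complex.exp (Complex.I * (f t : ℂ))) := by
  refine ⟨Complex.measurable_exp.comp (measurable_const.mul
    (Complex.measurable_ofReal.comp hf)), 1, fun t => ?_⟩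
  change ‖Complex.exp (Complex.I * (f t : ℂ))‖ ≤ 1
  rw [mul_comm, Complex.norm_exp_ofReal_mul_I]

lemma bm_expI' {f : ℝ → ℝ} (hf : Measurable f) :
    Bm (fun t => Complex.exp (-(Complex.I * (f t : ℂ)))) := by
  refine ⟨Complex.measurable_exp.comp (measurable_const.mul
    (Complex.measurable_ofReal.comp hf)).neg, 1, fun t => ?_⟩
  change ‖Complex.exp (-(Complex.I * (f t : ℂ)))‖ ≤ 1
  rw [show -(Complex.I * (f t : ℂ)) = ((-f t : ℝ) : ℂ) * Complex.I by push_cast; ring,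
    Complex.norm_exp_ofReal_mul_I]

variable {H K : Type*} [NormedAddCommGroup H] [InnerProductSpace ℂ H]
  [NormedAddCommGroup K] [InnerProductSpace ℂ K] (L : LSys H K)

/-- the state which is `V` off `b` and the identity on `b` -/
noncomputable def offb (b : Set ℝ) (hb : MeasurableSet b) (V : H ≃ₗᵢ[ℂ] H)
    (hV : ∀ x, L.E b (V x) = V (L.E b x)) : H ≃ₗᵢ[ℂ] H where
  toFun x := V (x - L.E b x) + L.E b x
  invFun x := V⁻¹ (x - L.E b x) + L.E b x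
  map_add' x y := by simp only [map_add, map_sub]; abel
  map_smul' c x := by simp only [map_sub, map_smul, RingHom.id_apply, smul_add, smul_sub]
  left_inv x := by
    have h1 : L.E b (V (x - L.E b x) + L.E b x) = L.E b x := by
      rw [map_add, hV, map_sub, L.o_E_idem hb, sub_self, map_zero, zero_add]
    change V⁻¹ (V (x - L.E b x) + L.E b x - L.E b (V (x - L.E b x) + L.E b x))
      + L.E b (V (x - L.E b x) + L.E b x) = x
    rw [h1, add_sub_cancel_right, Sys.invA, sub_add_cancel]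
  right_inv x := by
    have hV' : ∀ x, L.E b (V⁻¹ x) = V⁻¹ (L.E b x) := by
      intro x
      apply V.injective
      rw [← hV, Sys.Ainv, Sys.Ainv]
    have h1 : L.E b (V⁻¹ (x - L.E b x) + L.E b x) = L.E b x := by
      rw [map_add, hV', map_sub, L.o_E_idem hb, sub_self, map_zero, zero_add]
    change V (V⁻¹ (x - L.E b x) + L.E b x - L.E b (V⁻¹ (x - L.E b x) + L.E b x))
      + L.E b (V⁻¹ (x - L.E b x) + L.E b x) = x
    rw [h1, add_sub_cancel_right, Sys.Ainv, sub_add_cancel]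
  norm_map' x := by
    refine (sq_eq_sq₀ (norm_nonneg _) (norm_nonneg _)).1 ?_
    change ‖V (x - L.E b x) + L.E b x‖ ^ 2 = ‖x‖ ^ 2
    have h1 : L.E b (V (x - L.E b x) + L.E b x) = L.E b x := by
      rw [map_add, hV, map_sub, L.o_E_idem hb, sub_self, map_zero, zero_add]
    rw [L.o_norm_sq_E hb (V (x - L.E b x) + L.E b x), h1, add_sub_cancel_right, V.norm_map,
      L.o_norm_sq_E hb x]

lemma offb_apply (b : Set ℝ) (hb : MeasurableSet b) (V : H ≃ₗᵢ[ℂ] H)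
    (hV : ∀ x, L.E b (V x) = V (L.E b x)) (x : H) :
    L.offb b hb V hV x = V (x - L.E b x) + L.E b x := rfl

lemma x2_E_mem {𝔄 : Set (H →L[ℂ] H)} (hA : L.Ctl 𝔄) {b : Set ℝ} (hb : MeasurableSet b) :
    L.E b ∈ 𝔄 := hA.lab _ (bm_ind hb)

/-- Weyl operators of real vectors commute with the controls -/
lemma W_fv_comm {𝔄 : Set (H →L[ℂ] H)} (hA : L.Ctl 𝔄) {V : H ≃ₗᵢ[ℂ] H}
    (hV : ∀ a ∈ 𝔄, ∀ x, a (V x) = V (a x)) {b : Set ℝ} (hb : MeasurableSet b) (s : ℝ) :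
    ∀ a ∈ 𝔄, ∀ x, a (L.W ((s : ℂ) • L.fv L.Z b V) x) = L.W ((s : ℂ) • L.fv L.Z b V) (a x) := by
  intro a ha x
  have hEb := L.x2_E_mem hA hb
  have hVi : ∀ a ∈ 𝔄, ∀ x, a (V⁻¹ x) = V⁻¹ (a x) := by
    intro a ha x
    apply V.injective
    rw [← hV a ha, Sys.Ainv, Sys.Ainv]
  -- the operator `T = s E_b V⁻¹ Z V`
  set T : H →L[ℂ] H := (s : ℂ) • (L.E b * (V⁻¹).toContinuousLinearEquiv.toContinuousLinearMap
    * L.Z.toContinuousLinearEquiv.toContinuousLinearMap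
    * V.toContinuousLinearEquiv.toContinuousLinearMap) with hT
  have hTx : ∀ x, T x = (s : ℂ) • L.E b (V⁻¹ (L.Z (V x))) := fun x => rfl
  have hsa : Sa T := by
    intro x y
    rw [hTx, hTx, inner_smul_left, inner_smul_right, Complex.conj_ofReal, L.o_E_sa b hb]
    congr 1
    have e1 : inner ℂ x (V⁻¹ (L.E b (L.Z (V y)))) = inner ℂ (V x) (L.E b (L.Z (V y))) := by
      rw [← V.inner_map_map x, Sys.Ainv]
    rw [Sys.inner_invA, L.inner_Z, ← hV _ hEb, ← L.o_E_Z, ← e1, hVi _ hEb]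
  have hco : ∀ c ∈ 𝔄, T * c = c * T := by
    intro c hc
    ext y
    change T (c y) = c (T y)
    rw [hTx, hTx, map_smul, ← hV c hc, ← hA.Z c hc, ← hVi c hc]
    congr 1
    have := congrArg (fun A : H →L[ℂ] H => A (V⁻¹ (L.Z (V y)))) (hA.comm _ _ hEb hc)
    exact this
  have h := hA.W a ha T hsa hco x
  have e : L.iota (T L.Om) = (s : ℂ) • L.fv L.Z b V := by
    rw [hTx, map_smul]; rfl
  rwa [e] at h

/-- the reference unitary commutes with the controls -/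
lemma isProd_comm {𝔄 : Set (H →L[ℂ] H)} (hA : L.Ctl 𝔄) {V U : H ≃ₗᵢ[ℂ] H} {G : Set ℝ}
    (hG : MeasurableSet G) (hV : ∀ a ∈ 𝔄, ∀ x, a (V x) = V (a x)) {sg : H →L[ℂ] H} {s : ℝ}
    (hsg : L.Sgn G 𝔄 sg) (hU : L.IsProd G sg s V U) : ∀ a ∈ 𝔄, ∀ x, a (U x) = U (a x) := by
  intro a ha x
  have hEG := L.x2_E_mem hA hG
  have c1 : ∀ y, a (L.E G y) = L.E G (a y) := fun y =>
    congrArg (fun A : H →L[ℂ] H => A y) (hA.comm _ _ ha hEG)
  have c2 : ∀ y, a (sg y) = sg (a y) := fun y =>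
    congrArg (fun A : H →L[ℂ] H => A y) (hA.comm _ _ ha hsg.1)
  have c3 : ∀ (r : ℝ) y, a (L.W ((r : ℂ) • L.fv L.Z G V) y)
      = L.W ((r : ℂ) • L.fv L.Z G V) (a y) := fun r y => L.W_fv_comm hA hV hG r a ha y
  have c4 : ∀ (r : ℝ) y, a (L.W ((r : ℂ) • L.iota (sg L.Om)) y)
      = L.W ((r : ℂ) • L.iota (sg L.Om)) (a y) := by
    intro r y
    have h := hA.W a ha ((r : ℂ) • sg) (fun u v => by
        change inner ℂ ((r : ℂ) • sg u) v = inner ℂ u ((r : ℂ) • sg v)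
        rw [inner_smul_left, inner_smul_right, Complex.conj_ofReal, hsg.2.1])
      (fun b hb => by rw [smul_mul_assoc, mul_smul_comm, hA.comm _ _ hsg.1 hb]) y
    have e : L.iota (((r : ℂ) • sg) L.Om) = (r : ℂ) • L.iota (sg L.Om) := by
      change L.iota ((r : ℂ) • sg L.Om) = _
      rw [map_smul]
    rwa [e] at h
  have c5 : ∀ y, a (L.zr ((s : ℂ) • L.iota (sg L.Om)) y)
      = L.zr ((s : ℂ) • L.iota (sg L.Om)) (a y) := by
    intro y
    have en : -((s : ℂ) • L.iota (sg L.Om)) = ((-s : ℝ) : ℂ) • L.iota (sg L.Om) := by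
      push_cast; rw [neg_smul]
    rw [L.zr_apply, L.zr_apply, en]
    simp only [map_add, map_sub, map_smul, c4, hA.Z a ha]
  have en : -((s : ℂ) • L.fv L.Z G V) = ((-s : ℝ) : ℂ) • L.fv L.Z G V := by
    push_cast; rw [neg_smul]
  rw [hU x, hU (a x), en]
  simp only [map_add, map_sub, map_smul, c5, c3, c1, c2]

/-- `U` of `IsProd` commutes with `E G` and is the identity off `G` -/
lemma isProd_off {V U : H ≃ₗᵢ[ℂ] H} {G : Set ℝ} (hG : MeasurableSet G) {sg : H →L[ℂ] H} {s : ℝ}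
    {𝔄 : Set (H →L[ℂ] H)} (hA : L.Ctl 𝔄) (hV : ∀ a ∈ 𝔄, ∀ x, a (V x) = V (a x))
    (hsg : L.Sgn G 𝔄 sg) (hU : L.IsProd G sg s V U) {b : Set ℝ} (hb : MeasurableSet b)
    (hd : Disjoint b G) (x : H) : L.E b (U x) = L.E b x := by
  have hcm := L.isProd_comm hA hG hV hsg hU _ (L.x2_E_mem hA hb)
  rw [hcm, hU]
  have h1 : L.E G (L.E b x) = 0 := L.o_E_disj hG hb hd.symm x
  have h2 : sg (L.E b x) = 0 := by
    have h3 : sg * L.E G = sg := by
      have h4 : sg * L.E G = L.E G * sg := hA.comm _ _ hsg.1 (L.x2_E_mem hA hG)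
      -- norm argument: `(sg - sg E_G)^* (sg - sg E_G) = 0`
      ext y
      change sg (L.E G y) = sg y
      have h5 : inner ℂ (sg (L.E G y) - sg y) (sg (L.E G y) - sg y) = (0 : ℂ) := by
        rw [← map_sub, hsg.2.1]
        have h6 : sg (sg (L.E G y - y)) = L.E G (L.E G y - y) := by
          have := congrArg (fun A : H →L[ℂ] H => A (L.E G y - y)) hsg.2.2
          exact this
        rw [h6, map_sub, L.o_E_idem hG, sub_self, inner_zero_right]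
      exact sub_eq_zero.1 (inner_self_eq_zero.1 h5)
    have := congrArg (fun A : H →L[ℂ] H => A (L.E b x)) h3
    change sg (L.E G (L.E b x)) = sg (L.E b x) at this
    rw [← this, h1, map_zero]
  rw [h1, h2, add_zero, sub_zero, map_zero, map_zero, add_zero, smul_zero, map_zero, zero_add,
    sub_zero]

/-- phase unitary -/
noncomputable def phU {f : ℝ → ℝ} (hf : Measurable f) {C : ℝ} (hC : ∀ t, |f t| ≤ C) :
    H ≃ₗᵢ[ℂ] H :=
  mkU (L.lab (fun t => Complex.exp (Complex.I * (f t : ℂ)))).toLinearMap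
    (L.lab (fun t => Complex.exp (-(Complex.I * (f t : ℂ))))).toLinearMap
    (fun x => by
      have h1 := bm_expI hf
      have h2 := bm_expI' hf
      have h := L.lab_mul _ _ h2 h1
      have e : (fun t => Complex.exp (-(Complex.I * (f t : ℂ))) * Complex.exp (Complex.I * (f t : ℂ)))
          = fun _ => (1 : ℂ) := by
        ext t; rw [← Complex.exp_add, neg_add_cancel, Complex.exp_zero]
      rw [e, L.lab_one] at h
      exact (congrArg (fun A : H →L[ℂ] H => A x) h).symm)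
    (fun x => by
      have h1 := bm_expI hf
      have h2 := bm_expI' hf
      have h := L.lab_mul _ _ h1 h2
      have e : (fun t => Complex.exp (Complex.I * (f t : ℂ)) * Complex.exp (-(Complex.I * (f t : ℂ))))
          = fun _ => (1 : ℂ) := by
        ext t; rw [← Complex.exp_add, add_neg_cancel, Complex.exp_zero]
      rw [e, L.lab_one] at h
      exact (congrArg (fun A : H →L[ℂ] H => A x) h).symm)
    (fun x y => by
      have h := L.lab_adj _ (bm_expI hf) x y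
      have e : (fun t => (starRingEnd ℂ) (Complex.exp (Complex.I * (f t : ℂ))))
          = fun t => Complex.exp (-(Complex.I * (f t : ℂ))) := by
        ext t
        rw [← Complex.exp_conj, map_mul, Complex.conj_I, Complex.conj_ofReal, neg_mul]
      rw [e] at h
      exact h)

lemma phU_apply {f : ℝ → ℝ} (hf : Measurable f) {C : ℝ} (hC : ∀ t, |f t| ≤ C) (x : H) :
    L.phU hf hC x = L.lab (fun t => Complex.exp (Complex.I * (f t : ℂ))) x := rfl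

lemma phU_isPh [CompleteSpace H] {f : ℝ → ℝ} (hf : Measurable f) {C : ℝ} (hC : ∀ t, |f t| ≤ C) :
    IsPh (L.lab (fun t => ((-f t : ℝ) : ℂ))) (L.phU hf hC) := by
  intro x
  have hb : Bm (fun t => ((-f t : ℝ) : ℂ)) :=
    bm_real hf.neg (C := C) fun t => by rw [abs_neg]; exact hC t
  rw [← L.lab_smul _ hb, L.exp_lab (bm_smul _ hb), phU_apply]
  congr 3
  ext t
  congr 1
  push_cast
  ring

/-- **T2 from its finite form** -/
theorem t2_of_fin [CompleteSpace H] [TopologicalSpace.SeparableSpace H] (hF : L.T2FinStmt) :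
    L.T2Stmt := by
  intro G 𝔄 Rch hG hA hC M R R' V sg s hR hR'm hsub hmu hsg U hU
  obtain ⟨hMm, hRm, hMR, hGM⟩ := hC.meas M R V hR
  have hV := hC.comm M R V hR
  set R0 : Set ℝ := R \ R' with hR0
  have hR0m : MeasurableSet R0 := hRm.diff hR'm
  have hR0R : R0 ⊆ R := Set.sdiff_subset
  have hMR0 : Disjoint M R0 := hMR.mono_right hR0R
  have hGR0 : Disjoint G R0 := hMR0.mono_left hGM
  have hER0 := L.x2_E_mem hA hR0m
  have hVR0 : ∀ x, L.E R0 (V x) = V (L.E R0 x) := fun x => hV _ hER0 x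
  set V1 := L.offb R0 hR0m V hVR0 with hV1
  have hca : ∀ a ∈ 𝔄, ∀ {b : Set ℝ}, MeasurableSet b → ∀ x, a (L.E b x) = L.E b (a x) := by
    intro a ha b hb x
    exact congrArg (fun A : H →L[ℂ] H => A x) (hA.comm _ _ ha (L.x2_E_mem hA hb))
  have hV1c : ∀ a ∈ 𝔄, ∀ x, a (V1 x) = V1 (a x) := by
    intro a ha x
    rw [hV1, offb_apply, offb_apply, map_add, hV a ha, map_sub, hca a ha hR0m]
  have hV1M : ∀ x, L.E M (V1 x) = L.E M (V x) := by
    intro x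
    rw [hV1, offb_apply, map_add, map_sub, ← hVR0, map_sub, L.o_E_disj hMm hR0m hMR0,
      L.o_E_disj hMm hR0m hMR0, sub_zero, add_zero]
  have hV1R : ∀ x, L.E R0 (V1 x) = L.E R0 x := by
    intro x
    rw [hV1, offb_apply, map_add, map_sub, ← hVR0, map_sub, L.o_E_idem hR0m, L.o_E_idem hR0m,
      sub_self, zero_add]
  have hR1 := hC.act M R R0 V V1 hR hR0m hR0R hV1c hV1M hV1R
  have eR : R \ R0 = R' := by
    rw [hR0, Set.sdiff_sdiff_right_self, Set.inter_eq_right.2 hsub]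
  rw [eR] at hR1
  have hEGV1 : ∀ x, L.E G (V1 x) = L.E G (V x) := by
    intro x
    rw [← L.o_E_sub_mem hG hMm hGM, hV1M, L.o_E_sub_mem hG hMm hGM]
  have hinv : ∀ (Y : H ≃ₗᵢ[ℂ] H), (∀ x, L.E G (Y x) = Y (L.E G x)) →
      ∀ x, L.E G (Y⁻¹ x) = Y⁻¹ (L.E G x) := by
    intro Y hY x
    apply Y.injective
    rw [← hY, Sys.Ainv, Sys.Ainv]
  have hVG : ∀ x, L.E G (V x) = V (L.E G x) := fun x => hV _ (L.x2_E_mem hA hG) x
  have hV1G : ∀ x, L.E G (V1 x) = V1 (L.E G x) := fun x => hV1c _ (L.x2_E_mem hA hG) x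
  have hEGi : ∀ x, L.E G (V1⁻¹ x) = L.E G (V⁻¹ x) := by
    intro x
    rw [hinv V1 hV1G, hinv V hVG]
    apply V1.injective
    rw [Sys.Ainv]
    have h1 : V1 (V⁻¹ (L.E G x)) = V1 (L.E G (V⁻¹ (L.E G x))) := by
      rw [hinv V hVG, L.o_E_idem hG]
    rw [h1, ← hV1G, hEGV1, Sys.Ainv, L.o_E_idem hG]
  have hfv : L.fv L.Z G V1 = L.fv L.Z G V := by
    unfold fv
    congr 1
    rw [hEGi, hinv V hVG, hinv V hVG, L.o_E_Z, L.o_E_Z, hEGV1]
  have hU1 : L.IsProd G sg s V1 U := by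
    intro x
    rw [hfv]
    exact hU x
  have hUc := L.isProd_comm hA hG hV hsg hU
  -- the approximating states
  have key : ∀ n : ℕ, ∃ W : H ≃ₗᵢ[ℂ] H, Rch M R' W ∧
      (∀ x, L.E (M \ G) (W x) = L.E (M \ G) (V x)) ∧
      ∀ k ≤ n, ‖L.E G (W (TopologicalSpace.denseSeq H k))
        - L.E G (U (V (TopologicalSpace.denseSeq H k)))‖ ≤ 1 / ((n : ℝ) + 1) := by
    intro n
    classical
    obtain ⟨V', f, hfm, ⟨C, hfC⟩, hf0, hRV', hoff, hclose⟩ := hF G 𝔄 Rch hG hA hC (M ∪ R0) R' R0 V1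
      sg s hR1 hR0m Set.subset_union_right hGR0 hmu hV1R hsg U hU1
      ((Finset.range (n + 1)).image (TopologicalSpace.denseSeq H)) (1 / ((n : ℝ) + 1))
      (by positivity)
    refine ⟨L.phU hfm hfC * V', ?_, ?_, ?_⟩
    · have hph := hC.ph (M ∪ R0) R' V' (L.lab (fun t => ((-f t : ℝ) : ℂ))) (L.phU hfm hfC) hRV'
        (hA.lab _ (bm_real hfm.neg (C := C) fun t => by
          rw [abs_neg]; exact hfC t))
        (fun x y => by
          have h := L.lab_adj (fun t => ((-f t : ℝ) : ℂ)) (bm_real hfm.neg (C := C) fun t => by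
            rw [abs_neg]; exact hfC t) x y
          simp only [Complex.conj_ofReal] at h
          exact h) (L.phU_isPh hfm hfC)
      exact hC.shrink (M ∪ R0) M R' _ hph hMm Set.subset_union_left hGM
    · intro x
      have hMG : MeasurableSet (M \ G) := hMm.diff hG
      have hcm : MeasurableSet (G ∪ R0)ᶜ := (hG.union hR0m).compl
      have hin : M \ G ⊆ (G ∪ R0)ᶜ := by
        intro t ht hgt
        rcases hgt with h | h
        · exact ht.2 h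
        · exact (Set.disjoint_left.1 hMR0) ht.1 h
      change L.E (M \ G) (L.phU hfm hfC (V' x)) = _
      rw [phU_apply]
      have e1 : L.E (M \ G) (L.lab (fun t => Complex.exp (Complex.I * (f t : ℂ))) (V' x))
          = L.E (M \ G) (V' x) := by
        have h := L.lab_mul _ _ (bm_ind hMG) (bm_expI hfm)
        have e2 : (fun t => (M \ G).indicator (fun _ => (1 : ℂ)) t
            * Complex.exp (Complex.I * (f t : ℂ))) = (M \ G).indicator (fun _ => (1 : ℂ)) := by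
          ext t
          by_cases ht : t ∈ M \ G
          · rw [Set.indicator_of_mem ht, hf0 t ht.2]; simp
          · rw [Set.indicator_of_notMem ht, zero_mul]
        rw [e2] at h
        exact (congrArg (fun A : H →L[ℂ] H => A (V' x)) h).symm
      rw [e1, ← L.o_E_sub_mem hMG hcm hin, hoff, L.o_E_sub_mem hMG hcm hin]
      rw [← L.o_E_sub_mem hMG hMm Set.sdiff_subset, hV1M, L.o_E_sub_mem hMG hMm Set.sdiff_subset]
    · intro k hk
      have h := hclose (TopologicalSpace.denseSeq H k)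
        (Finset.mem_image_of_mem _ (Finset.mem_range.2 (by omega)))
      change ‖L.E G (L.phU hfm hfC (V' _)) - _‖ ≤ _
      rw [phU_apply]
      have e1 : ∀ y, L.E G (L.lab (fun t => Complex.exp (Complex.I * (f t : ℂ))) y)
          = L.lab (fun t => Complex.exp (Complex.I * (f t : ℂ))) (L.E G y) := fun y =>
        congrArg (fun A : H →L[ℂ] H => A y) (L.o_lab_comm (bm_ind hG) (bm_expI hfm))
      have e2 : L.E G (U (V1 (TopologicalSpace.denseSeq H k)))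
          = L.E G (U (V (TopologicalSpace.denseSeq H k))) := by
        rw [hUc _ (L.x2_E_mem hA hG), hUc _ (L.x2_E_mem hA hG), hEGV1]
      rw [e1, ← e2]
      exact h
  choose W hW1 hW2 hW3 using key
  refine hC.lim M R' W (U * V) hW1 (fun a ha x => ?_) (fun x => ?_)
  · change a (U (V x)) = U (V (a x))
    rw [hUc a ha, hV a ha]
  · -- convergence on `M`
    have hMG : MeasurableSet (M \ G) := hMm.diff hG
    have hMU : M = G ∪ (M \ G) := (Set.union_sdiff_cancel hGM).symm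
    have hEM : ∀ y, L.E M y = L.E G y + L.E (M \ G) y := by
      intro y
      conv_lhs => rw [hMU]
      exact L.o_E_unionA hG hMG Set.disjoint_sdiff_right y
    have hoffU : L.E (M \ G) (U (V x)) = L.E (M \ G) (V x) :=
      L.isProd_off hG hA hV hsg hU hMG Set.disjoint_sdiff_left (V x)
    have hlim : Tendsto (fun n => L.E G (W n x)) atTop (𝓝 (L.E G (U (V x)))) := by
      rw [Metric.tendsto_atTop]
      intro ε hε
      obtain ⟨k, hk⟩ : ∃ k, ‖x - TopologicalSpace.denseSeq H k‖ < ε / 4 := by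
        obtain ⟨k, hk⟩ := (TopologicalSpace.denseRange_denseSeq H).exists_dist_lt x
          (show 0 < ε / 4 by positivity)
        exact ⟨k, by rwa [← dist_eq_norm]⟩
      obtain ⟨N, hN⟩ := exists_nat_gt (4 / ε)
      refine ⟨max N k, fun n hn => ?_⟩
      have hnk : k ≤ n := (le_max_right _ _).trans hn
      have hnN : N ≤ n := (le_max_left _ _).trans hn
      have h1 := hW3 n k hnk
      have h2 : 1 / ((n : ℝ) + 1) < ε / 4 := by
        have h3 : (N : ℝ) ≤ n := by exact_mod_cast hnN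
        have h4 : 4 / ε < (n : ℝ) + 1 := by linarith
        rw [div_lt_iff₀ (by positivity)]
        rw [div_lt_iff₀ hε] at h4
        linarith
      rw [dist_eq_norm]
      set y := TopologicalSpace.denseSeq H k with hy
      have e : L.E G (W n x) - L.E G (U (V x)) = L.E G (W n (x - y))
          + (L.E G (W n y) - L.E G (U (V y))) - L.E G (U (V (x - y))) := by
        simp only [map_sub]; abel
      rw [e]
      have h5 : ‖L.E G (W n (x - y))‖ ≤ ‖x - y‖ := by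
        refine (L.o_norm_E_le hG _).trans ?_
        rw [(W n).norm_map]
      have h6 : ‖L.E G (U (V (x - y)))‖ ≤ ‖x - y‖ := by
        refine (L.o_norm_E_le hG _).trans ?_
        rw [U.norm_map, V.norm_map]
      calc _ ≤ ‖L.E G (W n (x - y))‖ + ‖L.E G (W n y) - L.E G (U (V y))‖
            + ‖L.E G (U (V (x - y)))‖ := by
            refine (norm_sub_le _ _).trans ?_
            gcongr
            exact norm_add_le _ _
        _ < ε := by linarith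
    have := hlim.add (tendsto_const_nhds (x := L.E (M \ G) (V x)) (f := atTop (α := ℕ)))
    rw [← hoffU, ← hEM] at this
    refine this.congr fun n => ?_
    rw [hoffU, ← hW2 n, ← hEM]

end LSys

end Vale.Agent.P367.A
end
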