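import Mathlib
import Vale.Agent.P367.Bd3.B1
import Vale.Agent.P367.Bd3.B3
import Vale.Agent.P146.Bd3.B6
import Vale.Agent.P367.Bd3.B2

set_option linter.all false

section

/-! P367, Theorem A, block O: decay of overlaps `⟨W b x, W b' y⟩` of nice vectors. -/

namespace Vale.Agent.P367.A

open Complex

namespace Sys

variable {H K : Type*} [NormedAddCommGroup H] [InnerProductSpace ℂ H]
  [NormedAddCommGroup K] [InnerProductSpace ℂ K] (S : Sys H K)

/-- exchange relation of Weyl operators -/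
lemma W_swap (h b : K) (x : H) : S.W h (S.W b x)
    = Complex.exp (-(2 * Complex.I * ((inner ℂ h b).im : ℂ))) • S.W b (S.W h x) := by
  have h1 := S.WW h b x
  have h2 := S.WW b h x
  have h3 : (inner ℂ b h : ℂ).im = -(inner ℂ h b : ℂ).im := by
    rw [← inner_conj_symm b h, Complex.conj_im]
  rw [h1, h2, h3, smul_smul, ← Complex.exp_add, add_comm b h]
  congr 2
  push_cast
  ring

/-- the overlap of two frames, conjugated by `W h` -/
lemma inner_W_W_conj (h b b' : K) (x y : H) : inner ℂ (S.W b x) (S.W b' y)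
    = Complex.exp (2 * Complex.I * ((inner ℂ h (b - b')).im : ℂ))
      * inner ℂ (S.W b (S.W h x)) (S.W b' (S.W h y)) := by
  have h0 := (S.W h).inner_map_map (S.W b x) (S.W b' y)
  rw [← h0, S.W_swap h b x, S.W_swap h b' y, inner_smul_left, inner_smul_right, ← mul_assoc,
    ← Complex.exp_conj, ← Complex.exp_add]
  congr 2
  rw [inner_sub_right, Complex.sub_im]
  simp only [map_neg, map_mul, Complex.conj_I, Complex.conj_ofReal, map_ofNat]
  push_cast
  ring

lemma norm_W_W (b h : K) (x : H) : ‖S.W b (S.W h x)‖ = ‖x‖ := by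
  rw [(S.W b).norm_map, (S.W h).norm_map]

/-- Lemma O: overlaps of `W b x` and `W b' y` decay like `1 / ‖b - b'‖`, the sharp constant -/
lemma norm_inner_W_W_sharp {c c1 d d1 : ℝ} (b b' : K) (hb : b ≠ b') (x y : H)
    (hx' : ∀ a : K, ‖S.W a x - x‖ ≤ c1 * ‖a‖) (hx : ‖x‖ ≤ c)
    (hy' : ∀ a : K, ‖S.W a y - y‖ ≤ d1 * ‖a‖) (hy : ‖y‖ ≤ d) :
    ‖(inner ℂ (S.W b x) (S.W b' y) : ℂ)‖ ≤ (c * d1 + c1 * d) * (Real.pi / 4) / ‖b - b'‖ := by
  have hc : 0 ≤ c := (norm_nonneg _).trans hx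
  set v : K := b' - b with hv
  have hv0 : v ≠ 0 := sub_ne_zero.2 (Ne.symm hb)
  have hvn : 0 < ‖v‖ := norm_pos_iff.2 hv0
  have hvn' : ‖b - b'‖ = ‖v‖ := by rw [hv, norm_sub_rev]
  set h : K := ((Complex.I * (Real.pi / (2 * ‖v‖ ^ 2) : ℝ)) : ℂ) • v with hh
  have hhn : ‖h‖ = Real.pi / 2 / ‖v‖ := by
    rw [hh, norm_smul, norm_mul, Complex.norm_I, one_mul, Complex.norm_real, Real.norm_eq_abs,
      abs_of_nonneg (by positivity)]
    field_simp
  have him : (inner ℂ h (b - b') : ℂ).im = Real.pi / 2 := by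
    have e1 : b - b' = -v := by rw [hv]; abel
    rw [e1, inner_neg_right, hh, inner_smul_left, inner_self_eq_norm_sq_to_K]
    simp only [map_mul, Complex.conj_I, Complex.conj_ofReal]
    have e2 : -(-Complex.I * ((Real.pi / (2 * ‖v‖ ^ 2) : ℝ) : ℂ) * ((‖v‖ : ℂ)) ^ 2)
        = Complex.I * ((Real.pi / 2 : ℝ) : ℂ) := by
      have : ((Real.pi / (2 * ‖v‖ ^ 2) : ℝ) : ℂ) * ((‖v‖ : ℂ)) ^ 2 = ((Real.pi / 2 : ℝ) : ℂ) := by
        rw [← Complex.ofReal_pow, ← Complex.ofReal_mul]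
        congr 1
        field_simp
      rw [mul_assoc, this]
      ring
    have e3 : (-(-Complex.I * ((Real.pi / (2 * ‖v‖ ^ 2) : ℝ) : ℂ) * ((‖v‖ : ℂ)) ^ 2)).im
        = Real.pi / 2 := by
      rw [e2, Complex.I_mul_im, Complex.ofReal_re]
    exact e3
  have hconj := S.inner_W_W_conj h b b' x y
  rw [him] at hconj
  have hexp : Complex.exp (2 * Complex.I * ((Real.pi / 2 : ℝ) : ℂ)) = -1 := by
    have : 2 * Complex.I * ((Real.pi / 2 : ℝ) : ℂ) = Real.pi * Complex.I := by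
      push_cast
      ring
    rw [this, Complex.exp_pi_mul_I]
  rw [hexp] at hconj
  have hsum : 2 * (inner ℂ (S.W b x) (S.W b' y) : ℂ)
      = inner ℂ (S.W b x) (S.W b' y) - inner ℂ (S.W b (S.W h x)) (S.W b' (S.W h y)) := by
    linear_combination hconj
  have hsplit : (inner ℂ (S.W b x) (S.W b' y) - inner ℂ (S.W b (S.W h x)) (S.W b' (S.W h y)) : ℂ)
      = -inner ℂ (S.W b (S.W h x - x)) (S.W b' y)
        - inner ℂ (S.W b (S.W h x)) (S.W b' (S.W h y - y)) := by
    rw [map_sub, map_sub, inner_sub_left, inner_sub_right]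
    ring
  have hc1h : 0 ≤ c1 * ‖h‖ := (norm_nonneg _).trans (hx' h)
  have hb1 : ‖(inner ℂ (S.W b (S.W h x - x)) (S.W b' y) : ℂ)‖ ≤ c1 * ‖h‖ * d := by
    refine (norm_inner_le_norm _ _).trans ?_
    rw [(S.W b).norm_map, (S.W b').norm_map]
    exact mul_le_mul (hx' h) hy (norm_nonneg _) hc1h
  have hb2 : ‖(inner ℂ (S.W b (S.W h x)) (S.W b' (S.W h y - y)) : ℂ)‖ ≤ c * (d1 * ‖h‖) := by
    refine (norm_inner_le_norm _ _).trans ?_
    rw [S.norm_W_W, (S.W b').norm_map]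
    exact mul_le_mul hx (hy' h) (norm_nonneg _) hc
  have h2 : ‖2 * (inner ℂ (S.W b x) (S.W b' y) : ℂ)‖ ≤ c1 * ‖h‖ * d + c * (d1 * ‖h‖) := by
    rw [hsum, hsplit]
    refine (norm_sub_le _ _).trans ?_
    rw [norm_neg]
    exact add_le_add hb1 hb2
  rw [norm_mul] at h2
  have h22 : ‖(2 : ℂ)‖ = 2 := by simp
  rw [h22, hhn] at h2
  rw [hvn']
  have : (c * d1 + c1 * d) * (Real.pi / 4) / ‖v‖
      = (c1 * (Real.pi / 2 / ‖v‖) * d + c * (d1 * (Real.pi / 2 / ‖v‖))) / 2 := by ring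
  rw [this]
  linarith [h2]

lemma norm_inner_W_W_one {c c1 d d1 : ℝ} (b b' : K) (hb : b ≠ b') (x y : H)
    (hx' : ∀ a : K, ‖S.W a x - x‖ ≤ c1 * ‖a‖) (hx : ‖x‖ ≤ c)
    (hy' : ∀ a : K, ‖S.W a y - y‖ ≤ d1 * ‖a‖) (hy : ‖y‖ ≤ d) :
    ‖(inner ℂ (S.W b x) (S.W b' y) : ℂ)‖ ≤ (c * d1 + c1 * d) / ‖b - b'‖ := by
  refine (S.norm_inner_W_W_sharp b b' hb x y hx' hx hy' hy).trans ?_
  have hvn : 0 < ‖b - b'‖ := norm_pos_iff.2 (sub_ne_zero.2 hb)
  have hc : 0 ≤ c := (norm_nonneg _).trans hx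
  have hd : 0 ≤ d := (norm_nonneg _).trans hy
  have hc1 : 0 ≤ c1 := nonneg_of_mul_nonneg_left ((norm_nonneg _).trans (hx' (b - b'))) hvn
  have hd1 : 0 ≤ d1 := nonneg_of_mul_nonneg_left ((norm_nonneg _).trans (hy' (b - b'))) hvn
  refine div_le_div_of_nonneg_right ?_ (norm_nonneg _)
  have hpi : Real.pi / 4 ≤ 1 := by linarith [Real.pi_le_four]
  have hs : 0 ≤ c * d1 + c1 * d := by positivity
  nlinarith

lemma norm_inner_W_W_nice {c d : ℝ} (b b' : K) (hb : b ≠ b') (x y : H)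
    (hx : S.Nice c x) (hy : S.Nice d y) :
    ‖(inner ℂ (S.W b x) (S.W b' y) : ℂ)‖ ≤ 2 * c * d / ‖b - b'‖ := by
  have := S.norm_inner_W_W_one b b' hb x y hx.m1 hx.m0 hy.m1 hy.m0
  have e : c * d + c * d = 2 * c * d := by ring
  rwa [e] at this

/-- version with a lower bound `R` on the distance -/
lemma norm_inner_W_W_R {c d R : ℝ} (hR : 0 < R) (b b' : K) (hb : R ≤ ‖b - b'‖) (x y : H)
    (hx : S.Nice c x) (hy : S.Nice d y) :
    ‖(inner ℂ (S.W b x) (S.W b' y) : ℂ)‖ ≤ 2 * c * d / R := by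
  have hbb : b ≠ b' := by
    intro h
    rw [h, sub_self, norm_zero] at hb
    linarith
  have hc : 0 ≤ c := (norm_nonneg _).trans hx.m0
  have hd : 0 ≤ d := (norm_nonneg _).trans hy.m0
  exact (S.norm_inner_W_W_nice b b' hbb x y hx hy).trans
    (div_le_div_of_nonneg_left (by positivity) hR hb)

/-- block O -/
theorem ostmt : S.OStmt where
  inn c d x y b b' hx hy hb := S.norm_inner_W_W_nice b b' hb x y hx hy
  inn1 c c1 d d1 x y b b' hx1 hx hy1 hy hb := S.norm_inner_W_W_one b b' hb x y hx1 hx hy1 hy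
  frm := by
    rintro c d z z' b b' R hR ⟨x, y, hx, hy, rfl⟩ ⟨x', y', hx', hy', rfl⟩ h1 h2
    have a1 := S.norm_inner_W_W_R hR b b' h1 x x' hx hx'
    have a2 := S.norm_inner_W_W_R hR b (-b') (by rwa [sub_neg_eq_add]) x y' hx hy'
    have a3 := S.norm_inner_W_W_R hR (-b) b'
      (by rw [show -b - b' = -(b + b') by abel, norm_neg]; exact h2) y x' hy hx'
    have a4 := S.norm_inner_W_W_R hR (-b) (-b')
      (by rw [show -b - -b' = -(b - b') by abel, norm_neg]; exact h1) y y' hy hy'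
    have e : (inner ℂ (S.W b x + S.W (-b) y) (S.W b' x' + S.W (-b') y') : ℂ)
        = inner ℂ (S.W b x) (S.W b' x') + inner ℂ (S.W b x) (S.W (-b') y')
          + (inner ℂ (S.W (-b) y) (S.W b' x') + inner ℂ (S.W (-b) y) (S.W (-b') y')) := by
      rw [inner_add_left, inner_add_right, inner_add_right]
    rw [e]
    refine (norm_add_le _ _).trans ?_
    have b1 := norm_add_le (inner ℂ (S.W b x) (S.W b' x') : ℂ) (inner ℂ (S.W b x) (S.W (-b') y'))
    have b2 := norm_add_le (inner ℂ (S.W (-b) y) (S.W b' x') : ℂ)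
      (inner ℂ (S.W (-b) y) (S.W (-b') y'))
    have e8 : 8 * c * d / R = 2 * c * d / R + 2 * c * d / R + (2 * c * d / R + 2 * c * d / R) := by
      ring
    rw [e8]
    linarith

end Sys

end Vale.Agent.P367.A
end

section

/-! P367, Theorem A, block P: pulse estimates on frames, four-pulse words. -/

namespace Vale.Agent.P367.A

open Complex

namespace Sys

variable {H K : Type*} [NormedAddCommGroup H] [InnerProductSpace ℂ H]
  [NormedAddCommGroup K] [InnerProductSpace ℂ K] (S : Sys H K)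

/-! ### algebra -/

/-- an isometry commuting with all Weyl operators -/
def PCW (U : H ≃ₗᵢ[ℂ] H) : Prop := ∀ (a : K) (x : H), S.W a (U x) = U (S.W a x)

lemma P_cw_X : S.PCW S.X := S.WX
lemma P_cw_Z : S.PCW S.Z := S.WZ

lemma P_cw_mul {U V : H ≃ₗᵢ[ℂ] H} (hU : S.PCW U) (hV : S.PCW V) : S.PCW (U * V) := by
  intro a x
  change S.W a (U (V x)) = U (V (S.W a x))
  rw [hU, hV]

lemma P_cw_xr (b : ℝ) : S.PCW (S.xr b) := by
  intro a x
  simp only [xr_apply, map_sub, map_smul, S.WX]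

lemma P_cw_Zt (t : ℝ) : S.PCW (S.Zt t) := S.P_cw_mul (S.P_cw_mul (S.P_cw_xr t) S.P_cw_Z) (S.P_cw_xr (-t))

lemma P_xr_xr_neg (b : ℝ) (x : H) : S.xr b (S.xr (-b) x) = x := S.xrL_xrL_neg b x

lemma P_Zt_apply (t : ℝ) (x : H) : S.Zt t x = S.xr t (S.Z (S.xr (-t) x)) := rfl

lemma P_xr_add (a b : ℝ) (x : H) : S.xr a (S.xr b x) = S.xr (a + b) x := by
  simp only [xr_apply, map_sub, map_smul, S.XX]
  rw [Real.cos_add, Real.sin_add]
  push_cast
  have hI := Complex.I_mul_I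
  have e : (Complex.cos a : ℂ) * Complex.cos b + (Complex.I * (Complex.sin a : ℂ))
      * (Complex.I * (Complex.sin b : ℂ))
      = Complex.cos a * Complex.cos b - Complex.sin a * Complex.sin b := by
    linear_combination ((Complex.sin a : ℂ) * Complex.sin b) * hI
  rw [← e]
  module

lemma P_Z_xr (b : ℝ) (x : H) : S.Z (S.xr b x) = S.xr (-b) (S.Z x) := by
  simp only [xr_apply, map_sub, map_smul, S.ZX, Real.cos_neg, Real.sin_neg]
  push_cast
  module

lemma P_Zt_eq (t : ℝ) (x : H) : S.Zt t x = S.xr (2 * t) (S.Z x) := by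
  rw [P_Zt_apply, P_Z_xr, neg_neg, P_xr_add]
  congr 1
  ring_nf

lemma P_Zt_Zt (t1 t2 : ℝ) (x : H) : S.Zt t1 (S.Zt t2 x) = S.xr (2 * (t1 - t2)) x := by
  rw [P_Zt_eq, P_Zt_eq, P_Z_xr, S.ZZ, P_xr_add]
  congr 1
  ring_nf

lemma P_xr_zero (x : H) : S.xr 0 x = x := by
  simp [xr_apply]

lemma P_Zt_sq (t : ℝ) (x : H) : S.Zt t (S.Zt t x) = x := by
  rw [P_Zt_Zt, sub_self, mul_zero, P_xr_zero]

lemma P_pul_apply (t : ℝ) (v : K) (x : H) :
    S.pul t v x = (1 / 2 : ℂ) • (S.W (-v) x + S.W v x)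
      + (1 / 2 : ℂ) • (S.W (-v) (S.Zt t x) - S.W v (S.Zt t x)) := by
  change S.xr t (S.zr v (S.xr (-t) x)) = _
  rw [S.zr_apply, P_Zt_apply, S.P_cw_xr t, S.P_cw_xr t, S.P_cw_xr (-t), S.P_cw_xr (-t), S.WZ, S.WZ,
    S.P_cw_xr (-t), S.P_cw_xr (-t)]
  simp only [map_add, map_sub, map_smul, S.P_xr_xr_neg]

/-- phases of the exchange relation -/
lemma P_comm (a b : K) (x : H) :
    S.W a (S.W b x) = Complex.exp (((-(2 * (inner ℂ a b : ℂ).im) : ℝ) : ℂ) * Complex.I)
      • S.W b (S.W a x) := by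
  rw [S.WW, S.WW, smul_smul, ← Complex.exp_add, add_comm b a]
  congr 2
  have : (inner ℂ b a : ℂ).im = -(inner ℂ a b : ℂ).im := by
    rw [← inner_conj_symm b a, conj_im]
  rw [this]
  push_cast
  ring

lemma P_norm_exp (r : ℝ) : ‖Complex.exp ((r : ℂ) * Complex.I)‖ = 1 :=
  Complex.norm_exp_ofReal_mul_I r

lemma P_norm_exp_sub_one (r : ℝ) : ‖Complex.exp ((r : ℂ) * Complex.I) - 1‖ ≤ |r| := by
  have := Real.norm_exp_I_mul_ofReal_sub_one_le (x := r)
  rwa [mul_comm, Real.norm_eq_abs] at this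

/-! ### gauges -/

/-- `m` is a size function for displacements -/
structure PGauge (m : K → ℝ) : Prop where
  nn : ∀ a, ‖a‖ ≤ m a
  neg : ∀ a, m (-a) = m a

omit [InnerProductSpace ℂ K] in
lemma PGauge.pos {m : K → ℝ} (hm : PGauge m) (a : K) : 0 ≤ m a := (norm_nonneg a).trans (hm.nn a)

/-- second order regularity of a vector relative to a gauge -/
structure PNiceAt (m : K → ℝ) (c : ℝ) (x : H) : Prop where
  n0 : ‖x‖ ≤ c
  n1 : ∀ a, ‖S.W a x - x‖ ≤ c * m a
  n2 : ∀ a b, ‖S.W a (S.W b x - x) - (S.W b x - x)‖ ≤ c * (m a * m b)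

variable {S}

lemma PNiceAt.c0 {m : K → ℝ} {c : ℝ} {x : H} (h : S.PNiceAt m c x) : 0 ≤ c :=
  (norm_nonneg x).trans h.n0

lemma PNiceAt.cw {m : K → ℝ} {c : ℝ} {x : H} (h : S.PNiceAt m c x) {U : H ≃ₗᵢ[ℂ] H}
    (hU : S.PCW U) : S.PNiceAt m c (U x) := by
  refine ⟨?_, ?_, ?_⟩
  · rw [U.norm_map]; exact h.n0
  · intro a
    rw [hU, ← map_sub, U.norm_map]; exact h.n1 a
  · intro a b
    rw [hU, ← map_sub, hU, ← map_sub, U.norm_map]; exact h.n2 a b

lemma PNiceAt.Zt {m : K → ℝ} {c : ℝ} {x : H} (h : S.PNiceAt m c x) (t : ℝ) :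
    S.PNiceAt m c (S.Zt t x) := h.cw (S.P_cw_Zt t)

lemma PNiceAt.add {m : K → ℝ} {c d : ℝ} {x y : H} (h : S.PNiceAt m c x) (h' : S.PNiceAt m d y) :
    S.PNiceAt m (c + d) (x + y) := by
  refine ⟨?_, ?_, ?_⟩
  · exact (norm_add_le _ _).trans (add_le_add h.n0 h'.n0)
  · intro a
    have e : S.W a (x + y) - (x + y) = (S.W a x - x) + (S.W a y - y) := by
      rw [map_add]; abel
    rw [e, add_mul]
    exact (norm_add_le _ _).trans (add_le_add (h.n1 a) (h'.n1 a))
  · intro a b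
    have e : S.W a (S.W b (x + y) - (x + y)) - (S.W b (x + y) - (x + y))
        = (S.W a (S.W b x - x) - (S.W b x - x)) + (S.W a (S.W b y - y) - (S.W b y - y)) := by
      simp only [map_add, map_sub]; abel
    rw [e, add_mul]
    exact (norm_add_le _ _).trans (add_le_add (h.n2 a b) (h'.n2 a b))

lemma P_pul_sub (t : ℝ) (v : K) (x : H) :
    S.pul t v x - x = (1 / 2 : ℂ) • ((S.W (-v) x - x) + (S.W v x - x))
      + (1 / 2 : ℂ) • ((S.W (-v) (S.Zt t x) - S.Zt t x) - (S.W v (S.Zt t x) - S.Zt t x)) := by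
  rw [P_pul_apply]
  module

lemma P_norm_comb (a b c d : H) {r : ℝ} (ha : ‖a‖ ≤ r) (hb : ‖b‖ ≤ r) (hc : ‖c‖ ≤ r)
    (hd : ‖d‖ ≤ r) :
    ‖(1 / 2 : ℂ) • (a + b) + (1 / 2 : ℂ) • (c - d)‖ ≤ 2 * r := by
  have h1 : ‖(1 / 2 : ℂ) • (a + b)‖ ≤ r := by
    rw [norm_smul]
    have : ‖(1 / 2 : ℂ)‖ = 1 / 2 := by norm_num
    rw [this]
    have := norm_add_le a b
    linarith
  have h2 : ‖(1 / 2 : ℂ) • (c - d)‖ ≤ r := by
    rw [norm_smul]
    have : ‖(1 / 2 : ℂ)‖ = 1 / 2 := by norm_num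
    rw [this]
    have := norm_sub_le c d
    linarith
  have := norm_add_le ((1 / 2 : ℂ) • (a + b)) ((1 / 2 : ℂ) • (c - d))
  linarith

lemma PNiceAt.pul_sub {m : K → ℝ} (hm : PGauge m) {c : ℝ} {x : H} (h : S.PNiceAt m c x) (t : ℝ)
    (v : K) : ‖S.pul t v x - x‖ ≤ 2 * (c * m v) := by
  rw [P_pul_sub]
  apply P_norm_comb
  · have := h.n1 (-v); rwa [hm.neg] at this
  · exact h.n1 v
  · have := (h.Zt t).n1 (-v); rwa [hm.neg] at this
  · exact (h.Zt t).n1 v

lemma PNiceAt.dd_pul_sub {m : K → ℝ} (hm : PGauge m) {c : ℝ} {x : H} (h : S.PNiceAt m c x) (t : ℝ)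
    (v a : K) : ‖S.W a (S.pul t v x - x) - (S.pul t v x - x)‖ ≤ 2 * (c * (m a * m v)) := by
  have e : S.W a (S.pul t v x - x) - (S.pul t v x - x)
      = (1 / 2 : ℂ) • ((S.W a (S.W (-v) x - x) - (S.W (-v) x - x))
        + (S.W a (S.W v x - x) - (S.W v x - x)))
      + (1 / 2 : ℂ) • ((S.W a (S.W (-v) (S.Zt t x) - S.Zt t x) - (S.W (-v) (S.Zt t x) - S.Zt t x))
        - (S.W a (S.W v (S.Zt t x) - S.Zt t x) - (S.W v (S.Zt t x) - S.Zt t x))) := by
    rw [P_pul_sub]
    simp only [map_add, map_sub, map_smul]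
    module
  rw [e]
  apply P_norm_comb
  · have := h.n2 a (-v); rwa [hm.neg] at this
  · exact h.n2 a v
  · have := (h.Zt t).n2 a (-v); rwa [hm.neg] at this
  · exact (h.Zt t).n2 a v

lemma PNiceAt.pul_pul {m : K → ℝ} (hm : PGauge m) {c : ℝ} {x : H} (h : S.PNiceAt m c x) (t t' : ℝ)
    (v v' : K) : ‖S.pul t' v' (S.pul t v x - x) - (S.pul t v x - x)‖
      ≤ 4 * (c * (m v' * m v)) := by
  have h1 : ∀ a, ‖S.W a (S.Zt t' (S.pul t v x - x)) - S.Zt t' (S.pul t v x - x)‖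
      ≤ 2 * (c * (m a * m v)) := by
    intro a
    rw [S.P_cw_Zt t', ← map_sub, (S.Zt t').norm_map]
    exact h.dd_pul_sub hm t v a
  rw [P_pul_sub]
  have := P_norm_comb (r := 2 * (c * (m v' * m v)))
    (S.W (-v') (S.pul t v x - x) - (S.pul t v x - x))
    (S.W v' (S.pul t v x - x) - (S.pul t v x - x))
    (S.W (-v') (S.Zt t' (S.pul t v x - x)) - S.Zt t' (S.pul t v x - x))
    (S.W v' (S.Zt t' (S.pul t v x - x)) - S.Zt t' (S.pul t v x - x))
    (by have := h.dd_pul_sub hm t v (-v'); rwa [hm.neg] at this)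
    (h.dd_pul_sub hm t v v')
    (by have := h1 (-v'); rwa [hm.neg] at this) (h1 v')
  linarith


/-- first order cancellation of two opposite pulses -/
lemma PNiceAt.pul_pair {m : K → ℝ} (hm : PGauge m) {c : ℝ} {x : H} (h : S.PNiceAt m c x) (t : ℝ)
    (v v' : K) : ‖(S.pul t v x - x) + (S.pul t (-v') x - x)‖
      ≤ c * (m v * m v) + c * (m v' * m v') + c * (‖v‖ * ‖v' - v‖) + c * m (v' - v) := by
  have hsec : ∀ w : K, (S.W (-w) x - x) + (S.W w x - x)
      = -(S.W (-w) (S.W w x - x) - (S.W w x - x)) := by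
    intro w
    rw [map_sub, S.W_neg_W]
    abel
  have hsec' : ∀ w : K, ‖(S.W (-w) x - x) + (S.W w x - x)‖ ≤ c * (m w * m w) := by
    intro w
    rw [hsec, norm_neg]
    have := h.n2 (-w) w
    rwa [hm.neg] at this
  set y := S.Zt t x with hy
  have hY : S.PNiceAt m c y := h.Zt t
  -- W (w + k) y - W w y
  have hdiff : ∀ w k : K, ‖S.W (w + k) y - S.W w y‖ ≤ c * (‖w‖ * ‖k‖) + c * m k := by
    intro w k
    have e1 : S.W w (S.W k y) = Complex.exp (((-(inner ℂ w k : ℂ).im : ℝ) : ℂ) * Complex.I)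
        • S.W (w + k) y := by
      rw [S.WW]
      congr 2
      push_cast
      ring
    have e2 : S.W (w + k) y - S.W w y
        = S.W w (S.W k y - y)
          - (Complex.exp (((-(inner ℂ w k : ℂ).im : ℝ) : ℂ) * Complex.I) - 1) • S.W (w + k) y := by
      rw [map_sub, e1]
      module
    rw [e2]
    refine (norm_sub_le _ _).trans ?_
    rw [(S.W w).norm_map, norm_smul, (S.W (w + k)).norm_map]
    have h1 := hY.n1 k
    have h2 := P_norm_exp_sub_one (-(inner ℂ w k : ℂ).im)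
    have h3 : |-(inner ℂ w k : ℂ).im| ≤ ‖w‖ * ‖k‖ := by
      rw [abs_neg]
      exact (Complex.abs_im_le_norm _).trans (norm_inner_le_norm w k)
    have h4 := hY.n0
    have h5 : ‖Complex.exp (((-(inner ℂ w k : ℂ).im : ℝ) : ℂ) * Complex.I) - 1‖ * ‖y‖
        ≤ (‖w‖ * ‖k‖) * c :=
      mul_le_mul (h2.trans h3) h4 (norm_nonneg _) (by positivity)
    linarith
  have e : (S.pul t v x - x) + (S.pul t (-v') x - x)
      = (1 / 2 : ℂ) • (((S.W (-v) x - x) + (S.W v x - x)) + ((S.W (-v') x - x) + (S.W v' x - x)))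
        + (1 / 2 : ℂ) • ((S.W (v + (v' - v)) y - S.W v y)
          - (S.W (-v + (-(v' - v))) y - S.W (-v) y)) := by
    rw [P_pul_sub, P_pul_sub, neg_neg, ← hy]
    have a1 : v + (v' - v) = v' := by abel
    have a2 : -v + (-(v' - v)) = -v' := by abel
    rw [a1, a2]
    module
  rw [e]
  have half : ‖(1 / 2 : ℂ)‖ = 1 / 2 := by norm_num
  refine (norm_add_le _ _).trans ?_
  rw [norm_smul, norm_smul, half]
  have n1 := norm_add_le ((S.W (-v) x - x) + (S.W v x - x)) ((S.W (-v') x - x) + (S.W v' x - x))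
  have n2 := norm_sub_le (S.W (v + (v' - v)) y - S.W v y) (S.W (-v + (-(v' - v))) y - S.W (-v) y)
  have n3 := hsec' v
  have n4 := hsec' v'
  have n5 := hdiff v (v' - v)
  have n6 := hdiff (-v) (-(v' - v))
  rw [norm_neg, norm_neg, hm.neg] at n6
  have n7 : 0 ≤ c * (m v * m v) := mul_nonneg h.c0 (mul_self_nonneg _)
  have n8 : 0 ≤ c * (m v' * m v') := mul_nonneg h.c0 (mul_self_nonneg _)
  linarith

/-- the four-pulse word with small sizes -/
lemma PNiceAt.four {m : K → ℝ} (hm : PGauge m) {c : ℝ} {z : H} (h : S.PNiceAt m c z)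
    (t1 t2 : ℝ) (v1 v2 v3 v4 : K) {r : ℝ} (hr : 0 ≤ r)
    (h1 : m v1 ≤ r) (h2 : m v2 ≤ r) (h3 : m v3 ≤ r) (h4 : m v4 ≤ r)
    (h31 : m (v3 - v1) ≤ r ^ 2) (h42 : m (v4 - v2) ≤ r ^ 2) (hr1 : r ≤ 1) :
    ‖S.pul t1 (-v4) (S.pul t2 (-v3) (S.pul t1 v2 (S.pul t2 v1 z))) - z‖
      ≤ 32 * c * r ^ 2 := by
  have hc := h.c0
  set p1 := S.pul t2 v1
  set p2 := S.pul t1 v2
  set p3 := S.pul t2 (-v3)
  set p4 := S.pul t1 (-v4)
  have key : p4 (p3 (p2 (p1 z))) - z
      = ((p1 z - z) + (p3 z - z)) + ((p2 z - z) + (p4 z - z))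
        + (p4 (p3 z - z) - (p3 z - z)) + (p4 (p2 z - z) - (p2 z - z))
        + (p4 (p1 z - z) - (p1 z - z)) + p4 (p3 (p2 z - z) - (p2 z - z))
        + p4 (p3 (p1 z - z) - (p1 z - z)) + p4 (p3 (p2 (p1 z - z) - (p1 z - z))) := by
    simp only [map_sub]
    abel
  have mm : ∀ {a b : ℝ}, 0 ≤ a → 0 ≤ b → a ≤ r → b ≤ r → a * b ≤ r ^ 2 := by
    intro a b ha hb ha' hb'
    calc a * b ≤ r * r := mul_le_mul ha' hb' hb hr
      _ = r ^ 2 := by ring
  have m1 := hm.pos v1
  have m2 := hm.pos v2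
  have m3 := hm.pos v3
  have m4 := hm.pos v4
  have q : ∀ {a : ℝ}, a ≤ r ^ 2 → 4 * (c * a) ≤ 4 * c * r ^ 2 := by
    intro a ha
    have := mul_le_mul_of_nonneg_left ha hc
    linarith
  have q43 : ‖p4 (p3 z - z) - (p3 z - z)‖ ≤ 4 * c * r ^ 2 := by
    have := h.pul_pul hm t2 t1 (-v3) (-v4)
    rw [hm.neg, hm.neg] at this
    exact this.trans (q (mm m4 m3 h4 h3))
  have q42 : ‖p4 (p2 z - z) - (p2 z - z)‖ ≤ 4 * c * r ^ 2 := by
    have := h.pul_pul hm t1 t1 v2 (-v4)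
    rw [hm.neg] at this
    exact this.trans (q (mm m4 m2 h4 h2))
  have q41 : ‖p4 (p1 z - z) - (p1 z - z)‖ ≤ 4 * c * r ^ 2 := by
    have := h.pul_pul hm t2 t1 v1 (-v4)
    rw [hm.neg] at this
    exact this.trans (q (mm m4 m1 h4 h1))
  have q32 : ‖p4 (p3 (p2 z - z) - (p2 z - z))‖ ≤ 4 * c * r ^ 2 := by
    have := h.pul_pul hm t1 t2 v2 (-v3)
    rw [hm.neg] at this
    rw [p4.norm_map]
    exact this.trans (q (mm m3 m2 h3 h2))
  have q31 : ‖p4 (p3 (p1 z - z) - (p1 z - z))‖ ≤ 4 * c * r ^ 2 := by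
    have := h.pul_pul hm t2 t2 v1 (-v3)
    rw [hm.neg] at this
    rw [p4.norm_map]
    exact this.trans (q (mm m3 m1 h3 h1))
  have q21 : ‖p4 (p3 (p2 (p1 z - z) - (p1 z - z)))‖ ≤ 4 * c * r ^ 2 := by
    have := h.pul_pul hm t2 t1 v1 v2
    rw [p4.norm_map, p3.norm_map]
    exact this.trans (q (mm m2 m1 h2 h1))
  have pair : ∀ (t : ℝ) (v v' : K), m v ≤ r → m v' ≤ r → m (v' - v) ≤ r ^ 2 →
      ‖(S.pul t v z - z) + (S.pul t (-v') z - z)‖ ≤ 4 * c * r ^ 2 := by
    intro t v v' hv hv' hvv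
    have h0 := h.pul_pair hm t v v'
    have g1 : c * (m v * m v) ≤ c * r ^ 2 :=
      mul_le_mul_of_nonneg_left (mm (hm.pos v) (hm.pos v) hv hv) hc
    have g2 : c * (m v' * m v') ≤ c * r ^ 2 :=
      mul_le_mul_of_nonneg_left (mm (hm.pos v') (hm.pos v') hv' hv') hc
    have g3 : c * (‖v‖ * ‖v' - v‖) ≤ c * r ^ 2 := by
      refine mul_le_mul_of_nonneg_left ?_ hc
      have e1 : ‖v‖ ≤ 1 := ((hm.nn v).trans hv).trans hr1
      have e2 : ‖v' - v‖ ≤ r ^ 2 := (hm.nn _).trans hvv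
      calc ‖v‖ * ‖v' - v‖ ≤ 1 * ‖v' - v‖ := mul_le_mul_of_nonneg_right e1 (norm_nonneg _)
        _ ≤ r ^ 2 := by rw [one_mul]; exact e2
    have g4 : c * m (v' - v) ≤ c * r ^ 2 := mul_le_mul_of_nonneg_left hvv hc
    linarith
  have p13 : ‖(p1 z - z) + (p3 z - z)‖ ≤ 4 * c * r ^ 2 := pair t2 v1 v3 h1 h3 h31
  have p24 : ‖(p2 z - z) + (p4 z - z)‖ ≤ 4 * c * r ^ 2 := pair t1 v2 v4 h2 h4 h42
  rw [key]
  have tri : ∀ (a b d e f g h k : H), ‖a + b + d + e + f + g + h + k‖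
      ≤ ‖a‖ + ‖b‖ + ‖d‖ + ‖e‖ + ‖f‖ + ‖g‖ + ‖h‖ + ‖k‖ := by
    intro a b d e f g h k
    refine (norm_add_le _ _).trans (add_le_add_left ?_ _)
    refine (norm_add_le _ _).trans (add_le_add_left ?_ _)
    refine (norm_add_le _ _).trans (add_le_add_left ?_ _)
    refine (norm_add_le _ _).trans (add_le_add_left ?_ _)
    refine (norm_add_le _ _).trans (add_le_add_left ?_ _)
    refine (norm_add_le _ _).trans (add_le_add_left ?_ _)
    exact norm_add_le _ _
  refine (tri _ _ _ _ _ _ _ _).trans ?_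
  linarith

/-! ### frames -/

/-- gauge of the frame `b` -/
noncomputable def P_fg (b : K) (a : K) : ℝ := ‖a‖ + 2 * |(inner ℂ a b : ℂ).im|

lemma P_gauge_fg (b : K) : PGauge (P_fg b) := by
  refine ⟨fun a => ?_, fun a => ?_⟩
  · unfold P_fg
    have := abs_nonneg (inner ℂ a b : ℂ).im
    linarith
  · unfold P_fg
    rw [norm_neg, inner_neg_left, Complex.neg_im, abs_neg]

lemma P_mu_nonneg (b v : K) : 0 ≤ mu b v := by
  unfold mu; positivity

lemma P_fg_le_mu (b a : K) : P_fg b a ≤ 2 * mu b a := by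
  unfold P_fg mu
  have := norm_nonneg a
  linarith

lemma P_mu_le_fg (b a : K) : mu b a ≤ P_fg b a := by
  unfold P_fg mu
  have := abs_nonneg (inner ℂ a b : ℂ).im
  linarith

lemma P_mu_neg_left (b v : K) : mu (-b) v = mu b v := by
  unfold mu
  rw [inner_neg_right, Complex.neg_im, abs_neg]

lemma P_fg_neg_left (b v : K) : P_fg (-b) v = P_fg b v := by
  unfold P_fg
  rw [inner_neg_right, Complex.neg_im, abs_neg]

lemma P_fg_le (b a : K) : P_fg b a ≤ (1 + 2 * ‖b‖) * ‖a‖ := by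
  unfold P_fg
  have h := (Complex.abs_im_le_norm (inner ℂ a b : ℂ)).trans (norm_inner_le_norm a b)
  nlinarith

/-- one difference in a frame -/
lemma P_dd_frame (a b : K) (x : H) :
    S.W a (S.W b x) - S.W b x
      = S.W b (Complex.exp (((-(2 * (inner ℂ a b : ℂ).im) : ℝ) : ℂ) * Complex.I) • (S.W a x - x)
        + (Complex.exp (((-(2 * (inner ℂ a b : ℂ).im) : ℝ) : ℂ) * Complex.I) - 1) • x) := by
  rw [P_comm]
  simp only [map_add, map_smul, map_sub]
  module

lemma P_phase_le (a b : K) :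
    ‖Complex.exp (((-(2 * (inner ℂ a b : ℂ).im) : ℝ) : ℂ) * Complex.I) - 1‖
      ≤ 2 * |(inner ℂ a b : ℂ).im| := by
  refine (P_norm_exp_sub_one _).trans ?_
  rw [abs_neg, abs_mul, abs_two]

lemma Nice.P_frame {c : ℝ} {x : H} (h : S.Nice c x) (b : K) : S.PNiceAt (P_fg b) c (S.W b x) := by
  have hc : 0 ≤ c := (norm_nonneg x).trans h.m0
  refine ⟨?_, ?_, ?_⟩
  · rw [(S.W b).norm_map]; exact h.m0
  · intro a
    rw [P_dd_frame, (S.W b).norm_map]
    refine (norm_add_le _ _).trans ?_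
    rw [norm_smul, norm_smul, P_norm_exp, one_mul]
    have h1 := h.m1 a
    have h2 : ‖Complex.exp (((-(2 * (inner ℂ a b : ℂ).im) : ℝ) : ℂ) * Complex.I) - 1‖ * ‖x‖
        ≤ (2 * |(inner ℂ a b : ℂ).im|) * c :=
      mul_le_mul (P_phase_le a b) h.m0 (norm_nonneg _) (by positivity)
    unfold P_fg
    linarith
  · intro a a'
    set e := Complex.exp (((-(2 * (inner ℂ a b : ℂ).im) : ℝ) : ℂ) * Complex.I) with he
    set e' := Complex.exp (((-(2 * (inner ℂ a' b : ℂ).im) : ℝ) : ℂ) * Complex.I) with he'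
    have k1 : S.W a (S.W a' (S.W b x) - S.W b x) - (S.W a' (S.W b x) - S.W b x)
        = S.W b ((e * e') • (S.W a (S.W a' x - x) - (S.W a' x - x))
          + (e * (e' - 1)) • (S.W a x - x) + ((e - 1) * e') • (S.W a' x - x)
          + ((e - 1) * (e' - 1)) • x) := by
      rw [P_dd_frame a' b x, P_dd_frame a b, ← he, ← he']
      congr 1
      simp only [map_add, map_smul, map_sub]
      module
    have ne : ‖e‖ = 1 := P_norm_exp _
    have ne' : ‖e'‖ = 1 := P_norm_exp _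
    have f : ‖e - 1‖ ≤ 2 * |(inner ℂ a b : ℂ).im| := P_phase_le a b
    have f' : ‖e' - 1‖ ≤ 2 * |(inner ℂ a' b : ℂ).im| := P_phase_le a' b
    rw [k1, (S.W b).norm_map]
    have n1 : ‖(e * e') • (S.W a (S.W a' x - x) - (S.W a' x - x))‖ ≤ c * (‖a‖ * ‖a'‖) := by
      rw [norm_smul, norm_mul, ne, ne', one_mul, one_mul]
      exact h.m2 a a'
    have n2 : ‖(e * (e' - 1)) • (S.W a x - x)‖ ≤ (2 * |(inner ℂ a' b : ℂ).im|) * (c * ‖a‖) := by
      rw [norm_smul, norm_mul, ne, one_mul]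
      exact mul_le_mul f' (h.m1 a) (norm_nonneg _) (by positivity)
    have n3 : ‖((e - 1) * e') • (S.W a' x - x)‖ ≤ (2 * |(inner ℂ a b : ℂ).im|) * (c * ‖a'‖) := by
      rw [norm_smul, norm_mul, ne', mul_one]
      exact mul_le_mul f (h.m1 a') (norm_nonneg _) (by positivity)
    have n4 : ‖((e - 1) * (e' - 1)) • x‖
        ≤ ((2 * |(inner ℂ a b : ℂ).im|) * (2 * |(inner ℂ a' b : ℂ).im|)) * c := by
      rw [norm_smul, norm_mul]
      exact mul_le_mul (mul_le_mul f f' (norm_nonneg _) (by positivity)) h.m0 (norm_nonneg _)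
        (by positivity)
    have n5 := norm_add₄_le (a := (e * e') • (S.W a (S.W a' x - x) - (S.W a' x - x)))
      (b := (e * (e' - 1)) • (S.W a x - x)) (c := ((e - 1) * e') • (S.W a' x - x))
      (d := ((e - 1) * (e' - 1)) • x)
    refine n5.trans ?_
    unfold P_fg
    have : c * ((‖a‖ + 2 * |(inner ℂ a b : ℂ).im|) * (‖a'‖ + 2 * |(inner ℂ a' b : ℂ).im|))
        = c * (‖a‖ * ‖a'‖) + (2 * |(inner ℂ a' b : ℂ).im|) * (c * ‖a‖)
          + (2 * |(inner ℂ a b : ℂ).im|) * (c * ‖a'‖)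
          + ((2 * |(inner ℂ a b : ℂ).im|) * (2 * |(inner ℂ a' b : ℂ).im|)) * c := by ring
    rw [this]
    linarith

lemma PNiceAt.mono {m m' : K → ℝ} {c : ℝ} {x : H} (h : S.PNiceAt m c x)
    (h0 : ∀ a, 0 ≤ m a) (hm : ∀ a, m a ≤ m' a) : S.PNiceAt m' c x := by
  have hc := h.c0
  refine ⟨h.n0, fun a => (h.n1 a).trans (mul_le_mul_of_nonneg_left (hm a) hc), fun a b => ?_⟩
  exact (h.n2 a b).trans (mul_le_mul_of_nonneg_left
    (mul_le_mul (hm a) (hm b) (h0 b) ((h0 a).trans (hm a))) hc)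

lemma Frm.P_niceAt {b : K} {c : ℝ} {z : H} (h : S.Frm b c z) : S.PNiceAt (P_fg b) (2 * c) z := by
  obtain ⟨x, y, hx, hy, rfl⟩ := h
  have h1 := hx.P_frame b
  have h2 := hy.P_frame (-b)
  have h3 : S.PNiceAt (P_fg b) c (S.W (-b) y) :=
    h2.mono (fun a => (P_gauge_fg (-b)).pos a) (fun a => (P_fg_neg_left b a).le)
  have := h1.add h3
  rwa [← two_mul] at this

lemma Frm.P_c0 {b : K} {c : ℝ} {z : H} (h : S.Frm b c z) : 0 ≤ c := by
  obtain ⟨x, y, hx, hy, rfl⟩ := h
  exact (norm_nonneg x).trans hx.m0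

/-- niceness of a displaced vector -/
lemma Nice.P_weyl {c : ℝ} {x : H} (h : S.Nice c x) (b : K) :
    S.Nice ((1 + 2 * ‖b‖) ^ 2 * c) (S.W b x) := by
  have hc : 0 ≤ c := (norm_nonneg x).trans h.m0
  have h1 := h.P_frame b
  have hb : 1 ≤ (1 + 2 * ‖b‖) := by have := norm_nonneg b; linarith
  have hb2 : 1 ≤ (1 + 2 * ‖b‖) ^ 2 := one_le_pow₀ hb
  have hb3 : (1 + 2 * ‖b‖) ≤ (1 + 2 * ‖b‖) ^ 2 := le_self_pow₀ hb (by norm_num)
  refine ⟨?_, ?_, ?_⟩
  · refine h1.n0.trans ?_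
    exact le_mul_of_one_le_left hc hb2
  · intro a
    refine (h1.n1 a).trans ?_
    calc c * P_fg b a ≤ c * ((1 + 2 * ‖b‖) * ‖a‖) := mul_le_mul_of_nonneg_left (P_fg_le b a) hc
      _ = (1 + 2 * ‖b‖) * (c * ‖a‖) := by ring
      _ ≤ (1 + 2 * ‖b‖) ^ 2 * (c * ‖a‖) :=
          mul_le_mul_of_nonneg_right hb3 (by positivity)
      _ = _ := by ring
  · intro a a'
    refine (h1.n2 a a').trans ?_
    calc c * (P_fg b a * P_fg b a')
        ≤ c * (((1 + 2 * ‖b‖) * ‖a‖) * ((1 + 2 * ‖b‖) * ‖a'‖)) :=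
          mul_le_mul_of_nonneg_left (mul_le_mul (P_fg_le b a) (P_fg_le b a')
            ((P_gauge_fg b).pos a') (by positivity)) hc
      _ = _ := by ring

lemma Nice.P_mono {c d : ℝ} {x : H} (h : S.Nice c x) (hcd : c ≤ d) : S.Nice d x :=
  ⟨h.m0.trans hcd, fun a => (h.m1 a).trans (mul_le_mul_of_nonneg_right hcd (norm_nonneg a)),
    fun a b => (h.m2 a b).trans (mul_le_mul_of_nonneg_right hcd (by positivity))⟩

lemma Nice.P_add {c d : ℝ} {x y : H} (hx : S.Nice c x) (hy : S.Nice d y) :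
    S.Nice (c + d) (x + y) := by
  refine ⟨(norm_add_le x y).trans (add_le_add hx.m0 hy.m0), fun a => ?_, fun a b => ?_⟩
  · have e : S.W a (x + y) - (x + y) = (S.W a x - x) + (S.W a y - y) := by
      rw [map_add]; abel
    rw [e, add_mul]
    exact (norm_add_le _ _).trans (add_le_add (hx.m1 a) (hy.m1 a))
  · have e : S.W a (S.W b (x + y) - (x + y)) - (S.W b (x + y) - (x + y))
        = (S.W a (S.W b x - x) - (S.W b x - x)) + (S.W a (S.W b y - y) - (S.W b y - y)) := by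
      simp only [map_add, map_sub]; abel
    rw [e, add_mul]
    exact (norm_add_le _ _).trans (add_le_add (hx.m2 a b) (hy.m2 a b))

lemma Nice.P_smul {c : ℝ} {x : H} (hx : S.Nice c x) (k : ℂ) : S.Nice (‖k‖ * c) (k • x) := by
  refine ⟨?_, fun a => ?_, fun a b => ?_⟩
  · rw [norm_smul]
    exact mul_le_mul_of_nonneg_left hx.m0 (norm_nonneg k)
  · have e : S.W a (k • x) - k • x = k • (S.W a x - x) := by
      rw [map_smul, smul_sub]
    rw [e, norm_smul, mul_assoc]
    exact mul_le_mul_of_nonneg_left (hx.m1 a) (norm_nonneg k)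
  · have e : S.W a (S.W b (k • x) - k • x) - (S.W b (k • x) - k • x)
        = k • (S.W a (S.W b x - x) - (S.W b x - x)) := by
      simp only [map_smul, map_sub, smul_sub]
    rw [e, norm_smul, mul_assoc]
    exact mul_le_mul_of_nonneg_left (hx.m2 a b) (norm_nonneg k)

lemma Nice.P_cw {c : ℝ} {x : H} (h : S.Nice c x) {U : H ≃ₗᵢ[ℂ] H} (hU : S.PCW U) :
    S.Nice c (U x) := by
  refine ⟨?_, ?_, ?_⟩
  · rw [U.norm_map]; exact h.m0
  · intro a
    rw [hU, ← map_sub, U.norm_map]; exact h.m1 a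
  · intro a b
    rw [hU, ← map_sub, hU, ← map_sub, U.norm_map]; exact h.m2 a b

/-- phase of `W v` in the frame `b` -/
noncomputable def P_ph (v b : K) : ℂ :=
  Complex.exp (((-(2 * (inner ℂ v b : ℂ).im) : ℝ) : ℂ) * Complex.I)

lemma P_norm_ph (v b : K) : ‖P_ph v b‖ = 1 := P_norm_exp _

lemma P_comm' (a b : K) (x : H) : S.W a (S.W b x) = S.W b (P_ph a b • S.W a x) := by
  rw [P_comm, map_smul]
  rfl

/-- combination of four displaced nice vectors -/
lemma P_nice4 {c : ℝ} {x y : H} (hx : S.Nice c x) (hy : S.Nice c y) {v : K} (hv : ‖v‖ ≤ 1)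
    (k1 k2 k3 k4 : ℂ) (h1 : ‖k1‖ = 1) (h2 : ‖k2‖ = 1) (h3 : ‖k3‖ = 1) (h4 : ‖k4‖ = 1) :
    S.Nice (18 * c) ((1 / 2 : ℂ) • (k1 • S.W (-v) x + k2 • S.W v x)
      + (1 / 2 : ℂ) • (k3 • S.W (-v) y + k4 • S.W v y)) := by
  have hc : 0 ≤ c := (norm_nonneg x).trans hx.m0
  have nine : ∀ (w : K) (u : H) (k : ℂ), S.Nice c u → ‖w‖ ≤ 1 → ‖k‖ = 1 →
      S.Nice (9 * c) (k • S.W w u) := by
    intro w u k hu hw hk
    have := (hu.P_weyl w).P_smul k
    rw [hk, one_mul] at this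
    refine this.P_mono ?_
    refine mul_le_mul_of_nonneg_right ?_ hc
    have : 1 + 2 * ‖w‖ ≤ 3 := by linarith
    have h0 : 0 ≤ 1 + 2 * ‖w‖ := by positivity
    nlinarith
  have hv' : ‖-v‖ ≤ 1 := by rwa [norm_neg]
  have a1 := ((nine (-v) x k1 hx hv' h1).P_add (nine v x k2 hx hv h2)).P_smul (1 / 2 : ℂ)
  have a2 := ((nine (-v) y k3 hy hv' h3).P_add (nine v y k4 hy hv h4)).P_smul (1 / 2 : ℂ)
  have := a1.P_add a2
  refine this.P_mono ?_
  have half : ‖(1 / 2 : ℂ)‖ = 1 / 2 := by norm_num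
  rw [half]
  linarith

lemma P_nice2 {c : ℝ} {x : H} (hx : S.Nice c x) {v : K} (hv : ‖v‖ ≤ 1)
    (k1 k2 : ℂ) (h1 : ‖k1‖ = 1) (h2 : ‖k2‖ = 1) :
    S.Nice (18 * c) (k1 • S.W (-v) x + k2 • S.W v x) := by
  have := P_nice4 hx hx hv k1 k2 k1 k2 h1 h2 h1 h2
  convert this using 1
  module

/-! ### pulses in a frame -/

/-- the difference operator in a frame -/
lemma P_pm_frame (v b : K) (x : H) (k : ℂ) :
    S.W (-v) (S.W b x) + k • S.W v (S.W b x)
      = S.W b (P_ph (-v) b • S.W (-v) x + (k * P_ph v b) • S.W v x) := by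
  rw [P_comm' (-v), P_comm' v, map_add]
  simp only [map_smul, smul_smul]

lemma P_pul_frame0 (t : ℝ) (v b : K) (x : H) :
    S.pul t v (S.W b x) = S.W b ((1 / 2 : ℂ) • (P_ph (-v) b • S.W (-v) x + P_ph v b • S.W v x)
      + (1 / 2 : ℂ) • (P_ph (-v) b • S.W (-v) (S.Zt t x) + (-P_ph v b) • S.W v (S.Zt t x))) := by
  rw [P_pul_apply, ← S.P_cw_Zt t, P_comm' (-v), P_comm' v, P_comm' (-v), P_comm' v]
  simp only [map_add, map_smul, neg_smul, map_neg, smul_add, smul_sub, smul_neg]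
  module

lemma P_frm_pul {c : ℝ} {z : H} {b : K} (t : ℝ) {v : K} (hz : S.Frm b c z) (hv : ‖v‖ ≤ 1) :
    S.Frm b (18 * c) (S.pul t v z) := by
  obtain ⟨x, y, hx, hy, rfl⟩ := hz
  refine ⟨_, _, P_nice4 (y := S.Zt t x) hx (hx.P_cw (S.P_cw_Zt t)) hv (P_ph (-v) b) (P_ph v b)
    (P_ph (-v) b) (-P_ph v b) (P_norm_ph _ _) (P_norm_ph _ _) (P_norm_ph _ _)
    (by rw [norm_neg]; exact P_norm_ph _ _),
    P_nice4 (y := S.Zt t y) hy (hy.P_cw (S.P_cw_Zt t)) hv (P_ph (-v) (-b)) (P_ph v (-b))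
    (P_ph (-v) (-b)) (-P_ph v (-b)) (P_norm_ph _ _) (P_norm_ph _ _) (P_norm_ph _ _)
    (by rw [norm_neg]; exact P_norm_ph _ _), ?_⟩
  rw [map_add, P_pul_frame0, P_pul_frame0]

lemma P_frm_d0 {c : ℝ} {z : H} {b : K} {v : K} (hz : S.Frm b c z) (hv : ‖v‖ ≤ 1) :
    S.Frm b (18 * c) (S.W (-v) z - S.W v z) := by
  obtain ⟨x, y, hx, hy, rfl⟩ := hz
  refine ⟨_, _, P_nice2 hx hv (P_ph (-v) b) ((-1) * P_ph v b) (P_norm_ph _ _)
    (by rw [norm_mul, P_norm_ph]; norm_num),
    P_nice2 hy hv (P_ph (-v) (-b)) ((-1) * P_ph v (-b)) (P_norm_ph _ _)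
    (by rw [norm_mul, P_norm_ph]; norm_num), ?_⟩
  rw [← P_pm_frame, ← P_pm_frame]
  simp only [map_add]
  module

/-- spin part of a phase rotation -/
lemma P_norm_rot (t : ℝ) (α β : ℝ) (x : H) :
    ‖(α : ℂ) • x + (Complex.I * (β : ℂ)) • S.Zt t x‖ ^ 2 = (α ^ 2 + β ^ 2) * ‖x‖ ^ 2 := by
  have hsa : inner ℂ (S.Zt t x) x = inner ℂ x (S.Zt t x) := by
    have := (S.Zt t).inner_map_map (S.Zt t x) x
    rw [P_Zt_sq] at this
    exact this.symm
  have hre : (inner ℂ x (S.Zt t x) : ℂ).im = 0 := by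
    have h := inner_conj_symm (𝕜 := ℂ) x (S.Zt t x)
    rw [hsa] at h
    exact Complex.conj_eq_iff_im.1 h
  have h := @norm_add_sq ℂ H _ _ _ ((α : ℂ) • x) ((Complex.I * (β : ℂ)) • S.Zt t x)
  rw [h, inner_smul_left, inner_smul_right, norm_smul, norm_smul, (S.Zt t).norm_map]
  have e1 : RCLike.re ((starRingEnd ℂ) (α : ℂ) * (Complex.I * (β : ℂ) * inner ℂ x (S.Zt t x))) = 0 := by
    rw [RCLike.re_to_complex]
    simp only [Complex.conj_ofReal, Complex.mul_re, Complex.mul_im, Complex.ofReal_re,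
      Complex.ofReal_im, Complex.I_re, Complex.I_im, hre]
    ring
  rw [e1, norm_mul, Complex.norm_I, Complex.norm_real, Complex.norm_real, Real.norm_eq_abs,
    Real.norm_eq_abs, one_mul, mul_pow, mul_pow, sq_abs, sq_abs]
  ring

lemma P_pul_frame (t : ℝ) (v b : K) (x : H) :
    S.pul t v (S.W b x) = S.W b ((Real.cos (2 * (inner ℂ v b : ℂ).im) : ℂ) • S.pul t v x
      + (Complex.I * (Real.sin (2 * (inner ℂ v b : ℂ).im) : ℂ)) • S.Zt t (S.pul t v x)) := by
  rw [P_pul_frame0]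
  congr 1
  set θ := (inner ℂ v b : ℂ).im with hθ
  have e1 : P_ph (-v) b = Real.cos (2 * θ) + Complex.I * Real.sin (2 * θ) := by
    unfold P_ph
    rw [inner_neg_left, Complex.neg_im, ← hθ]
    rw [show (-(2 * -θ) : ℝ) = 2 * θ by ring, Complex.exp_mul_I]
    push_cast
    ring
  have e2 : P_ph v b = Real.cos (2 * θ) - Complex.I * Real.sin (2 * θ) := by
    unfold P_ph
    rw [← hθ, Complex.exp_mul_I]
    push_cast
    rw [Complex.cos_neg, Complex.sin_neg]
    ring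
  have zw : ∀ (a : K) (y : H), S.Zt t (S.W a y) = S.W a (S.Zt t y) :=
    fun a y => (S.P_cw_Zt t a y).symm
  rw [e1, e2, P_pul_apply]
  simp only [map_add, map_sub, map_smul, zw, P_Zt_sq]
  module

/-- one pulse on a displaced nice vector -/
lemma P_pul_W {c : ℝ} {x : H} (hx : S.Nice c x) (t : ℝ) (v b : K) :
    ‖S.pul t v (S.W b x) - S.W b x‖ ≤ 2 * c * mu b v := by
  have hx0 : S.PNiceAt (fun a : K => ‖a‖) c x := ⟨hx.m0, hx.m1, hx.m2⟩
  have hg : PGauge (fun a : K => ‖a‖) := ⟨fun a => le_refl _, fun a => norm_neg a⟩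
  have h1 := hx0.pul_sub hg t v
  set θ := (inner ℂ v b : ℂ).im with hθ
  rw [P_pul_frame, ← map_sub, (S.W b).norm_map, ← hθ]
  have e : (Real.cos (2 * θ) : ℂ) • S.pul t v x + (Complex.I * (Real.sin (2 * θ) : ℂ))
        • S.Zt t (S.pul t v x) - x
      = ((Real.cos (2 * θ) : ℂ) • (S.pul t v x - x) + (Complex.I * (Real.sin (2 * θ) : ℂ))
        • S.Zt t (S.pul t v x - x))
      + (((Real.cos (2 * θ) - 1 : ℝ) : ℂ) • x + (Complex.I * (Real.sin (2 * θ) : ℂ))
        • S.Zt t x) := by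
    simp only [map_sub]
    push_cast
    module
  rw [e]
  refine (norm_add_le _ _).trans ?_
  have a1 : ‖(Real.cos (2 * θ) : ℂ) • (S.pul t v x - x) + (Complex.I * (Real.sin (2 * θ) : ℂ))
        • S.Zt t (S.pul t v x - x)‖ ≤ 2 * (c * ‖v‖) := by
    refine le_trans (le_of_eq ?_) h1
    have := P_norm_rot (S := S) t (Real.cos (2 * θ)) (Real.sin (2 * θ)) (S.pul t v x - x)
    rw [Real.cos_sq_add_sin_sq, one_mul] at this
    exact (sq_eq_sq₀ (norm_nonneg _) (norm_nonneg _)).1 this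
  have a2 : ‖((Real.cos (2 * θ) - 1 : ℝ) : ℂ) • x + (Complex.I * (Real.sin (2 * θ) : ℂ))
        • S.Zt t x‖ ≤ 2 * |θ| * c := by
    have := P_norm_rot (S := S) t (Real.cos (2 * θ) - 1) (Real.sin (2 * θ)) x
    have hs : (Real.cos (2 * θ) - 1) ^ 2 + Real.sin (2 * θ) ^ 2 ≤ (2 * |θ|) ^ 2 := by
      have q1 := Real.cos_sq_add_sin_sq (2 * θ)
      have q2 : 1 - (2 * θ) ^ 2 / 2 ≤ Real.cos (2 * θ) := Real.one_sub_sq_div_two_le_cos
      rw [mul_pow, sq_abs]
      nlinarith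
    have h3 : ‖((Real.cos (2 * θ) - 1 : ℝ) : ℂ) • x + (Complex.I * (Real.sin (2 * θ) : ℂ))
        • S.Zt t x‖ ^ 2 ≤ (2 * |θ| * c) ^ 2 := by
      rw [this, mul_pow]
      exact mul_le_mul hs (pow_le_pow_left₀ (norm_nonneg _) hx.m0 2) (by positivity)
        (by positivity)
    have hc : 0 ≤ c := (norm_nonneg x).trans hx.m0
    exact (sq_le_sq₀ (norm_nonneg _) (by positivity)).1 h3
  unfold mu
  rw [← hθ]
  linarith

/-- one pulse of phase `± π/2` -/
lemma P_half {c : ℝ} {x : H} (hx : S.Nice c x) (t : ℝ) (v b : K) (σ r : ℝ)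
    (hσ : σ = 1 ∨ σ = -1) (h : |2 * (inner ℂ v b : ℂ).im - σ * (Real.pi / 2)| ≤ r) :
    ‖S.pul t v (S.W b x) - (Complex.I * (σ : ℂ)) • S.W b (S.Zt t x)‖ ≤ 2 * (c * ‖v‖) + r * c := by
  have hx0 : S.PNiceAt (fun a : K => ‖a‖) c x := ⟨hx.m0, hx.m1, hx.m2⟩
  have hg : PGauge (fun a : K => ‖a‖) := ⟨fun a => le_refl _, fun a => norm_neg a⟩
  have h1 := hx0.pul_sub hg t v
  have hr : 0 ≤ r := (abs_nonneg _).trans h
  set θ := (inner ℂ v b : ℂ).im with hθ
  have hms : (Complex.I * (σ : ℂ)) • S.W b (S.Zt t x) = S.W b ((Complex.I * (σ : ℂ)) • S.Zt t x) :=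
    (map_smul _ _ _).symm
  rw [P_pul_frame, hms, ← map_sub, (S.W b).norm_map, ← hθ]
  have e : (Real.cos (2 * θ) : ℂ) • S.pul t v x + (Complex.I * (Real.sin (2 * θ) : ℂ))
        • S.Zt t (S.pul t v x) - (Complex.I * (σ : ℂ)) • S.Zt t x
      = ((Real.cos (2 * θ) : ℂ) • (S.pul t v x - x) + (Complex.I * (Real.sin (2 * θ) : ℂ))
        • S.Zt t (S.pul t v x - x))
      + ((Real.cos (2 * θ) : ℂ) • x + (Complex.I * ((Real.sin (2 * θ) - σ : ℝ) : ℂ))
        • S.Zt t x) := by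
    simp only [map_sub]
    push_cast
    module
  rw [e]
  refine (norm_add_le _ _).trans ?_
  have a1 : ‖(Real.cos (2 * θ) : ℂ) • (S.pul t v x - x) + (Complex.I * (Real.sin (2 * θ) : ℂ))
        • S.Zt t (S.pul t v x - x)‖ ≤ 2 * (c * ‖v‖) := by
    refine le_trans (le_of_eq ?_) h1
    have := P_norm_rot (S := S) t (Real.cos (2 * θ)) (Real.sin (2 * θ)) (S.pul t v x - x)
    rw [Real.cos_sq_add_sin_sq, one_mul] at this
    exact (sq_eq_sq₀ (norm_nonneg _) (norm_nonneg _)).1 this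
  have a2 : ‖(Real.cos (2 * θ) : ℂ) • x + (Complex.I * ((Real.sin (2 * θ) - σ : ℝ) : ℂ))
        • S.Zt t x‖ ≤ r * c := by
    have := P_norm_rot (S := S) t (Real.cos (2 * θ)) (Real.sin (2 * θ) - σ) x
    have hs : Real.cos (2 * θ) ^ 2 + (Real.sin (2 * θ) - σ) ^ 2 ≤ r ^ 2 := by
      set ρ := 2 * θ - σ * (Real.pi / 2) with hρ
      have hθρ : 2 * θ = ρ + σ * (Real.pi / 2) := by rw [hρ]; ring
      have q1 := Real.cos_sq_add_sin_sq (2 * θ)
      have q2 : 1 - ρ ^ 2 / 2 ≤ Real.cos ρ := Real.one_sub_sq_div_two_le_cos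
      have q3 : σ * Real.sin (2 * θ) = Real.cos ρ := by
        rw [hθρ]
        rcases hσ with hσ | hσ
        · rw [hσ, one_mul, one_mul, Real.sin_add_pi_div_two]
        · rw [hσ]
          have : ρ + -1 * (Real.pi / 2) = ρ - Real.pi / 2 := by ring
          rw [this, Real.sin_sub_pi_div_two]
          ring
      have q4 : σ ^ 2 = 1 := by rcases hσ with hσ | hσ <;> rw [hσ] <;> norm_num
      have q5 : ρ ^ 2 ≤ r ^ 2 := by
        rw [← sq_abs ρ]
        exact pow_le_pow_left₀ (abs_nonneg _) h 2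
      nlinarith
    have h3 : ‖(Real.cos (2 * θ) : ℂ) • x + (Complex.I * ((Real.sin (2 * θ) - σ : ℝ) : ℂ))
        • S.Zt t x‖ ^ 2 ≤ (r * c) ^ 2 := by
      rw [this, mul_pow]
      exact mul_le_mul hs (pow_le_pow_left₀ (norm_nonneg _) hx.m0 2) (by positivity)
        (by positivity)
    have hc : 0 ≤ c := (norm_nonneg x).trans hx.m0
    exact (sq_le_sq₀ (norm_nonneg _) (by positivity)).1 h3
  linarith

/-- four pulses of phase `± π/2` in one frame -/
lemma P_four_half {c : ℝ} {x : H} (hx : S.Nice c x) (t1 t2 : ℝ) (v1 v2 v3 v4 b : K) (σ r : ℝ)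
    (hσ : σ = 1 ∨ σ = -1)
    (n1 : ‖v1‖ ≤ r) (n2 : ‖v2‖ ≤ r) (n3 : ‖v3‖ ≤ r) (n4 : ‖v4‖ ≤ r)
    (h1 : |2 * (inner ℂ v1 b : ℂ).im - σ * (Real.pi / 2)| ≤ r)
    (h2 : |2 * (inner ℂ v2 b : ℂ).im - σ * (Real.pi / 2)| ≤ r)
    (h3 : |2 * (inner ℂ v3 b : ℂ).im - σ * (Real.pi / 2)| ≤ r)
    (h4 : |2 * (inner ℂ v4 b : ℂ).im - σ * (Real.pi / 2)| ≤ r) :
    ‖S.pul t1 (-v4) (S.pul t2 (-v3) (S.pul t1 v2 (S.pul t2 v1 (S.W b x))))
      - S.W b (S.xr (4 * (t1 - t2)) x)‖ ≤ 12 * c * r := by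
  have hc : 0 ≤ c := (norm_nonneg x).trans hx.m0
  have hneg : ∀ v : K, |2 * (inner ℂ v b : ℂ).im - σ * (Real.pi / 2)| ≤ r →
      |2 * (inner ℂ (-v) b : ℂ).im - (-σ) * (Real.pi / 2)| ≤ r := by
    intro v hv
    rw [inner_neg_left, Complex.neg_im]
    have : 2 * -(inner ℂ v b : ℂ).im - -σ * (Real.pi / 2)
        = -(2 * (inner ℂ v b : ℂ).im - σ * (Real.pi / 2)) := by ring
    rw [this, abs_neg]
    exact hv
  have hσ' : -σ = 1 ∨ -σ = -1 := by
    rcases hσ with hσ | hσ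
    · right; rw [hσ]
    · left; rw [hσ]; norm_num
  set y1 := S.Zt t2 x with hy1
  set y2 := S.Zt t1 y1 with hy2
  set y3 := S.Zt t2 y2 with hy3
  set y4 := S.Zt t1 y3 with hy4
  have N1 : S.Nice c y1 := hx.P_cw (S.P_cw_Zt t2)
  have N2 : S.Nice c y2 := N1.P_cw (S.P_cw_Zt t1)
  have N3 : S.Nice c y3 := N2.P_cw (S.P_cw_Zt t2)
  have bd : ∀ v : K, ‖v‖ ≤ r → 2 * (c * ‖v‖) + r * c ≤ 3 * c * r := by
    intro v hv
    have := mul_le_mul_of_nonneg_left hv hc
    linarith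
  have s1 := (P_half hx t2 v1 b σ r hσ h1).trans (bd v1 n1)
  have s2 := (P_half N1 t1 v2 b σ r hσ h2).trans (bd v2 n2)
  have s3 := (P_half N2 t2 (-v3) b (-σ) r hσ' (hneg v3 h3)).trans
    (bd (-v3) (by rwa [norm_neg]))
  have s4 := (P_half N3 t1 (-v4) b (-σ) r hσ' (hneg v4 h4)).trans
    (bd (-v4) (by rwa [norm_neg]))
  rw [← hy1] at s1
  rw [← hy2] at s2
  rw [← hy3] at s3
  rw [← hy4] at s4
  have hy4' : y4 = S.xr (4 * (t1 - t2)) x := by
    rw [hy4, hy3, hy2, hy1, P_Zt_Zt, P_Zt_Zt, P_xr_add]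
    congr 1
    ring_nf
  rw [← hy4']
  set p1 := S.pul t2 v1
  set p2 := S.pul t1 v2
  set p3 := S.pul t2 (-v3)
  set p4 := S.pul t1 (-v4)
  set k : ℂ := Complex.I * (σ : ℂ) with hk
  set k' : ℂ := Complex.I * ((-σ : ℝ) : ℂ) with hk'
  have nk : ‖k‖ = 1 := by
    rw [hk, norm_mul, Complex.norm_I, one_mul, Complex.norm_real, Real.norm_eq_abs]
    rcases hσ with hσ | hσ <;> rw [hσ] <;> norm_num
  have nk' : ‖k'‖ = 1 := by
    rw [hk', norm_mul, Complex.norm_I, one_mul, Complex.norm_real, Real.norm_eq_abs]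
    rcases hσ with hσ | hσ <;> rw [hσ] <;> norm_num
  have kk : k * k * k' * k' = 1 := by
    rw [hk, hk']
    push_cast
    have q4 : (σ : ℂ) ^ 2 = 1 := by rcases hσ with hσ | hσ <;> rw [hσ] <;> norm_num
    have q5 : Complex.I ^ 4 = 1 := Complex.I_pow_four
    calc _ = Complex.I ^ 4 * ((σ : ℂ) ^ 2) ^ 2 := by ring
      _ = 1 := by rw [q4, q5]; norm_num
  clear_value k k'
  have e : p4 (p3 (p2 (p1 (S.W b x)))) - S.W b y4
      = p4 (p3 (p2 (p1 (S.W b x) - k • S.W b y1)))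
        + k • p4 (p3 (p2 (S.W b y1) - k • S.W b y2))
        + (k * k) • p4 (p3 (S.W b y2) - k' • S.W b y3)
        + (k * k * k') • (p4 (S.W b y3) - k' • S.W b y4) := by
    simp only [map_sub, map_smul]
    have h : S.W b y4 = (k * k * k' * k') • S.W b y4 := by rw [kk, one_smul]
    conv_lhs => rw [h]
    module
  rw [e]
  have tri := norm_add₄_le (a := p4 (p3 (p2 (p1 (S.W b x) - k • S.W b y1))))
    (b := k • p4 (p3 (p2 (S.W b y1) - k • S.W b y2)))
    (c := (k * k) • p4 (p3 (S.W b y2) - k' • S.W b y3))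
    (d := (k * k * k') • (p4 (S.W b y3) - k' • S.W b y4))
  refine tri.trans ?_
  rw [norm_smul, norm_smul, norm_smul, norm_mul, norm_mul, norm_mul, nk, nk',
    p4.norm_map, p3.norm_map, p2.norm_map, p4.norm_map, p3.norm_map, p4.norm_map]
  linarith

variable (S)

theorem pStmt : S.PStmt where
  p0 := fun c z b t v hz hv => P_frm_pul t hz hv
  p1 := by
    intro c z b t v hz
    obtain ⟨x, y, hx, hy, rfl⟩ := hz
    have h1 := P_pul_W hx t v b
    have h2 := P_pul_W hy t v (-b)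
    rw [P_mu_neg_left] at h2
    have e : S.pul t v (S.W b x + S.W (-b) y) - (S.W b x + S.W (-b) y)
        = (S.pul t v (S.W b x) - S.W b x) + (S.pul t v (S.W (-b) y) - S.W (-b) y) := by
      rw [map_add]; abel
    rw [e]
    refine (norm_add_le _ _).trans ?_
    linarith
  p2 := by
    refine ⟨32, by norm_num, ?_⟩
    intro c z b t v t' v' hz _
    have hc := hz.P_c0
    have h := hz.P_niceAt.pul_pul (P_gauge_fg b) t t' v v'
    refine h.trans ?_
    have h1 := P_fg_le_mu b v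
    have h2 := P_fg_le_mu b v'
    have h3 : P_fg b v' * P_fg b v ≤ (2 * mu b v') * (2 * mu b v) :=
      mul_le_mul h2 h1 ((P_gauge_fg b).pos v) (by have := P_mu_nonneg b v'; positivity)
    have h4 := mul_le_mul_of_nonneg_left h3 (by positivity : 0 ≤ 8 * c)
    linarith
  d0 := fun c z b v hz hv => P_frm_d0 hz hv
  d1 := by
    intro c z b v hz
    have hc := hz.P_c0
    have h1 := hz.P_niceAt.n1 v
    have h2 := hz.P_niceAt.n1 (-v)
    rw [(P_gauge_fg b).neg] at h2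
    have e : S.W (-v) z - S.W v z = (S.W (-v) z - z) - (S.W v z - z) := by abel
    rw [e]
    refine (norm_sub_le _ _).trans ?_
    have h3 := mul_le_mul_of_nonneg_left (P_fg_le_mu b v) (by positivity : 0 ≤ 2 * c)
    linarith
  d2 := by
    refine ⟨32, by norm_num, ?_⟩
    intro c z b t v v' hz _
    have hc := hz.P_c0
    have h1 := hz.P_niceAt.dd_pul_sub (P_gauge_fg b) t v v'
    have h2 := hz.P_niceAt.dd_pul_sub (P_gauge_fg b) t v (-v')
    rw [(P_gauge_fg b).neg] at h2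
    have e : S.W (-v') (S.pul t v z - z) - S.W v' (S.pul t v z - z)
        = (S.W (-v') (S.pul t v z - z) - (S.pul t v z - z))
          - (S.W v' (S.pul t v z - z) - (S.pul t v z - z)) := by abel
    rw [e]
    refine (norm_sub_le _ _).trans ?_
    have h3 : P_fg b v' * P_fg b v ≤ (2 * mu b v') * (2 * mu b v) :=
      mul_le_mul (P_fg_le_mu b v') (P_fg_le_mu b v) ((P_gauge_fg b).pos v)
        (by have := P_mu_nonneg b v'; positivity)
    have h4 := mul_le_mul_of_nonneg_left h3 (by positivity : 0 ≤ 8 * c)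
    linarith

theorem c1Stmt : S.C1Stmt := by
  intro M hM
  have hL : 0 < 2 * M + 1 := by linarith
  refine ⟨64 * (2 * M + 1) ^ 2, 1 / (2 * M + 1), by positivity, by positivity, ?_⟩
  intro ε hε hε0 b c z t1 t2 v1 v2 v3 v4 hz h1 h2 h3 h4 h31 h42
  have hr : 0 ≤ (2 * M + 1) * ε := by positivity
  have hr1 : (2 * M + 1) * ε ≤ 1 := by
    rw [le_div_iff₀ hL] at hε0
    linarith
  have lin : ∀ v : K, mu b v ≤ M * ε → P_fg b v ≤ (2 * M + 1) * ε := by
    intro v hv
    have := P_fg_le_mu b v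
    nlinarith
  have quad : ∀ v : K, mu b v ≤ M * ε ^ 2 → P_fg b v ≤ ((2 * M + 1) * ε) ^ 2 := by
    intro v hv
    have h0 := P_fg_le_mu b v
    have : 2 * M * ε ^ 2 ≤ ((2 * M + 1) * ε) ^ 2 := by
      rw [mul_pow]
      refine mul_le_mul_of_nonneg_right ?_ (by positivity)
      nlinarith
    linarith
  have := hz.P_niceAt.four (P_gauge_fg b) t1 t2 v1 v2 v3 v4 hr (lin v1 h1) (lin v2 h2) (lin v3 h3)
    (lin v4 h4) (quad _ h31) (quad _ h42) hr1
  refine this.trans (le_of_eq ?_)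
  ring

theorem c2Stmt : S.C2Stmt := by
  intro M hM
  refine ⟨24 * M, 1, by positivity, one_pos, ?_⟩
  intro ε hε _ b c z t1 t2 v1 v2 v3 v4 hz n1 n2 n3 n4 h1 h2 h3 h4
  obtain ⟨x, y, hx, hy, rfl⟩ := hz
  have hp : ∀ v : K, |2 * (inner ℂ v b : ℂ).im - Real.pi / 2| ≤ M * ε →
      |2 * (inner ℂ v b : ℂ).im - 1 * (Real.pi / 2)| ≤ M * ε := by
    intro v hv; rwa [one_mul]
  have hm : ∀ v : K, |2 * (inner ℂ v b : ℂ).im - Real.pi / 2| ≤ M * ε →
      |2 * (inner ℂ v (-b) : ℂ).im - (-1) * (Real.pi / 2)| ≤ M * ε := by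
    intro v hv
    rw [inner_neg_right, Complex.neg_im]
    have : 2 * -(inner ℂ v b : ℂ).im - -1 * (Real.pi / 2)
        = -(2 * (inner ℂ v b : ℂ).im - Real.pi / 2) := by ring
    rwa [this, abs_neg]
  have A1 := P_four_half hx t1 t2 v1 v2 v3 v4 b 1 (M * ε) (Or.inl rfl) n1 n2 n3 n4
    (hp v1 h1) (hp v2 h2) (hp v3 h3) (hp v4 h4)
  have A2 := P_four_half hy t1 t2 v1 v2 v3 v4 (-b) (-1) (M * ε) (Or.inr rfl) n1 n2 n3 n4
    (hm v1 h1) (hm v2 h2) (hm v3 h3) (hm v4 h4)
  have e : S.pul t1 (-v4) (S.pul t2 (-v3) (S.pul t1 v2 (S.pul t2 v1 (S.W b x + S.W (-b) y))))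
        - S.xr (4 * (t1 - t2)) (S.W b x + S.W (-b) y)
      = (S.pul t1 (-v4) (S.pul t2 (-v3) (S.pul t1 v2 (S.pul t2 v1 (S.W b x))))
          - S.W b (S.xr (4 * (t1 - t2)) x))
        + (S.pul t1 (-v4) (S.pul t2 (-v3) (S.pul t1 v2 (S.pul t2 v1 (S.W (-b) y))))
          - S.W (-b) (S.xr (4 * (t1 - t2)) y)) := by
    simp only [map_add]
    rw [S.P_cw_xr, S.P_cw_xr]
    abel
  rw [e]
  refine (norm_add_le _ _).trans ?_
  linarith

end Sys

end Vale.Agent.P367.A
end

section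

/-! P367, Theorem A, block K: the kick word `C tau, B eps, C (-tau)`. -/

namespace Vale.Agent.P367.A

open Complex

namespace Sys

namespace Kick

variable {H K : Type*} [NormedAddCommGroup H] [InnerProductSpace ℂ H]
  [NormedAddCommGroup K] [InnerProductSpace ℂ K] (S : Sys H K)

lemma nice_mono {c d : ℝ} {x : H} (h : S.Nice c x) (hcd : c ≤ d) : S.Nice d x where
  m0 := h.m0.trans hcd
  m1 a := (h.m1 a).trans (mul_le_mul_of_nonneg_right hcd (norm_nonneg _))
  m2 a b := (h.m2 a b).trans (mul_le_mul_of_nonneg_right hcd (by positivity))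

lemma nice_nonneg {c : ℝ} {x : H} (h : S.Nice c x) : 0 ≤ c := (norm_nonneg _).trans h.m0

lemma abs_cos_sub_one_le (y : ℝ) : |Real.cos y - 1| ≤ y ^ 2 / 2 := by
  have h1 := Real.one_sub_sq_div_two_le_cos (x := y)
  have h2 := Real.cos_le_one y
  rw [abs_le]
  constructor <;> linarith

lemma abs_sin_sub_le {y : ℝ} (h0 : 0 ≤ y) (h1 : y ≤ 1) : |Real.sin y - y| ≤ y ^ 2 := by
  have h := Real.sin_bound (x := y) (by rw [abs_of_nonneg h0]; exact h1)
  rw [abs_le] at h ⊢
  have h3 : |y| = y := abs_of_nonneg h0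
  rw [h3] at h
  have h4 : y ^ 3 ≤ y ^ 2 := by nlinarith [sq_nonneg y]
  have h5 : y ^ 4 ≤ y ^ 2 := by nlinarith [sq_nonneg y, sq_nonneg (y ^ 2), mul_nonneg h0 h0]
  have h6 : 0 ≤ y ^ 2 := sq_nonneg y
  have h7 : 0 ≤ y ^ 3 := by positivity
  constructor <;> nlinarith [h.1, h.2]

/-- the vector `e'` -/
noncomputable def ep (τ : ℝ) : H :=
  -(Complex.I • S.Z (S.zr (-((2 * τ : ℝ) : ℂ) • S.iota (S.Z S.Om)) S.Om))

lemma norm_ep (τ : ℝ) : ‖ep S τ‖ = 1 := by
  rw [ep, norm_neg, norm_smul, Complex.norm_I, one_mul, S.Z.norm_map, (S.zr _).norm_map, S.nOm]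

lemma k1_Om (τ : ℝ) (x : H) : S.k1 τ x = S.zr ((τ : ℂ) • S.iota (S.Z S.Om)) x := rfl

/-- the field vector after `C tau, B eps` -/
lemma xv_k2 (ε τ : ℝ) : S.xv (S.k2 ε τ) = (Real.cos (2 * ε) : ℂ) • S.Z S.Om
      + (Real.sin (2 * ε) : ℂ) • ep S τ := by
  set v : K := (τ : ℂ) • S.iota (S.Z S.Om) with hv
  have h : (S.k2 ε τ)⁻¹ = S.zr (-v) * S.xr (-ε) := by
    rw [k2, k1, mul_inv_rev, xr_inv, zr_inv]
  unfold xv
  rw [h]
  change S.zr (-v) (S.xr (-ε) (S.Z (S.xr ε (S.zr v S.Om)))) = _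
  rw [Z_xr, xr_xr]
  have e1 : -ε + -ε = -(2 * ε) := by ring
  rw [e1, Z_zr, xr_apply, map_sub, map_smul, map_smul, Real.cos_neg, Real.sin_neg, zr_neg_zr]
  have e3 : S.zr (-v) (S.X (S.zr v (S.Z S.Om)))
      = -S.Z (S.zr (-((2 * τ : ℝ) : ℂ) • S.iota (S.Z S.Om)) S.Om) := by
    rw [X_zr, zr_zr, th_self, S.XZ, S.XOm, map_neg]
    have e4 : -v + -v = -((2 * τ : ℝ) : ℂ) • S.iota (S.Z S.Om) := by
      rw [hv]; push_cast; module
    rw [e4, Z_zr]
    simp
  rw [e3, ep]
  push_cast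
  module

lemma xv_k2_sub (ε τ : ℝ) : S.xv (S.k2 ε τ) - S.Z S.Om
    = ((Real.cos (2 * ε) - 1 : ℝ) : ℂ) • S.Z S.Om + (Real.sin (2 * ε) : ℂ) • ep S τ := by
  rw [xv_k2]; push_cast; module

lemma norm_xv_k2_sub_le {ε : ℝ} (τ : ℝ) (h0 : 0 < ε) (h1 : ε ≤ 1 / 4) :
    ‖S.xv (S.k2 ε τ) - S.Z S.Om‖ ≤ 3 * ε := by
  rw [xv_k2_sub]
  refine (norm_add_le _ _).trans ?_
  rw [norm_smul, norm_smul, S.Z.norm_map, S.nOm, norm_ep, Complex.norm_real, Complex.norm_real,
    Real.norm_eq_abs, Real.norm_eq_abs]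
  have h2 := abs_cos_sub_one_le (2 * ε)
  have h3 : |Real.sin (2 * ε)| ≤ 2 * ε := by
    have := Real.abs_sin_le_abs (x := 2 * ε)
    rwa [abs_of_pos (by linarith : (0 : ℝ) < 2 * ε)] at this
  nlinarith

/-- the phase -/
noncomputable def ph (ε τ : ℝ) : ℂ :=
  Complex.exp (Complex.I * ((τ ^ 2 * th (S.iota (S.xv (S.k2 ε τ))) (S.iota (S.Z S.Om)) : ℝ) : ℂ))

lemma norm_ph (ε τ : ℝ) : ‖ph S ε τ‖ = 1 := by
  rw [ph, mul_comm]
  exact Complex.norm_exp_ofReal_mul_I _

lemma conj_ph (ε τ : ℝ) : (starRingEnd ℂ) (ph S ε τ) = Complex.exp (-(Complex.I *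
    ((τ ^ 2 * th (S.iota (S.xv (S.k2 ε τ))) (S.iota (S.Z S.Om)) : ℝ) : ℂ))) := by
  rw [ph, ← Complex.exp_conj, map_mul, Complex.conj_I, Complex.conj_ofReal]
  congr 1; ring

lemma conj_ph_mul (ε τ : ℝ) : (starRingEnd ℂ) (ph S ε τ) * ph S ε τ = 1 := by
  rw [conj_ph, ph, ← Complex.exp_add, neg_add_cancel, Complex.exp_zero]

/-- the state after the kick, as a sum of two branches -/
lemma k3_apply (ε τ : ℝ) (x : H) : S.k3 ε τ x
    = (Real.cos ε : ℂ) • (ph S ε τ • S.zr (-((τ : ℂ) • S.iota (S.xv (S.k2 ε τ) - S.Z S.Om))) x)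
    - (Complex.I * (Real.sin ε : ℂ)) • ((starRingEnd ℂ) (ph S ε τ) •
        S.zr (-((τ : ℂ) • S.iota (S.xv (S.k2 ε τ) + S.Z S.Om))) (S.X x)) := by
  set x1 := S.iota (S.xv (S.k2 ε τ)) with hx1
  set x0 := S.iota (S.Z S.Om) with hx0
  have h0 : S.k3 ε τ x = S.zr (((-τ : ℝ) : ℂ) • x1) (S.xr ε (S.zr ((τ : ℂ) • x0) x)) := rfl
  rw [h0, xr_apply, map_sub, map_smul, map_smul, X_zr, zr_zr, zr_zr, conj_ph, ph, ← hx1, ← hx0]
  have e1 : th (((-τ : ℝ) : ℂ) • x1) ((τ : ℂ) • x0) = -(τ ^ 2 * th x1 x0) := by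
    rw [th_smul_left, th_smul_right]; ring
  have e2 : th (((-τ : ℝ) : ℂ) • x1) (-((τ : ℂ) • x0)) = τ ^ 2 * th x1 x0 := by
    rw [th_neg_right, th_smul_left, th_smul_right]; ring
  have e3 : ((-τ : ℝ) : ℂ) • x1 + (τ : ℂ) • x0
      = -((τ : ℂ) • S.iota (S.xv (S.k2 ε τ) - S.Z S.Om)) := by
    rw [map_sub, ← hx1, ← hx0]; push_cast; module
  have e4 : ((-τ : ℝ) : ℂ) • x1 + -((τ : ℂ) • x0)
      = -((τ : ℂ) • S.iota (S.xv (S.k2 ε τ) + S.Z S.Om)) := by
    rw [map_add, ← hx1, ← hx0]; push_cast; module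
  rw [e1, e2, e3, e4]
  congr 3
  congr 1
  push_cast
  ring

/-- the label vector of the kick, in terms of `Om` -/
lemma lab_eq (ε τ : ℝ) : (S.k3 ε τ)⁻¹ (S.Z (S.zr (-((τ : ℂ) • S.iota (S.xv (S.k2 ε τ) + S.Z S.Om)))
      (-(Complex.I * (starRingEnd ℂ) (ph S ε τ)) • S.Om)))
    = (Real.cos ε : ℂ) • ep S τ + (Real.sin ε : ℂ) •
      S.zr (-((τ : ℂ) • S.iota (S.Z S.Om))) (S.X (S.Z (S.zr (-((τ : ℂ) • S.iota (S.Z S.Om))) S.Om)))
      := by
  have h : ∀ y, (S.k3 ε τ)⁻¹ y = S.zr (-((τ : ℂ) • S.iota (S.Z S.Om)))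
      (S.xr (-ε) (S.zr (-(((-τ : ℝ) : ℂ) • S.iota (S.xv (S.k2 ε τ)))) y)) := by
    intro y
    have : (S.k3 ε τ)⁻¹ = S.zr (-((τ : ℂ) • S.iota (S.Z S.Om))) * S.xr (-ε)
        * S.zr (-(((-τ : ℝ) : ℂ) • S.iota (S.xv (S.k2 ε τ)))) := by
      rw [k3]
      rw [mul_inv_rev, zr_inv]
      conv_lhs => rw [k2, k1, mul_inv_rev, xr_inv, zr_inv]
      rfl
    rw [this]; rfl
  rw [h]
  set x1 := S.iota (S.xv (S.k2 ε τ)) with hx1
  set x0 := S.iota (S.Z S.Om) with hx0
  rw [map_smul, map_smul, map_smul, ← Z_zr, zr_zr]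
  have e1 : th (-(((-τ : ℝ) : ℂ) • x1)) (-((τ : ℂ) • S.iota (S.xv (S.k2 ε τ) + S.Z S.Om)))
      = -(τ ^ 2 * th x1 x0) := by
    rw [map_add, ← hx1, ← hx0, th_neg_left, th_neg_right, th_smul_left, th_smul_right,
      th_add_right, th_self]; ring
  have e2 : -(((-τ : ℝ) : ℂ) • x1) + -((τ : ℂ) • S.iota (S.xv (S.k2 ε τ) + S.Z S.Om))
      = -((τ : ℂ) • x0) := by
    rw [map_add, ← hx1, ← hx0]; push_cast; module
  rw [e1, e2]
  have e3 : Complex.exp (-(Complex.I * ((-(τ ^ 2 * th x1 x0) : ℝ) : ℂ))) = ph S ε τ := by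
    rw [ph]; congr 1; push_cast; ring
  rw [e3]
  simp only [map_smul, smul_smul]
  have e4 : -(Complex.I * (starRingEnd ℂ) (ph S ε τ)) * ph S ε τ = -Complex.I := by
    have := conj_ph_mul S ε τ
    linear_combination (-Complex.I) * this
  rw [e4, xr_apply, map_sub, map_smul, map_smul, Real.cos_neg, Real.sin_neg]
  have e5 : S.zr (-((τ : ℂ) • x0)) (S.Z (S.zr (-((τ : ℂ) • x0)) S.Om))
      = S.Z (S.zr (-((2 * τ : ℝ) : ℂ) • x0) S.Om) := by
    rw [← Z_zr, zr_zr, th_self]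
    have : -((τ : ℂ) • x0) + -((τ : ℂ) • x0) = -((2 * τ : ℝ) : ℂ) • x0 := by
      push_cast; module
    rw [this]
    simp
  rw [e5, ep, ← hx0]
  have hI : Complex.I * Complex.I = -1 := Complex.I_mul_I
  push_cast
  match_scalars
  · ring
  · linear_combination (-Complex.sin (ε : ℂ)) * hI

lemma norm_lab_sub_le {ε : ℝ} (τ : ℝ) (h0 : 0 < ε) (h1 : ε ≤ 1 / 4) :
    ‖(S.k3 ε τ)⁻¹ (S.Z (S.zr (-((τ : ℂ) • S.iota (S.xv (S.k2 ε τ) + S.Z S.Om)))
      (-(Complex.I * (starRingEnd ℂ) (ph S ε τ)) • S.Om))) - ep S τ‖ ≤ 2 * ε := by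
  rw [lab_eq]
  have e : (Real.cos ε : ℂ) • ep S τ + (Real.sin ε : ℂ) •
      S.zr (-((τ : ℂ) • S.iota (S.Z S.Om))) (S.X (S.Z (S.zr (-((τ : ℂ) • S.iota (S.Z S.Om))) S.Om)))
      - ep S τ = ((Real.cos ε - 1 : ℝ) : ℂ) • ep S τ + (Real.sin ε : ℂ) •
      S.zr (-((τ : ℂ) • S.iota (S.Z S.Om)))
        (S.X (S.Z (S.zr (-((τ : ℂ) • S.iota (S.Z S.Om))) S.Om))) := by
    push_cast; module
  rw [e]
  refine (norm_add_le _ _).trans ?_
  rw [norm_smul, norm_smul, norm_ep, (S.zr _).norm_map, S.X.norm_map, S.Z.norm_map,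
    (S.zr _).norm_map, S.nOm, Complex.norm_real, Complex.norm_real, Real.norm_eq_abs,
    Real.norm_eq_abs]
  have h2 := abs_cos_sub_one_le ε
  have h3 : |Real.sin ε| ≤ ε := by
    have := Real.abs_sin_le_abs (x := ε)
    rwa [abs_of_pos h0] at this
  nlinarith

/-- frame decomposition of `zr (-b) y` -/
lemma zr_neg_eq (b : K) (y : H) : S.zr (-b) y = S.W b (S.Pp 0 y) + S.W (-b) (S.Pm 0 y) := by
  rw [← pul_time_zero, pul_eq_P, neg_neg]

lemma nice_Pp (hN : S.NStmt) {c : ℝ} {y : H} (h : S.Nice c y) : S.Nice c (S.Pp 0 y) := by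
  have h1 := hN.comm (S.Zt 0) (fun a x => S.W_ZtA a 0 x) c y h
  have h2 := hN.smul _ _ (1 / 2 : ℂ) (hN.add _ _ _ _ h h1)
  have e : ‖(1 / 2 : ℂ)‖ * (c + c) = c := by norm_num; ring
  rw [e] at h2
  exact h2

lemma nice_Pm (hN : S.NStmt) {c : ℝ} {y : H} (h : S.Nice c y) : S.Nice c (S.Pm 0 y) := by
  have h1 := hN.smul _ _ (-1 : ℂ) (hN.comm (S.Zt 0) (fun a x => S.W_ZtA a 0 x) c y h)
  have h2 := hN.smul _ _ (1 / 2 : ℂ) (hN.add _ _ _ _ h h1)
  have e : ‖(1 / 2 : ℂ)‖ * (c + ‖(-1 : ℂ)‖ * c) = c := by norm_num; ring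
  rw [e] at h2
  have e2 : S.Pm 0 y = (1 / 2 : ℂ) • (y + (-1 : ℂ) • S.Zt 0 y) := by
    rw [Pm]; module
  rw [e2]
  exact h2

lemma lab_diff (κ ε τ : ℝ) (hε : 0 < ε) (hε1 : ε ≤ 1 / 4) (hτ : τ = -κ / 2 / ε) {e : H}
    (hee : ‖e - ep S τ‖ ≤ 2 * ε) :
    ‖-((τ : ℂ) • (S.xv (S.k2 ε τ) - S.Z S.Om)) - (κ : ℂ) • e‖ ≤ 5 * |κ| * ε := by
  have hτa : |τ| = |κ| / 2 / ε := by
    rw [hτ, abs_div, abs_div, abs_neg, abs_of_pos hε, abs_of_pos (by norm_num : (0 : ℝ) < 2)]
  have hτε : |τ| * ε = |κ| / 2 := by rw [hτa]; field_simp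
  have e1 : -((τ : ℂ) • (S.xv (S.k2 ε τ) - S.Z S.Om)) - (κ : ℂ) • e
      = ((-τ * (Real.cos (2 * ε) - 1) : ℝ) : ℂ) • S.Z S.Om
        + ((-τ * (Real.sin (2 * ε) - 2 * ε) : ℝ) : ℂ) • ep S τ
        - (κ : ℂ) • (e - ep S τ) := by
    rw [xv_k2_sub]
    have h1 : -τ * (2 * ε) = κ := by
      rw [hτ]; field_simp
    have h2 : ((-τ * (Real.sin (2 * ε) - 2 * ε) : ℝ) : ℂ)
        = -(τ : ℂ) * (Real.sin (2 * ε) : ℂ) - (κ : ℂ) := by
      have h3 : -τ * (Real.sin (2 * ε) - 2 * ε) = -τ * Real.sin (2 * ε) - κ := by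
        rw [← h1]; ring
      rw [h3]; push_cast; ring
    rw [h2]
    push_cast
    module
  rw [e1]
  refine (norm_sub_le _ _).trans ?_
  refine (add_le_add (norm_add_le _ _) le_rfl).trans ?_
  rw [norm_smul, norm_smul, norm_smul, S.Z.norm_map, S.nOm, norm_ep, Complex.norm_real,
    Complex.norm_real, Complex.norm_real, Real.norm_eq_abs, Real.norm_eq_abs, Real.norm_eq_abs,
    abs_mul, abs_mul, abs_neg]
  have h2 := abs_cos_sub_one_le (2 * ε)
  have h3 := abs_sin_sub_le (y := 2 * ε) (by linarith) (by linarith)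
  have h4 : |τ| * |Real.cos (2 * ε) - 1| ≤ |κ| * ε := by
    calc |τ| * |Real.cos (2 * ε) - 1| ≤ |τ| * ((2 * ε) ^ 2 / 2) :=
          mul_le_mul_of_nonneg_left h2 (abs_nonneg _)
      _ = 2 * (|τ| * ε) * ε := by ring
      _ = |κ| * ε := by rw [hτε]; ring
  have h5 : |τ| * |Real.sin (2 * ε) - 2 * ε| ≤ 2 * |κ| * ε := by
    calc |τ| * |Real.sin (2 * ε) - 2 * ε| ≤ |τ| * (2 * ε) ^ 2 :=
          mul_le_mul_of_nonneg_left h3 (abs_nonneg _)
      _ = 4 * (|τ| * ε) * ε := by ring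
      _ = 2 * |κ| * ε := by rw [hτε]; ring
  have h8 : |κ| * ‖e - ep S τ‖ ≤ |κ| * (2 * ε) := mul_le_mul_of_nonneg_left hee (abs_nonneg _)
  linarith

end Kick

open Kick

variable {H K : Type*} [NormedAddCommGroup H] [InnerProductSpace ℂ H]
  [NormedAddCommGroup K] [InnerProductSpace ℂ K] (S : Sys H K)

/-- **Block K**: the state after the kick satisfies the invariants. -/
theorem kStmt (hN : S.NStmt) (hO : S.OStmt) : S.KStmt := by
  intro κ hκ
  have hκ0 : 0 < |κ| := abs_pos.2 hκ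
  set B : ℝ := 2 * (1 + 4 * |κ|) ^ 2 with hB
  have hB0 : 0 < B := by positivity
  set C : ℝ := 2 + 48 * B / |κ| + B + 5 * |κ| + 3 with hC
  have hC0 : 0 ≤ C := by positivity
  have hC1 : B ≤ C := by
    have : 0 ≤ 48 * B / |κ| := by positivity
    linarith
  have hC2 : 2 + 48 * B / |κ| ≤ C := by linarith
  have hC3 : 5 * |κ| + 3 ≤ C := by
    have : 0 ≤ 48 * B / |κ| := by positivity
    linarith
  refine ⟨C, 1 / 4, hC0, by norm_num, ?_⟩
  intro ε hε hε1 τ hτ
  have hx := norm_xv_k2_sub_le S τ hε hε1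
  have hτa : |τ| = |κ| / 2 / ε := by
    rw [hτ, abs_div, abs_div, abs_neg, abs_of_pos hε, abs_of_pos (by norm_num : (0 : ℝ) < 2)]
  have hτε : |τ| * ε = |κ| / 2 := by rw [hτa]; field_simp
  set x1 : H := S.xv (S.k2 ε τ) with hx1
  set x0 : H := S.Z S.Om with hx0
  have nx0 : ‖x0‖ = 1 := by rw [hx0, S.Z.norm_map, S.nOm]
  have nx1 : ‖x1‖ = 1 := S.norm_xv _
  set w : K := (τ : ℂ) • S.iota (x1 - x0) with hw
  have nw : ‖w‖ ≤ 2 * |κ| := by
    rw [hw, norm_smul, norm_iota, Complex.norm_real, Real.norm_eq_abs]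
    have : |τ| * ‖x1 - x0‖ ≤ |τ| * (3 * ε) := mul_le_mul_of_nonneg_left hx (abs_nonneg _)
    nlinarith
  set θ : ℂ := ph S ε τ with hθ
  have nθ : ‖θ‖ = 1 := norm_ph S ε τ
  set η : H := -(Complex.I * (starRingEnd ℂ) θ) • S.Om with hη
  have nc : ‖-(Complex.I * (starRingEnd ℂ) θ)‖ = 1 := by
    rw [norm_neg, norm_mul, Complex.norm_I, one_mul, RCLike.norm_conj, nθ]
  have nη : S.Nice 3 η := by
    have := hN.smul _ _ (-(Complex.I * (starRingEnd ℂ) θ)) hN.om
    rwa [nc, one_mul] at this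
  set b : K := (τ : ℂ) • S.iota (x1 + x0) with hb
  have hab : ((1 / ε : ℝ) : ℂ) • (((-κ / 2 : ℝ) : ℂ) • S.iota (x1 + x0)) = b := by
    rw [smul_smul, hb, hτ]
    congr 1
    push_cast
    ring
  have nb : |κ| / 2 / ε ≤ ‖b‖ := by
    rw [hb, norm_smul, norm_iota, Complex.norm_real, Real.norm_eq_abs, ← hτa]
    have h2 : 1 ≤ ‖x1 + x0‖ := by
      have h3 : ‖(2 : ℝ) • x0‖ ≤ ‖x1 + x0‖ + ‖x1 - x0‖ := by
        have : (2 : ℝ) • x0 = (x1 + x0) - (x1 - x0) := by module
        rw [this]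
        exact norm_sub_le _ _
      rw [norm_smul, nx0] at h3
      have h4 : ‖(2 : ℝ)‖ = 2 := by simp
      rw [h4] at h3
      linarith
    calc |τ| = |τ| * 1 := (mul_one _).symm
      _ ≤ _ := mul_le_mul_of_nonneg_left h2 (abs_nonneg _)
  have nb0 : 0 < ‖b‖ := lt_of_lt_of_le (by positivity) nb
  have bne : b ≠ 0 := norm_pos_iff.1 nb0
  have nbne : -b ≠ 0 := neg_ne_zero.2 bne
  set T : H ≃ₗᵢ[ℂ] H := S.zr (-w) with hT
  set V : H ≃ₗᵢ[ℂ] H := S.k3 ε τ with hV
  have hVx : ∀ x, V x = (Real.cos ε : ℂ) • (θ • T x)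
      - (Complex.I * (Real.sin ε : ℂ)) • ((starRingEnd ℂ) θ • S.zr (-b) (S.X x)) :=
    fun x => k3_apply S ε τ x
  set e : H := V⁻¹ (S.Z (S.zr (-b) η)) with he
  have hee : ‖e - ep S τ‖ ≤ 2 * ε := norm_lab_sub_le S τ hε hε1
  have nconj : ‖(starRingEnd ℂ) θ‖ = 1 := by rw [RCLike.norm_conj, nθ]
  have hcos := abs_cos_sub_one_le ε
  have hsin := abs_sin_sub_le hε.le (by linarith)
  have hsin1 : |Real.sin ε| ≤ ε := by
    have := Real.abs_sin_le_abs (x := ε)
    rwa [abs_of_pos hε] at this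
  have hTn : ∀ c x, S.Nice c x → S.Nice (B * c) (T x) ∧ S.Nice (B * c) (T⁻¹ x) := by
    intro c x hx'
    have hc := nice_nonneg S hx'
    have hle : 2 * (1 + 2 * ‖w‖) ^ 2 ≤ B := by
      rw [hB]
      have : 0 ≤ ‖w‖ := norm_nonneg _
      refine mul_le_mul_of_nonneg_left ?_ (by norm_num)
      refine pow_le_pow_left₀ (by positivity) ?_ 2
      linarith
    constructor
    · refine nice_mono S (hN.zr c x (-w) hx') ?_
      rw [norm_neg]
      exact mul_le_mul_of_nonneg_right hle hc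
    · rw [hT, zr_inv, neg_neg]
      refine nice_mono S (hN.zr c x w hx') ?_
      exact mul_le_mul_of_nonneg_right hle hc
  have hi2 : ∀ c x, S.Nice c x → ‖V x - θ • T x‖ ≤ 2 * c * ε := by
    intro c x hx'
    have hc := nice_nonneg S hx'
    have e1 : V x - θ • T x = ((Real.cos ε - 1 : ℝ) : ℂ) • (θ • T x)
        - (Complex.I * (Real.sin ε : ℂ)) • ((starRingEnd ℂ) θ • S.zr (-b) (S.X x)) := by
      rw [hVx]; push_cast; module
    rw [e1]
    refine (norm_sub_le _ _).trans ?_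
    rw [norm_smul, norm_smul, norm_smul, norm_smul, nθ, nconj, norm_mul, Complex.norm_I,
      (S.zr (-b)).norm_map, S.X.norm_map, T.norm_map, Complex.norm_real, Complex.norm_real,
      Real.norm_eq_abs, Real.norm_eq_abs]
    have hm := hx'.m0
    have h5 : |Real.cos ε - 1| ≤ ε := by nlinarith
    calc |Real.cos ε - 1| * (1 * ‖x‖) + 1 * |Real.sin ε| * (1 * ‖x‖)
        = (|Real.cos ε - 1| + |Real.sin ε|) * ‖x‖ := by ring
      _ ≤ (ε + ε) * c := by gcongr
      _ = 2 * c * ε := by ring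
  refine ⟨θ, η, e, ?_, ?_, ?_, ?_⟩
  · refine ⟨nθ, Or.inl rfl, ?_, nice_mono S nη ?_, ?_, ?_, ?_, ?_⟩
    · rw [norm_smul, norm_iota, Complex.norm_real, Real.norm_eq_abs, abs_div, abs_neg,
        abs_of_pos (by norm_num : (0 : ℝ) < 2)]
      have h2 : ‖x1 + x0‖ ≤ 2 := (norm_add_le _ _).trans (by rw [nx0, nx1]; norm_num)
      calc |κ| / 2 * ‖x1 + x0‖ ≤ |κ| / 2 * 2 := by gcongr
        _ ≤ C := by linarith
    · linarith
    · intro c x hx'
      have hc := nice_nonneg S hx'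
      obtain ⟨h2, h3⟩ := hTn c x hx'
      exact ⟨nice_mono S h2 (mul_le_mul_of_nonneg_right hC1 hc),
        nice_mono S h3 (mul_le_mul_of_nonneg_right hC1 hc)⟩
    · rw [hab, hVx, S.XOm, hη, map_smul]
      have e1 : (Real.cos ε : ℂ) • (θ • T S.Om)
          - (Complex.I * (Real.sin ε : ℂ)) • ((starRingEnd ℂ) θ • S.zr (-b) S.Om)
          - θ • T S.Om - (ε : ℂ) • (-(Complex.I * (starRingEnd ℂ) θ) • S.zr (-b) S.Om)
          = ((Real.cos ε - 1 : ℝ) : ℂ) • (θ • T S.Om)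
            - ((Real.sin ε - ε : ℝ) : ℂ) • ((Complex.I * (starRingEnd ℂ) θ) • S.zr (-b) S.Om) := by
        push_cast; module
      rw [e1]
      refine (norm_sub_le _ _).trans ?_
      rw [norm_smul, norm_smul, norm_smul, norm_smul, nθ, norm_mul, Complex.norm_I, nconj,
        (S.zr (-b)).norm_map, T.norm_map, S.nOm, Complex.norm_real, Complex.norm_real,
        Real.norm_eq_abs, Real.norm_eq_abs]
      have h9 : (3 : ℝ) ≤ C := by
        have : 0 ≤ 5 * |κ| := by positivity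
        linarith
      nlinarith [sq_nonneg ε]
    · intro c x hx'
      have hc := nice_nonneg S hx'
      refine (hi2 c x hx').trans ?_
      have h9 : (2 : ℝ) ≤ C := by
        have : 0 ≤ 5 * |κ| := by positivity
        linarith
      gcongr
    · rw [hab, ← he]
      simp only [ofReal_one, one_smul, sub_self, norm_zero]
      positivity
  · refine ⟨?_, ?_⟩
    · rw [he, (V⁻¹).norm_map, S.Z.norm_map, (S.zr _).norm_map, hη, norm_smul, nc, S.nOm, one_mul]
    · intro c x hx'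
      have hc := nice_nonneg S hx'
      have e1 : (inner ℂ e x : ℂ) = inner ℂ (S.zr (-b) (S.Z η)) (V x - θ • T x)
          + θ * (inner ℂ (S.W b (S.Pp 0 (S.Z η))) (S.W 0 (T x))
            + inner ℂ (S.W (-b) (S.Pm 0 (S.Z η))) (S.W 0 (T x))) := by
        rw [he, inner_invA, Z_zr, S.W_zero_apply, ← inner_add_left, ← zr_neg_eq,
          ← inner_smul_right, ← inner_add_right, sub_add_cancel]
      have nZη : S.Nice 3 (S.Z η) := hN.comm S.Z S.WZ 3 η nη
      have nT := (hTn c x hx').1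
      have h1 : ‖(inner ℂ (S.zr (-b) (S.Z η)) (V x - θ • T x) : ℂ)‖ ≤ 2 * c * ε := by
        refine (norm_inner_le_norm _ _).trans ?_
        rw [(S.zr _).norm_map, S.Z.norm_map, hη, norm_smul, nc, S.nOm, one_mul, one_mul]
        exact hi2 c x hx'
      have h2 := hO.inn 3 (B * c) _ _ b 0 (nice_Pp S hN nZη) nT bne
      have h3 := hO.inn 3 (B * c) _ _ (-b) 0 (nice_Pm S hN nZη) nT nbne
      rw [sub_zero] at h2 h3
      rw [norm_neg] at h3
      have h4 : 2 * 3 * (B * c) / ‖b‖ ≤ 12 * B / |κ| * c * ε := by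
        rw [div_le_iff₀ nb0]
        have h5 : 12 * B / |κ| * c * ε * (|κ| / 2 / ε) ≤ 12 * B / |κ| * c * ε * ‖b‖ := by
          gcongr
        refine le_trans (le_of_eq ?_) h5
        field_simp
        ring
      rw [e1]
      refine (norm_add_le _ _).trans ?_
      rw [norm_mul, nθ, one_mul]
      have h6 := norm_add_le (inner ℂ (S.W b (S.Pp 0 (S.Z η))) (S.W 0 (T x)) : ℂ)
        (inner ℂ (S.W (-b) (S.Pm 0 (S.Z η))) (S.W 0 (T x)) : ℂ)
      have h7 : (2 + 48 * B / |κ|) * c * ε ≤ C * c * ε := by gcongr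
      have h8 : 0 ≤ B / |κ| * c * ε := by positivity
      have h9 : 12 * B / |κ| * c * ε = 12 * (B / |κ| * c * ε) := by ring
      have h10 : (2 + 48 * B / |κ|) * c * ε = 2 * c * ε + 48 * (B / |κ| * c * ε) := by ring
      linarith
  · refine (lab_diff S κ ε τ hε hε1 hτ hee).trans ?_
    refine mul_le_mul_of_nonneg_right ?_ hε.le
    linarith
  · refine hx.trans ?_
    apply mul_le_mul_of_nonneg_right _ hε.le
    have : 0 ≤ 5 * |κ| := by positivity
    linarith

end Sys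

end Vale.Agent.P367.A
end

section

/-! P367: preparation of the functional calculus: uniqueness of Fourier transforms of complex
densities, isometric extension of a correspondence of total families. -/

namespace Vale.Agent.P367.NI

open Complex MeasureTheory ProbabilityTheory Filter Topology ComplexConjugate

section uniq

variable {I : Type} [Fintype I]

/-- `exp(i k.z)` -/
noncomputable def ek (k z : I → ℝ) : ℂ := Complex.exp (Complex.I * ((∑ i, k i * z i : ℝ) : ℂ))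

lemma norm_ek (k z : I → ℝ) : ‖ek k z‖ = 1 := by
  unfold ek
  rw [mul_comm, Complex.norm_exp_ofReal_mul_I]

lemma continuous_ek (k : I → ℝ) : Continuous (ek k) := by
  unfold ek
  fun_prop

lemma measurable_ek (k : I → ℝ) : Measurable (ek k) := (continuous_ek k).measurable

lemma conj_ek (k z : I → ℝ) : conj (ek k z) = ek (-k) z := by
  unfold ek
  rw [← Complex.exp_conj, map_mul, Complex.conj_I, Complex.conj_ofReal]
  congr 1
  simp only [Pi.neg_apply, neg_mul, Finset.sum_neg_distrib, ofReal_neg]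
  ring

lemma integrable_mul_bdd {α : Type*} [MeasurableSpace α] {μ : Measure α} {f g : α → ℂ} {C : ℝ}
    (hg : Integrable g μ) (hf : AEStronglyMeasurable f μ) (hC : ∀ᵐ z ∂μ, ‖f z‖ ≤ C) :
    Integrable (fun z => f z * g z) μ :=
  hg.bdd_mul hf hC

lemma integrable_conj' {α : Type*} [MeasurableSpace α] {μ : Measure α} {g : α → ℂ}
    (hg : Integrable g μ) : Integrable (fun z => conj (g z)) μ :=
  hg.mono (Complex.continuous_conj.comp_aestronglyMeasurable hg.1)
    (Eventually.of_forall fun z => (Complex.norm_conj _).le)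

lemma integrable_ek_mul {μ : Measure (I → ℝ)} {g : (I → ℝ) → ℂ} (hg : Integrable g μ)
    (k : I → ℝ) : Integrable (fun z => ek k z * g z) μ :=
  integrable_mul_bdd hg (measurable_ek k).aestronglyMeasurable
    (C := 1) (Eventually.of_forall fun z => (norm_ek k z).le)

omit [Fintype I] in
lemma integral_wd_ofReal {μ : Measure (I → ℝ)} {a : (I → ℝ) → ℝ} (ha : AEMeasurable a μ)
    (f : (I → ℝ) → ℂ) : ∫ z, f z ∂(μ.withDensity fun z => ENNReal.ofReal (a z))
      = ∫ z, ((max (a z) 0 : ℝ) : ℂ) * f z ∂μ := by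
  have h := integral_withDensity_eq_integral_smul₀ (μ := μ) (f := fun z => Real.toNNReal (a z))
    ha.real_toNNReal f
  have e : (fun z => ENNReal.ofReal (a z)) = fun z => ((Real.toNNReal (a z) : NNReal) : ENNReal) := rfl
  rw [e, h]
  refine integral_congr_ae (Eventually.of_forall fun z => ?_)
  simp only [NNReal.smul_def, Real.coe_toNNReal', Complex.real_smul]

/-- uniqueness, real densities -/
lemma uniq_real {μ ν : Measure (I → ℝ)} [IsFiniteMeasure μ] [IsFiniteMeasure ν]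
    {a b : (I → ℝ) → ℝ} (ha : Integrable a μ) (hb : Integrable b ν)
    (H : ∀ k : I → ℝ, ∫ z, ek k z * ((a z : ℝ) : ℂ) ∂μ = ∫ z, ek k z * ((b z : ℝ) : ℂ) ∂ν)
    {f : (I → ℝ) → ℂ} (hf : Measurable f) {C : ℝ} (hC : ∀ z, ‖f z‖ ≤ C) :
    ∫ z, f z * ((a z : ℝ) : ℂ) ∂μ = ∫ z, f z * ((b z : ℝ) : ℂ) ∂ν := by
  classical
  set m1 : Measure (I → ℝ) := μ.withDensity (fun z => ENNReal.ofReal (a z))
    + ν.withDensity (fun z => ENNReal.ofReal (-b z)) with hm1
  set m2 : Measure (I → ℝ) := μ.withDensity (fun z => ENNReal.ofReal (-a z))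
    + ν.withDensity (fun z => ENNReal.ofReal (b z)) with hm2
  have f1 : IsFiniteMeasure (μ.withDensity fun z => ENNReal.ofReal (a z)) :=
    isFiniteMeasure_withDensity_ofReal ha.2
  have f2 : IsFiniteMeasure (ν.withDensity fun z => ENNReal.ofReal (-b z)) :=
    isFiniteMeasure_withDensity_ofReal hb.neg.2
  have f3 : IsFiniteMeasure (μ.withDensity fun z => ENNReal.ofReal (-a z)) :=
    isFiniteMeasure_withDensity_ofReal ha.neg.2
  have f4 : IsFiniteMeasure (ν.withDensity fun z => ENNReal.ofReal (b z)) :=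
    isFiniteMeasure_withDensity_ofReal hb.2
  -- integrals of a bounded function
  have key : ∀ g : (I → ℝ) → ℂ, Measurable g → ∀ C : ℝ, (∀ z, ‖g z‖ ≤ C) →
      ∫ z, g z ∂m1 - ∫ z, g z ∂m2
        = ∫ z, g z * ((a z : ℝ) : ℂ) ∂μ - ∫ z, g z * ((b z : ℝ) : ℂ) ∂ν := by
    intro g hg D hD
    have ig : ∀ (κ : Measure (I → ℝ)) [IsFiniteMeasure κ], Integrable g κ := fun κ _ =>
      Integrable.of_bound hg.aestronglyMeasurable D (Eventually.of_forall hD)
    have ia : ∀ {κ : Measure (I → ℝ)} {c : (I → ℝ) → ℝ}, Integrable c κ →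
        Integrable (fun z => ((max (c z) 0 : ℝ) : ℂ) * g z) κ := by
      intro κ c hc
      have h1 : Integrable (fun z => ((max (c z) 0 : ℝ) : ℂ)) κ := hc.pos_part.ofReal
      have h2 := integrable_mul_bdd h1 (f := g) hg.aestronglyMeasurable (C := D)
        (Eventually.of_forall hD)
      refine h2.congr (Eventually.of_forall fun z => ?_)
      simp only
      ring
    rw [hm1, hm2, integral_add_measure (ig _) (ig _), integral_add_measure (ig _) (ig _),
      integral_wd_ofReal ha.1.aemeasurable,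
      integral_wd_ofReal (a := fun z => -b z) hb.neg.1.aemeasurable,
      integral_wd_ofReal (a := fun z => -a z) ha.neg.1.aemeasurable,
      integral_wd_ofReal hb.1.aemeasurable]
    have e1 : ∫ z, ((max (a z) 0 : ℝ) : ℂ) * g z ∂μ - ∫ z, ((max (-a z) 0 : ℝ) : ℂ) * g z ∂μ
        = ∫ z, g z * ((a z : ℝ) : ℂ) ∂μ := by
      have hna : Integrable (fun z => -a z) μ := ha.neg
      rw [← integral_sub (ia ha) (ia hna)]
      refine integral_congr_ae (Eventually.of_forall fun z => ?_)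
      simp only
      rw [← sub_mul, ← Complex.ofReal_sub]
      have : max (a z) 0 - max (-a z) 0 = a z := by
        rcases le_total 0 (a z) with h | h
        · rw [max_eq_left h, max_eq_right (by linarith)]; ring
        · rw [max_eq_right h, max_eq_left (by linarith)]; ring
      rw [this]
      ring
    have e2 : ∫ z, ((max (b z) 0 : ℝ) : ℂ) * g z ∂ν - ∫ z, ((max (-b z) 0 : ℝ) : ℂ) * g z ∂ν
        = ∫ z, g z * ((b z : ℝ) : ℂ) ∂ν := by
      have hnb : Integrable (fun z => -b z) ν := hb.neg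
      rw [← integral_sub (ia hb) (ia hnb)]
      refine integral_congr_ae (Eventually.of_forall fun z => ?_)
      simp only
      rw [← sub_mul, ← Complex.ofReal_sub]
      have : max (b z) 0 - max (-b z) 0 = b z := by
        rcases le_total 0 (b z) with h | h
        · rw [max_eq_left h, max_eq_right (by linarith)]; ring
        · rw [max_eq_right h, max_eq_left (by linarith)]; ring
      rw [this]
      ring
    rw [← e1, ← e2]
    ring
  have hm : m1 = m2 := by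
    apply Measure.ext_of_charFunDual
    ext L
    rw [charFunDual_apply, charFunDual_apply]
    have hL : ∀ v : I → ℝ, Complex.exp ((L v : ℝ) * Complex.I) = ek (fun i => L (Pi.single i 1)) v := by
      intro v
      unfold ek
      rw [mul_comm]
      congr 3
      have hv : v = ∑ i, v i • (Pi.single i (1 : ℝ) : I → ℝ) := by
        ext j
        simp [Finset.sum_apply, Pi.single_apply]
      conv_lhs => rw [hv]
      rw [map_sum]
      refine Finset.sum_congr rfl fun i _ => ?_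
      rw [map_smul, smul_eq_mul, mul_comm]
    simp_rw [hL]
    have h1 := key (ek fun i => L (Pi.single i 1)) (measurable_ek _) 1 (fun z => (norm_ek _ z).le)
    rw [H, sub_self] at h1
    exact sub_eq_zero.1 h1
  have h2 := key f hf C hC
  rw [hm, sub_self] at h2
  exact (sub_eq_zero.1 h2.symm)

/-- **uniqueness** of the Fourier transform of complex densities -/
theorem uniq {μ ν : Measure (I → ℝ)} [IsFiniteMeasure μ] [IsFiniteMeasure ν]
    {g h : (I → ℝ) → ℂ} (hg : Integrable g μ) (hh : Integrable h ν)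
    (H : ∀ k : I → ℝ, ∫ z, ek k z * g z ∂μ = ∫ z, ek k z * h z ∂ν)
    {f : (I → ℝ) → ℂ} (hf : Measurable f) {C : ℝ} (hC : ∀ z, ‖f z‖ ≤ C) :
    ∫ z, f z * g z ∂μ = ∫ z, f z * h z ∂ν := by
  have hconj : ∀ (κ : Measure (I → ℝ)) (u : (I → ℝ) → ℂ) (k : I → ℝ),
      ∫ z, ek k z * conj (u z) ∂κ = conj (∫ z, ek (-k) z * u z ∂κ) := by
    intro κ u k
    rw [← integral_conj]
    refine integral_congr_ae (Eventually.of_forall fun z => ?_)
    simp only [map_mul, conj_ek, neg_neg]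
  have hre : ∀ k : I → ℝ, ∫ z, ek k z * (((g z).re : ℝ) : ℂ) ∂μ
      = ∫ z, ek k z * (((h z).re : ℝ) : ℂ) ∂ν := by
    intro k
    have e : ∀ (κ : Measure (I → ℝ)) (u : (I → ℝ) → ℂ), Integrable u κ →
        ∫ z, ek k z * (((u z).re : ℝ) : ℂ) ∂κ
          = (∫ z, ek k z * u z ∂κ + conj (∫ z, ek (-k) z * u z ∂κ)) / 2 := by
      intro κ u hu
      rw [← hconj, ← integral_add (integrable_ek_mul hu k)
        (integrable_ek_mul (integrable_conj' hu) k), ← integral_div]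
      refine integral_congr_ae (Eventually.of_forall fun z => ?_)
      simp only
      rw [← mul_add, Complex.add_conj]
      push_cast
      ring
    rw [e μ g hg, e ν h hh, H, H]
  have him : ∀ k : I → ℝ, ∫ z, ek k z * (((g z).im : ℝ) : ℂ) ∂μ
      = ∫ z, ek k z * (((h z).im : ℝ) : ℂ) ∂ν := by
    intro k
    have e : ∀ (κ : Measure (I → ℝ)) (u : (I → ℝ) → ℂ), Integrable u κ →
        ∫ z, ek k z * (((u z).im : ℝ) : ℂ) ∂κ
          = (∫ z, ek k z * u z ∂κ - conj (∫ z, ek (-k) z * u z ∂κ)) / (2 * Complex.I) := by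
      intro κ u hu
      rw [← hconj, ← integral_sub (integrable_ek_mul hu k)
        (integrable_ek_mul (integrable_conj' hu) k), ← integral_div]
      refine integral_congr_ae (Eventually.of_forall fun z => ?_)
      simp only
      rw [← mul_sub, Complex.sub_conj]
      have hI : (2 * Complex.I) ≠ 0 := by simp
      field_simp
      push_cast
      ring
    rw [e μ g hg, e ν h hh, H, H]
  have r1 := uniq_real hg.re hh.re hre hf hC
  have r2 := uniq_real hg.im hh.im him hf hC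
  have e : ∀ (κ : Measure (I → ℝ)) (u : (I → ℝ) → ℂ), Integrable u κ →
      ∫ z, f z * u z ∂κ = ∫ z, f z * (((u z).re : ℝ) : ℂ) ∂κ
        + Complex.I * ∫ z, f z * (((u z).im : ℝ) : ℂ) ∂κ := by
    intro κ u hu
    have i1 : Integrable (fun z => f z * (((u z).re : ℝ) : ℂ)) κ :=
      integrable_mul_bdd hu.re.ofReal hf.aestronglyMeasurable (Eventually.of_forall hC)
    have i2 : Integrable (fun z => f z * (((u z).im : ℝ) : ℂ)) κ :=
      integrable_mul_bdd hu.im.ofReal hf.aestronglyMeasurable (Eventually.of_forall hC)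
    rw [← integral_const_mul, ← integral_add i1 (i2.const_mul _)]
    refine integral_congr_ae (Eventually.of_forall fun z => ?_)
    simp only
    conv_lhs => rw [← Complex.re_add_im (u z)]
    ring
  rw [e μ g hg, e ν h hh]
  exact congrArg₂ (fun x y => x + Complex.I * y) r1 r2

omit [Fintype I] in
lemma integral_wd_map {Ω : Type*} [MeasurableSpace Ω] {μ : Measure Ω} {a : Ω → ℝ}
    (ha : Integrable a μ) {X : Ω → (I → ℝ)} (hX : Measurable X)
    {f : (I → ℝ) → ℂ} (hf : Measurable f) :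
    ∫ z, f z ∂((μ.withDensity fun z => ENNReal.ofReal (a z)).map X)
      = ∫ z, ((max (a z) 0 : ℝ) : ℂ) * f (X z) ∂μ := by
  rw [integral_map hX.aemeasurable hf.aestronglyMeasurable]
  have h := integral_withDensity_eq_integral_smul₀ (μ := μ) (f := fun z => Real.toNNReal (a z))
    ha.1.aemeasurable.real_toNNReal (fun z => f (X z))
  have e : (fun z => ENNReal.ofReal (a z)) = fun z => ((Real.toNNReal (a z) : NNReal) : ENNReal) := rfl
  rw [e, h]
  refine integral_congr_ae (Eventually.of_forall fun z => ?_)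
  simp only [NNReal.smul_def, Real.coe_toNNReal', Complex.real_smul]

section two

variable {Ω₁ Ω₂ : Type*} [MeasurableSpace Ω₁] [MeasurableSpace Ω₂]

lemma uniq2_real {μ : Measure Ω₁} {ν : Measure Ω₂} [IsFiniteMeasure μ] [IsFiniteMeasure ν]
    {a : Ω₁ → ℝ} {b : Ω₂ → ℝ} (ha : Integrable a μ) (hb : Integrable b ν)
    {X : Ω₁ → (I → ℝ)} {Y : Ω₂ → (I → ℝ)} (hX : Measurable X) (hY : Measurable Y)
    (H : ∀ k : I → ℝ, ∫ z, ek k (X z) * ((a z : ℝ) : ℂ) ∂μ
      = ∫ z, ek k (Y z) * ((b z : ℝ) : ℂ) ∂ν)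
    {f : (I → ℝ) → ℂ} (hf : Measurable f) {C : ℝ} (hC : ∀ z, ‖f z‖ ≤ C) :
    ∫ z, f (X z) * ((a z : ℝ) : ℂ) ∂μ = ∫ z, f (Y z) * ((b z : ℝ) : ℂ) ∂ν := by
  classical
  have hna : Integrable (fun z => -a z) μ := ha.neg
  have hnb : Integrable (fun z => -b z) ν := hb.neg
  set m1 : Measure (I → ℝ) := (μ.withDensity (fun z => ENNReal.ofReal (a z))).map X
    + (ν.withDensity (fun z => ENNReal.ofReal (-b z))).map Y with hm1
  set m2 : Measure (I → ℝ) := (μ.withDensity (fun z => ENNReal.ofReal (-a z))).map X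
    + (ν.withDensity (fun z => ENNReal.ofReal (b z))).map Y with hm2
  have f1 : IsFiniteMeasure (μ.withDensity fun z => ENNReal.ofReal (a z)) :=
    isFiniteMeasure_withDensity_ofReal ha.2
  have f2 : IsFiniteMeasure (ν.withDensity fun z => ENNReal.ofReal (-b z)) :=
    isFiniteMeasure_withDensity_ofReal hnb.2
  have f3 : IsFiniteMeasure (μ.withDensity fun z => ENNReal.ofReal (-a z)) :=
    isFiniteMeasure_withDensity_ofReal hna.2
  have f4 : IsFiniteMeasure (ν.withDensity fun z => ENNReal.ofReal (b z)) :=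
    isFiniteMeasure_withDensity_ofReal hb.2
  have key : ∀ g : (I → ℝ) → ℂ, Measurable g → ∀ C : ℝ, (∀ z, ‖g z‖ ≤ C) →
      ∫ z, g z ∂m1 - ∫ z, g z ∂m2
        = ∫ z, g (X z) * ((a z : ℝ) : ℂ) ∂μ - ∫ z, g (Y z) * ((b z : ℝ) : ℂ) ∂ν := by
    intro g hg D hD
    have ig : ∀ (κ : Measure (I → ℝ)) [IsFiniteMeasure κ], Integrable g κ := fun κ _ =>
      Integrable.of_bound hg.aestronglyMeasurable D (Eventually.of_forall hD)
    have ia : ∀ {Ω : Type _} [MeasurableSpace Ω] {κ : Measure Ω} {c : Ω → ℝ} {T : Ω → (I → ℝ)},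
        Measurable T → Integrable c κ →
        Integrable (fun z => ((max (c z) 0 : ℝ) : ℂ) * g (T z)) κ := by
      intro Ω _ κ c T hT hc
      have h1 : Integrable (fun z => ((max (c z) 0 : ℝ) : ℂ)) κ := hc.pos_part.ofReal
      have h2 := integrable_mul_bdd h1 (f := fun z => g (T z)) (hg.comp hT).aestronglyMeasurable
        (C := D) (Eventually.of_forall fun z => hD _)
      refine h2.congr (Eventually.of_forall fun z => ?_)
      simp only
      ring
    have ia' : ∀ {κ : Measure Ω₂} {c : Ω₂ → ℝ} {T : Ω₂ → (I → ℝ)},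
        Measurable T → Integrable c κ →
        Integrable (fun z => ((max (c z) 0 : ℝ) : ℂ) * g (T z)) κ := by
      intro κ c T hT hc
      have h1 : Integrable (fun z => ((max (c z) 0 : ℝ) : ℂ)) κ := hc.pos_part.ofReal
      have h2 := integrable_mul_bdd h1 (f := fun z => g (T z)) (hg.comp hT).aestronglyMeasurable
        (C := D) (Eventually.of_forall fun z => hD _)
      refine h2.congr (Eventually.of_forall fun z => ?_)
      simp only
      ring
    rw [hm1, hm2, integral_add_measure (ig _) (ig _), integral_add_measure (ig _) (ig _),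
      integral_wd_map ha hX hg, integral_wd_map (a := fun z => -b z) hnb hY hg,
      integral_wd_map (a := fun z => -a z) hna hX hg, integral_wd_map hb hY hg]
    have e1 : ∫ z, ((max (a z) 0 : ℝ) : ℂ) * g (X z) ∂μ
        - ∫ z, ((max (-a z) 0 : ℝ) : ℂ) * g (X z) ∂μ = ∫ z, g (X z) * ((a z : ℝ) : ℂ) ∂μ := by
      rw [← integral_sub (ia hX ha) (ia hX hna)]
      refine integral_congr_ae (Eventually.of_forall fun z => ?_)
      simp only
      rw [← sub_mul, ← Complex.ofReal_sub]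
      have : max (a z) 0 - max (-a z) 0 = a z := by
        rcases le_total 0 (a z) with h | h
        · rw [max_eq_left h, max_eq_right (by linarith)]; ring
        · rw [max_eq_right h, max_eq_left (by linarith)]; ring
      rw [this]
      ring
    have e2 : ∫ z, ((max (b z) 0 : ℝ) : ℂ) * g (Y z) ∂ν
        - ∫ z, ((max (-b z) 0 : ℝ) : ℂ) * g (Y z) ∂ν = ∫ z, g (Y z) * ((b z : ℝ) : ℂ) ∂ν := by
      rw [← integral_sub (ia' hY hb) (ia' hY hnb)]
      refine integral_congr_ae (Eventually.of_forall fun z => ?_)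
      simp only
      rw [← sub_mul, ← Complex.ofReal_sub]
      have : max (b z) 0 - max (-b z) 0 = b z := by
        rcases le_total 0 (b z) with h | h
        · rw [max_eq_left h, max_eq_right (by linarith)]; ring
        · rw [max_eq_right h, max_eq_left (by linarith)]; ring
      rw [this]
      ring
    rw [← e1, ← e2]
    ring
  have hm : m1 = m2 := by
    apply Measure.ext_of_charFunDual
    ext L
    rw [charFunDual_apply, charFunDual_apply]
    have hL : ∀ v : I → ℝ, Complex.exp ((L v : ℝ) * Complex.I) = ek (fun i => L (Pi.single i 1)) v := by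
      intro v
      unfold ek
      rw [mul_comm]
      congr 3
      have hv : v = ∑ i, v i • (Pi.single i (1 : ℝ) : I → ℝ) := by
        ext j
        simp [Finset.sum_apply, Pi.single_apply]
      conv_lhs => rw [hv]
      rw [map_sum]
      refine Finset.sum_congr rfl fun i _ => ?_
      rw [map_smul, smul_eq_mul, mul_comm]
    simp_rw [hL]
    have h1 := key (ek fun i => L (Pi.single i 1)) (measurable_ek _) 1 (fun z => (norm_ek _ z).le)
    rw [H, sub_self] at h1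
    exact sub_eq_zero.1 h1
  have h2 := key f hf C hC
  rw [hm, sub_self] at h2
  exact (sub_eq_zero.1 h2.symm)

/-- uniqueness of Fourier transforms of images of complex densities -/
theorem uniq2 {μ : Measure Ω₁} {ν : Measure Ω₂} [IsFiniteMeasure μ] [IsFiniteMeasure ν]
    {g : Ω₁ → ℂ} {h : Ω₂ → ℂ} (hg : Integrable g μ) (hh : Integrable h ν)
    {X : Ω₁ → (I → ℝ)} {Y : Ω₂ → (I → ℝ)} (hX : Measurable X) (hY : Measurable Y)
    (H : ∀ k : I → ℝ, ∫ z, ek k (X z) * g z ∂μ = ∫ z, ek k (Y z) * h z ∂ν)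
    {f : (I → ℝ) → ℂ} (hf : Measurable f) {C : ℝ} (hC : ∀ z, ‖f z‖ ≤ C) :
    ∫ z, f (X z) * g z ∂μ = ∫ z, f (Y z) * h z ∂ν := by
  have iX : ∀ {g : Ω₁ → ℂ}, Integrable g μ → ∀ {f : (I → ℝ) → ℂ}, Measurable f → ∀ {C : ℝ},
      (∀ z, ‖f z‖ ≤ C) → Integrable (fun z => f (X z) * g z) μ := fun hg _ hf _ hC =>
    integrable_mul_bdd hg (hf.comp hX).aestronglyMeasurable (Eventually.of_forall fun z => hC _)
  have iY : ∀ {g : Ω₂ → ℂ}, Integrable g ν → ∀ {f : (I → ℝ) → ℂ}, Measurable f → ∀ {C : ℝ},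
      (∀ z, ‖f z‖ ≤ C) → Integrable (fun z => f (Y z) * g z) ν := fun hg _ hf _ hC =>
    integrable_mul_bdd hg (hf.comp hY).aestronglyMeasurable (Eventually.of_forall fun z => hC _)
  have cX : ∀ (k : I → ℝ), ∫ z, ek k (X z) * conj (g z) ∂μ
      = conj (∫ z, ek (-k) (X z) * g z ∂μ) := by
    intro k
    rw [← integral_conj]
    refine integral_congr_ae (Eventually.of_forall fun z => ?_)
    simp only [map_mul, conj_ek, neg_neg]
  have cY : ∀ (k : I → ℝ), ∫ z, ek k (Y z) * conj (h z) ∂ν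
      = conj (∫ z, ek (-k) (Y z) * h z ∂ν) := by
    intro k
    rw [← integral_conj]
    refine integral_congr_ae (Eventually.of_forall fun z => ?_)
    simp only [map_mul, conj_ek, neg_neg]
  have n1 : ∀ (k z : I → ℝ), ‖ek k z‖ ≤ 1 := fun k z => (norm_ek k z).le
  have hre : ∀ k : I → ℝ, ∫ z, ek k (X z) * (((g z).re : ℝ) : ℂ) ∂μ
      = ∫ z, ek k (Y z) * (((h z).re : ℝ) : ℂ) ∂ν := by
    intro k
    have e1 : ∫ z, ek k (X z) * (((g z).re : ℝ) : ℂ) ∂μ
          = (∫ z, ek k (X z) * g z ∂μ + conj (∫ z, ek (-k) (X z) * g z ∂μ)) / 2 := by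
      rw [← cX, ← integral_add (iX hg (measurable_ek k) (n1 k))
        (iX (integrable_conj' hg) (measurable_ek k) (n1 k)), ← integral_div]
      refine integral_congr_ae (Eventually.of_forall fun z => ?_)
      simp only
      rw [← mul_add, Complex.add_conj]
      push_cast
      ring
    have e2 : ∫ z, ek k (Y z) * (((h z).re : ℝ) : ℂ) ∂ν
          = (∫ z, ek k (Y z) * h z ∂ν + conj (∫ z, ek (-k) (Y z) * h z ∂ν)) / 2 := by
      rw [← cY, ← integral_add (iY hh (measurable_ek k) (n1 k))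
        (iY (integrable_conj' hh) (measurable_ek k) (n1 k)), ← integral_div]
      refine integral_congr_ae (Eventually.of_forall fun z => ?_)
      simp only
      rw [← mul_add, Complex.add_conj]
      push_cast
      ring
    rw [e1, e2, H, H]
  have him : ∀ k : I → ℝ, ∫ z, ek k (X z) * (((g z).im : ℝ) : ℂ) ∂μ
      = ∫ z, ek k (Y z) * (((h z).im : ℝ) : ℂ) ∂ν := by
    intro k
    have hI : (2 * Complex.I) ≠ 0 := by simp
    have e1 : ∫ z, ek k (X z) * (((g z).im : ℝ) : ℂ) ∂μ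
          = (∫ z, ek k (X z) * g z ∂μ - conj (∫ z, ek (-k) (X z) * g z ∂μ)) / (2 * Complex.I) := by
      rw [← cX, ← integral_sub (iX hg (measurable_ek k) (n1 k))
        (iX (integrable_conj' hg) (measurable_ek k) (n1 k)), ← integral_div]
      refine integral_congr_ae (Eventually.of_forall fun z => ?_)
      simp only
      rw [← mul_sub, Complex.sub_conj]
      field_simp
      push_cast
      ring
    have e2 : ∫ z, ek k (Y z) * (((h z).im : ℝ) : ℂ) ∂ν
          = (∫ z, ek k (Y z) * h z ∂ν - conj (∫ z, ek (-k) (Y z) * h z ∂ν)) / (2 * Complex.I) := by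
      rw [← cY, ← integral_sub (iY hh (measurable_ek k) (n1 k))
        (iY (integrable_conj' hh) (measurable_ek k) (n1 k)), ← integral_div]
      refine integral_congr_ae (Eventually.of_forall fun z => ?_)
      simp only
      rw [← mul_sub, Complex.sub_conj]
      field_simp
      push_cast
      ring
    rw [e1, e2, H, H]
  have r1 := uniq2_real hg.re hh.re hX hY hre hf hC
  have r2 := uniq2_real hg.im hh.im hX hY him hf hC
  have e1 : ∫ z, f (X z) * g z ∂μ = ∫ z, f (X z) * (((g z).re : ℝ) : ℂ) ∂μ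
        + Complex.I * ∫ z, f (X z) * (((g z).im : ℝ) : ℂ) ∂μ := by
    have i1 : Integrable (fun z => f (X z) * (((g z).re : ℝ) : ℂ)) μ := iX hg.re.ofReal hf hC
    have i2 : Integrable (fun z => f (X z) * (((g z).im : ℝ) : ℂ)) μ := iX hg.im.ofReal hf hC
    rw [← integral_const_mul, ← integral_add i1 (i2.const_mul _)]
    refine integral_congr_ae (Eventually.of_forall fun z => ?_)
    simp only
    conv_lhs => rw [← Complex.re_add_im (g z)]
    ring
  have e2 : ∫ z, f (Y z) * h z ∂ν = ∫ z, f (Y z) * (((h z).re : ℝ) : ℂ) ∂ν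
        + Complex.I * ∫ z, f (Y z) * (((h z).im : ℝ) : ℂ) ∂ν := by
    have i1 : Integrable (fun z => f (Y z) * (((h z).re : ℝ) : ℂ)) ν := iY hh.re.ofReal hf hC
    have i2 : Integrable (fun z => f (Y z) * (((h z).im : ℝ) : ℂ)) ν := iY hh.im.ofReal hf hC
    rw [← integral_const_mul, ← integral_add i1 (i2.const_mul _)]
    refine integral_congr_ae (Eventually.of_forall fun z => ?_)
    simp only
    conv_lhs => rw [← Complex.re_add_im (h z)]
    ring
  rw [e1, e2]
  exact congrArg₂ (fun x y => x + Complex.I * y) r1 r2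

end two

end uniq

section isom

/-- a correspondence of two families with the same Gram matrix extends to an isometry -/
theorem exists_isom {α : Type*} {F G : Type*} [NormedAddCommGroup F] [InnerProductSpace ℂ F]
    [NormedAddCommGroup G] [InnerProductSpace ℂ G] [CompleteSpace G] (u : α → F) (v : α → G)
    (h : ∀ a b, inner ℂ (u a) (u b) = inner ℂ (v a) (v b))
    (hd : (Submodule.span ℂ (Set.range u)).topologicalClosure = ⊤) :
    ∃ U : F →ₗᵢ[ℂ] G, ∀ a, U (u a) = v a := by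
  set L := Finsupp.linearCombination ℂ u with hL
  set M := Finsupp.linearCombination ℂ v with hM
  have hn : ∀ c, ‖M c‖ = ‖L c‖ := by
    intro c
    have h1 : inner ℂ (M c) (M c) = inner ℂ (L c) (L c) := by
      simp only [hL, hM, Finsupp.linearCombination_apply, Finsupp.sum, sum_inner, inner_sum,
        inner_smul_left, inner_smul_right, h]
    rw [inner_self_eq_norm_sq_to_K, inner_self_eq_norm_sq_to_K] at h1
    have h2 : ‖M c‖ ^ 2 = ‖L c‖ ^ 2 := by exact_mod_cast h1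
    exact (sq_eq_sq₀ (norm_nonneg _) (norm_nonneg _)).1 h2
  have hdense : DenseRange L := by
    intro x
    have h1 : x ∈ (Submodule.span ℂ (Set.range u)).topologicalClosure := by rw [hd]; trivial
    have h2 : Set.range L = ((Submodule.span ℂ (Set.range u) : Submodule ℂ F) : Set F) := by
      rw [← Finsupp.range_linearCombination]
      rfl
    rw [h2]
    exact h1
  have hnorm : ∃ C, ∀ x, ‖M x‖ ≤ C * ‖L x‖ := ⟨1, fun x => by rw [hn, one_mul]⟩
  set T := M.extendOfNorm L with hT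
  have hTL : ∀ c, T (L c) = M c := fun c => M.extendOfNorm_eq hdense hnorm c
  refine ⟨{ toLinearMap := T.toLinearMap, norm_map' := ?_ }, ?_⟩
  · intro x
    change ‖T x‖ = ‖x‖
    refine hdense.induction_on x ?_ ?_
    · exact isClosed_eq (by fun_prop) (by fun_prop)
    · intro c
      rw [hTL, hn]
  · intro a
    change T (u a) = v a
    have h1 := hTL (Finsupp.single a 1)
    simpa [hL, hM] using h1

end isom

section gauss

variable {I : Type} [Fintype I]

/-- standard Gaussian on `R^I` -/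
noncomputable abbrev gam (I : Type) [Fintype I] : Measure (I → ℝ) :=
  Measure.pi fun _ : I => gaussianReal 0 1

lemma integrable_cexp_lin (θ η : ℂ) :
    Integrable (fun z : ℝ => Complex.exp (θ * z + η)) (gaussianReal 0 1) := by
  have h1 : Integrable (fun z : ℝ => Real.exp (θ.re * z)) (gaussianReal 0 1) :=
    integrable_exp_mul_gaussianReal θ.re
  have h2 : Integrable (fun z : ℝ => Real.exp (θ.re * z) * Real.exp η.re) (gaussianReal 0 1) :=
    h1.mul_const _
  refine h2.mono (by fun_prop) (Eventually.of_forall fun z => ?_)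
  rw [Complex.norm_exp, ← Real.exp_add, Real.norm_eq_abs, abs_of_pos (Real.exp_pos _)]
  apply le_of_eq
  congr 1
  simp

lemma integral_cexp_lin (θ η : ℂ) :
    ∫ z : ℝ, Complex.exp (θ * z + η) ∂(gaussianReal 0 1) = Complex.exp (θ ^ 2 / 2 + η) := by
  have h := complexMGF_id_gaussianReal (μ := 0) (v := 1) θ
  unfold complexMGF at h
  simp only [id_eq, Complex.ofReal_zero, mul_zero, NNReal.coe_one, Complex.ofReal_one, one_mul,
    zero_add] at h
  simp_rw [Complex.exp_add]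
  rw [integral_mul_const, h]

lemma integrable_cexp_pi (θ η : I → ℂ) :
    Integrable (fun z : I → ℝ => Complex.exp (∑ i, (θ i * z i + η i))) (gam I) := by
  have h : (fun z : I → ℝ => Complex.exp (∑ i, (θ i * z i + η i)))
      = fun z : I → ℝ => ∏ i, Complex.exp (θ i * z i + η i) := by
    funext z
    rw [Complex.exp_sum]
  rw [h]
  exact Integrable.fintype_prod (f := fun i (z : ℝ) => Complex.exp (θ i * z + η i))
    fun i => integrable_cexp_lin _ _

lemma integral_cexp_pi (θ η : I → ℂ) :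
    ∫ z : I → ℝ, Complex.exp (∑ i, (θ i * z i + η i)) ∂(gam I)
      = Complex.exp (∑ i, (θ i ^ 2 / 2 + η i)) := by
  have h : (fun z : I → ℝ => Complex.exp (∑ i, (θ i * z i + η i)))
      = fun z : I → ℝ => ∏ i, Complex.exp (θ i * z i + η i) := by
    funext z
    rw [Complex.exp_sum]
  rw [h, Complex.exp_sum]
  have h2 := integral_fintype_prod_eq_prod (𝕜 := ℂ) (μ := fun _ : I => gaussianReal 0 1)
    (fun i (z : ℝ) => Complex.exp (θ i * z + η i))
  rw [h2]
  exact Finset.prod_congr rfl fun i _ => integral_cexp_lin _ _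

end gauss

end Vale.Agent.P367.NI
end

section

/-! P367: functional calculus of finitely many commuting orthonormal fields of a cyclic Weyl
system. -/

namespace Vale.Agent.P367.NI

open Complex MeasureTheory ProbabilityTheory Filter Topology ComplexConjugate

section BMsec

variable {I : Type} [Fintype I]

/-- bounded measurable -/
def BM (f : (I → ℝ) → ℂ) : Prop := Measurable f ∧ ∃ C : ℝ, ∀ z, ‖f z‖ ≤ C

omit [Fintype I] in
lemma BM.const (c : ℂ) : BM (fun _ : I → ℝ => c) := ⟨measurable_const, ‖c‖, fun _ => le_rfl⟩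

lemma BM.ek (k : I → ℝ) : BM (ek k) := ⟨measurable_ek k, 1, fun z => (norm_ek k z).le⟩

omit [Fintype I] in
lemma BM.add {f g : (I → ℝ) → ℂ} (hf : BM f) (hg : BM g) : BM (fun z => f z + g z) := by
  obtain ⟨h1, C, hC⟩ := hf
  obtain ⟨h2, D, hD⟩ := hg
  exact ⟨h1.add h2, C + D, fun z => (norm_add_le _ _).trans (add_le_add (hC z) (hD z))⟩

omit [Fintype I] in
lemma BM.mul {f g : (I → ℝ) → ℂ} (hf : BM f) (hg : BM g) : BM (fun z => f z * g z) := by
  obtain ⟨h1, C, hC⟩ := hf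
  obtain ⟨h2, D, hD⟩ := hg
  refine ⟨h1.mul h2, C * D, fun z => ?_⟩
  rw [norm_mul]
  exact mul_le_mul (hC z) (hD z) (norm_nonneg _) ((norm_nonneg _).trans (hC z))

omit [Fintype I] in
lemma BM.cmul {f : (I → ℝ) → ℂ} (c : ℂ) (hf : BM f) : BM (fun z => c * f z) :=
  (BM.const c).mul hf

omit [Fintype I] in
lemma BM.neg {f : (I → ℝ) → ℂ} (hf : BM f) : BM (fun z => -f z) := by
  obtain ⟨h1, C, hC⟩ := hf
  exact ⟨h1.neg, C, fun z => by rw [norm_neg]; exact hC z⟩

omit [Fintype I] in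
lemma BM.sub {f g : (I → ℝ) → ℂ} (hf : BM f) (hg : BM g) : BM (fun z => f z - g z) := by
  have h := hf.add hg.neg
  simpa only [← sub_eq_add_neg] using h

omit [Fintype I] in
lemma BM.conj {f : (I → ℝ) → ℂ} (hf : BM f) : BM (fun z => conj (f z)) := by
  obtain ⟨h1, C, hC⟩ := hf
  exact ⟨Complex.continuous_conj.measurable.comp h1, C, fun z => by
    rw [Complex.norm_conj]; exact hC z⟩

omit [Fintype I] in
lemma BM.comp {J : Type} {f : (I → ℝ) → ℂ} (hf : BM f) {g : (J → ℝ) → (I → ℝ)}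
    (hg : Measurable g) : BM (fun z => f (g z)) := by
  obtain ⟨h1, C, hC⟩ := hf
  exact ⟨h1.comp hg, C, fun z => hC _⟩

omit [Fintype I] in
/-- real bounded measurable functions -/
lemma BM.ofReal {f : (I → ℝ) → ℝ} (hf : Measurable f) {C : ℝ} (hC : ∀ z, |f z| ≤ C) :
    BM (fun z => ((f z : ℝ) : ℂ)) :=
  ⟨Complex.measurable_ofReal.comp hf, C, fun z => by
    rw [Complex.norm_real, Real.norm_eq_abs]; exact hC z⟩

omit [Fintype I] in
lemma BM.memLp {f : (I → ℝ) → ℂ} (hf : BM f) (μ : Measure (I → ℝ)) : MemLp f ⊤ μ := by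
  obtain ⟨h1, C, hC⟩ := hf
  exact memLp_top_of_bound h1.aestronglyMeasurable C (Eventually.of_forall hC)

end BMsec

section mulLsec

variable {I : Type} [Fintype I] {F : Type} [NormedAddCommGroup F] [InnerProductSpace ℂ F]

/-- multiplication operator on `L2(gamma; F)` -/
noncomputable def mulL {f : (I → ℝ) → ℂ} (hf : BM f) :
    Lp F 2 (gam I) →L[ℂ] Lp F 2 (gam I) :=
  LinearMap.mkContinuous
    { toFun := fun g => ((hf.memLp (gam I)).toLp f : Lp ℂ ⊤ (gam I)) • g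
      map_add' := fun g1 g2 => MeasureTheory.Lp.add_smul _ _ _
      map_smul' := fun c g => by
        rw [RingHom.id_apply]
        apply Lp.ext
        have h1 := MeasureTheory.Lp.coeFn_lpSMul (r := 2) ((hf.memLp (gam I)).toLp f) (c • g)
        have h2 := MeasureTheory.Lp.coeFn_lpSMul (r := 2) ((hf.memLp (gam I)).toLp f) g
        have h3 := Lp.coeFn_smul c g
        have h4 := Lp.coeFn_smul c (((hf.memLp (gam I)).toLp f : Lp ℂ ⊤ (gam I)) • g : Lp F 2 (gam I))
        filter_upwards [h1, h2, h3, h4] with z e1 e2 e3 e4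
        rw [e1, e4, Pi.smul_apply', Pi.smul_apply, e2, e3, Pi.smul_apply, Pi.smul_apply',
          smul_comm] }
    ‖(hf.memLp (gam I)).toLp f‖ (fun g => MeasureTheory.Lp.norm_smul_le _ _)

lemma coe_mulL {f : (I → ℝ) → ℂ} (hf : BM f) (g : Lp F 2 (gam I)) :
    mulL hf g =ᵐ[gam I] fun z => f z • g z := by
  have h1 := MeasureTheory.Lp.coeFn_lpSMul (r := 2) ((hf.memLp (gam I)).toLp f) g
  have h2 := (hf.memLp (gam I)).coeFn_toLp
  filter_upwards [h1, h2] with z e1 e2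
  change (((hf.memLp (gam I)).toLp f : Lp ℂ ⊤ (gam I)) • g : Lp F 2 (gam I)) z = _
  rw [e1, Pi.smul_apply', e2]

lemma mulL_mul {f g : (I → ℝ) → ℂ} (hf : BM f) (hg : BM g) (x : Lp F 2 (gam I)) :
    mulL (hf.mul hg) x = mulL hf (mulL hg x) := by
  apply Lp.ext
  filter_upwards [coe_mulL (hf.mul hg) x, coe_mulL hf (mulL hg x), coe_mulL hg x] with z e1 e2 e3
  rw [e1, e2, e3, smul_smul]

lemma inner_mulL {f : (I → ℝ) → ℂ} (hf : BM f) (x y : Lp F 2 (gam I)) :
    inner ℂ x (mulL hf y) = ∫ z, f z * inner ℂ (x z) (y z) ∂(gam I) := by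
  rw [L2.inner_def]
  refine integral_congr_ae ?_
  filter_upwards [coe_mulL hf y] with z e1
  rw [e1, inner_smul_right]

lemma norm_mulL_le {f : (I → ℝ) → ℂ} (hf : BM f) {C : ℝ} (hC : ∀ᵐ z ∂(gam I), ‖f z‖ ≤ C)
    (x : Lp F 2 (gam I)) : ‖mulL hf x‖ ≤ C * ‖x‖ := by
  refine Lp.norm_le_mul_norm_of_ae_le_mul ?_
  filter_upwards [coe_mulL hf x, hC] with z e1 e2
  rw [e1, norm_smul]
  exact mul_le_mul_of_nonneg_right e2 (norm_nonneg _)

lemma mulL_congr {f g : (I → ℝ) → ℂ} (hf : BM f) (hg : BM g) (h : f =ᵐ[gam I] g)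
    (x : Lp F 2 (gam I)) : mulL hf x = mulL hg x := by
  apply Lp.ext
  filter_upwards [coe_mulL hf x, coe_mulL hg x, h] with z e1 e2 e3
  rw [e1, e2, e3]

/-- dominated convergence for multiplication operators -/
lemma tendsto_mulL {f : ℕ → (I → ℝ) → ℂ} {g : (I → ℝ) → ℂ} (hf : ∀ n, BM (f n)) (hg : BM g)
    {C : ℝ} (hC : ∀ n, ∀ z, ‖f n z‖ ≤ C) (h : ∀ᵐ z ∂(gam I), Tendsto (fun n => f n z) atTop (𝓝 (g z)))
    (x : Lp F 2 (gam I)) : Tendsto (fun n => mulL (hf n) x) atTop (𝓝 (mulL hg x)) := by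
  obtain ⟨D, hD⟩ := hg.2
  rw [tendsto_iff_norm_sub_tendsto_zero]
  have h1 : ∀ n, ‖mulL (hf n) x - mulL hg x‖ ^ 2 = ∫ z, ‖(f n z - g z) • x z‖ ^ 2 ∂(gam I) := by
    intro n
    have h2 : ‖mulL (hf n) x - mulL hg x‖ ^ 2
        = ∫ z, ‖(mulL (hf n) x - mulL hg x : Lp F 2 (gam I)) z‖ ^ 2 ∂(gam I) := by
      have h3 := L2.inner_def (𝕜 := ℂ) (mulL (hf n) x - mulL hg x) (mulL (hf n) x - mulL hg x)
      rw [inner_self_eq_norm_sq_to_K] at h3
      have h4 : ((‖mulL (hf n) x - mulL hg x‖ ^ 2 : ℝ) : ℂ)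
          = ((∫ z, ‖(mulL (hf n) x - mulL hg x : Lp F 2 (gam I)) z‖ ^ 2 ∂(gam I) : ℝ) : ℂ) := by
        rw [← integral_complex_ofReal]
        push_cast
        refine h3.trans ?_
        refine integral_congr_ae (Eventually.of_forall fun z => ?_)
        simp only
        rw [inner_self_eq_norm_sq_to_K]
        rfl
      exact_mod_cast h4
    rw [h2]
    refine integral_congr_ae ?_
    filter_upwards [coe_mulL (hf n) x, coe_mulL hg x,
      Lp.coeFn_sub (mulL (hf n) x) (mulL hg x)] with z e1 e2 e3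
    rw [e3, Pi.sub_apply, e1, e2, sub_smul]
  have h5 : Tendsto (fun n => ‖mulL (hf n) x - mulL hg x‖ ^ 2) atTop (𝓝 0) := by
    simp_rw [h1]
    have h6 : (0 : ℝ) = ∫ _ : I → ℝ, (0 : ℝ) ∂(gam I) := by simp
    rw [h6]
    refine tendsto_integral_of_dominated_convergence
      (fun z => (C + D) ^ 2 * ‖x z‖ ^ 2) (fun n => ?_) ?_ (fun n => ?_) ?_
    · have m1 : AEStronglyMeasurable (fun z => f n z - g z) (gam I) :=
        ((hf n).1.sub hg.1).aestronglyMeasurable
      exact ((m1.smul (Lp.aestronglyMeasurable x)).norm.pow 2)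
    · exact ((memLp_two_iff_integrable_sq_norm (Lp.aestronglyMeasurable x)).1 (Lp.memLp x)).const_mul _
    · refine Eventually.of_forall fun z => ?_
      rw [Real.norm_eq_abs, abs_of_nonneg (by positivity), norm_smul, mul_pow]
      have : ‖f n z - g z‖ ≤ C + D := (norm_sub_le _ _).trans (add_le_add (hC n z) (hD z))
      gcongr
    · filter_upwards [h] with z hz
      have h7 : Tendsto (fun n => (f n z - g z) • x z) atTop (𝓝 0) := by
        have h8 := (hz.sub_const (g z)).smul_const (x z)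
        rwa [sub_self, zero_smul] at h8
      have h9 := (h7.norm).pow 2
      simpa using h9
  have h10 := h5.sqrt
  rw [Real.sqrt_zero] at h10
  refine h10.congr fun n => ?_
  rw [Real.sqrt_sq (norm_nonneg _)]

end mulLsec

variable {F K : Type} [NormedAddCommGroup F] [InnerProductSpace ℂ F]
  [NormedAddCommGroup K] [InnerProductSpace ℂ K]

/-- real combinations of the fields -/
noncomputable def lc {I : Type} [Fintype I] (w : I → K) (k : I → ℝ) : K :=
  ∑ i, ((k i : ℝ) : ℂ) • w i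

section lcsec

variable {I : Type} [Fintype I] (w : I → K)

lemma lc_add (k l : I → ℝ) : lc w (k + l) = lc w k + lc w l := by
  unfold lc
  rw [← Finset.sum_add_distrib]
  refine Finset.sum_congr rfl fun i _ => ?_
  rw [Pi.add_apply, ofReal_add, add_smul]

lemma lc_neg (k : I → ℝ) : lc w (-k) = -lc w k := by
  unfold lc
  rw [← Finset.sum_neg_distrib]
  refine Finset.sum_congr rfl fun i _ => ?_
  rw [Pi.neg_apply, ofReal_neg, neg_smul]

lemma lc_single [DecidableEq I] (i : I) (c : ℝ) : lc w (Pi.single i c) = ((c : ℝ) : ℂ) • w i := by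
  unfold lc
  rw [Finset.sum_eq_single i]
  · simp
  · intro j _ hj
    simp [hj]
  · simp

/-- component of `a` orthogonal to the fields -/
noncomputable def perp (a : K) : K := a - ∑ i, (inner ℂ (w i) a : ℂ) • w i

variable {w} (hw : Orthonormal ℂ w)

include hw

lemma inner_w_perp (i : I) (a : K) : inner ℂ (w i) (perp w a) = 0 := by
  classical
  unfold perp
  rw [inner_sub_right, inner_sum]
  have h : ∀ j, inner ℂ (w i) ((inner ℂ (w j) a : ℂ) • w j) = if i = j then inner ℂ (w i) a else 0 := by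
    intro j
    rw [inner_smul_right, orthonormal_iff_ite.1 hw]
    by_cases hij : i = j
    · subst hij; simp
    · simp [hij]
  simp only [h, Finset.sum_ite_eq, Finset.mem_univ, if_true, sub_self]

lemma inner_decomp (a b : K) : inner ℂ a b
    = ∑ i, conj (inner ℂ (w i) a : ℂ) * inner ℂ (w i) b + inner ℂ (perp w a) (perp w b) := by
  have ha : a = perp w a + ∑ i, (inner ℂ (w i) a : ℂ) • w i := by unfold perp; abel
  have h1 : inner ℂ (perp w a) b = inner ℂ (perp w a) (perp w b) := by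
    have hb : b = perp w b + ∑ i, (inner ℂ (w i) b : ℂ) • w i := by unfold perp; abel
    conv_lhs => rw [hb]
    rw [inner_add_right, inner_sum]
    have h2 : ∀ i, inner ℂ (perp w a) ((inner ℂ (w i) b : ℂ) • w i) = 0 := by
      intro i
      rw [inner_smul_right, ← inner_conj_symm (perp w a) (w i), inner_w_perp hw, map_zero,
        mul_zero]
    simp [h2]
  conv_lhs => rw [ha]
  rw [inner_add_left, h1, sum_inner, add_comm]
  congr 1
  refine Finset.sum_congr rfl fun i _ => ?_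
  rw [inner_smul_left]

lemma perp_lc (k : I → ℝ) : perp w (lc w k) = 0 := by
  classical
  unfold perp
  have h : ∀ i, inner ℂ (w i) (lc w k) = ((k i : ℝ) : ℂ) := by
    intro i
    unfold lc
    rw [inner_sum, Finset.sum_eq_single i]
    · rw [inner_smul_right, orthonormal_iff_ite.1 hw, if_pos rfl, mul_one]
    · intro j _ hj
      rw [inner_smul_right, orthonormal_iff_ite.1 hw, if_neg (Ne.symm hj), mul_zero]
    · simp
  simp only [h]
  unfold lc
  rw [sub_self]

lemma inner_w_lc (i : I) (k : I → ℝ) : inner ℂ (w i) (lc w k) = ((k i : ℝ) : ℂ) := by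
  classical
  unfold lc
  rw [inner_sum, Finset.sum_eq_single i]
  · rw [inner_smul_right, orthonormal_iff_ite.1 hw, if_pos rfl, mul_one]
  · intro j _ hj
    rw [inner_smul_right, orthonormal_iff_ite.1 hw, if_neg (Ne.symm hj), mul_zero]
  · simp

omit hw in
lemma perp_add (a b : K) : perp w (a + b) = perp w a + perp w b := by
  unfold perp
  simp only [inner_add_right, add_smul, Finset.sum_add_distrib]
  abel

lemma perp_add_lc (a : K) (k : I → ℝ) : perp w (a + lc w k) = perp w a := by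
  rw [perp_add, perp_lc hw, add_zero]

end lcsec

namespace Weyl

variable (S : Weyl F K) {I : Type} [Fintype I]

/-- Schrodinger wave function of the coherent vector `W a Om` in the variables of the fields -/
noncomputable def psw (w : I → K) (a : K) (z : I → ℝ) : ℂ :=
  Complex.exp (∑ i, (Complex.I * inner ℂ (w i) a * z i
    + Complex.I * inner ℂ (w i) a * ((inner ℂ (w i) a : ℂ).im : ℂ)))

lemma measurable_psw (w : I → K) (a : K) : Measurable (psw w a) := by
  unfold psw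
  fun_prop

lemma integrable_psw_mul (w : I → K) (a b : K) :
    Integrable (fun z => conj (psw w a z) * psw w b z) (gam I) := by
  have h := integrable_cexp_pi (I := I)
    (fun i => -(Complex.I * conj (inner ℂ (w i) a : ℂ)) + Complex.I * inner ℂ (w i) b)
    (fun i => -(Complex.I * conj (inner ℂ (w i) a : ℂ) * ((inner ℂ (w i) a : ℂ).im : ℂ))
      + Complex.I * inner ℂ (w i) b * ((inner ℂ (w i) b : ℂ).im : ℂ))
  refine h.congr (Eventually.of_forall fun z => ?_)
  simp only [psw]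
  rw [← Complex.exp_conj, ← Complex.exp_add, map_sum, ← Finset.sum_add_distrib]
  congr 1
  refine Finset.sum_congr rfl fun i _ => ?_
  simp only [map_add, map_mul, Complex.conj_I, Complex.conj_ofReal]
  ring

lemma memLp_psw (w : I → K) (a : K) (c : F) :
    MemLp (fun z => psw w a z • c) 2 (gam I) := by
  have hm : AEStronglyMeasurable (fun z => psw w a z • c) (gam I) :=
    ((measurable_psw w a).stronglyMeasurable.smul_const c).aestronglyMeasurable
  rw [memLp_two_iff_integrable_sq_norm hm]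
  have h := ((integrable_psw_mul w a a).norm).mul_const (‖c‖ ^ 2)
  refine h.congr (Eventually.of_forall fun z => ?_)
  simp only
  rw [norm_smul, norm_mul, Complex.norm_conj]
  ring

/-- image of the coherent vector in `L2(gamma; F)` -/
noncomputable def vv (w : I → K) (a : K) : Lp F 2 (gam I) :=
  (memLp_psw w a (S.W (perp w a) S.Om)).toLp _

lemma coe_vv (w : I → K) (a : K) : S.vv w a =ᵐ[gam I] fun z => psw w a z • S.W (perp w a) S.Om :=
  MemLp.coeFn_toLp _

lemma integral_psw_mul (w : I → K) (a b : K) : ∫ z, conj (psw w a z) * psw w b z ∂(gam I)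
    = Complex.exp (∑ i, (Complex.I * ((conj (inner ℂ (w i) a : ℂ) * inner ℂ (w i) b).im : ℂ)
      - ((‖(inner ℂ (w i) b : ℂ) - inner ℂ (w i) a‖ ^ 2 / 2 : ℝ) : ℂ))) := by
  have h := integral_cexp_pi (I := I)
    (fun i => -(Complex.I * conj (inner ℂ (w i) a : ℂ)) + Complex.I * inner ℂ (w i) b)
    (fun i => -(Complex.I * conj (inner ℂ (w i) a : ℂ) * ((inner ℂ (w i) a : ℂ).im : ℂ))
      + Complex.I * inner ℂ (w i) b * ((inner ℂ (w i) b : ℂ).im : ℂ))
  have h2 : ∀ z : I → ℝ, conj (psw w a z) * psw w b z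
      = Complex.exp (∑ i, ((-(Complex.I * conj (inner ℂ (w i) a : ℂ))
        + Complex.I * inner ℂ (w i) b) * z i
        + (-(Complex.I * conj (inner ℂ (w i) a : ℂ) * ((inner ℂ (w i) a : ℂ).im : ℂ))
        + Complex.I * inner ℂ (w i) b * ((inner ℂ (w i) b : ℂ).im : ℂ)))) := by
    intro z
    simp only [psw]
    rw [← Complex.exp_conj, ← Complex.exp_add, map_sum, ← Finset.sum_add_distrib]
    congr 1
    refine Finset.sum_congr rfl fun i _ => ?_
    simp only [map_add, map_mul, Complex.conj_I, Complex.conj_ofReal]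
    ring
  simp_rw [h2]
  rw [h]
  congr 1
  refine Finset.sum_congr rfl fun i _ => ?_
  generalize (inner ℂ (w i) a : ℂ) = α
  generalize (inner ℂ (w i) b : ℂ) = β
  have hn : (‖β - α‖ ^ 2 : ℝ) = (β.re - α.re) ^ 2 + (β.im - α.im) ^ 2 := by
    rw [← Complex.normSq_eq_norm_sq, Complex.normSq_apply]
    simp
    ring
  rw [hn]
  apply Complex.ext
  · simp [pow_two]
    ring
  · simp [pow_two]
    ring

lemma inner_vv {w : I → K} (hw : Orthonormal ℂ w) (a b : K) :
    inner ℂ (S.W a S.Om) (S.W b S.Om) = inner ℂ (S.vv w a) (S.vv w b) := by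
  rw [L2.inner_def]
  have h1 : ∫ z, inner ℂ (S.vv w a z) (S.vv w b z) ∂(gam I)
      = ∫ z, (conj (psw w a z) * psw w b z) * inner ℂ (S.W (perp w a) S.Om)
        (S.W (perp w b) S.Om) ∂(gam I) := by
    refine integral_congr_ae ?_
    filter_upwards [S.coe_vv w a, S.coe_vv w b] with z e1 e2
    rw [e1, e2, inner_smul_left, inner_smul_right]
    ring
  rw [h1, integral_mul_const, integral_psw_mul, S.inner_W_W, S.inner_W_W, ← Complex.exp_add]
  congr 1
  have h2 := inner_decomp hw a b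
  have h3 : ‖b - a‖ ^ 2 = ∑ i, ‖(inner ℂ (w i) b : ℂ) - inner ℂ (w i) a‖ ^ 2
      + ‖perp w b - perp w a‖ ^ 2 := by
    have h4 := inner_decomp hw (b - a) (b - a)
    have h5 : perp w (b - a) = perp w b - perp w a := by
      have h6 := perp_add (w := w) (b - a) a
      rw [sub_add_cancel] at h6
      rw [h6]
      abel
    rw [h5, inner_self_eq_norm_sq_to_K, inner_self_eq_norm_sq_to_K] at h4
    have h7 := congrArg Complex.re h4
    simp only [inner_sub_right, Complex.add_re, Complex.re_sum] at h7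
    have h8 : ∀ r : ℝ, (((r : ℝ) : ℂ) ^ 2).re = r ^ 2 := by
      intro r
      rw [← Complex.ofReal_pow, Complex.ofReal_re]
    have h9 : ∀ u : ℂ, (conj u * u).re = ‖u‖ ^ 2 := by
      intro u
      rw [mul_comm, Complex.mul_conj, Complex.ofReal_re, Complex.normSq_eq_norm_sq]
    simp only [h9] at h7
    have h10 := h8 ‖b - a‖
    have h11 := h8 ‖perp w b - perp w a‖
    rw [← h10, ← h11]
    exact h7
  rw [h2, h3]
  simp only [Complex.add_im, Complex.im_sum]
  push_cast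
  rw [Finset.sum_sub_distrib, ← Finset.mul_sum, ← Finset.sum_div]
  ring

variable [CompleteSpace F]

section U

variable {w : I → K} (hS : S.Cyc) (hw : Orthonormal ℂ w)

/-- the Schrodinger isometry `F -> L2(gamma; F)` of the fields `w` -/
noncomputable def UU : F →ₗᵢ[ℂ] Lp F 2 (gam I) :=
  Classical.choose (exists_isom (fun a => S.W a S.Om) (fun a => S.vv w a)
    (fun a b => S.inner_vv hw a b) hS)

lemma UU_W (a : K) : S.UU hS hw (S.W a S.Om) = S.vv w a :=
  Classical.choose_spec (exists_isom (fun a => S.W a S.Om) (fun a => S.vv w a)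
    (fun a b => S.inner_vv hw a b) hS) a

omit [CompleteSpace F] in
lemma dense_W (hS : S.Cyc) : Dense ((Submodule.span ℂ (Set.range fun a => S.W a S.Om) :
    Submodule ℂ F) : Set F) := by
  intro x
  have h1 : x ∈ (Submodule.span ℂ (Set.range fun a => S.W a S.Om)).topologicalClosure := by
    rw [hS]; trivial
  exact h1

lemma UU_lc (k : I → ℝ) (x : F) :
    S.UU hS hw (S.W (lc w k) x) = mulL (BM.ek k) (S.UU hS hw x) := by
  have h : ((S.UU hS hw).toContinuousLinearMap.comp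
      ((S.W (lc w k)).toContinuousLinearEquiv : F →L[ℂ] F))
      = (mulL (BM.ek k)).comp (S.UU hS hw).toContinuousLinearMap := by
    refine ContinuousLinearMap.ext_on (S.dense_W hS) ?_
    rintro _ ⟨a, rfl⟩
    change S.UU hS hw (S.W (lc w k) (S.W a S.Om)) = mulL (BM.ek k) (S.UU hS hw (S.W a S.Om))
    rw [S.W_mul, map_smul, S.UU_W, S.UU_W]
    apply Lp.ext
    filter_upwards [Lp.coeFn_smul (Complex.exp (-(Complex.I * ((inner ℂ (lc w k) a).im : ℂ))))
      (S.vv w (lc w k + a)), S.coe_vv w (lc w k + a), coe_mulL (BM.ek k) (S.vv w a),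
      S.coe_vv w a] with z e1 e2 e3 e4
    rw [e1, Pi.smul_apply, e2, e3, e4, smul_smul, smul_smul, add_comm (lc w k) a,
      perp_add_lc hw]
    congr 1
    unfold psw ek
    rw [← Complex.exp_add, ← Complex.exp_add]
    congr 1
    have h1 : ∀ i, inner ℂ (w i) (a + lc w k) = inner ℂ (w i) a + ((k i : ℝ) : ℂ) := by
      intro i
      rw [inner_add_right, inner_w_lc hw]
    have h2 : (inner ℂ (lc w k) a : ℂ).im = ∑ i, k i * (inner ℂ (w i) a : ℂ).im := by
      unfold lc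
      rw [sum_inner, Complex.im_sum]
      refine Finset.sum_congr rfl fun i _ => ?_
      rw [inner_smul_left, Complex.conj_ofReal, Complex.im_ofReal_mul]
    rw [h2]
    push_cast
    simp only [h1, Complex.add_im, Complex.ofReal_im, add_zero]
    rw [Finset.mul_sum, Finset.mul_sum, ← Finset.sum_neg_distrib, ← Finset.sum_add_distrib,
      ← Finset.sum_add_distrib]
    refine Finset.sum_congr rfl fun i _ => ?_
    ring
  exact DFunLike.congr_fun h x

/-- pairing density of two vectors -/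
noncomputable def ker (x y : F) (z : I → ℝ) : ℂ :=
  inner ℂ (S.UU hS hw x z) (S.UU hS hw y z)

lemma integrable_ker (x y : F) : Integrable (S.ker hS hw x y) (gam I) :=
  L2.integrable_inner _ _

/-- the multiplication operators preserve the range of the Schrodinger isometry -/
lemma mulL_range {f : (I → ℝ) → ℂ} (hf : BM f) (y : F) :
    ∃ y', S.UU hS hw y' = mulL hf (S.UU hS hw y) := by
  set R : Submodule ℂ (Lp F 2 (gam I)) := LinearMap.range (S.UU hS hw).toLinearMap with hR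
  have hc : IsComplete (R : Set (Lp F 2 (gam I))) := by
    have h1 : (R : Set (Lp F 2 (gam I))) = Set.range (S.UU hS hw) := rfl
    rw [h1]
    exact (S.UU hS hw).isometry.isUniformInducing.isComplete_range
  have : CompleteSpace R := hc.completeSpace_coe
  have h2 : mulL hf (S.UU hS hw y) ∈ Rᗮᗮ := by
    rw [Submodule.mem_orthogonal]
    intro r hr
    rw [inner_mulL]
    have hint : Integrable (fun z => inner ℂ (r z) (S.UU hS hw y z)) (gam I) :=
      L2.integrable_inner _ _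
    have h3 := uniq (f := f) hint (integrable_zero (I → ℝ) ℂ (gam I)) (fun k => ?_) hf.1
      hf.2.choose_spec
    · rw [h3]
      simp
    · rw [← inner_mulL (BM.ek k), ← S.UU_lc hS hw k y]
      have h4 : inner ℂ (S.UU hS hw (S.W (lc w k) y)) r = 0 :=
        (Submodule.mem_orthogonal R r).1 hr _ ⟨_, rfl⟩
      rw [← inner_conj_symm, h4]
      simp
  rw [Submodule.orthogonal_orthogonal] at h2
  obtain ⟨y', hy'⟩ := h2
  exact ⟨y', hy'⟩

end U

open Classical in
/-- **functional calculus**: `f(phi(w_i), i in I)` -/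
noncomputable def fc {w : I → K} (hS : S.Cyc) (hw : Orthonormal ℂ w) (f : (I → ℝ) → ℂ) :
    F →L[ℂ] F :=
  if h : BM f then (ContinuousLinearMap.adjoint (S.UU hS hw).toContinuousLinearMap).comp
    ((mulL h).comp (S.UU hS hw).toContinuousLinearMap) else 0

section fcsec

variable {w : I → K} (hS : S.Cyc) (hw : Orthonormal ℂ w)

lemma fc_def {f : (I → ℝ) → ℂ} (hf : BM f) (x : F) : S.fc hS hw f x
    = ContinuousLinearMap.adjoint (S.UU hS hw).toContinuousLinearMap
      (mulL hf (S.UU hS hw x)) := by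
  unfold fc
  rw [dif_pos hf]
  rfl

lemma adj_UU (x : F) : ContinuousLinearMap.adjoint (S.UU hS hw).toContinuousLinearMap
    (S.UU hS hw x) = x := by
  apply ext_inner_left ℂ
  intro v
  rw [ContinuousLinearMap.adjoint_inner_right]
  exact (S.UU hS hw).inner_map_map v x

/-- the main formula -/
lemma UU_fc {f : (I → ℝ) → ℂ} (hf : BM f) (x : F) :
    S.UU hS hw (S.fc hS hw f x) = mulL hf (S.UU hS hw x) := by
  obtain ⟨y, hy⟩ := S.mulL_range hS hw hf x
  rw [S.fc_def hS hw hf, ← hy, adj_UU]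

lemma inner_fc_right {f : (I → ℝ) → ℂ} (hf : BM f) (x y : F) :
    inner ℂ x (S.fc hS hw f y) = ∫ z, f z * S.ker hS hw x y z ∂(gam I) := by
  rw [← (S.UU hS hw).inner_map_map x, S.UU_fc hS hw hf, inner_mulL]
  rfl

lemma fc_ek (k : I → ℝ) (x : F) : S.fc hS hw (ek k) x = S.W (lc w k) x := by
  apply (S.UU hS hw).injective
  rw [S.UU_fc hS hw (BM.ek k), S.UU_lc]

lemma fc_mul {f g : (I → ℝ) → ℂ} (hf : BM f) (hg : BM g) (x : F) :
    S.fc hS hw (fun z => f z * g z) x = S.fc hS hw f (S.fc hS hw g x) := by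
  apply (S.UU hS hw).injective
  rw [S.UU_fc hS hw (hf.mul hg), S.UU_fc hS hw hf, S.UU_fc hS hw hg, mulL_mul]

lemma fc_comm_fc {f g : (I → ℝ) → ℂ} (hf : BM f) (hg : BM g) (x : F) :
    S.fc hS hw f (S.fc hS hw g x) = S.fc hS hw g (S.fc hS hw f x) := by
  rw [← S.fc_mul hS hw hf hg, ← S.fc_mul hS hw hg hf]
  congr 2
  funext z
  ring

lemma fc_add {f g : (I → ℝ) → ℂ} (hf : BM f) (hg : BM g) (x : F) :
    S.fc hS hw (fun z => f z + g z) x = S.fc hS hw f x + S.fc hS hw g x := by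
  apply (S.UU hS hw).injective
  rw [map_add, S.UU_fc hS hw (hf.add hg), S.UU_fc hS hw hf, S.UU_fc hS hw hg]
  apply Lp.ext
  filter_upwards [coe_mulL (hf.add hg) (S.UU hS hw x), coe_mulL hf (S.UU hS hw x),
    coe_mulL hg (S.UU hS hw x), Lp.coeFn_add (mulL hf (S.UU hS hw x))
    (mulL hg (S.UU hS hw x))] with z e1 e2 e3 e4
  rw [e1, e4, Pi.add_apply, e2, e3, add_smul]

lemma fc_const (c : ℂ) (x : F) : S.fc hS hw (fun _ => c) x = c • x := by
  apply (S.UU hS hw).injective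
  rw [map_smul, S.UU_fc hS hw (BM.const c)]
  apply Lp.ext
  filter_upwards [coe_mulL (BM.const c) (S.UU hS hw x), Lp.coeFn_smul c (S.UU hS hw x)]
    with z e1 e2
  rw [e1, e2, Pi.smul_apply]

lemma fc_one (x : F) : S.fc hS hw (fun _ => 1) x = x := by
  rw [fc_const, one_smul]

lemma fc_cmul {f : (I → ℝ) → ℂ} (c : ℂ) (hf : BM f) (x : F) :
    S.fc hS hw (fun z => c * f z) x = c • S.fc hS hw f x := by
  rw [S.fc_mul hS hw (BM.const c) hf, fc_const]

lemma fc_neg {f : (I → ℝ) → ℂ} (hf : BM f) (x : F) :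
    S.fc hS hw (fun z => -f z) x = -S.fc hS hw f x := by
  have h := S.fc_cmul hS hw (-1) hf x
  rw [neg_one_smul] at h
  rw [← h]
  congr 2
  funext z
  ring

lemma fc_sub {f g : (I → ℝ) → ℂ} (hf : BM f) (hg : BM g) (x : F) :
    S.fc hS hw (fun z => f z - g z) x = S.fc hS hw f x - S.fc hS hw g x := by
  simp only [sub_eq_add_neg]
  rw [S.fc_add hS hw hf hg.neg, S.fc_neg hS hw hg]

lemma fc_sum {α : Type*} (s : Finset α) {f : α → (I → ℝ) → ℂ} (hf : ∀ a, BM (f a)) (x : F) :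
    S.fc hS hw (fun z => ∑ a ∈ s, f a z) x = ∑ a ∈ s, S.fc hS hw (f a) x := by
  classical
  have hb : ∀ s : Finset α, BM (fun z => ∑ a ∈ s, f a z) := by
    intro s
    induction s using Finset.induction_on with
    | empty => simpa using BM.const (I := I) 0
    | insert a s ha ih =>
      simp only [Finset.sum_insert ha]
      exact (hf a).add ih
  induction s using Finset.induction_on with
  | empty =>
    have h := S.fc_const hS hw 0 x
    simpa using h
  | insert a s ha ih =>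
    simp only [Finset.sum_insert ha]
    rw [S.fc_add hS hw (hf a) (hb s), ih]

/-- adjoint -/
lemma inner_fc_left {f : (I → ℝ) → ℂ} (hf : BM f) (x y : F) :
    inner ℂ (S.fc hS hw f x) y = inner ℂ x (S.fc hS hw (fun z => conj (f z)) y) := by
  rw [S.inner_fc_right hS hw hf.conj, ← inner_conj_symm, S.inner_fc_right hS hw hf, ← integral_conj]
  refine integral_congr_ae (Eventually.of_forall fun z => ?_)
  simp only [map_mul]
  congr 1
  unfold ker
  rw [inner_conj_symm]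

lemma norm_fc_le {f : (I → ℝ) → ℂ} (hf : BM f) {C : ℝ} (hC : ∀ᵐ z ∂(gam I), ‖f z‖ ≤ C) (x : F) :
    ‖S.fc hS hw f x‖ ≤ C * ‖x‖ := by
  rw [← (S.UU hS hw).norm_map, S.UU_fc hS hw hf, ← (S.UU hS hw).norm_map x]
  exact norm_mulL_le hf hC _

lemma fc_congr_ae {f g : (I → ℝ) → ℂ} (hf : BM f) (hg : BM g) (h : f =ᵐ[gam I] g) (x : F) :
    S.fc hS hw f x = S.fc hS hw g x := by
  apply (S.UU hS hw).injective
  rw [S.UU_fc hS hw hf, S.UU_fc hS hw hg]
  exact mulL_congr hf hg h _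

/-- **dominated convergence** -/
theorem tendsto_fc {f : ℕ → (I → ℝ) → ℂ} {g : (I → ℝ) → ℂ} (hf : ∀ n, BM (f n)) (hg : BM g)
    {C : ℝ} (hC : ∀ n, ∀ z, ‖f n z‖ ≤ C)
    (h : ∀ᵐ z ∂(gam I), Tendsto (fun n => f n z) atTop (𝓝 (g z))) (x : F) :
    Tendsto (fun n => S.fc hS hw (f n) x) atTop (𝓝 (S.fc hS hw g x)) := by
  have h1 := tendsto_mulL hf hg hC h (S.UU hS hw x)
  have h2 := ((ContinuousLinearMap.adjoint (S.UU hS hw).toContinuousLinearMap).continuous.tendsto
    _).comp h1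
  refine (h2.congr fun n => ?_).trans (by rw [S.fc_def hS hw hg])
  rw [Function.comp, S.fc_def hS hw (hf n)]

/-- operators commuting with the Weyl operators of the fields commute with all functions -/
theorem fc_comm (B : F →L[ℂ] F) (hB : ∀ k x, B (S.W (lc w k) x) = S.W (lc w k) (B x))
    {f : (I → ℝ) → ℂ} (hf : BM f) (x : F) : B (S.fc hS hw f x) = S.fc hS hw f (B x) := by
  apply ext_inner_left ℂ
  intro v
  rw [← ContinuousLinearMap.adjoint_inner_left, S.inner_fc_right hS hw hf,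
    S.inner_fc_right hS hw hf]
  obtain ⟨C, hC⟩ := hf.2
  refine uniq (S.integrable_ker hS hw _ _) (S.integrable_ker hS hw _ _) (fun k => ?_) hf.1 hC
  rw [← S.inner_fc_right hS hw (BM.ek k), ← S.inner_fc_right hS hw (BM.ek k), fc_ek, fc_ek,
    ContinuousLinearMap.adjoint_inner_left, hB]

/-- wave function of the vacuum -/
lemma UU_Om : S.UU hS hw S.Om =ᵐ[gam I] fun _ => S.Om := by
  have h1 : S.W 0 S.Om = S.Om := S.W_zero _
  have h2 := S.UU_W hS hw 0
  rw [h1] at h2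
  rw [h2]
  filter_upwards [S.coe_vv w 0] with z e
  rw [e]
  have h3 : perp w (0 : K) = 0 := by simp [perp]
  rw [h3, h1]
  simp [psw]

lemma UU_fc_Om {f : (I → ℝ) → ℂ} (hf : BM f) :
    S.UU hS hw (S.fc hS hw f S.Om) =ᵐ[gam I] fun z => f z • S.Om := by
  rw [S.UU_fc hS hw hf]
  filter_upwards [coe_mulL hf (S.UU hS hw S.Om), S.UU_Om hS hw] with z e1 e2
  rw [e1, e2]

/-- vacuum expectations are Gaussian integrals -/
theorem inner_fc_Om {f g : (I → ℝ) → ℂ} (hf : BM f) (hg : BM g) :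
    inner ℂ (S.fc hS hw f S.Om) (S.fc hS hw g S.Om) = ∫ z, conj (f z) * g z ∂(gam I) := by
  rw [← (S.UU hS hw).inner_map_map, L2.inner_def]
  refine integral_congr_ae ?_
  filter_upwards [S.UU_fc_Om hS hw hf, S.UU_fc_Om hS hw hg] with z e1 e2
  rw [e1, e2, inner_smul_left, inner_smul_right, inner_self_eq_norm_sq_to_K, S.norm_Om]
  simp

theorem vac_fc {f : (I → ℝ) → ℂ} (hf : BM f) :
    inner ℂ S.Om (S.fc hS hw f S.Om) = ∫ z, f z ∂(gam I) := by
  have h := S.inner_fc_Om hS hw (BM.const 1) hf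
  rw [S.fc_one hS hw S.Om] at h
  simpa using h

end fcsec

end Weyl

end Vale.Agent.P367.NI
end

section

/-! P367: functional calculus of commuting fields, part 2: translation by Weyl operators,
subfamilies, unitary functions and the matrix version on the one-site space. -/

namespace Vale.Agent.P367.NI

open Complex MeasureTheory ProbabilityTheory Filter Topology ComplexConjugate

variable {F K : Type} [NormedAddCommGroup F] [InnerProductSpace ℂ F]
  [NormedAddCommGroup K] [InnerProductSpace ℂ K]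

namespace Weyl

variable (S : Weyl F K) {I : Type} [Fintype I] [CompleteSpace F]

omit [CompleteSpace F] in
lemma inner_W_left' (v : K) (x y : F) : inner ℂ (S.W v x) y = inner ℂ x (S.W (-v) y) := by
  have h := (S.W v).inner_map_map x (S.W (-v) y)
  have h2 : S.W v (S.W (-v) y) = y := by
    have h3 := S.W_neg_W (-v) y
    rwa [neg_neg] at h3
  rwa [h2] at h

section a

variable {w : I → K} (hS : S.Cyc) (hw : Orthonormal ℂ w)

/-- a Weyl operator conjugates functions of the fields into their translates -/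
theorem fc_shift (v : K) {f : (I → ℝ) → ℂ} (hf : BM f) (x : F) :
    S.W (-v) (S.fc hS hw f (S.W v x))
      = S.fc hS hw (fun z => f (fun i => z i + 2 * (inner ℂ v (w i) : ℂ).im)) x := by
  have hm : Measurable fun z : I → ℝ => fun i => z i + 2 * (inner ℂ v (w i) : ℂ).im := by
    fun_prop
  obtain ⟨C, hC⟩ := hf.2
  apply ext_inner_left ℂ
  intro y
  rw [← S.inner_W_left' v, S.inner_fc_right hS hw hf,
    S.inner_fc_right hS hw (hf.comp hm)]
  refine uniq2 (S.integrable_ker hS hw _ _) (S.integrable_ker hS hw _ _) measurable_id hm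
    (fun k => ?_) hf.1 hC
  have h1 : ∫ z, ek k (id z) * S.ker hS hw (S.W v y) (S.W v x) z ∂(gam I)
      = inner ℂ y (S.W (-v) (S.W (lc w k) (S.W v x))) := by
    simp only [id]
    rw [← S.inner_fc_right hS hw (BM.ek k), fc_ek, S.inner_W_left' v]
  rw [h1]
  have h2 : S.W (-v) (S.W (lc w k) (S.W v x))
      = Complex.exp (2 * Complex.I * ((inner ℂ v (lc w k) : ℂ).im : ℂ)) • S.W (lc w k) x := by
    rw [S.W_mul (lc w k) v, map_smul, S.W_mul, smul_smul, ← Complex.exp_add]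
    have e1 : -v + (lc w k + v) = lc w k := by abel
    rw [e1]
    congr 2
    rw [inner_neg_left, inner_add_right, Complex.neg_im, Complex.add_im]
    have e2 : (inner ℂ v v : ℂ).im = 0 := by
      rw [inner_self_eq_norm_sq_to_K]
      simp [← Complex.ofReal_pow]
    have e3 : (inner ℂ (lc w k) v : ℂ).im = -(inner ℂ v (lc w k) : ℂ).im := by
      rw [← inner_conj_symm, Complex.conj_im]
    rw [e2, e3]
    push_cast
    ring
  rw [h2, inner_smul_right, ← S.fc_ek hS hw, S.inner_fc_right hS hw (BM.ek k),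
    ← integral_const_mul]
  refine integral_congr_ae (Eventually.of_forall fun z => ?_)
  simp only
  rw [← mul_assoc]
  congr 1
  unfold ek
  rw [← Complex.exp_add]
  congr 1
  have e4 : (inner ℂ v (lc w k) : ℂ).im = ∑ i, k i * (inner ℂ v (w i) : ℂ).im := by
    unfold lc
    rw [inner_sum, Complex.im_sum]
    refine Finset.sum_congr rfl fun i _ => ?_
    rw [inner_smul_right, Complex.im_ofReal_mul]
  rw [e4]
  simp only [mul_add, Finset.sum_add_distrib]
  push_cast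
  rw [mul_add, add_comm]
  congr 1
  rw [Finset.mul_sum, Finset.mul_sum]
  refine Finset.sum_congr rfl fun i _ => ?_
  ring


/-- functions of a subfamily -/
theorem fc_sub' {J : Type} [Fintype J] {w' : J → K} (hw' : Orthonormal ℂ w') (s : I → J)
    (hs : ∀ i, w' (s i) = w i) {f : (I → ℝ) → ℂ} (hf : BM f) (x : F) :
    S.fc hS hw' (fun z => f (fun i => z (s i))) x = S.fc hS hw f x := by
  classical
  have hm : Measurable fun z : J → ℝ => fun i => z (s i) := by fun_prop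
  obtain ⟨C, hC⟩ := hf.2
  apply ext_inner_left ℂ
  intro y
  rw [S.inner_fc_right hS hw' (hf.comp hm), S.inner_fc_right hS hw hf]
  refine uniq2 (S.integrable_ker hS hw' _ _) (S.integrable_ker hS hw _ _) hm measurable_id
    (fun k => ?_) hf.1 hC
  have h1 : ∀ z : J → ℝ, ek k (fun i => z (s i)) = ek (fun j => ∑ i, if s i = j then k i else 0) z := by
    intro z
    unfold ek
    congr 3
    simp only [Finset.sum_mul]
    rw [Finset.sum_comm]
    refine Finset.sum_congr rfl fun i _ => ?_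
    rw [Finset.sum_eq_single (s i)]
    · rw [if_pos rfl]
    · intro j _ hj
      rw [if_neg (Ne.symm hj), zero_mul]
    · simp
  simp_rw [h1]
  rw [← S.inner_fc_right hS hw' (BM.ek _), fc_ek]
  simp only [id]
  rw [← S.inner_fc_right hS hw (BM.ek k), fc_ek]
  congr 3
  unfold lc
  simp only [Complex.ofReal_sum, Finset.sum_smul]
  rw [Finset.sum_comm]
  refine Finset.sum_congr rfl fun i _ => ?_
  rw [Finset.sum_eq_single (s i)]
  · rw [if_pos rfl, hs]
  · intro j _ hj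
    rw [if_neg (Ne.symm hj)]
    simp
  · simp

/-- unitary operator of a function of modulus one -/
noncomputable def fcU {f : (I → ℝ) → ℂ} (hf : BM f) (h1 : ∀ z, ‖f z‖ = 1) : F ≃ₗᵢ[ℂ] F where
  toFun := S.fc hS hw f
  invFun := S.fc hS hw (fun z => conj (f z))
  map_add' := map_add _
  map_smul' := map_smul _
  left_inv x := by
    rw [← S.fc_mul hS hw hf.conj hf]
    have h : (fun z => conj (f z) * f z) = fun _ => (1 : ℂ) := by
      funext z
      rw [← Complex.normSq_eq_conj_mul_self, Complex.normSq_eq_norm_sq, h1]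
      simp
    rw [h, fc_one]
  right_inv x := by
    rw [← S.fc_mul hS hw hf hf.conj]
    have h : (fun z => f z * conj (f z)) = fun _ => (1 : ℂ) := by
      funext z
      rw [Complex.mul_conj, Complex.normSq_eq_norm_sq, h1]
      simp
    rw [h, fc_one]
  norm_map' x := by
    change ‖S.fc hS hw f x‖ = ‖x‖
    have h : inner ℂ (S.fc hS hw f x) (S.fc hS hw f x) = inner ℂ x x := by
      rw [S.inner_fc_left hS hw hf, ← S.fc_mul hS hw hf.conj hf]
      have h : (fun z => conj (f z) * f z) = fun _ => (1 : ℂ) := by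
        funext z
        rw [← Complex.normSq_eq_conj_mul_self, Complex.normSq_eq_norm_sq, h1]
        simp
      rw [h, fc_one]
    rw [inner_self_eq_norm_sq_to_K, inner_self_eq_norm_sq_to_K] at h
    have h2 : ‖S.fc hS hw f x‖ ^ 2 = ‖x‖ ^ 2 := by exact_mod_cast h
    exact (sq_eq_sq₀ (norm_nonneg _) (norm_nonneg _)).1 h2

@[simp] lemma fcU_apply {f : (I → ℝ) → ℂ} (hf : BM f) (h1 : ∀ z, ‖f z‖ = 1) (x : F) :
    S.fcU hS hw hf h1 x = S.fc hS hw f x := rfl

lemma fcU_symm_apply {f : (I → ℝ) → ℂ} (hf : BM f) (h1 : ∀ z, ‖f z‖ = 1) (x : F) :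
    (S.fcU hS hw hf h1).symm x = S.fc hS hw (fun z => conj (f z)) x := rfl

end a

end Weyl

section mat

variable {I : Type} [Fintype I]

/-- bounded measurable matrices -/
def MB (u : (I → ℝ) → Matrix (Fin 2) (Fin 2) ℂ) : Prop := ∀ i j, BM fun z => u z i j

/-- measurable unitary matrices -/
structure UM (u : (I → ℝ) → Matrix (Fin 2) (Fin 2) ℂ) : Prop where
  meas : ∀ i j, Measurable fun z => u z i j
  uni : ∀ z, u z ∈ Matrix.unitaryGroup (Fin 2) ℂ

omit [Fintype I] in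
lemma UM.le {u : (I → ℝ) → Matrix (Fin 2) (Fin 2) ℂ} (hu : UM u) (i j : Fin 2) (z : I → ℝ) :
    ‖u z i j‖ ≤ 1 := entry_norm_bound_of_unitary (hu.uni z) i j

omit [Fintype I] in
lemma UM.mb {u : (I → ℝ) → Matrix (Fin 2) (Fin 2) ℂ} (hu : UM u) : MB u :=
  fun i j => ⟨hu.meas i j, 1, hu.le i j⟩

omit [Fintype I] in
lemma MB.star {u : (I → ℝ) → Matrix (Fin 2) (Fin 2) ℂ} (hu : MB u) : MB fun z => star (u z) :=
  fun i j => by simpa [Matrix.star_apply] using (hu j i).conj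

omit [Fintype I] in
lemma MB.mul {u v : (I → ℝ) → Matrix (Fin 2) (Fin 2) ℂ} (hu : MB u) (hv : MB v) :
    MB fun z => u z * v z := fun i j => by
  simp only [Matrix.mul_apply, Fin.sum_univ_two]
  exact ((hu i 0).mul (hv 0 j)).add ((hu i 1).mul (hv 1 j))

omit [Fintype I] in
lemma MB.const (m : Matrix (Fin 2) (Fin 2) ℂ) : MB fun _ : I → ℝ => m := fun i j => BM.const _

omit [Fintype I] in
lemma UM.star {u : (I → ℝ) → Matrix (Fin 2) (Fin 2) ℂ} (hu : UM u) : UM fun z => star (u z) where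
  meas i j := (hu.mb.star i j).1
  uni z := Unitary.star_mem (hu.uni z)

omit [Fintype I] in
lemma UM.mul {u v : (I → ℝ) → Matrix (Fin 2) (Fin 2) ℂ} (hu : UM u) (hv : UM v) :
    UM fun z => u z * v z where
  meas i j := (hu.mb.mul hv.mb i j).1
  uni z := mul_mem (hu.uni z) (hv.uni z)

omit [Fintype I] in
lemma UM.one : UM fun _ : I → ℝ => (1 : Matrix (Fin 2) (Fin 2) ℂ) where
  meas i j := measurable_const
  uni _ := one_mem _

end mat

namespace Weyl

variable (S : Weyl F K) {I : Type} [Fintype I] [CompleteSpace F]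
  {w : I → K} (hS : S.Cyc) (hw : Orthonormal ℂ w)

/-- matrix valued functions of the fields acting on the one-site space -/
noncomputable def fcH (u : (I → ℝ) → Matrix (Fin 2) (Fin 2) ℂ) : HH F →ₗ[ℂ] HH F where
  toFun x := WithLp.toLp 2
    (S.fc hS hw (fun z => u z 0 0) x.fst + S.fc hS hw (fun z => u z 0 1) x.snd,
     S.fc hS hw (fun z => u z 1 0) x.fst + S.fc hS hw (fun z => u z 1 1) x.snd)
  map_add' x y := by
    apply (WithLp.equiv 2 (F × F)).injective
    refine Prod.ext ?_ ?_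
    · simp only [WithLp.equiv_apply, WithLp.add_fst, WithLp.add_snd, map_add, WithLp.ofLp_add,
        Prod.fst_add]
      abel
    · simp only [WithLp.equiv_apply, WithLp.add_fst, WithLp.add_snd, map_add, WithLp.ofLp_add,
        Prod.snd_add]
      abel
  map_smul' c x := by
    apply (WithLp.equiv 2 (F × F)).injective
    refine Prod.ext ?_ ?_
    · simp only [WithLp.equiv_apply, WithLp.smul_fst, WithLp.smul_snd, map_smul, RingHom.id_apply,
        WithLp.ofLp_smul, Prod.smul_fst, smul_add]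
    · simp only [WithLp.equiv_apply, WithLp.smul_fst, WithLp.smul_snd, map_smul, RingHom.id_apply,
        WithLp.ofLp_smul, Prod.smul_snd, smul_add]

lemma fcH_fst (u : (I → ℝ) → Matrix (Fin 2) (Fin 2) ℂ) (x : HH F) : (S.fcH hS hw u x).fst
    = S.fc hS hw (fun z => u z 0 0) x.fst + S.fc hS hw (fun z => u z 0 1) x.snd := rfl

lemma fcH_snd (u : (I → ℝ) → Matrix (Fin 2) (Fin 2) ℂ) (x : HH F) : (S.fcH hS hw u x).snd
    = S.fc hS hw (fun z => u z 1 0) x.fst + S.fc hS hw (fun z => u z 1 1) x.snd := rfl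

omit [CompleteSpace F] in
lemma HH_ext' {x y : HH F} (h1 : x.fst = y.fst) (h2 : x.snd = y.snd) : x = y := by
  apply (WithLp.equiv 2 (F × F)).injective
  exact Prod.ext h1 h2

lemma fcH_mul {u v : (I → ℝ) → Matrix (Fin 2) (Fin 2) ℂ} (hu : MB u) (hv : MB v) (x : HH F) :
    S.fcH hS hw (fun z => u z * v z) x = S.fcH hS hw u (S.fcH hS hw v x) := by
  have key : ∀ i j, ∀ y : F, S.fc hS hw (fun z => (u z * v z) i j) y
      = S.fc hS hw (fun z => u z i 0) (S.fc hS hw (fun z => v z 0 j) y)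
        + S.fc hS hw (fun z => u z i 1) (S.fc hS hw (fun z => v z 1 j) y) := by
    intro i j y
    simp only [Matrix.mul_apply, Fin.sum_univ_two]
    rw [S.fc_add hS hw ((hu i 0).mul (hv 0 j)) ((hu i 1).mul (hv 1 j)),
      S.fc_mul hS hw (hu i 0) (hv 0 j), S.fc_mul hS hw (hu i 1) (hv 1 j)]
  refine HH_ext' ?_ ?_
  · rw [fcH_fst, fcH_fst, key, key, fcH_fst, fcH_snd, map_add, map_add]
    abel
  · rw [fcH_snd, fcH_snd, key, key, fcH_fst, fcH_snd, map_add, map_add]
    abel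

lemma fcH_one (x : HH F) : S.fcH hS hw (fun _ => 1) x = x := by
  refine HH_ext' ?_ ?_
  · rw [fcH_fst]
    simp only [Matrix.one_apply_eq, Matrix.one_apply_ne (show (0 : Fin 2) ≠ 1 by decide)]
    rw [fc_one, fc_const, zero_smul, add_zero]
  · rw [fcH_snd]
    simp only [Matrix.one_apply_eq, Matrix.one_apply_ne (show (1 : Fin 2) ≠ 0 by decide)]
    rw [fc_one, fc_const, zero_smul, zero_add]

lemma inner_fcH_left {u : (I → ℝ) → Matrix (Fin 2) (Fin 2) ℂ} (hu : MB u) (x y : HH F) :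
    inner ℂ (S.fcH hS hw u x) y = inner ℂ x (S.fcH hS hw (fun z => star (u z)) y) := by
  have hst : ∀ i j, (fun z => (star (u z)) i j) = fun z => conj (u z j i) := by
    intro i j
    funext z
    rw [Matrix.star_apply]
    rfl
  rw [inner_HH, inner_HH, fcH_fst, fcH_snd, fcH_fst, fcH_snd]
  simp only [hst]
  rw [inner_add_left, inner_add_left, inner_add_right, inner_add_right,
    S.inner_fc_left hS hw (hu 0 0), S.inner_fc_left hS hw (hu 0 1),
    S.inner_fc_left hS hw (hu 1 0), S.inner_fc_left hS hw (hu 1 1)]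
  ring

/-- **unitary matrix functions of the fields** -/
noncomputable def fcM {u : (I → ℝ) → Matrix (Fin 2) (Fin 2) ℂ} (hu : UM u) :
    HH F ≃ₗᵢ[ℂ] HH F where
  toFun := S.fcH hS hw u
  invFun := S.fcH hS hw (fun z => star (u z))
  map_add' := map_add _
  map_smul' := map_smul _
  left_inv x := by
    rw [← S.fcH_mul hS hw hu.mb.star hu.mb]
    have h : (fun z => star (u z) * u z) = fun _ => 1 := by
      funext z
      exact (Unitary.mem_iff.1 (hu.uni z)).1
    rw [h, fcH_one]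
  right_inv x := by
    rw [← S.fcH_mul hS hw hu.mb hu.mb.star]
    have h : (fun z => u z * star (u z)) = fun _ => 1 := by
      funext z
      exact (Unitary.mem_iff.1 (hu.uni z)).2
    rw [h, fcH_one]
  norm_map' x := by
    change ‖S.fcH hS hw u x‖ = ‖x‖
    have h : inner ℂ (S.fcH hS hw u x) (S.fcH hS hw u x) = inner ℂ x x := by
      rw [S.inner_fcH_left hS hw hu.mb, ← S.fcH_mul hS hw hu.mb.star hu.mb]
      have h : (fun z => star (u z) * u z) = fun _ => 1 := by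
        funext z
        exact (Unitary.mem_iff.1 (hu.uni z)).1
      rw [h, fcH_one]
    rw [inner_self_eq_norm_sq_to_K, inner_self_eq_norm_sq_to_K] at h
    have h2 : ‖S.fcH hS hw u x‖ ^ 2 = ‖x‖ ^ 2 := by exact_mod_cast h
    exact (sq_eq_sq₀ (norm_nonneg _) (norm_nonneg _)).1 h2

lemma fcM_apply {u : (I → ℝ) → Matrix (Fin 2) (Fin 2) ℂ} (hu : UM u) (x : HH F) :
    S.fcM hS hw hu x = S.fcH hS hw u x := rfl

lemma fcM_symm_apply {u : (I → ℝ) → Matrix (Fin 2) (Fin 2) ℂ} (hu : UM u) (x : HH F) :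
    (S.fcM hS hw hu).symm x = S.fcH hS hw (fun z => star (u z)) x := rfl

lemma fcM_mul {u v : (I → ℝ) → Matrix (Fin 2) (Fin 2) ℂ} (hu : UM u) (hv : UM v) (x : HH F) :
    S.fcM hS hw (hu.mul hv) x = S.fcM hS hw hu (S.fcM hS hw hv x) :=
  S.fcH_mul hS hw hu.mb hv.mb x

/-- **a.e. convergence of the matrices gives strong convergence of the operators** -/
theorem tendsto_fcM {u : ℕ → (I → ℝ) → Matrix (Fin 2) (Fin 2) ℂ}
    {v : (I → ℝ) → Matrix (Fin 2) (Fin 2) ℂ} (hu : ∀ n, UM (u n)) (hv : UM v)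
    (h : ∀ᵐ z ∂(gam I), ∀ i j, Tendsto (fun n => u n z i j) atTop (𝓝 (v z i j))) (x : HH F) :
    Tendsto (fun n => S.fcM hS hw (hu n) x) atTop (𝓝 (S.fcM hS hw hv x)) := by
  have key : ∀ i j, ∀ y : F, Tendsto (fun n => S.fc hS hw (fun z => u n z i j) y) atTop
      (𝓝 (S.fc hS hw (fun z => v z i j) y)) := by
    intro i j y
    refine S.tendsto_fc hS hw (fun n => (hu n).mb i j) (hv.mb i j) (C := 1)
      (fun n z => (hu n).le i j z) ?_ y
    filter_upwards [h] with z hz using hz i j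
  refine tendsto_HH ?_ ?_
  · exact (key 0 0 x.fst).add (key 0 1 x.snd)
  · exact (key 1 0 x.fst).add (key 1 1 x.snd)

/-- matrix of `exp(-i b X)` -/
noncomputable def mX (b : ℝ) : Matrix (Fin 2) (Fin 2) ℂ :=
  !![(Real.cos b : ℂ), -(Complex.I * (Real.sin b : ℂ)); -(Complex.I * (Real.sin b : ℂ)),
    (Real.cos b : ℂ)]

lemma fcH_mX (b : ℝ) (x : HH F) : S.fcH hS hw (fun _ => mX b) x = xr b x := by
  refine HH_ext' ?_ ?_
  · rw [fcH_fst]
    simp only [mX, Matrix.of_apply, Matrix.cons_val', Matrix.cons_val_zero, Matrix.cons_val_one,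
      Matrix.cons_val_fin_one]
    rw [fc_const, fc_const]
    change _ = (Real.cos b : ℂ) • x.fst - (Complex.I * (Real.sin b : ℂ)) • x.snd
    rw [neg_smul, sub_eq_add_neg]
  · rw [fcH_snd]
    simp only [mX, Matrix.of_apply, Matrix.cons_val', Matrix.cons_val_zero, Matrix.cons_val_one,
      Matrix.cons_val_fin_one]
    rw [fc_const, fc_const]
    change _ = -((Complex.I * (Real.sin b : ℂ)) • x.fst) + (Real.cos b : ℂ) • x.snd
    rw [neg_smul]

/-- matrix of `exp(-i Z k.z)` -/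
noncomputable def mZ (k z : I → ℝ) : Matrix (Fin 2) (Fin 2) ℂ := !![ek (-k) z, 0; 0, ek k z]

lemma fcH_mZ (k : I → ℝ) (x : HH F) : S.fcH hS hw (mZ k) x = S.zr (lc w k) x := by
  refine HH_ext' ?_ ?_
  · rw [fcH_fst]
    simp only [mZ, Matrix.of_apply, Matrix.cons_val', Matrix.cons_val_zero, Matrix.cons_val_one,
      Matrix.cons_val_fin_one]
    rw [fc_const, zero_smul, add_zero]
    have h : (fun z => ek (-k) z) = ek (-k) := rfl
    rw [h, fc_ek, lc_neg]
    rfl
  · rw [fcH_snd]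
    simp only [mZ, Matrix.of_apply, Matrix.cons_val', Matrix.cons_val_zero, Matrix.cons_val_one,
      Matrix.cons_val_fin_one]
    rw [fc_const, zero_smul, zero_add]
    have h : (fun z => ek k z) = ek k := rfl
    rw [h, fc_ek]
    rfl

end Weyl

end Vale.Agent.P367.NI
end

section

/-!
# P367, classical half: the value of the martingale algorithm
-/

open MeasureTheory ProbabilityTheory Filter Topology Set

namespace Vale.Agent.P367.Cl

open Vale.Agent.P157.Par
open Vale.Agent.P146.Gap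
open Vale.Agent.P146.Pw2

/-- The output of the classical half: the value of the martingale algorithm. -/
theorem value_main {ε : ℝ} (hε : 0 < ε) : ∃ b₀ : ℝ, 1 < b₀ ∧ ∀ b, b₀ ≤ b → ∃ n₀ : ℕ, ∀ n, n₀ ≤ n →
    ∀ r, IsMin b n (gm n) r →
      (SKr b n (gm n) r + Real.log 2) / b - ε ≤
        ∑ l ∈ Finset.range n, ∫ t in (0 : ℝ)..(r (l + 1) - r l),
          √(Mb n (gm n) r l t) * Ab n (gm n) r l t := by
  have hlog : 0 ≤ Real.log 2 := Real.log_nonneg (by norm_num)
  refine ⟨max 2 (2 * (1 / 4 + Real.log 2) / ε), lt_max_of_lt_left (by norm_num), fun b hb => ?_⟩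
  have hb2 : 2 ≤ b := (le_max_left _ _).trans hb
  have hb1 : 1 < b := by linarith
  have hb0 : 0 < b := by linarith
  have hbε : (1 / 4 + Real.log 2) / b ≤ ε / 2 := by
    have h1 := (le_max_right _ _).trans hb
    rw [div_le_iff₀ hε] at h1
    rw [div_le_iff₀ hb0]
    linarith
  obtain ⟨C, hC1, hC⟩ := full_rsb hb1
  obtain ⟨C', hC'1, hC'⟩ := last_level hb1
  have hcast : Tendsto (fun n : ℕ => ((n : ℝ) + 1)) atTop atTop :=
    tendsto_atTop_add_const_right _ _ tendsto_natCast_atTop_atTop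
  have l1 : Tendsto (fun n : ℕ => C' / (((n : ℝ) + 1) ^ (1 / 4 : ℝ))) atTop (𝓝 0) :=
    ((tendsto_rpow_atTop (by norm_num)).comp hcast).const_div_atTop C'
  have l2 : Tendsto (fun n : ℕ => C / √((n : ℝ) + 1)) atTop (𝓝 0) :=
    (Real.tendsto_sqrt_atTop.comp hcast).const_div_atTop C
  have l3 : Tendsto (fun n : ℕ => C' / (((n : ℝ) + 1) ^ (1 / 4 : ℝ))
      + 3 / 2 * b * (C / √((n : ℝ) + 1))) atTop (𝓝 0) := by
    have := l1.add (l2.const_mul (3 / 2 * b))
    rwa [mul_zero, add_zero] at this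
  have l4 := (l3.eventually (eventually_le_nhds (show (0 : ℝ) < ε / 2 by linarith))).and
    (tendsto_natCast_atTop_atTop.eventually (eventually_ge_atTop C'))
  obtain ⟨n₀, hn₀⟩ := eventually_atTop.1 l4
  refine ⟨n₀, fun n hn r hr => ?_⟩
  obtain ⟨hsmall, hbig⟩ := hn₀ n hn
  have hm := gm_exponents n
  have hpath : Path n r := hr.1.2.1
  have e := value_id hb0 hm hpath hr.1.1
  have hL := hC' n r hbig hr
  have hS := hC n r hr
  have h2 := fval_S2 hb0 hm hr
  have hA := fval_SA hb0 hm hpath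
  have hl := fval_last hm hpath
  set SA := ∑ l ∈ Finset.range n, ∫ t in (0 : ℝ)..(r (l + 1) - r l), Ab n (gm n) r l t
  set SM := ∑ l ∈ Finset.range n, ∫ t in (0 : ℝ)..(r (l + 1) - r l),
    √(Mb n (gm n) r l t) * Ab n (gm n) r l t
  set SD := ∑ l ∈ Finset.range n, ∫ t in (0 : ℝ)..(r (l + 1) - r l),
    |Mb n (gm n) r l t - 1 / b ^ 2|
  set S2 := ∑ l ∈ Finset.range n, ∫ t in (0 : ℝ)..(r (l + 1) - r l),
    gm n (l + 1) / 2 * (Rb n (gm n) r l t - (r l + t) / b ^ 2)
  set E1 := Ee n (gm n) r n (fun x => lc x - x * Real.tanh x)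
  set X := C' / (((n : ℝ) + 1) ^ (1 / 4 : ℝ)) with hX
  set Y := C / √((n : ℝ) + 1) with hY
  have hX0 : 0 ≤ X := by positivity
  have hY0 : 0 ≤ Y := by positivity
  have hSD : S2 ≤ b ^ 2 / 2 * Y := h2.trans (mul_le_mul_of_nonneg_left hS (by positivity))
  have hAM : SA / b ≤ SM + b * Y := by
    have := mul_le_mul_of_nonneg_left hS hb0.le
    linarith
  have hQ : (b ^ 2 - r n) ^ 2 / (4 * b ^ 2) ≤ (1 + X) / 4 := by
    have : (b ^ 2 - r n) ^ 2 / (4 * b ^ 2) = (b ^ 2 - r n) ^ 2 / b ^ 2 / 4 := by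
      field_simp
    rw [this]
    linarith
  have hT : (SKr b n (gm n) r + Real.log 2) / b ≤
      SA / b + (1 / 4 + Real.log 2) / b + X + b / 2 * Y := by
    have h3 : SKr b n (gm n) r + Real.log 2 ≤
        SA + (1 / 4 + Real.log 2) + b * X + b * (b / 2 * Y) := by
      have h4 : X / 4 ≤ b * X := by nlinarith
      have h5 : b ^ 2 / 2 * Y = b * (b / 2 * Y) := by ring
      rw [e]
      linarith
    rw [div_le_iff₀ hb0]
    have h6 : (SA / b + (1 / 4 + Real.log 2) / b + X + b / 2 * Y) * b =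
        SA + (1 / 4 + Real.log 2) + b * X + b * (b / 2 * Y) := by
      field_simp
    rw [h6]
    exact h3
  linarith

end Vale.Agent.P367.Cl
end

section

/-!
# P367, classical half: Theorem C
-/

open MeasureTheory ProbabilityTheory Filter Topology Set

namespace Vale.Agent.P367.Cl

open Vale.Agent.P157.Par
open Vale.Agent.P146.Gap
open Vale.Agent.P146.Pw2

/-- the pairs of neighbours inside the blocks -/
theorem asm_sum {a : ℕ → ℝ} (ha : ∀ k, 0 ≤ a k) {J : ℕ} (hJ : 1 ≤ J) : ∀ n : ℕ, 1 ≤ n →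
    ∑ l ∈ Finset.range n, ∑ j ∈ Finset.range (J - 1), a (l * J + j) ≤
      ∑ k ∈ Finset.range (n * J - 1), a k
  | 0, h => absurd h (by omega)
  | 1, _ => by simp
  | n + 2, _ => by
    have ih := asm_sum ha hJ (n + 1) (by omega)
    have e : (n + 2) * J - 1 = (n + 1) * J + (J - 1) := by
      have : (n + 2) * J = (n + 1) * J + J := by ring
      omega
    rw [Finset.sum_range_succ, e, Finset.sum_range_add a ((n + 1) * J) (J - 1)]
    refine add_le_add (ih.trans ?_) le_rfl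
    exact Finset.sum_le_sum_of_subset_of_nonneg (Finset.range_mono (Nat.sub_le _ _))
      fun _ _ _ => ha _

theorem asm_prod {p q P Q e e' : ℝ} (hQ : 0 ≤ P) (hP : P ≤ 1) (hq0 : 0 ≤ q) (hq : q ≤ 1)
    (he : 0 ≤ e) (he' : 0 ≤ e') (h1 : P - e' ≤ p) (h2 : Q - e ≤ q) :
    P * Q - (e + e') ≤ p * q := by
  have h3 : P * (Q - q) ≤ e := by nlinarith
  have h4 : q * (P - p) ≤ e' := by nlinarith
  nlinarith

theorem asm_sqrt {x y e : ℝ} (hx : 0 ≤ x) (he : 0 ≤ e) (h : y - e ≤ x) : √y - √e ≤ √x := by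
  have h1 : √y ≤ √(x + e) := Real.sqrt_le_sqrt (by linarith)
  have h2 : √(x + e) ≤ √x + √e := by
    refine Real.sqrt_le_iff.2 ⟨by positivity, ?_⟩
    nlinarith [Real.sq_sqrt hx, Real.sq_sqrt he,
      mul_nonneg (Real.sqrt_nonneg x) (Real.sqrt_nonneg e)]
  linarith

section J

variable {b : ℝ} {n : ℕ} {m r : ℕ → ℝ} {J : ℕ} {B C : ℝ}

theorem asm_adm
    (hst : ∀ k < n * J, St B (eμ m J k) (eδ n r J k) (eH n m r J k) (eH n m r J (k + 1))) (k : ℕ) :
    ∃ C, Adm C (eH n m r J k) := by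
  by_cases hk : k < n * J
  · exact ⟨B, (hst k hk).adm⟩
  · refine ⟨2, ?_⟩
    unfold eH
    rw [if_neg hk]
    exact adm_lc

theorem asm_δ0 (hr : BPath b n r) (k : ℕ) : 0 ≤ eδ n r J k := by
  unfold eδ
  split_ifs with h
  · have h1 : k / J < n := Nat.div_lt_of_lt_mul (by rwa [mul_comm] at h)
    have := hr.2.1.2 _ h1
    exact div_nonneg (by linarith) (Nat.cast_nonneg _)
  · exact le_rfl

theorem asm_r (hr : BPath b n r) {l : ℕ} (hl : l ≤ n) : 0 ≤ r l ∧ r l ≤ b ^ 2 := by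
  constructor
  · have := minb_mono hr.2.1.2 (Nat.zero_le l) hl
    rwa [hr.1] at this
  · exact (minb_mono hr.2.1.2 hl le_rfl).trans hr.2.2

theorem asm_δ1 (hr : BPath b n r) {k : ℕ} (hJ : 0 < J) : eδ n r J k ≤ b ^ 2 / J := by
  unfold eδ
  split_ifs with h
  · have h1 : k / J < n := Nat.div_lt_of_lt_mul (by rwa [mul_comm] at h)
    have h2 := (asm_r hr (l := k / J + 1) h1).2
    have h3 := (asm_r hr (l := k / J) h1.le).1
    have : (0 : ℝ) < J := by exact_mod_cast hJ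
    gcongr
    linarith
  · positivity

/-- one neighbouring pair -/
theorem asm_pair (hm : Exponents n m) (hr : BPath b n r) (hJ : 0 < J)
    (hst : ∀ k < n * J, St B (eμ m J k) (eδ n r J k) (eH n m r J k) (eH n m r J (k + 1)))
    {η : ℝ} (hη : 0 ≤ η) (hw : ∀ k ≤ n * J, ∀ ψ : ℝ → ℝ, Continuous ψ → (∀ x, |ψ x| ≤ 1) →
      |tE (eμ m J) (eδ n r J) (eH n m r J) k ψ -
        ∫ G, ψ (cX (eF (eμ m J) (eδ n r J) (eH n m r J)) (fun k => √(eδ n r J k)) (ext G) k)
          ∂(γN (n * J))| ≤ η)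
    {a : ℝ} (ha : 0 ≤ a) {l j : ℕ} (hl : l < n) (hj : j + 1 < J) :
    (r (l + 1) - r l) / J * (√(Mb n m r l (j * ((r (l + 1) - r l) / J))) *
        Ab n m r l ((j + 1 : ℕ) * ((r (l + 1) - r l) / J)) - (η + √η)) ≤
      cs (n * J) (eF (eμ m J) (eδ n r J) (eH n m r J)) (fun k => √(eδ n r J k))
        (fun k x => (√(eδ n r J k) + a) * iteratedDeriv 2 (eH n m r J k) x) (l * J + j) *
      ca (n * J) (eF (eμ m J) (eδ n r J) (eH n m r J)) (fun k => √(eδ n r J k))
        (fun k x => (√(eδ n r J k) + a) * iteratedDeriv 2 (eH n m r J k) x) (l * J + j + 1) := by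
  set f := eF (eμ m J) (eδ n r J) (eH n m r J) with hf
  set c := fun k => √(eδ n r J k) with hc
  set H := eH n m r J with hH
  have hJ0 : (0 : ℝ) < J := by exact_mod_cast hJ
  have hv : 0 ≤ r (l + 1) - r l := by linarith [hr.2.1.2 l hl]
  have hm1 : m (l + 1) ≠ 0 := (sp7_exp_of hm l hl).1.ne'
  have hk1 : l * J + j < n * J := lnk_lt hl (by omega)
  have hk2 : l * J + (j + 1) < n * J := lnk_lt hl hj
  obtain ⟨C1, hA1⟩ := asm_adm hst (l * J + j)
  obtain ⟨C2, hA2⟩ := asm_adm hst (l * J + (j + 1))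
  -- tilted values
  have cb1 : Sp7Cb (fun x => iteratedDeriv 2 (H (l * J + j)) x ^ 2) :=
    ⟨(adm_cont hA1.smb.smooth 2).pow 2, 1, fun x => by
      rw [abs_of_nonneg (sq_nonneg _)]
      exact (sq_le_one_iff_abs_le_one _).2 (adm_d2_le hA1 x)⟩
  have cb2 : Sp7Cb (iteratedDeriv 2 (H (l * J + (j + 1)))) :=
    ⟨adm_cont hA2.smb.smooth 2, 1, fun x => adm_d2_le hA2 x⟩
  have eG : ∀ i : ℕ, i < J → H (l * J + i) = Gb n m r l (i * ((r (l + 1) - r l) / J)) :=
    fun i hi => by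
      rw [hH, lnk_eH hJ hl hi.le hm1]
      rfl
  have t1 : tE (eμ m J) (eδ n r J) H (l * J + j)
      (fun x => iteratedDeriv 2 (H (l * J + j)) x ^ 2) =
      Mb n m r l (j * ((r (l + 1) - r l) / J)) := by
    rw [hH, eH_tE hm hr hJ hl (by omega) cb1, eG j (by omega)]
    rfl
  have t2 : tE (eμ m J) (eδ n r J) H (l * J + (j + 1))
      (iteratedDeriv 2 (H (l * J + (j + 1)))) =
      Ab n m r l ((j + 1 : ℕ) * ((r (l + 1) - r l) / J)) := by
    rw [hH, eH_tE hm hr hJ hl hj cb2, eG (j + 1) hj]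
    rfl
  have w1 := hw (l * J + j) hk1.le _ cb1.1 fun x => by
    rw [abs_of_nonneg (sq_nonneg _)]
    exact (sq_le_one_iff_abs_le_one _).2 (adm_d2_le hA1 x)
  have w2 := hw (l * J + (j + 1)) hk2.le _ cb2.1 fun x => adm_d2_le hA2 x
  rw [t1] at w1
  rw [t2] at w2
  set I1 := ∫ G, iteratedDeriv 2 (H (l * J + j)) (cX f c (ext G) (l * J + j)) ^ 2
    ∂(γN (n * J)) with hI1
  set I2 := ∫ G, iteratedDeriv 2 (H (l * J + (j + 1))) (cX f c (ext G) (l * J + (j + 1)))
    ∂(γN (n * J)) with hI2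
  have hI10 : 0 ≤ I1 := integral_nonneg fun _ => sq_nonneg _
  have hI20 : 0 ≤ I2 := integral_nonneg fun _ => (hA2.pos _).le
  have hI21 : I2 ≤ 1 := by
    have h1 : I2 ≤ ∫ _ : Fin (n * J) → ℝ, (1 : ℝ) ∂(γN (n * J)) :=
      integral_mono_of_nonneg (ae_of_all _ fun _ => (hA2.pos _).le) (integrable_const _)
        (ae_of_all _ fun G => (le_abs_self _).trans (adm_d2_le hA2 _))
    simpa using h1
  have hMm : Mb n m r l (j * ((r (l + 1) - r l) / J)) ≤ 1 ∧
      0 ≤ Mb n m r l (j * ((r (l + 1) - r l) / J)) := by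
    have ht : (j * ((r (l + 1) - r l) / J) : ℝ) ∈ Icc 0 (r (l + 1) - r l) := by
      constructor
      · positivity
      · rw [mul_div_assoc', div_le_iff₀ hJ0, mul_comm]
        have : (j : ℝ) ≤ J := by exact_mod_cast (by omega : j ≤ J)
        exact mul_le_mul_of_nonneg_left this hv
    have := Mb_mem hm hr.2.1 hl ht
    exact ⟨this.2, this.1⟩
  have hAm : 0 ≤ Ab n m r l ((j + 1 : ℕ) * ((r (l + 1) - r l) / J)) := by
    have ht : ((j + 1 : ℕ) * ((r (l + 1) - r l) / J) : ℝ) ∈ Icc 0 (r (l + 1) - r l) := by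
      constructor
      · positivity
      · rw [mul_div_assoc', div_le_iff₀ hJ0, mul_comm]
        have : ((j + 1 : ℕ) : ℝ) ≤ J := by exact_mod_cast hj.le
        exact mul_le_mul_of_nonneg_left this hv
    exact (Ab_mem hm hr.2.1 hl ht).1
  have h1 : √(Mb n m r l (j * ((r (l + 1) - r l) / J))) - √η ≤ √I1 :=
    asm_sqrt hI10 hη (by linarith [(abs_le.1 w1).2])
  have h2 : Ab n m r l ((j + 1 : ℕ) * ((r (l + 1) - r l) / J)) - η ≤ I2 := by
    linarith [(abs_le.1 w2).2]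
  have h3 := asm_prod (Real.sqrt_nonneg _) (Real.sqrt_le_one.2 hMm.1) hI20 hI21 hη
    (Real.sqrt_nonneg η) h1 h2
  -- the two factors
  set δ := (r (l + 1) - r l) / J with hδ
  have hδ0 : 0 ≤ δ := div_nonneg hv hJ0.le
  have ed1 : eδ n r J (l * J + j) = δ := lnk_eδ hl (by omega)
  have ed2 : eδ n r J (l * J + (j + 1)) = δ := lnk_eδ hl hj
  have hcs : √δ * √I1 ≤ cs (n * J) f c
      (fun k x => (√(eδ n r J k) + a) * iteratedDeriv 2 (H k) x) (l * J + j) := by
    unfold cs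
    have e : ∀ G : Fin (n * J) → ℝ, ((√(eδ n r J (l * J + j)) + a) *
        iteratedDeriv 2 (H (l * J + j)) (cX f c (ext G) (l * J + j))) ^ 2 =
        (√δ + a) ^ 2 * iteratedDeriv 2 (H (l * J + j)) (cX f c (ext G) (l * J + j)) ^ 2 :=
      fun G => by rw [ed1, mul_pow]
    simp only [e]
    rw [integral_const_mul, Real.sqrt_mul (sq_nonneg _), Real.sqrt_sq (by positivity)]
    exact mul_le_mul_of_nonneg_right (by linarith) (Real.sqrt_nonneg _)
  have hca : √δ * I2 ≤ ca (n * J) f c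
      (fun k x => (√(eδ n r J k) + a) * iteratedDeriv 2 (H k) x) (l * J + j + 1) := by
    unfold ca
    show √δ * I2 ≤ ∫ G, (√(eδ n r J (l * J + (j + 1))) + a) *
      iteratedDeriv 2 (H (l * J + (j + 1))) (cX f c (ext G) (l * J + (j + 1))) ∂(γN (n * J))
    rw [ed2, integral_const_mul]
    exact mul_le_mul_of_nonneg_right (by linarith) hI20
  have h4 : δ * (√I1 * I2) = (√δ * √I1) * (√δ * I2) := by
    have : √δ * √δ = δ := Real.mul_self_sqrt hδ0
    calc δ * (√I1 * I2) = (√δ * √δ) * (√I1 * I2) := by rw [this]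
      _ = _ := by ring
  calc δ * (√(Mb n m r l (j * δ)) * Ab n m r l ((j + 1 : ℕ) * δ) - (η + √η))
      ≤ δ * (√I1 * I2) := mul_le_mul_of_nonneg_left h3 hδ0
    _ = (√δ * √I1) * (√δ * I2) := h4
    _ ≤ _ := mul_le_mul hcs hca (by positivity)
      ((mul_nonneg (Real.sqrt_nonneg _) (Real.sqrt_nonneg _)).trans hcs)

end J

theorem euler_main {b : ℝ} (hb : 1 < b) {n : ℕ} (hn : 1 ≤ n) {m r : ℕ → ℝ}
    (hm : Exponents n m) (hr : BPath b n r) {ε : ℝ} (hε : 0 < ε) :
    ∃ (N : ℕ) (f : ℕ → ℝ → ℝ) (c : ℕ → ℝ) (g : ℕ → ℝ → ℝ), 2 ≤ N ∧ Ctl N f c g ∧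
    (∫ G, (max (|cM f c g (ext G) N| - 1) 0) ^ 2 ∂(γN N)) ≤ ε ∧
    (∑ l ∈ Finset.range n, ∫ t in (0 : ℝ)..(r (l + 1) - r l),
          √(Mb n m r l t) * Ab n m r l t) - ε ≤
      ∑ k ∈ Finset.range (N - 1), cs N f c g k * ca N f c g (k + 1) := by
  obtain ⟨B, hB, hst⟩ := eH_st b
  obtain ⟨C₁, hC₁, hweak⟩ := euler_weak B
  obtain ⟨C₂, hC₂, hstrong⟩ := euler_strong B
  have hn0 : (0 : ℝ) < n := by exact_mod_cast hn
  have hb2 : 0 < b ^ 2 := by positivity
  -- limits
  have tJ : Tendsto (fun J : ℕ => (J : ℝ)) atTop atTop := tendsto_natCast_atTop_atTop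
  have tη : Tendsto (fun J : ℕ => √(Real.exp (C₁ * (n * b ^ 4 / J)) - 1)) atTop (𝓝 0) := by
    have h1 : Tendsto (fun J : ℕ => C₁ * (n * b ^ 4 / (J : ℝ))) atTop (𝓝 (C₁ * 0)) :=
      (tendsto_const_nhds.div_atTop tJ).const_mul _
    have h2 : Tendsto (fun J : ℕ => Real.exp (C₁ * (n * b ^ 4 / (J : ℝ))) - 1) atTop
        (𝓝 (Real.exp (C₁ * 0) - 1)) := ((Real.continuous_exp.tendsto _).comp h1).sub_const 1
    rw [mul_zero, Real.exp_zero, sub_self] at h2
    have h3 := (Real.continuous_sqrt.tendsto 0).comp h2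
    rwa [Real.sqrt_zero] at h3
  have tη2 : Tendsto (fun J : ℕ => n * b ^ 2 * (√(Real.exp (C₁ * (n * b ^ 4 / J)) - 1) +
      √(√(Real.exp (C₁ * (n * b ^ 4 / J)) - 1)))) atTop (𝓝 0) := by
    have h1 := (Real.continuous_sqrt.tendsto 0).comp tη
    rw [Real.sqrt_zero] at h1
    have h2 := (tη.add h1).const_mul (n * b ^ 2)
    rw [add_zero, mul_zero] at h2
    exact h2
  have tS : Tendsto (fun J : ℕ => 2 * (C₂ * Real.exp (n * b ^ 2) * (n * b ^ 4 / J)) +
      2 * (n / J)) atTop (𝓝 0) := by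
    have h1 : Tendsto (fun J : ℕ => (n * b ^ 4 / (J : ℝ))) atTop (𝓝 0) :=
      tendsto_const_nhds.div_atTop tJ
    have h2 : Tendsto (fun J : ℕ => (n / (J : ℝ))) atTop (𝓝 0) :=
      tendsto_const_nhds.div_atTop tJ
    have h3 := ((h1.const_mul (C₂ * Real.exp (n * b ^ 2))).const_mul 2).add (h2.const_mul 2)
    simpa using h3
  have ev1 := tη2.eventually (gt_mem_nhds (show (0 : ℝ) < ε / 2 by positivity))
  have ev2 := tS.eventually (gt_mem_nhds hε)
  have ev3 : ∀ᶠ J : ℕ in atTop, ∀ l ∈ Finset.range n,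
      (∫ t in (0 : ℝ)..(r (l + 1) - r l), √(Mb n m r l t) * Ab n m r l t) - ε / (2 * n) ≤
      ∑ j ∈ Finset.range (J - 1), (r (l + 1) - r l) / J *
        (√(Mb n m r l (j * ((r (l + 1) - r l) / J))) *
          Ab n m r l ((j + 1 : ℕ) * ((r (l + 1) - r l) / J))) := by
    rw [Filter.eventually_all_finset]
    intro l hl
    have hl' := Finset.mem_range.1 hl
    have hv : 0 ≤ r (l + 1) - r l := by linarith [hr.2.1.2 l hl']
    exact riemann_low hv (Mb_cont hm hr.2.1 hl').sqrt (Ab_cont hm hr.2.1 hl')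
      (fun t ht => ⟨Real.sqrt_nonneg _, Real.sqrt_le_one.2 (Mb_mem hm hr.2.1 hl' ht).2⟩)
      (fun t ht => Ab_mem hm hr.2.1 hl' ht) (by positivity)
  obtain ⟨J, h1, h2, h3, hJb, hJ2⟩ := (ev1.and (ev2.and (ev3.and
    ((tJ.eventually_ge_atTop (b ^ 2)).and (eventually_ge_atTop 2))))).exists
  have hJ : 0 < J := by omega
  have hJ0 : (0 : ℝ) < J := by exact_mod_cast hJ
  have hst' := hst n m r hm hr J hJb
  have hN1 : 1 ≤ n * J := by nlinarith
  have ha : (0 : ℝ) < 1 / J := by positivity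
  -- sums of the steps
  have s2 : ∑ j ∈ Finset.range (n * J), eδ n r J j ^ 2 ≤ n * b ^ 4 / J := by
    calc ∑ j ∈ Finset.range (n * J), eδ n r J j ^ 2
        ≤ ∑ _j ∈ Finset.range (n * J), (b ^ 2 / J) ^ 2 :=
          Finset.sum_le_sum fun j _ => pow_le_pow_left₀ (asm_δ0 hr j) (asm_δ1 hr hJ) 2
      _ = n * b ^ 4 / J := by
          rw [Finset.sum_const, Finset.card_range, nsmul_eq_mul]
          push_cast
          field_simp
  have s1 : ∑ j ∈ Finset.range (n * J), eδ n r J j ≤ n * b ^ 2 := by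
    calc ∑ j ∈ Finset.range (n * J), eδ n r J j
        ≤ ∑ _j ∈ Finset.range (n * J), (b ^ 2 / J) :=
          Finset.sum_le_sum fun j _ => asm_δ1 hr hJ
      _ = n * b ^ 2 := by
          rw [Finset.sum_const, Finset.card_range, nsmul_eq_mul]
          push_cast
          field_simp
  have s20 : 0 ≤ ∑ j ∈ Finset.range (n * J), eδ n r J j ^ 2 :=
    Finset.sum_nonneg fun _ _ => sq_nonneg _
  refine ⟨n * J, eF (eμ m J) (eδ n r J) (eH n m r J), fun k => √(eδ n r J k),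
    fun k x => (√(eδ n r J k) + 1 / J) * iteratedDeriv 2 (eH n m r J k) x, by nlinarith,
    ctl_of ha (asm_adm hst'), ?_, ?_⟩
  · have h4 := hstrong (n * J) (eμ m J) (eδ n r J) (eH n m r J) hN1 hst'
    refine (c2_of hN1 hst' h4).trans (le_trans ?_ h2.le)
    have h5 : C₂ * Real.exp (∑ j ∈ Finset.range (n * J), eδ n r J j) *
        ∑ j ∈ Finset.range (n * J), eδ n r J j ^ 2 ≤
        C₂ * Real.exp (n * b ^ 2) * (n * b ^ 4 / J) := by
      refine mul_le_mul (mul_le_mul_of_nonneg_left (Real.exp_le_exp.2 s1) (by linarith)) s2 s20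
        (by positivity)
    have h6 : (1 / (J : ℝ)) ^ 2 * ((n * J : ℕ) : ℝ) = n / J := by
      push_cast
      field_simp
    rw [h6]
    linarith
  · set η := √(Real.exp (C₁ * (n * b ^ 4 / J)) - 1) with hηdef
    have hη : 0 ≤ η := Real.sqrt_nonneg _
    have hw : ∀ k ≤ n * J, ∀ ψ : ℝ → ℝ, Continuous ψ → (∀ x, |ψ x| ≤ 1) →
      |tE (eμ m J) (eδ n r J) (eH n m r J) k ψ -
        ∫ G, ψ (cX (eF (eμ m J) (eδ n r J) (eH n m r J)) (fun k => √(eδ n r J k)) (ext G) k)
          ∂(γN (n * J))| ≤ η := fun k hk ψ hψ hψ1 => by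
      refine (hweak (n * J) _ _ _ hst' k hk ψ hψ hψ1).trans (Real.sqrt_le_sqrt ?_)
      have := Real.exp_le_exp.2 (mul_le_mul_of_nonneg_left s2 (by linarith : (0 : ℝ) ≤ C₁))
      linarith
    have hctl := ctl_of (N := n * J) (μ := eμ m J) (δ := eδ n r J) ha (asm_adm hst')
    set f := eF (eμ m J) (eδ n r J) (eH n m r J) with hf
    set c := fun k => √(eδ n r J k) with hc
    set g := fun (k : ℕ) (x : ℝ) => (√(eδ n r J k) + 1 / (J : ℝ)) *
      iteratedDeriv 2 (eH n m r J k) x with hg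
    have hnn : ∀ k, 0 ≤ cs (n * J) f c g k * ca (n * J) f c g (k + 1) := fun k =>
      mul_nonneg (Real.sqrt_nonneg _) (integral_nonneg fun G => (hctl.gp _ _).le)
    refine le_trans ?_ (asm_sum hnn (by omega) n hn)
    have h7 : ∀ l ∈ Finset.range n,
        (∫ t in (0 : ℝ)..(r (l + 1) - r l), √(Mb n m r l t) * Ab n m r l t) - ε / (2 * n) -
          b ^ 2 * (η + √η) ≤
        ∑ j ∈ Finset.range (J - 1), cs (n * J) f c g (l * J + j) *
          ca (n * J) f c g (l * J + j + 1) := fun l hl => by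
      have hl' := Finset.mem_range.1 hl
      have hv : 0 ≤ r (l + 1) - r l := by linarith [hr.2.1.2 l hl']
      have hvb : r (l + 1) - r l ≤ b ^ 2 := by
        have e1 := (asm_r hr (l := l + 1) hl').2
        have e2 := (asm_r hr (l := l) hl'.le).1
        linarith
      have h8 : ∑ j ∈ Finset.range (J - 1), (r (l + 1) - r l) / J *
          (√(Mb n m r l (j * ((r (l + 1) - r l) / J))) *
            Ab n m r l ((j + 1 : ℕ) * ((r (l + 1) - r l) / J)) - (η + √η)) ≤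
          ∑ j ∈ Finset.range (J - 1), cs (n * J) f c g (l * J + j) *
            ca (n * J) f c g (l * J + j + 1) := by
        refine Finset.sum_le_sum fun j hj => ?_
        have hj' := Finset.mem_range.1 hj
        exact asm_pair hm hr hJ hst' hη hw ha.le hl' (by omega)
      refine le_trans ?_ h8
      have h9 : ∑ j ∈ Finset.range (J - 1), (r (l + 1) - r l) / J *
          (√(Mb n m r l (j * ((r (l + 1) - r l) / J))) *
            Ab n m r l ((j + 1 : ℕ) * ((r (l + 1) - r l) / J)) - (η + √η)) =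
          (∑ j ∈ Finset.range (J - 1), (r (l + 1) - r l) / J *
          (√(Mb n m r l (j * ((r (l + 1) - r l) / J))) *
            Ab n m r l ((j + 1 : ℕ) * ((r (l + 1) - r l) / J)))) -
          ((J - 1 : ℕ) : ℝ) * ((r (l + 1) - r l) / J * (η + √η)) := by
        simp only [mul_sub]
        rw [Finset.sum_sub_distrib, Finset.sum_const, Finset.card_range, nsmul_eq_mul]
      rw [h9]
      have h10 : ((J - 1 : ℕ) : ℝ) * ((r (l + 1) - r l) / J * (η + √η)) ≤ b ^ 2 * (η + √η) := by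
        rw [← mul_assoc]
        refine mul_le_mul_of_nonneg_right ?_ (by positivity)
        rw [mul_div_assoc', div_le_iff₀ hJ0]
        have h11 : ((J - 1 : ℕ) : ℝ) ≤ J := by exact_mod_cast Nat.sub_le _ _
        calc ((J - 1 : ℕ) : ℝ) * (r (l + 1) - r l) ≤ J * (r (l + 1) - r l) :=
              mul_le_mul_of_nonneg_right h11 hv
          _ ≤ J * b ^ 2 := mul_le_mul_of_nonneg_left hvb hJ0.le
          _ = b ^ 2 * J := mul_comm _ _
      linarith [h3 l hl]
    have h12 := Finset.sum_le_sum h7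
    rw [Finset.sum_sub_distrib, Finset.sum_sub_distrib, Finset.sum_const, Finset.sum_const,
      Finset.card_range, nsmul_eq_mul, nsmul_eq_mul] at h12
    have h13 : (n : ℝ) * (ε / (2 * n)) = ε / 2 := by field_simp
    rw [h13] at h12
    have h14 : (n : ℝ) * (b ^ 2 * (η + √η)) = n * b ^ 2 * (η + √η) := by ring
    rw [h14] at h12
    linarith

/-- **Theorem C.** -/
theorem thmC : ThmC := by
  intro P hP ε hε
  obtain ⟨b₀, hb₀, hv⟩ := value_main (half_pos hε)
  obtain ⟨n₀, hn₀⟩ := hv b₀ le_rfl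
  set n := max n₀ 1 with hn
  have hn1 : 1 ≤ n := le_max_right _ _
  have hb0 : 0 < b₀ := by linarith
  obtain ⟨r, hr, hmin⟩ := exists_min hb0 (gm_exponents n)
  have h1 := hn₀ n (le_max_left _ _) r ⟨hr, hmin⟩
  have h2 : P ≤ (SKr b₀ n (gm n) r + Real.log 2) / b₀ :=
    le_of_tendsto hP ((eventually_ge_atTop 1).mono fun N hN =>
      ground_le hb0 hN (gm_exponents n) hr)
  obtain ⟨N, f, c, g, hN, hC, hc2, hc3⟩ := euler_main hb₀ hn1 (gm_exponents n) hr (half_pos hε)
  exact ⟨N, f, c, g, hN, hC, hc2.trans (by linarith), by linarith⟩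

end Vale.Agent.P367.Cl
end
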