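import Mathlib
import Vale.Agent.P367.Bd3.B5
import Vale.Agent.P367.Bd3.B1
import Vale.Agent.P367.Gap.Values
import Vale.Agent.P367.Bd3.B7
import Vale.Agent.P367.Bd3.B4
import Vale.Agent.P367.Bd3.B3
import Vale.Agent.P367.Bd3.B8
import Vale.Agent.P367.Bd3.B9
import Vale.Agent.P367.Bd3.B6
import Vale.Agent.P367.Bd3.B2

set_option linter.all false

section

namespace Vale.Agent.P367.NI

open Finset ComplexConjugate MeasureTheory ProbabilityTheory Filter Topology
open Vale.Agent.P367.Gap Vale.Agent.P367.Lim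

variable {n : ℕ}

/-- two-site kernel of the energy -/
noncomputable def hk (γ : ℕ → ℝ) (p : ℕ) (x y : CP p) : ℝ := lst x * lst y * qq γ p x y

lemma qaoaMean_eq' (J : Pair n → ℝ) (p : ℕ) (γ β : Fin p → ℝ) :
    qaoaMean J p γ β = ∑ s, ‖qaoaState J p γ β s‖ ^ 2 * skEnergy J s := by
  unfold qaoaMean
  have h : star (qaoaState J p γ β) ⬝ᵥ (Matrix.mulVec (costOp J) (qaoaState J p γ β))
      = ((∑ s, ‖qaoaState J p γ β s‖ ^ 2 * skEnergy J s : ℝ) : ℂ) := by
    rw [costOp_eq, dotProduct]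
    push_cast
    apply Finset.sum_congr rfl
    intro s _
    rw [Matrix.mulVec_diagonal]
    simp only [Pi.star_apply, RCLike.star_def]
    rw [mul_left_comm, mul_comm ((starRingEnd ℂ) _), Complex.mul_conj,
      Complex.normSq_eq_norm_sq]
    push_cast
    ring
  rw [h, Complex.ofReal_re]

/-- the mean energy at fixed couplings as a contour sum -/
lemma mean_contour (J : Pair n → ℝ) (p : ℕ) (γ β : Fin p → ℝ) (γ' β' : ℕ → ℝ)
    (hγ : ∀ k : Fin p, γ' k = γ k) (hβ : ∀ k : Fin p, β' k = β k) :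
    ((qaoaMean J p γ β : ℝ) : ℂ) = ∑ X : Fin n → CP p, (∏ j, wgt β' p (X j)) *
      (((∑ e : Pair n, ((Real.sqrt n)⁻¹ * (lst (X e.1.1) * lst (X e.1.2))) * J e : ℝ) : ℂ) *
      Complex.exp (-(Complex.I * ((∑ e : Pair n, ((Real.sqrt n)⁻¹ *
        qq γ' p (X e.1.1) (X e.1.2)) * J e : ℝ) : ℂ)))) := by
  let u : ℕ → Conf n → ℂ := fun k z =>
    if k < p then Complex.exp (-(Complex.I * γ' k * ((skEnergy J z : ℝ) : ℂ)))
    else ((skEnergy J z : ℝ) : ℂ)
  let v : ℕ → Conf n → ℂ := fun k z =>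
    if k < p then Complex.exp (-(Complex.I * γ' k * ((skEnergy J z : ℝ) : ℂ)))
    else 1
  have hu := qaoa_amp J u γ' β' p γ β hγ hβ (fun k hk z => by simp [u, hk])
  have hv := qaoa_amp J v γ' β' p γ β hγ hβ (fun k hk z => by simp [v, hk])
  have h1 : ((qaoaMean J p γ β : ℝ) : ℂ) = ∑ z, amp β' p u z * conj (amp β' p v z) := by
    rw [qaoaMean_eq', Complex.ofReal_sum]
    refine sum_congr rfl fun z _ => ?_
    rw [hu, hv]
    have e1 : u p z = ((skEnergy J z : ℝ) : ℂ) := by simp [u]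
    have e2 : v p z = 1 := by simp [v]
    rw [e1, e2, one_mul]
    have e3 : ((‖qaoaState J p γ β z‖ ^ 2 : ℝ) : ℂ)
        = qaoaState J p γ β z * conj (qaoaState J p γ β z) := by
      rw [Complex.mul_conj, Complex.normSq_eq_norm_sq]
    rw [Complex.ofReal_mul, e3]
    ring
  rw [h1, sum_amp_mul_conj]
  refine sum_congr rfl fun X _ => ?_
  congr 1
  have e1 : ∏ k : Fin (p + 1), u k (fun j => (X j).1 k)
      = Complex.exp (-(Complex.I * ((∑ k : Fin p, γ' k * skEnergy J (fun j => (X j).1 k.castSucc)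
          : ℝ) : ℂ))) * ((skEnergy J (fun j => (X j).1 (Fin.last p)) : ℝ) : ℂ) := by
    rw [Fin.prod_univ_castSucc]
    have e2 : ∀ k : Fin p, u k.castSucc (fun j => (X j).1 k.castSucc)
        = Complex.exp (-(Complex.I * ((γ' k * skEnergy J (fun j => (X j).1 k.castSucc) : ℝ) : ℂ))) := by
      intro k
      simp only [u, Fin.val_castSucc, k.2, if_true]
      exact exp_weight _ _
    have e3 : u (Fin.last p) (fun j => (X j).1 (Fin.last p))
        = ((skEnergy J (fun j => (X j).1 (Fin.last p)) : ℝ) : ℂ) := by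
      simp [u]
    rw [e3]
    congr 1
    simp_rw [e2]
    rw [← Complex.exp_sum]
    congr 1
    rw [sum_neg_distrib, ← mul_sum]
    push_cast
    ring
  have e2 : ∏ k : Fin (p + 1), conj (v k (fun j => (X j).2 k))
      = Complex.exp (Complex.I * ((∑ k : Fin p, γ' k * skEnergy J (fun j => (X j).2 k.castSucc)
          : ℝ) : ℂ)) := by
    rw [Fin.prod_univ_castSucc]
    have e2 : ∀ k : Fin p, conj (v k.castSucc (fun j => (X j).2 k.castSucc))
        = Complex.exp (Complex.I * ((γ' k * skEnergy J (fun j => (X j).2 k.castSucc) : ℝ) : ℂ)) := by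
      intro k
      simp only [v, Fin.val_castSucc, k.2, if_true]
      rw [exp_weight, ← Complex.exp_conj, map_neg, map_mul, Complex.conj_I, Complex.conj_ofReal]
      congr 1
      ring
    have e3 : conj (v (Fin.last p) (fun j => (X j).2 (Fin.last p))) = 1 := by
      simp [v]
    rw [e3]
    simp_rw [e2]
    rw [← Complex.exp_sum, ← mul_sum, mul_one]
    push_cast
    ring_nf
  rw [e1, e2]
  have key1 : ∑ e : Pair n, ((Real.sqrt n)⁻¹ * (lst (X e.1.1) * lst (X e.1.2))) * J e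
      = skEnergy J (fun j => (X j).1 (Fin.last p)) := by
    unfold skEnergy lst
    rw [mul_sum]
    refine sum_congr rfl fun e _ => ?_
    ring
  have key2 : ∑ e : Pair n, ((Real.sqrt n)⁻¹ * qq γ' p (X e.1.1) (X e.1.2)) * J e
      = ∑ k : Fin p, γ' k * skEnergy J (fun j => (X j).1 k.castSucc)
        - ∑ k : Fin p, γ' k * skEnergy J (fun j => (X j).2 k.castSucc) := by
    unfold skEnergy
    simp_rw [mul_sum]
    rw [Finset.sum_comm, Finset.sum_comm (s := (univ : Finset (Fin p)))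
      (f := fun k e => γ' ↑k * ((Real.sqrt n)⁻¹ * (J e *
        (spin ((X e.1.1).2 k.castSucc) * spin ((X e.1.2).2 k.castSucc)))))]
    rw [← sum_sub_distrib]
    refine sum_congr rfl fun e _ => ?_
    unfold qq
    rw [mul_sum, sum_mul, ← sum_sub_distrib]
    refine sum_congr rfl fun k _ => ?_
    ring
  rw [key1, key2]
  have h3 : Complex.exp (-(Complex.I * ((∑ k : Fin p, γ' k * skEnergy J (fun j => (X j).1 k.castSucc)
          : ℝ) : ℂ))) * Complex.exp (Complex.I * ((∑ k : Fin p,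
            γ' k * skEnergy J (fun j => (X j).2 k.castSucc) : ℝ) : ℂ))
      = Complex.exp (-(Complex.I * ((∑ k : Fin p, γ' k * skEnergy J (fun j => (X j).1 k.castSucc)
        - ∑ k : Fin p, γ' k * skEnergy J (fun j => (X j).2 k.castSucc) : ℝ) : ℂ))) := by
    rw [← Complex.exp_add]
    congr 1
    push_cast
    ring
  rw [← h3]
  ring

/-- the averaged energy as a contour sum -/
lemma mean_avg (p : ℕ) (γ β : Fin p → ℝ) (γ' β' : ℕ → ℝ)
    (hγ : ∀ k : Fin p, γ' k = γ k) (hβ : ∀ k : Fin p, β' k = β k) :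
    ((∫ J, qaoaMean J p γ β ∂(couplingLaw n) : ℝ) : ℂ) = ∑ X : Fin n → CP p,
      (∏ j, wgt β' p (X j)) * (-(Complex.I * (((Real.sqrt n)⁻¹ ^ 2 *
        ∑ e : Pair n, hk γ' p (X e.1.1) (X e.1.2) : ℝ) : ℂ)) *
      Complex.exp (-(((Real.sqrt n)⁻¹ ^ 2 / 4 * QI γ' p (fun _ _ => 0) X : ℝ) : ℂ))) := by
  rw [← integral_complex_ofReal]
  simp_rw [mean_contour _ p γ β γ' β' hγ hβ]
  rw [integral_finsetSum]
  · refine sum_congr rfl fun X _ => ?_
    rw [integral_const_mul]
    congr 1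
    unfold couplingLaw
    rw [gauss_ibp]
    have h1 : ∑ e : Pair n, ((Real.sqrt n)⁻¹ * (lst (X e.1.1) * lst (X e.1.2))) *
        ((Real.sqrt n)⁻¹ * qq γ' p (X e.1.1) (X e.1.2))
        = (Real.sqrt n)⁻¹ ^ 2 * ∑ e : Pair n, hk γ' p (X e.1.1) (X e.1.2) := by
      rw [mul_sum]
      refine sum_congr rfl fun e _ => ?_
      unfold hk
      ring
    rw [h1]
    congr 4
    have h := sum_sym (n := n) (fun a b => (qq γ' p (X a) (X b)) ^ 2) (fun a b => by
          rw [qq_comm])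
    have h3 : QI γ' p (fun _ _ => 0) X
        = ∑ i, ∑ j, (if i = j then 0 else (qq γ' p (X i) (X j)) ^ 2) := by
      unfold QI
      simp
    rw [h3, h]
    simp_rw [mul_pow]
    rw [← mul_sum]
    ring
  · intro X _
    refine Integrable.const_mul ?_ _
    have hi := integrable_lin (fun e : Pair n =>
      (Real.sqrt n)⁻¹ * (lst (X e.1.1) * lst (X e.1.2)))
    refine (hi.norm).mono' ?_ ?_
    · refine Continuous.aestronglyMeasurable ?_
      fun_prop
    · refine Filter.Eventually.of_forall fun J => ?_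
      rw [norm_mul, norm_exp_neg_I, mul_one, Complex.norm_real]

lemma card_pair (n : ℕ) : ((Fintype.card (Pair n) : ℕ) : ℝ) = (n : ℝ) * ((n : ℝ) - 1) / 2 := by
  have h := sum_sym (n := n) (fun _ _ => 1) (fun _ _ => rfl)
  simp only [sum_const, card_univ, nsmul_eq_mul, mul_one] at h
  have h2 : ∑ i : Fin n, ∑ j : Fin n, (if i = j then (0 : ℝ) else 1) = (n : ℝ) * ((n : ℝ) - 1) := by
    have h3 : ∀ i : Fin n, ∑ j : Fin n, (if i = j then (0 : ℝ) else 1) = (n : ℝ) - 1 := by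
      intro i
      have h4 : ∀ j : Fin n, (if i = j then (0 : ℝ) else 1) = 1 - (if i = j then 1 else 0) := by
        intro j; split_ifs <;> simp
      simp_rw [h4]
      rw [sum_sub_distrib]
      simp
    simp_rw [h3]
    rw [sum_const, card_univ, Fintype.card_fin, nsmul_eq_mul]
  rw [h2] at h
  linarith

/-- an enumeration of the sites beginning with two given ones -/
lemma exists_equiv {N : ℕ} (i j : Fin (N + 2)) (hij : i ≠ j) :
    ∃ e : Fin 2 ⊕ Fin N ≃ Fin (N + 2), e (Sum.inl 0) = i ∧ e (Sum.inl 1) = j := by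
  classical
  let f : Fin 2 → Fin (N + 2) := ![i, j]
  have hf : Function.Injective f := by
    intro a b h
    fin_cases a <;> fin_cases b <;> simp_all [f]
  have hc : Fintype.card (Fin N) = Fintype.card ((Set.range f)ᶜ : Set (Fin (N + 2))) := by
    rw [Fintype.card_compl_set, Set.card_range_of_injective hf]
    simp
  let e : Fin 2 ⊕ Fin N ≃ Fin (N + 2) :=
    ((Equiv.ofInjective f hf).sumCongr (Fintype.equivOfCardEq hc)).trans
      (Equiv.Set.sumCompl (Set.range f))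
  refine ⟨e, ?_, ?_⟩
  · simp [e, f]
  · simp [e, f]

/-- one pair of sites in the contour sum -/
lemma pair_term (γ β : ℕ → ℝ) (p N : ℕ) (s : ℝ) (h : CP p → CP p → ℂ) (i j : Fin (N + 2))
    (hij : i ≠ j) :
    ∑ X : Fin (N + 2) → CP p, (∏ k, wgt β p (X k)) * (h (X i) (X j) *
      Complex.exp (-((s ^ 2 / 4 * QI γ p (fun _ _ => 0) X : ℝ) : ℂ)))
      = ∑ y : Fin 2 → CP p, h (y 0) (y 1) * Mg γ β p 2 N s y := by
  classical
  obtain ⟨e, he0, he1⟩ := exists_equiv i j hij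
  have h1 : ∀ y : Fin 2 → CP p, Mg γ β p 2 N s y
      = ∑ X : Fin (N + 2) → CP p, (∏ k, wgt β p (X k)) *
        ((if (fun a : Fin 2 => X (e (Sum.inl a))) = y then 1 else 0) *
        Complex.exp (-((s ^ 2 / 4 * QI γ p (fun _ _ => 0) X : ℝ) : ℂ))) := by
    intro y
    have h2 := FF_equiv γ β p s e (fun _ _ => 0)
      (fun k x => Sum.elim (fun a x => if x = y a then (1 : ℂ) else 0) (fun _ _ => 1) (e.symm k) x)
    unfold Mg
    simp only [Equiv.symm_apply_apply] at h2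
    refine Eq.trans h2.symm ?_
    unfold FF
    refine sum_congr rfl fun X _ => ?_
    rw [prod_mul_distrib, mul_assoc]
    congr 2
    rw [← e.prod_comp]
    simp only [Equiv.symm_apply_apply]
    rw [Fintype.prod_sum_type]
    simp only [Sum.elim_inl, Sum.elim_inr, prod_const_one, mul_one]
    by_cases hy : (fun a : Fin 2 => X (e (Sum.inl a))) = y
    · rw [if_pos hy]
      refine prod_eq_one fun a _ => ?_
      rw [if_pos (congrFun hy a)]
    · rw [if_neg hy]
      obtain ⟨a, ha⟩ := Function.ne_iff.1 hy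
      exact prod_eq_zero (mem_univ a) (if_neg ha)
  simp_rw [h1, mul_sum]
  rw [Finset.sum_comm]
  refine sum_congr rfl fun X _ => ?_
  rw [sum_eq_single (fun a : Fin 2 => X (e (Sum.inl a)))]
  · simp only [if_true, he0, he1]
    ring
  · intro y _ hy
    rw [if_neg (fun h => hy h.symm)]
    ring
  · intro h; exact absurd (mem_univ _) h

/-- the averaged energy through two-site marginals -/
lemma mean_marg (N : ℕ) (p : ℕ) (γ β : Fin p → ℝ) (γ' β' : ℕ → ℝ)
    (hγ : ∀ k : Fin p, γ' k = γ k) (hβ : ∀ k : Fin p, β' k = β k) :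
    ((qaoaValue (N + 2) p γ β : ℝ) : ℂ) = -(Complex.I * (((N : ℂ) + 1) / (2 * ((N : ℂ) + 2)))) *
      ∑ y : Fin 2 → CP p, ((hk γ' p (y 0) (y 1) : ℝ) : ℂ) *
        Mg γ' β' p 2 N (Real.sqrt ((N + 2 : ℕ) : ℝ))⁻¹ y := by
  unfold qaoaValue
  rw [Complex.ofReal_mul, mean_avg p γ β γ' β' hγ hβ]
  set s : ℝ := (Real.sqrt ((N + 2 : ℕ) : ℝ))⁻¹ with hs
  set S : ℂ := ∑ y : Fin 2 → CP p, ((hk γ' p (y 0) (y 1) : ℝ) : ℂ) * Mg γ' β' p 2 N s y with hS
  have h1 : ∑ X : Fin (N + 2) → CP p, (∏ j, wgt β' p (X j)) * (-(Complex.I * ((s ^ 2 *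
        ∑ e : Pair (N + 2), hk γ' p (X e.1.1) (X e.1.2) : ℝ) : ℂ)) *
      Complex.exp (-((s ^ 2 / 4 * QI γ' p (fun _ _ => 0) X : ℝ) : ℂ)))
      = ∑ _e : Pair (N + 2), -(Complex.I * (s : ℂ) ^ 2) * S := by
    have h2 : ∀ e : Pair (N + 2), -(Complex.I * (s : ℂ) ^ 2) * S
        = ∑ X : Fin (N + 2) → CP p, -(Complex.I * (s : ℂ) ^ 2) * ((∏ k, wgt β' p (X k)) *
          (((hk γ' p (X e.1.1) (X e.1.2) : ℝ) : ℂ) *
      Complex.exp (-((s ^ 2 / 4 * QI γ' p (fun _ _ => 0) X : ℝ) : ℂ)))) := by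
      intro e
      rw [← mul_sum, pair_term γ' β' p N s (fun x y => ((hk γ' p x y : ℝ) : ℂ)) e.1.1 e.1.2
        (ne_of_lt e.2)]
    rw [sum_congr rfl fun e _ => h2 e, Finset.sum_comm]
    refine sum_congr rfl fun X _ => ?_
    rw [← mul_sum, ← mul_sum, ← sum_mul]
    push_cast
    ring
  rw [h1, sum_const, card_univ, nsmul_eq_mul]
  have h3 : ((Fintype.card (Pair (N + 2)) : ℕ) : ℂ) = ((N : ℂ) + 2) * ((N : ℂ) + 1) / 2 := by
    have := card_pair (N + 2)
    have h4 : (((Fintype.card (Pair (N + 2)) : ℕ) : ℝ) : ℂ)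
        = ((((N + 2 : ℕ) : ℝ) * (((N + 2 : ℕ) : ℝ) - 1) / 2 : ℝ) : ℂ) := by rw [this]
    rw [Complex.ofReal_natCast] at h4
    rw [h4]
    push_cast
    ring
  have h5 : (s : ℂ) ^ 2 = ((N : ℂ) + 2)⁻¹ := by
    rw [hs]
    have h6 : (Real.sqrt ((N + 2 : ℕ) : ℝ))⁻¹ ^ 2 = ((N : ℝ) + 2)⁻¹ := by
      rw [inv_pow, Real.sq_sqrt (by positivity)]
      push_cast
      ring
    rw [← Complex.ofReal_pow, h6]
    push_cast
    ring
  have h7 : ((N : ℂ) + 2) ≠ 0 := by
    have : ((N : ℝ) + 2) ≠ 0 := by positivity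
    exact_mod_cast this
  rw [h3, h5]
  push_cast
  field_simp

/-- limiting pair correlation between layer `k` and the end -/
noncomputable def Gc (γ β : ℕ → ℝ) (p : ℕ) (k : Fin p) : ℂ :=
  ∑ x : CP p, gg γ β p x * ((spin (x.1 k.castSucc) * lst x : ℝ) : ℂ)

/-- swap of ket and bra -/
def swpN {p : ℕ} (x : CP p) : CP p := (x.2, x.1)

/-- swap as an equivalence -/
def swE (p : ℕ) : CP p ≃ CP p := Equiv.prodComm _ _

lemma wgt_swp (β : ℕ → ℝ) (p : ℕ) (x : CP p) : wgt β p (swpN x) = conj (wgt β p x) := by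
  unfold wgt swpN
  simp only [map_mul, Complex.conj_conj]
  by_cases h : x.1 (Fin.last p) = x.2 (Fin.last p)
  · rw [if_pos h, if_pos h.symm]
    simp only [map_one]
    ring
  · rw [if_neg h, if_neg (fun h' => h h'.symm)]
    simp

lemma qh_swp (γ : ℕ → ℝ) (p : ℕ) (x y : CP p) : qh γ p (swpN x) (swpN y) = -qh γ p x y := by
  unfold qh swpN
  rw [← sum_neg_distrib]
  refine sum_congr rfl fun k _ => ?_
  ring

lemma gg_swp (γ β : ℕ → ℝ) (p : ℕ) (x : CP p) : gg γ β p (swpN x) = conj (gg γ β p x) := by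
  induction p with
  | zero => simp only [gg]; exact wgt_swp β 0 x
  | succ p ih =>
    simp only [gg]
    rw [map_mul, wgt_swp, ← Complex.exp_conj]
    congr 2
    rw [map_neg, map_mul, map_sum, ← (swE p).sum_comp]
    have h1 : conj (1 / 2 : ℂ) = 1 / 2 := by
      rw [map_div₀, map_one]
      congr 1
      exact Complex.conj_ofNat 2
    rw [h1]
    congr 2
    refine sum_congr rfl fun y _ => ?_
    have h2 : (swE p) y = swpN y := rfl
    have h3 : ini (swpN x) = swpN (ini x) := rfl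
    rw [h2, h3, ih, qh_swp, neg_sq, map_mul, Complex.conj_ofReal]

lemma gg_open (γ β : ℕ → ℝ) (p : ℕ) (x : CP p) (h : x.1 (Fin.last p) ≠ x.2 (Fin.last p)) :
    gg γ β p x = 0 := by
  have hw : wgt β p x = 0 := by
    unfold wgt
    rw [if_neg h, mul_zero]
  cases p with
  | zero => simp only [gg]; exact hw
  | succ p => simp only [gg]; rw [hw, zero_mul]

lemma sum_bra (γ β : ℕ → ℝ) (p : ℕ) (k : Fin p) :
    ∑ x : CP p, gg γ β p x * ((spin (x.2 k.castSucc) * lst x : ℝ) : ℂ) = conj (Gc γ β p k) := by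
  unfold Gc
  rw [map_sum, ← (swE p).sum_comp]
  refine sum_congr rfl fun x _ => ?_
  have h2 : (swE p) x = swpN x := rfl
  rw [h2, gg_swp, map_mul, Complex.conj_ofReal]
  by_cases h : x.1 (Fin.last p) = x.2 (Fin.last p)
  · congr 2
    unfold swpN lst
    rw [h]
  · rw [gg_open γ β p x h]
    simp

/-- the limiting energy in closed form -/
noncomputable def enL (γ β : ℕ → ℝ) (p : ℕ) : ℝ := ∑ k : Fin p, γ k * ((Gc γ β p k) ^ 2).im

lemma enL_eq (γ β : ℕ → ℝ) (p : ℕ) :
    -(Complex.I * (1 / 2)) * ∑ y : Fin 2 → CP p, ((hk γ p (y 0) (y 1) : ℝ) : ℂ) *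
      ∏ i, gg γ β p (y i) = ((enL γ β p : ℝ) : ℂ) := by
  have h1 : ∑ y : Fin 2 → CP p, ((hk γ p (y 0) (y 1) : ℝ) : ℂ) * ∏ i, gg γ β p (y i)
      = ∑ a : CP p, ∑ b : CP p, ((hk γ p a b : ℝ) : ℂ) * (gg γ β p a * gg γ β p b) := by
    rw [← (finTwoArrowEquiv (CP p)).symm.sum_comp, Fintype.sum_prod_type]
    refine sum_congr rfl fun a _ => sum_congr rfl fun b _ => ?_
    simp [finTwoArrowEquiv, Fin.prod_univ_two]
  rw [h1]
  have h2 : ∑ a : CP p, ∑ b : CP p, ((hk γ p a b : ℝ) : ℂ) * (gg γ β p a * gg γ β p b)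
      = ∑ k : Fin p, (γ k : ℂ) * ((Gc γ β p k) ^ 2 - (conj (Gc γ β p k)) ^ 2) := by
    have h3 : ∀ k : Fin p, (γ k : ℂ) * ((Gc γ β p k) ^ 2 - (conj (Gc γ β p k)) ^ 2)
        = ∑ a : CP p, ∑ b : CP p, (γ k : ℂ) *
          ((gg γ β p a * ((spin (a.1 k.castSucc) * lst a : ℝ) : ℂ)) *
            (gg γ β p b * ((spin (b.1 k.castSucc) * lst b : ℝ) : ℂ)) -
          (gg γ β p a * ((spin (a.2 k.castSucc) * lst a : ℝ) : ℂ)) *
            (gg γ β p b * ((spin (b.2 k.castSucc) * lst b : ℝ) : ℂ))) := by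
      intro k
      rw [← sum_bra, pow_two, pow_two]
      unfold Gc
      rw [sum_mul_sum, sum_mul_sum, ← sum_sub_distrib, mul_sum]
      refine sum_congr rfl fun a _ => ?_
      rw [← sum_sub_distrib, mul_sum]
    have h5 := Finset.sum_congr (rfl : (univ : Finset (Fin p)) = univ) (fun k _ => h3 k)
    have h6 : ∀ f : Fin p → CP p → CP p → ℂ, ∑ k, ∑ a, ∑ b, f k a b
        = ∑ a, ∑ b, ∑ k, f k a b := by
      intro f
      rw [Finset.sum_comm]
      refine sum_congr rfl fun a _ => ?_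
      rw [Finset.sum_comm]
    refine Eq.trans ?_ (h5.trans (h6 _)).symm
    refine sum_congr rfl fun a _ => sum_congr rfl fun b _ => ?_
    unfold hk qq
    push_cast
    rw [mul_sum, sum_mul]
    refine sum_congr rfl fun k _ => ?_
    ring
  rw [h2]
  unfold enL
  rw [mul_sum, Complex.ofReal_sum]
  refine sum_congr rfl fun k _ => ?_
  have h4 : ∀ z : ℂ, z ^ 2 - (conj z) ^ 2 = 2 * Complex.I * (((z ^ 2).im : ℝ) : ℂ) := by
    intro z
    rw [← map_pow]
    generalize z ^ 2 = w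
    apply Complex.ext
    · simp
    · simp
      ring
  rw [h4]
  push_cast
  have hI := Complex.I_mul_I
  linear_combination -((γ k : ℂ) * ((((Gc γ β p k) ^ 2).im : ℝ) : ℂ)) * hI

/-- the infinite-size value is explicit -/
theorem qaoaValue_tendsto_enL (p : ℕ) (γ β : Fin p → ℝ) (γ' β' : ℕ → ℝ)
    (hγ : ∀ k : Fin p, γ' k = γ k) (hβ : ∀ k : Fin p, β' k = β k) :
    Tendsto (fun n : ℕ => qaoaValue n p γ β) atTop (𝓝 (enL γ' β' p)) := by
  rw [← tendsto_add_atTop_iff_nat 2]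
  have hs : Tendsto (fun N : ℕ => (N : ℝ) * ((Real.sqrt ((N + 2 : ℕ) : ℝ))⁻¹) ^ 2) atTop (𝓝 1) :=
    seq_s 2
  have h1 : Tendsto (fun N : ℕ => ((qaoaValue (N + 2) p γ β : ℝ) : ℂ)) atTop
      (𝓝 ((enL γ' β' p : ℝ) : ℂ)) := by
    simp_rw [mean_marg _ p γ β γ' β' hγ hβ]
    rw [← enL_eq]
    refine Tendsto.mul ?_ ?_
    · refine Tendsto.neg (Tendsto.const_mul _ ?_)
      have h2 : Tendsto (fun N : ℕ => ((((N : ℝ) + 1) / (2 * ((N : ℝ) + 2)) : ℝ) : ℂ)) atTop
          (𝓝 ((1 / 2 : ℝ) : ℂ)) := by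
        refine (Complex.continuous_ofReal.tendsto _).comp ?_
        have h3 : Tendsto (fun N : ℕ => (1 / 2 : ℝ) - (1 / 2) * (1 / ((N : ℝ) + 2))) atTop
            (𝓝 (1 / 2 - (1 / 2) * 0)) := by
          refine tendsto_const_nhds.sub (Tendsto.const_mul _ ?_)
          have h4 := (tendsto_add_atTop_iff_nat 1).2
            (tendsto_one_div_add_atTop_nhds_zero_nat (𝕜 := ℝ))
          refine h4.congr fun N => ?_
          push_cast
          ring
        rw [mul_zero, sub_zero] at h3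
        refine h3.congr fun N => ?_
        have h5 : ((N : ℝ) + 2) ≠ 0 := by positivity
        field_simp
        ring
      refine (h2.congr fun N => ?_).trans (le_of_eq ?_)
      · push_cast; ring
      · push_cast; ring_nf
    · refine tendsto_finsetSum _ fun y _ => Tendsto.const_mul _ ?_
      exact LT_all γ' β' p 2 y _ hs
  have h2 := (Complex.continuous_re.tendsto _).comp h1
  simpa [Function.comp_def] using h2

end Vale.Agent.P367.NI
end

section

namespace Vale.Agent.P367.NI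

open Finset ComplexConjugate Filter Topology
open Vale.Agent.P367.Gap Vale.Agent.P367.Lim

variable {F K : Type} [NormedAddCommGroup F] [InnerProductSpace ℂ F]
  [NormedAddCommGroup K] [InnerProductSpace ℂ K]

/-- component of a one-site vector -/
def cmp (b : Bool) (x : HH F) : F := if b then x.snd else x.fst

lemma inner_cmp (x y : HH F) : inner ℂ x y = ∑ b : Bool, inner ℂ (cmp b x) (cmp b y) := by
  rw [inner_HH, Fintype.sum_bool]
  simp only [cmp, if_true, Bool.false_eq_true, if_false]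
  rw [add_comm]

lemma cmp_zop (b : Bool) (x : HH F) : cmp b (zop F x) = ((spin b : ℝ) : ℂ) • cmp b x := by
  cases b <;> simp [cmp, spin]

lemma cmp_xr (β : ℝ) (b : Bool) (x : HH F) :
    cmp b (xr β x) = ∑ z : Bool, mix β b z • cmp z x := by
  rw [Fintype.sum_bool]
  cases b
  · have h : cmp false (xr β x)
        = (Real.cos β : ℂ) • x.fst - (Complex.I * (Real.sin β : ℂ)) • x.snd := rfl
    rw [h]
    simp only [cmp, mix, if_true, Bool.false_eq_true, if_false, neg_smul]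
    abel
  · have h : cmp true (xr β x)
        = -((Complex.I * (Real.sin β : ℂ)) • x.fst) + (Real.cos β : ℂ) • x.snd := rfl
    rw [h]
    simp only [cmp, mix, if_true, Bool.true_eq_false, if_false, neg_smul, Bool.false_eq_true]
    abel

namespace Weyl

variable (S : Weyl F K)

lemma cmp_zr (v : K) (b : Bool) (x : HH F) :
    cmp b (S.zr v x) = S.W (-(((spin b : ℝ) : ℂ) • v)) (cmp b x) := by
  cases b <;> simp [cmp, spin, zr]

lemma W_zer (x : F) : S.W 0 x = x := by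
  have h := S.W_mul 0 0 x
  simp only [inner_zero_left, Complex.zero_im, Complex.ofReal_zero, mul_zero, neg_zero,
    Complex.exp_zero, one_smul, add_zero] at h
  exact (S.W 0).injective h

lemma W_neg_mul (a : K) (x : F) : S.W (-a) (S.W a x) = x := by
  have h := S.W_mul (-a) a x
  have h2 : (inner ℂ (-a) a : ℂ).im = 0 := by
    rw [inner_neg_left, Complex.neg_im]
    have := inner_self_im (𝕜 := ℂ) a
    simpa using this
  rw [h, h2]
  simp [S.W_zer]

lemma norm_Om_sq : inner ℂ S.Om S.Om = 1 := by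
  have h := S.vac 0
  rw [S.W_zer] at h
  rw [h]
  simp

lemma norm_OmH : ‖S.OmH‖ = 1 := by
  have h0 : ‖S.Om‖ ^ 2 = 1 := by
    have h := S.norm_Om_sq
    rw [inner_self_eq_norm_sq_to_K] at h
    have h1 : (((‖S.Om‖ ^ 2 : ℝ)) : ℂ) = ((1 : ℝ) : ℂ) := by
      rw [Complex.ofReal_pow, Complex.ofReal_one]
      exact h
    exact Complex.ofReal_injective h1
  have h : ‖S.OmH‖ ^ 2 = 1 := by
    rw [normsq_HH]
    have e1 : S.OmH.fst = (((Real.sqrt 2)⁻¹ : ℝ) : ℂ) • S.Om := rfl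
    have e2 : S.OmH.snd = (((Real.sqrt 2)⁻¹ : ℝ) : ℂ) • S.Om := rfl
    rw [e1, e2, norm_smul, Complex.norm_real, Real.norm_eq_abs, mul_pow, sq_abs, h0, inv_pow,
      Real.sq_sqrt (by norm_num)]
    norm_num
  have h2 : ‖S.OmH‖ ^ 2 = 1 ^ 2 := by rw [h]; norm_num
  exact (sq_eq_sq₀ (norm_nonneg _) zero_le_one).1 h2

lemma norm_xv (V : St F) : ‖S.xv V‖ = 1 := by
  unfold xv
  rw [LinearIsometryEquiv.norm_map, LinearIsometryEquiv.norm_map, LinearIsometryEquiv.norm_map,
    S.norm_OmH]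

/-- states of the plain word -/
noncomputable def Vp (γ β : ℕ → ℝ) (p : ℕ) : St F := S.ev (plain γ β p)

/-- field vectors of the plain word -/
noncomputable def vk (γ β : ℕ → ℝ) (p : ℕ) : K := S.iota (S.xv (S.Vp γ β p))

lemma Vp_zero (γ β : ℕ → ℝ) (x : HH F) : S.Vp γ β 0 x = x := rfl

lemma Vp_succ (γ β : ℕ → ℝ) (p : ℕ) (x : HH F) : S.Vp γ β (p + 1) x
    = xr (β p) (S.zr (((γ p : ℝ) : ℂ) • S.vk γ β p) (S.Vp γ β p x)) := rfl

/-- path vectors -/
noncomputable def Wp (γ β : ℕ → ℝ) : (p : ℕ) → Pth p → F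
  | 0, _ => S.Om
  | p + 1, a => S.W (-(((spin (a (Fin.last p).castSucc) : ℝ) : ℂ) •
      (((γ p : ℝ) : ℂ) • S.vk γ β p))) (Wp γ β p (Fin.init a))

lemma snocE_sum {M : Type*} [AddCommMonoid M] (p : ℕ) (f : Pth (p + 1) → M) :
    ∑ a : Pth (p + 1), f a = ∑ c : Bool, ∑ a : Pth p, f (Fin.snoc (α := fun _ => Bool) a c) := by
  rw [← (Fin.snocEquiv (fun _ : Fin (p + 1 + 1) => Bool)).sum_comp, Fintype.sum_prod_type]
  rfl

/-- path expansion with an insertion factor -/
lemma path_exp (γ β : ℕ → ℝ) (k : ℕ) (x : HH F) (f : (p : ℕ) → Pth p → ℂ)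
    (hf : ∀ p, k ≤ p → ∀ (a : Pth (p + 1)), f (p + 1) a = f p (Fin.init a))
    (h0 : ∀ b, cmp b (S.Vp γ β k x) = ∑ a : Pth k, (if a (Fin.last k) = b then (1 : ℂ) else 0) •
      (kap β k a * f k a) • S.Wp γ β k a) (p : ℕ) (hp : k ≤ p) (b : Bool) :
    cmp b (S.Vp γ β p x) = ∑ a : Pth p, (if a (Fin.last p) = b then (1 : ℂ) else 0) •
      (kap β p a * f p a) • S.Wp γ β p a := by
  induction p, hp using Nat.le_induction generalizing b with
  | base => exact h0 b
  | succ p hp ih =>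
    rw [S.Vp_succ, cmp_xr, snocE_sum]
    have h1 : ∀ c : Bool, ∑ a : Pth p,
        (if (Fin.snoc (α := fun _ => Bool) a c : Pth (p + 1)) (Fin.last (p + 1)) = b
          then (1 : ℂ) else 0) •
        (kap β (p + 1) (Fin.snoc (α := fun _ => Bool) a c) *
          f (p + 1) (Fin.snoc (α := fun _ => Bool) a c)) •
          S.Wp γ β (p + 1) (Fin.snoc (α := fun _ => Bool) a c)
        = (if c = b then (1 : ℂ) else 0) • ∑ a : Pth p, (mix (β p) c (a (Fin.last p)) *
          (kap β p a * f p a)) •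
          S.W (-(((spin (a (Fin.last p)) : ℝ) : ℂ) •
      (((γ p : ℝ) : ℂ) • S.vk γ β p))) (S.Wp γ β p a) := by
      intro c
      rw [smul_sum]
      refine sum_congr rfl fun a _ => ?_
      simp only [Fin.snoc_last, hf p hp, kap, Wp, Fin.init_snoc, Fin.snoc_castSucc]
      congr 2
      ring
    simp_rw [h1]
    symm
    refine Eq.trans (sum_eq_single b ?_ ?_) ?_
    · intro c _ hc
      rw [if_neg hc, zero_smul]
    · intro h; exact absurd (mem_univ _) h
    · symm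
      rw [if_pos rfl, one_smul]
      simp_rw [S.cmp_zr, ih]
      have h2 : ∀ z : Bool, mix (β p) b z • S.W (-(((spin z : ℝ) : ℂ) •
          (((γ p : ℝ) : ℂ) • S.vk γ β p))) (∑ a : Pth p,
            (if a (Fin.last p) = z then (1 : ℂ) else 0) • (kap β p a * f p a) • S.Wp γ β p a)
          = ∑ a : Pth p, (if a (Fin.last p) = z then (1 : ℂ) else 0) •
            ((mix (β p) b (a (Fin.last p)) * (kap β p a * f p a)) •
          S.W (-(((spin (a (Fin.last p)) : ℝ) : ℂ) •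
      (((γ p : ℝ) : ℂ) • S.vk γ β p))) (S.Wp γ β p a)) := by
        intro z
        rw [map_sum, smul_sum]
        refine sum_congr rfl fun a _ => ?_
        by_cases h : a (Fin.last p) = z
        · rw [if_pos h, one_smul, one_smul, h, map_smul, smul_smul]
        · rw [if_neg h, zero_smul, zero_smul, map_zero, smul_zero]
      simp_rw [h2]
      rw [sum_comm]
      refine sum_congr rfl fun a _ => ?_
      rw [← sum_smul]
      simp

lemma sum_pth_zero {M : Type*} [AddCommMonoid M] (f : Pth 0 → M) :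
    ∑ a : Pth 0, f a = ∑ c : Bool, f (fun _ => c) := by
  refine Fintype.sum_equiv (Equiv.funUnique (Fin 1) Bool) _ _ fun a => ?_
  congr 1
  funext i
  have hi : i = (0 : Fin 1) := Subsingleton.elim (α := Fin 1) _ _
  rw [hi]
  rfl

lemma path_OmH (γ β : ℕ → ℝ) (p : ℕ) (b : Bool) :
    cmp b (S.Vp γ β p S.OmH) = ∑ a : Pth p, (if a (Fin.last p) = b then (1 : ℂ) else 0) •
      (kap β p a) • S.Wp γ β p a := by
  have h := S.path_exp γ β 0 S.OmH (fun _ _ => 1) (fun _ _ _ => rfl) (fun b => by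
    rw [sum_pth_zero, sum_eq_single b]
    · rw [if_pos rfl, one_smul, mul_one, S.Vp_zero]
      cases b <;> rfl
    · intro c _ hc
      rw [if_neg hc, zero_smul]
    · intro h; exact absurd (mem_univ _) h) p (Nat.zero_le p) b
  rw [h]
  refine sum_congr rfl fun a _ => ?_
  rw [mul_one]

/-- the insertion factor at time `k` -/
noncomputable def insf (k p : ℕ) (a : Pth p) : ℂ :=
  if h : k < p + 1 then ((spin (a ⟨k, h⟩) : ℝ) : ℂ) else 0

lemma path_xv (γ β : ℕ → ℝ) (p : ℕ) (k : Fin (p + 1)) (b : Bool) :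
    cmp b (S.Vp γ β p (S.xv (S.Vp γ β k))) = ∑ a : Pth p,
      (if a (Fin.last p) = b then (1 : ℂ) else 0) •
      (kap β p a * ((spin (a k) : ℝ) : ℂ)) • S.Wp γ β p a := by
  have h := S.path_exp γ β k (S.xv (S.Vp γ β k)) (insf k) (fun q hq a => by
    unfold insf
    rw [dif_pos (by omega), dif_pos (by omega)]
    rfl) (fun b => by
    have h1 : S.Vp γ β k (S.xv (S.Vp γ β k)) = zop F (S.Vp γ β k S.OmH) := by
      unfold xv
      rw [LinearIsometryEquiv.apply_symm_apply]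
    rw [h1, cmp_zop, S.path_OmH, smul_sum]
    refine sum_congr rfl fun a _ => ?_
    by_cases h : a (Fin.last k) = b
    · rw [if_pos h, one_smul, one_smul, smul_smul]
      congr 1
      unfold insf
      rw [dif_pos (Nat.lt_succ_self _), mul_comm, ← h]
      rfl
    · rw [if_neg h, zero_smul, zero_smul, smul_zero]) p (Nat.lt_succ_iff.1 k.2) b
  rw [h]
  refine sum_congr rfl fun a _ => ?_
  unfold insf
  rw [dif_pos k.2]

/-- inner product of the two path vectors of a contour path -/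
noncomputable def ipx (γ β : ℕ → ℝ) (p : ℕ) (x : CP p) : ℂ :=
  inner ℂ (S.Wp γ β p x.2) (S.Wp γ β p x.1)

lemma inner_xv (γ β : ℕ → ℝ) (p : ℕ) (k : Fin (p + 1)) :
    inner ℂ (S.xv (S.Vp γ β p)) (S.xv (S.Vp γ β k))
      = ∑ x : CP p, wgt β p x * S.ipx γ β p x * ((spin (x.1 k) * lst x : ℝ) : ℂ) := by
  have h1 : inner ℂ (S.xv (S.Vp γ β p)) (S.xv (S.Vp γ β k))
      = inner ℂ (zop F (S.Vp γ β p S.OmH)) (S.Vp γ β p (S.xv (S.Vp γ β k))) := by
    rw [← LinearIsometryEquiv.inner_map_map (S.Vp γ β p)]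
    congr 1
    unfold xv
    rw [LinearIsometryEquiv.apply_symm_apply]
  rw [h1, inner_cmp]
  simp_rw [cmp_zop, S.path_OmH, S.path_xv]
  have h2 : ∀ b : Bool, inner ℂ (((spin b : ℝ) : ℂ) • ∑ a : Pth p,
      (if a (Fin.last p) = b then (1 : ℂ) else 0) • (kap β p a) • S.Wp γ β p a)
      (∑ a : Pth p, (if a (Fin.last p) = b then (1 : ℂ) else 0) •
      (kap β p a * ((spin (a k) : ℝ) : ℂ)) • S.Wp γ β p a)
      = ∑ a : Pth p, ∑ a' : Pth p, (if a (Fin.last p) = b then (1 : ℂ) else 0) *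
        ((if a' (Fin.last p) = b then (1 : ℂ) else 0) * (((spin b : ℝ) : ℂ) *
          (conj (kap β p a') * (kap β p a * ((spin (a k) : ℝ) : ℂ)) *
            inner ℂ (S.Wp γ β p a') (S.Wp γ β p a)))) := by
    intro b
    rw [inner_smul_left, Complex.conj_ofReal, inner_sum, mul_sum]
    refine sum_congr rfl fun a _ => ?_
    rw [sum_inner, mul_sum]
    refine sum_congr rfl fun a' _ => ?_
    simp only [inner_smul_left, inner_smul_right]
    have e1 : conj (if a' (Fin.last p) = b then (1 : ℂ) else 0)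
        = (if a' (Fin.last p) = b then (1 : ℂ) else 0) := by split_ifs <;> simp
    rw [e1]
    ring
  simp_rw [h2]
  rw [sum_comm, Fintype.sum_prod_type]
  refine sum_congr rfl fun a _ => ?_
  rw [sum_comm]
  refine sum_congr rfl fun a' _ => ?_
  rw [sum_eq_single (a (Fin.last p))]
  · unfold wgt ipx lst
    simp only [if_true]
    by_cases h : a (Fin.last p) = a' (Fin.last p)
    · rw [if_pos h, if_pos h.symm]
      push_cast
      ring
    · rw [if_neg h, if_neg (fun h' => h h'.symm)]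
      ring
  · intro b _ hb
    rw [if_neg (fun h => hb h.symm)]
    ring
  · intro h; exact absurd (mem_univ _) h

/-- the accumulated phase vector of a path -/
noncomputable def Ak (γ β : ℕ → ℝ) (p : ℕ) (a : Pth p) : K :=
  ∑ k : Fin p, ((γ k * spin (a k.castSucc) : ℝ) : ℂ) • S.vk γ β k

lemma Wp_form (γ β : ℕ → ℝ) (p : ℕ) (a : Pth p) :
    ∃ θ : ℂ, S.Wp γ β p a = θ • S.W (-(S.Ak γ β p a)) S.Om := by
  induction p with
  | zero =>
    refine ⟨1, ?_⟩
    simp [Wp, Ak, S.W_zer]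
  | succ p ih =>
    obtain ⟨θ, hθ⟩ := ih (Fin.init a)
    refine ⟨θ * Complex.exp (-(Complex.I * ((inner ℂ (-(((spin (a (Fin.last p).castSucc) : ℝ) : ℂ) •
      (((γ p : ℝ) : ℂ) • S.vk γ β p))) (-(S.Ak γ β p (Fin.init a)))).im : ℂ))), ?_⟩
    have h1 : -(S.Ak γ β (p + 1) a) = -(((spin (a (Fin.last p).castSucc) : ℝ) : ℂ) •
      (((γ p : ℝ) : ℂ) • S.vk γ β p)) + -(S.Ak γ β p (Fin.init a)) := by
      unfold Ak
      rw [Fin.sum_univ_castSucc, neg_add, add_comm]
      congr 2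
      rw [smul_smul]
      congr 1
      push_cast
      rw [mul_comm]
    rw [h1, Wp, hθ, map_smul, S.W_mul, smul_smul]

lemma ip_W (A B u : K) : inner ℂ (S.W (-B) S.Om) (S.W u (S.W (-A) S.Om))
    = Complex.exp (-(Complex.I * ((inner ℂ u (-A)).im : ℂ))
      - Complex.I * ((inner ℂ B (u + -A)).im : ℂ) - ((‖B + (u + -A)‖ ^ 2 / 2 : ℝ) : ℂ)) := by
  have h1 : ∀ y, inner ℂ (S.W (-B) S.Om) y = inner ℂ S.Om (S.W B y) := by
    intro y
    rw [← LinearIsometryEquiv.inner_map_map (S.W B)]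
    congr 1
    have := S.W_neg_mul (-B) S.Om
    rwa [neg_neg] at this
  rw [h1, S.W_mul u (-A), map_smul, S.W_mul B (u + -A), inner_smul_right, inner_smul_right, S.vac,
    ← Complex.exp_add, ← Complex.exp_add]
  congr 1
  ring

lemma shift (A B v : K) (hv : ‖v‖ = 1) (c : ℝ) (θ η : ℂ) :
    inner ℂ (η • S.W (-B) S.Om) (S.W ((c : ℂ) • v) (θ • S.W (-A) S.Om))
      = inner ℂ (η • S.W (-B) S.Om) (θ • S.W (-A) S.Om) *
        Complex.exp (c * inner ℂ v A - c * conj (inner ℂ v B) - ((c ^ 2 / 2 : ℝ) : ℂ)) := by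
  have h0 := S.ip_W A B 0
  rw [S.W_zer] at h0
  rw [map_smul, inner_smul_left, inner_smul_right, inner_smul_left, inner_smul_right, S.ip_W, h0]
  have hn : ‖B + ((c : ℂ) • v + -A)‖ ^ 2 = ‖B + (0 + -A)‖ ^ 2
      + (2 * (c * (inner ℂ v B).re) - 2 * (c * (inner ℂ v A).re)) + c ^ 2 := by
    have e1 : B + ((c : ℂ) • v + -A) = (B + (0 + -A)) + (c : ℂ) • v := by abel
    rw [e1, @norm_add_sq ℂ, norm_smul, hv, Complex.norm_real, Real.norm_eq_abs, mul_one, sq_abs]
    have e2 : (inner ℂ (B + (0 + -A)) ((c : ℂ) • v) : ℂ)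
        = c * (conj (inner ℂ v B) - conj (inner ℂ v A)) := by
      rw [inner_smul_right, zero_add, inner_add_left, inner_neg_left, inner_conj_symm,
        inner_conj_symm]
      ring
    rw [e2]
    simp only [RCLike.re_to_complex, Complex.mul_re, Complex.sub_re, Complex.sub_im,
      Complex.ofReal_re, Complex.ofReal_im, Complex.conj_re, Complex.conj_im]
    ring
  have hi1 : (inner ℂ ((c : ℂ) • v) (-A)).im = -(c * (inner ℂ v A).im) := by
    rw [inner_smul_left, inner_neg_right, Complex.conj_ofReal]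
    simp only [Complex.mul_im, Complex.neg_im, Complex.neg_re, Complex.ofReal_re,
      Complex.ofReal_im]
    ring
  have hi2 : (inner ℂ B ((c : ℂ) • v + -A)).im = -(c * (inner ℂ v B).im)
      + (inner ℂ B (0 + -A)).im := by
    rw [zero_add, inner_add_right, inner_smul_right, Complex.add_im, ← inner_conj_symm B v]
    simp only [Complex.mul_im, Complex.conj_im, Complex.conj_re, Complex.ofReal_re,
      Complex.ofReal_im]
    ring
  have hz : ∀ z : ℂ, z = (z.re : ℂ) + (z.im : ℂ) * Complex.I := fun z => (Complex.re_add_im z).symm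
  rw [hn, hi1, hi2]
  have hc : conj (inner ℂ v B) = ((inner ℂ v B).re : ℂ) - ((inner ℂ v B).im : ℂ) * Complex.I := by
    conv_lhs => rw [hz (inner ℂ v B)]
    rw [map_add, map_mul, Complex.conj_I, Complex.conj_ofReal, Complex.conj_ofReal]
    ring
  have key : -(Complex.I * ((-(c * (inner ℂ v A).im) : ℝ) : ℂ))
      - Complex.I * ((-(c * (inner ℂ v B).im) + (inner ℂ B (0 + -A)).im : ℝ) : ℂ)
      - (((‖B + (0 + -A)‖ ^ 2 + (2 * (c * (inner ℂ v B).re) - 2 * (c * (inner ℂ v A).re))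
        + c ^ 2) / 2 : ℝ) : ℂ)
      = (-(Complex.I * ((inner ℂ (0 : K) (-A)).im : ℂ))
      - Complex.I * ((inner ℂ B (0 + -A)).im : ℂ) - ((‖B + (0 + -A)‖ ^ 2 / 2 : ℝ) : ℂ))
      + (c * inner ℂ v A - c * conj (inner ℂ v B) - ((c ^ 2 / 2 : ℝ) : ℂ)) := by
    rw [hc]
    conv_rhs => rw [hz (inner ℂ v A)]
    rw [inner_zero_left, Complex.zero_im]
    push_cast
    ring
  rw [key, Complex.exp_add]
  ring

end Weyl

end Vale.Agent.P367.NI
end

section

/-! P367: the infinite-size QAOA value is the energy of the plain word in any Weyl system. -/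

namespace Vale.Agent.P367.NI

open Finset ComplexConjugate Filter Topology
open Vale.Agent.P367.Gap Vale.Agent.P367.Lim

/-- append the last time -/
def snc {p : ℕ} (x : CP p) (c : Bool × Bool) : CP (p + 1) :=
  (Fin.snoc (α := fun _ => Bool) x.1 c.1, Fin.snoc (α := fun _ => Bool) x.2 c.2)

lemma ini_snc {p : ℕ} (x : CP p) (c : Bool × Bool) : ini (snc x c) = x := by
  unfold ini snc
  simp only [Fin.init_snoc]

/-- split off the last time of a contour path -/
def splitP (p : ℕ) : CP (p + 1) ≃ CP p × (Bool × Bool) where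
  toFun x := (ini x, (x.1 (Fin.last (p + 1)), x.2 (Fin.last (p + 1))))
  invFun b := snc b.1 b.2
  left_inv x := by
    refine Prod.ext ?_ ?_
    · exact Fin.snoc_init_self x.1
    · exact Fin.snoc_init_self x.2
  right_inv b := by
    refine Prod.ext ?_ ?_
    · exact ini_snc b.1 b.2
    · simp only [snc, Fin.snoc_last]

lemma causal_sum_of (γ β : ℕ → ℝ) (p : ℕ)
    (h : ∀ x : CP p, ∑ c : Bool × Bool, gg γ β (p + 1) (snc x c) = gg γ β p x)
    (f : CP p → ℂ) : ∑ y : CP (p + 1), gg γ β (p + 1) y * f (ini y) = ∑ y : CP p, gg γ β p y * f y := by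
  rw [← (splitP p).symm.sum_comp, Fintype.sum_prod_type]
  refine sum_congr rfl fun x _ => ?_
  rw [← h x, sum_mul]
  refine sum_congr rfl fun c _ => ?_
  have e : (splitP p).symm (x, c) = snc x c := rfl
  rw [e, ini_snc]

lemma sum_gg_qh_closed (γ β : ℕ → ℝ) (p : ℕ) (x : CP p)
    (hx : x.1 (Fin.last p) = x.2 (Fin.last p)) :
    ∑ y : CP p, gg γ β p y * ((qh γ p x y ^ 2 : ℝ) : ℂ)
      = ∑ y : CP p, gg γ β p y * ((qq γ p x y ^ 2 : ℝ) : ℂ) := by
  refine sum_congr rfl fun y _ => ?_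
  by_cases hy : y.1 (Fin.last p) = y.2 (Fin.last p)
  · rw [qh_eq_of_closed γ p x y hx hy]
  · rw [gg_open γ β p y hy, zero_mul, zero_mul]

/-- causality of the limiting weights -/
lemma gg_causal (γ β : ℕ → ℝ) (p : ℕ) (x : CP p) :
    ∑ c : Bool × Bool, gg γ β (p + 1) (snc x c) = gg γ β p x := by
  induction p with
  | zero =>
    have h1 : ∀ c : Bool × Bool, gg γ β (0 + 1) (snc x c) = wgt β (0 + 1) (snc x c) *
        Complex.exp (-(1 / 2 * ∑ y : CP 0, gg γ β 0 y * ((qh γ 0 x y ^ 2 : ℝ) : ℂ))) := by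
      intro c
      simp only [gg, ini_snc]
    simp_rw [h1]
    rw [← sum_mul]
    have h2 := sum_last β 0 x
    have h3 : ∑ c : Bool × Bool, wgt β (0 + 1) (snc x c) = wgt β 0 x := h2
    rw [h3]
    by_cases hx : x.1 (Fin.last 0) = x.2 (Fin.last 0)
    · rw [sum_gg_qh_closed γ β 0 x hx]
      have h4 : ∀ y : CP 0, qq γ 0 x y = 0 := fun y => by
        unfold qq
        simp
      simp_rw [h4]
      simp [gg]
    · have h5 : wgt β 0 x = 0 := by
        unfold wgt
        rw [if_neg hx, mul_zero]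
      simp only [gg]
      rw [h5, zero_mul]
  | succ p ih =>
    have h1 : ∀ c : Bool × Bool, gg γ β (p + 1 + 1) (snc x c) = wgt β (p + 1 + 1) (snc x c) *
        Complex.exp (-(1 / 2 * ∑ y : CP (p + 1),
          gg γ β (p + 1) y * ((qh γ (p + 1) x y ^ 2 : ℝ) : ℂ))) := by
      intro c
      rw [gg, ini_snc]
    simp_rw [h1]
    rw [← sum_mul]
    have h3 : ∑ c : Bool × Bool, wgt β (p + 1 + 1) (snc x c) = wgt β (p + 1) x :=
      sum_last β (p + 1) x
    rw [h3]
    by_cases hx : x.1 (Fin.last (p + 1)) = x.2 (Fin.last (p + 1))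
    · rw [sum_gg_qh_closed γ β (p + 1) x hx]
      simp_rw [qq_succ]
      rw [causal_sum_of γ β p ih (fun y => ((qh γ p (ini x) y ^ 2 : ℝ) : ℂ))]
      rw [gg]
    · rw [gg_open γ β (p + 1) x hx]
      have h5 : wgt β (p + 1) x = 0 := by
        unfold wgt
        rw [if_neg hx, mul_zero]
      rw [h5, zero_mul]

lemma causal_sum (γ β : ℕ → ℝ) (p : ℕ) (f : CP p → ℂ) :
    ∑ y : CP (p + 1), gg γ β (p + 1) y * f (ini y) = ∑ y : CP p, gg γ β p y * f y :=
  causal_sum_of γ β p (gg_causal γ β p) f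

/-- the influence factor -/
noncomputable def EE (γ β : ℕ → ℝ) : (p : ℕ) → CP p → ℂ
  | 0, _ => 1
  | p + 1, x => Complex.exp (-(1 / 2 * ∑ y : CP p,
      gg γ β p y * ((qh γ p (ini x) y ^ 2 : ℝ) : ℂ)))

lemma gg_eq_EE (γ β : ℕ → ℝ) (p : ℕ) (x : CP p) : gg γ β p x = wgt β p x * EE γ β p x := by
  cases p with
  | zero => simp only [gg, EE, mul_one]
  | succ p => simp only [gg, EE]

/-- the exponent of the influence factor through the phases of layers `< p` -/
lemma EE_eq (γ β : ℕ → ℝ) (p : ℕ) (x : CP p) :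
    EE γ β p x = Complex.exp (-(1 / 2 * ∑ y : CP p,
      gg γ β p y * ((qq γ p x y ^ 2 : ℝ) : ℂ))) := by
  cases p with
  | zero =>
    have h4 : ∀ y : CP 0, qq γ 0 x y = 0 := fun y => by
      unfold qq
      simp
    simp_rw [h4]
    simp [EE]
  | succ p =>
    simp_rw [qq_succ]
    rw [causal_sum γ β p (fun y => ((qh γ p (ini x) y ^ 2 : ℝ) : ℂ))]
    rw [EE]

/-- one-step recursion of the exponent -/
lemma sum_qh_sq (γ β : ℕ → ℝ) (p : ℕ) (x : CP p) :
    ∑ y : CP p, gg γ β p y * ((qh γ p x y ^ 2 : ℝ) : ℂ)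
      = ∑ y : CP p, gg γ β p y * ((qq γ p x y ^ 2 : ℝ) : ℂ)
        + 2 * ((γ p * (spin (x.1 (Fin.last p)) - spin (x.2 (Fin.last p))) : ℝ) : ℂ) *
          ((∑ k : Fin p, ((γ k * spin (x.1 k.castSucc) : ℝ) : ℂ) * Gc γ β p k)
            - ∑ k : Fin p, ((γ k * spin (x.2 k.castSucc) : ℝ) : ℂ) * conj (Gc γ β p k))
        + (((γ p * (spin (x.1 (Fin.last p)) - spin (x.2 (Fin.last p)))) ^ 2 : ℝ) : ℂ) := by
  set c : ℝ := γ p * (spin (x.1 (Fin.last p)) - spin (x.2 (Fin.last p))) with hc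
  have h1 : ∀ y : CP p, gg γ β p y * ((qh γ p x y ^ 2 : ℝ) : ℂ)
      = gg γ β p y * ((qq γ p x y ^ 2 : ℝ) : ℂ)
        + 2 * (c : ℂ) * (gg γ β p y * ((qq γ p x y * lst y : ℝ) : ℂ))
        + ((c ^ 2 : ℝ) : ℂ) * gg γ β p y := by
    intro y
    by_cases hy : y.1 (Fin.last p) = y.2 (Fin.last p)
    · have h2 : qh γ p x y = qq γ p x y + c * lst y := by
        rw [qh_eq, ← hy, hc]
        unfold lst
        ring
      have h3 : qh γ p x y ^ 2 = qq γ p x y ^ 2 + 2 * c * (qq γ p x y * lst y) + c ^ 2 := by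
        rw [h2]
        linear_combination c ^ 2 * lst_sq y
      rw [h3]
      push_cast
      ring
    · rw [gg_open γ β p y hy]
      ring
  simp_rw [h1]
  rw [sum_add_distrib, sum_add_distrib, ← mul_sum, ← mul_sum, sum_gg, mul_one]
  congr 2
  congr 1
  have h4 : ∀ k : Fin p, ((γ k * spin (x.1 k.castSucc) : ℝ) : ℂ) * Gc γ β p k
      = ∑ y : CP p, gg γ β p y * ((γ k * spin (x.1 k.castSucc) *
        (spin (y.1 k.castSucc) * lst y) : ℝ) : ℂ) := by
    intro k
    unfold Gc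
    rw [mul_sum]
    refine sum_congr rfl fun y _ => ?_
    push_cast
    ring
  have h5 : ∀ k : Fin p, ((γ k * spin (x.2 k.castSucc) : ℝ) : ℂ) * conj (Gc γ β p k)
      = ∑ y : CP p, gg γ β p y * ((γ k * spin (x.2 k.castSucc) *
        (spin (y.2 k.castSucc) * lst y) : ℝ) : ℂ) := by
    intro k
    rw [← sum_bra, mul_sum]
    refine sum_congr rfl fun y _ => ?_
    push_cast
    ring
  simp_rw [h4, h5]
  rw [← sum_sub_distrib]
  simp_rw [← sum_sub_distrib, ← mul_sub]
  rw [sum_comm]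
  refine sum_congr rfl fun y _ => ?_
  rw [← mul_sum]
  congr 1
  unfold qq
  push_cast
  rw [sum_mul]
  refine sum_congr rfl fun k _ => ?_
  ring

variable {F K : Type} [NormedAddCommGroup F] [InnerProductSpace ℂ F]
  [NormedAddCommGroup K] [InnerProductSpace ℂ K]

namespace Weyl

variable (S : Weyl F K)

/-- overlap of two field vectors -/
noncomputable def Mk (γ β : ℕ → ℝ) (p k : ℕ) : ℂ := inner ℂ (S.vk γ β p) (S.vk γ β k)

lemma norm_vk (γ β : ℕ → ℝ) (p : ℕ) : ‖S.vk γ β p‖ = 1 := by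
  unfold vk
  rw [LinearIsometry.norm_map, S.norm_xv]

lemma inner_vk_Ak (γ β : ℕ → ℝ) (p : ℕ) (a : Pth p) : inner ℂ (S.vk γ β p) (S.Ak γ β p a)
    = ∑ k : Fin p, ((γ k * spin (a k.castSucc) : ℝ) : ℂ) * S.Mk γ β p k := by
  unfold Ak Mk
  rw [inner_sum]
  refine sum_congr rfl fun k _ => ?_
  rw [inner_smul_right]

lemma ipx_succ (γ β : ℕ → ℝ) (p : ℕ) (x : CP (p + 1)) :
    S.ipx γ β (p + 1) x = S.ipx γ β p (ini x) *
      Complex.exp (((γ p * (spin ((ini x).2 (Fin.last p)) - spin ((ini x).1 (Fin.last p))) : ℝ) : ℂ)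
        * (∑ k : Fin p, ((γ k * spin ((ini x).1 k.castSucc) : ℝ) : ℂ) * S.Mk γ β p k)
        - ((γ p * (spin ((ini x).2 (Fin.last p)) - spin ((ini x).1 (Fin.last p))) : ℝ) : ℂ)
        * conj (∑ k : Fin p, ((γ k * spin ((ini x).2 k.castSucc) : ℝ) : ℂ) * S.Mk γ β p k)
        - (((γ p * (spin ((ini x).2 (Fin.last p)) - spin ((ini x).1 (Fin.last p)))) ^ 2 / 2
          : ℝ) : ℂ)) := by
  set v := S.vk γ β p with hv
  set a : Pth p := (ini x).1 with ha
  set b : Pth p := (ini x).2 with hb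
  set ra : ℝ := spin (a (Fin.last p)) * γ p with hra
  set rb : ℝ := spin (b (Fin.last p)) * γ p with hrb
  have ea : S.Wp γ β (p + 1) x.1 = S.W (-((ra : ℂ) • v)) (S.Wp γ β p a) := by
    rw [Wp, smul_smul, hra, Complex.ofReal_mul]
    rfl
  have eb : S.Wp γ β (p + 1) x.2 = S.W (-((rb : ℂ) • v)) (S.Wp γ β p b) := by
    rw [Wp, smul_smul, hrb, Complex.ofReal_mul]
    rfl
  have h1 : S.ipx γ β (p + 1) x
      = inner ℂ (S.Wp γ β p b) (S.W (((rb - ra : ℝ) : ℂ) • v) (S.Wp γ β p a)) := by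
    unfold ipx
    rw [ea, eb, ← LinearIsometryEquiv.inner_map_map (S.W ((rb : ℂ) • v))]
    have e1 : S.W ((rb : ℂ) • v) (S.W (-((rb : ℂ) • v)) (S.Wp γ β p b)) = S.Wp γ β p b := by
      have := S.W_neg_mul (-((rb : ℂ) • v)) (S.Wp γ β p b)
      rwa [neg_neg] at this
    rw [e1, S.W_mul]
    have e2 : (inner ℂ ((rb : ℂ) • v) (-((ra : ℂ) • v)) : ℂ).im = 0 := by
      rw [inner_neg_right, inner_smul_left, inner_smul_right, inner_self_eq_norm_sq_to_K,
        Complex.conj_ofReal, Complex.neg_im]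
      have : ((rb : ℂ) * ((ra : ℂ) * ((‖v‖ : ℂ) ^ 2))) = ((rb * (ra * ‖v‖ ^ 2) : ℝ) : ℂ) := by
        push_cast
        ring
      have h0 : ((rb : ℂ) * ((ra : ℂ) * ((‖v‖ : ℂ) ^ 2))).im = 0 := by
        rw [this, Complex.ofReal_im]
      rw [neg_eq_zero]
      exact h0
    have e3 : (rb : ℂ) • v + -((ra : ℂ) • v) = ((rb - ra : ℝ) : ℂ) • v := by
      rw [Complex.ofReal_sub, sub_smul, sub_eq_add_neg]
    rw [e2, e3]
    simp
  obtain ⟨θ, hθ⟩ := S.Wp_form γ β p a
  obtain ⟨η, hη⟩ := S.Wp_form γ β p b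
  rw [h1]
  have h2 : S.ipx γ β p (ini x) = inner ℂ (S.Wp γ β p b) (S.Wp γ β p a) := rfl
  rw [h2, hθ, hη, S.shift _ _ v (S.norm_vk γ β p), S.inner_vk_Ak, S.inner_vk_Ak]
  have h3 : rb - ra = γ p * (spin (b (Fin.last p)) - spin (a (Fin.last p))) := by
    rw [hra, hrb]
    ring
  rw [h3]

/-- the path overlaps are the influence factors -/
theorem ipx_eq (γ β : ℕ → ℝ) (p : ℕ) : ∀ x : CP p, S.ipx γ β p x = EE γ β p x := by
  induction p with
  | zero =>
    intro x
    exact S.norm_Om_sq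
  | succ p ih =>
    intro x
    have hM : ∀ k : Fin p, S.Mk γ β p k = Gc γ β p k := by
      intro k
      have h1 := S.inner_xv γ β p k.castSucc
      unfold Mk vk
      rw [LinearIsometry.inner_map_map]
      have h2 : S.Vp γ β ((k.castSucc : Fin (p + 1)) : ℕ) = S.Vp γ β k := rfl
      rw [h2] at h1
      rw [h1]
      unfold Gc
      refine sum_congr rfl fun y _ => ?_
      rw [ih, ← gg_eq_EE]
    rw [S.ipx_succ, ih, EE_eq, ← Complex.exp_add]
    rw [EE, sum_qh_sq]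
    congr 1
    simp_rw [hM]
    have hconj : conj (∑ k : Fin p, ((γ k * spin ((ini x).2 k.castSucc) : ℝ) : ℂ) * Gc γ β p k)
        = ∑ k : Fin p, ((γ k * spin ((ini x).2 k.castSucc) : ℝ) : ℂ) * conj (Gc γ β p k) := by
      rw [map_sum]
      refine sum_congr rfl fun k _ => ?_
      rw [map_mul, Complex.conj_ofReal]
    rw [hconj]
    push_cast
    ring

/-- the overlaps of the field vectors are the limiting correlations -/
theorem inner_xv_eq_Gc (γ β : ℕ → ℝ) (p : ℕ) (k : Fin p) :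
    inner ℂ (S.xv (S.Vp γ β p)) (S.xv (S.Vp γ β k)) = Gc γ β p k := by
  have h1 := S.inner_xv γ β p k.castSucc
  have h2 : S.Vp γ β ((k.castSucc : Fin (p + 1)) : ℕ) = S.Vp γ β k := rfl
  rw [h2] at h1
  rw [h1]
  unfold Gc
  refine sum_congr rfl fun y _ => ?_
  rw [S.ipx_eq, ← gg_eq_EE]

lemma eaux_plain (γ β : ℕ → ℝ) (y : HH F) (p : ℕ) : S.eaux y (plain γ β p)
    = ∑ k : Fin p, -(γ k * ((inner ℂ (S.xv (S.Vp γ β k)) y) ^ 2 : ℂ).im) := by
  induction p with
  | zero => simp [plain, eaux]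
  | succ p ih =>
    rw [plain, eaux, eaux, ih, Fin.sum_univ_castSucc, add_comm]
    rfl

theorem energy_plain (γ β : ℕ → ℝ) (p : ℕ) : S.energy (plain γ β p) = enL γ β p := by
  unfold energy enL
  rw [S.eaux_plain]
  refine sum_congr rfl fun k _ => ?_
  have h1 : inner ℂ (S.xv (S.Vp γ β k)) (S.xv (S.ev (plain γ β p))) = conj (Gc γ β p k) := by
    rw [← S.inner_xv_eq_Gc, inner_conj_symm]
    rfl
  rw [h1, ← map_pow, Complex.conj_im]
  ring

/-- **M1** the finite-size QAOA values converge to the energy of the plain word. -/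
theorem qaoaValue_tendsto_energy (p : ℕ) (γ β : Fin p → ℝ) (γ' β' : ℕ → ℝ)
    (hγ : ∀ k : Fin p, γ' k = γ k) (hβ : ∀ k : Fin p, β' k = β k) :
    Tendsto (fun n : ℕ => qaoaValue n p γ β) atTop (𝓝 (S.energy (plain γ' β' p))) := by
  rw [S.energy_plain]
  exact qaoaValue_tendsto_enL p γ β γ' β' hγ hβ

theorem vLim_eq_energy (p : ℕ) (γ β : Fin p → ℝ) (γ' β' : ℕ → ℝ)
    (hγ : ∀ k : Fin p, γ' k = γ k) (hβ : ∀ k : Fin p, β' k = β k) :
    vLim p γ β = S.energy (plain γ' β' p) :=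
  (S.qaoaValue_tendsto_energy p γ β γ' β' hγ hβ).limUnder_eq

theorem vLim_extA (p : ℕ) (γ β : Fin p → ℝ) :
    vLim p γ β = S.energy (plain (extA γ) (extA β) p) :=
  S.vLim_eq_energy p γ β _ _ (extA_apply γ) (extA_apply β)

/-- every plain word is a QAOA circuit -/
theorem energy_plain_eq_vLim (γ β : ℕ → ℝ) (p : ℕ) :
    S.energy (plain γ β p) = vLim p (fun k : Fin p => γ k) (fun k : Fin p => β k) :=
  (S.vLim_eq_energy p _ _ γ β (fun _ => rfl) (fun _ => rfl)).symm

end Weyl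

end Vale.Agent.P367.NI
end

section

namespace Vale.Agent.P367.Lim

open Finset ComplexConjugate MeasureTheory ProbabilityTheory Filter Topology ENNReal
  Vale.Agent.P367.Gap

variable {n : ℕ}

lemma sum_inc_site (e : Pair n) : ∑ i : Fin n, inc i e = 2 := by
  have h : ∀ i : Fin n, inc i e = (if e.1.1 = i then (1 : ℝ) else 0)
      + (if e.1.2 = i then (1 : ℝ) else 0) := by
    intro i
    unfold inc
    have hne : e.1.1 ≠ e.1.2 := ne_of_lt e.2
    by_cases h1 : e.1.1 = i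
    · have h2 : e.1.2 ≠ i := fun h2 => hne (h1.trans h2.symm)
      simp [h1, h2]
    · by_cases h2 : e.1.2 = i
      · simp [h1, h2]
      · simp [h1, h2]
  simp_rw [h, sum_add_distrib]
  simp
  norm_num

lemma sum_tt (s : Conf n) (J : Pair n → ℝ) : ∑ i : Fin n, tt (uvec i) s J = 2 * skEnergy J s := by
  unfold tt uvec skEnergy
  rw [sum_comm]
  rw [mul_sum, mul_sum]
  refine sum_congr rfl fun e _ => ?_
  have h : ∑ i : Fin n, (Real.sqrt n)⁻¹ * (inc i e * chi s e) * J e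
      = (∑ i : Fin n, inc i e) * ((Real.sqrt n)⁻¹ * chi s e * J e) := by
    rw [sum_mul]
    refine sum_congr rfl fun i _ => ?_
    ring
  rw [h, sum_inc_site]
  unfold chi
  ring

lemma integrable_tt_w (p : ℕ) (γ β : Fin p → ℝ) (i : Fin n) (s : Conf n) : Integrable
    (fun J : Pair n → ℝ => ‖qaoaState J p γ β s‖ ^ 2 * tt (uvec i) s J) (couplingLaw n) := by
  refine (integrable_abs_tt p γ β i s).mono' ?_ (Filter.Eventually.of_forall fun J => ?_)
  · apply Measurable.aestronglyMeasurable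
    have h3 := measurable_tt (S := Conf n) (uvec i) s
    exact (((measurable_qaoaState p γ β s)).norm.pow_const 2).mul h3
  · rw [norm_mul, Real.norm_eq_abs, Real.norm_eq_abs, abs_of_nonneg (a := ‖_‖ ^ 2) (by positivity)]

/-- mean aligned field -/
noncomputable def amean (n p : ℕ) (γ β : Fin p → ℝ) : ℝ :=
  (n : ℝ)⁻¹ * ∑ i : Fin n, ∫ J : Pair n → ℝ, (∑ s, ‖qaoaState J p γ β s‖ ^ 2 * tt (uvec i) s J)
    ∂(couplingLaw n)

lemma qaoaValue_eq_amean (n p : ℕ) (γ β : Fin p → ℝ) :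
    qaoaValue n p γ β = 1 / 2 * amean n p γ β := by
  unfold qaoaValue amean
  rw [← integral_finsetSum _ fun i _ => integrable_finsetSum _ fun s _ => integrable_tt_w p γ β i s]
  rw [mul_left_comm]
  congr 1
  rw [← integral_const_mul]
  congr 1
  funext J
  rw [qaoaMean_eq, sum_comm, mul_sum]
  refine sum_congr rfl fun s _ => ?_
  rw [← mul_sum, sum_tt]
  ring

lemma sq_le_exp (x : ℝ) : x ^ 2 ≤ 2 * (Real.exp (-(1 * x)) + Real.exp (-(-1 * x))) := by
  rcases le_total 0 x with h | h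
  · have h1 := Real.quadratic_le_exp_of_nonneg h
    have h2 := Real.exp_pos (-(1 * x))
    have h3 : -(-1 * x) = x := by ring
    rw [h3]
    nlinarith
  · have h1 := Real.quadratic_le_exp_of_nonneg (x := -x) (by linarith)
    have h2 := Real.exp_pos (-(-1 * x))
    have h3 : -(1 * x) = -x := by ring
    rw [h3]
    nlinarith

/-- shifted amplitudes -/
lemma shift_bound (p : ℕ) (γ β : Fin p → ℝ) (i : Fin n) (J : Pair n → ℝ) (r : ℝ) :
    ∑ s, ‖qaoaState (J - r • uvec i s) p γ β s‖ ^ 2 ≤ Real.exp ((∑ k, |γ k|) * |r|) ^ 2 := by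
  set γ' := extA γ with hγ'
  set β' := extA β with hβ'
  set D : ℕ → Hil n →ₗ[ℂ] Hil n := fun k => matL (mixU n (β' k)) with hD
  have hDn : ∀ k v, ‖D k v‖ = ‖v‖ := fun k v => norm_matL _ (mixU_unitary _) v
  have hsumγ : ∑ l ∈ range p, |γ' l| = ∑ k, |γ k| := by
    rw [← Fin.sum_univ_eq_sum_range (fun l => |γ' l|) p]
    refine sum_congr rfl fun k _ => ?_
    rw [hγ', extA_apply]
  have hψc : ∀ (J : Pair n → ℝ) s, qaoaState J p γ β s = circ D γ' (cE J) (plusH n) p s :=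
    fun J s => state_circ J p γ β s
  have hG : ∀ s, Fsh D γ' (skEnergy J) i (plusH n) p (r : ℂ) s
      = qaoaState (J - r • uvec i s) p γ β s := by
    intro s
    rw [hψc]
    have h1 : (fun z => ((skEnergy J z : ℝ) : ℂ) - (r : ℂ) * ((Rov i s z : ℝ) : ℂ))
        = cE (J - r • uvec i s) := by
      funext z
      unfold cE
      rw [skEnergy_shift]
      push_cast
      ring
    show circ D γ' (fun z => ((skEnergy J z : ℝ) : ℂ) - (r : ℂ) * ((Rov i s z : ℝ) : ℂ))
      (plusH n) p s = _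
    rw [h1]
  have h1 := norm_Fsh_le D (fun k v => (hDn k v).le) γ' (skEnergy J) i (plusH n) p (r : ℂ)
  rw [norm_plusH, mul_one, EuclideanSpace.norm_eq, hsumγ, Complex.norm_real, Real.norm_eq_abs] at h1
  have h2 := pow_le_pow_left₀ (Real.sqrt_nonneg _) h1 2
  rw [Real.sq_sqrt (Finset.sum_nonneg fun s _ => by positivity)] at h2
  simpa only [hG] using h2

/-- uniform second moment at fixed angles -/
lemma second_moment (hn0 : 0 < n) (p : ℕ) (γ β : Fin p → ℝ) (i : Fin n) :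
    ∫ J : Pair n → ℝ, (∑ s, ‖qaoaState J p γ β s‖ ^ 2 *
      (2 * (Real.exp (-(1 * tt (uvec i) s J)) + Real.exp (-(-1 * tt (uvec i) s J)))))
      ∂(couplingLaw n) ≤ 4 * Real.exp (1 / 2 + 2 * ∑ k, |γ k|) := by
  have hκ1 : 1 - (n : ℝ)⁻¹ ≤ 1 := by
    have : 0 ≤ (n : ℝ)⁻¹ := by positivity
    linarith
  have hE : ∀ r : ℝ, Emom (fun J : Pair n → ℝ => qaoaState J p γ β) (uvec i) r
      ≤ Real.exp (r ^ 2 / 2 + 2 * (∑ k, |γ k|) * |r|) := fun r =>
    Emom_le hκ1 (fun s => uvec_sq hn0 i s) (fun s => measurable_qaoaState p γ β s)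
      (fun J => norm_qaoaState J p γ β) (fun J r => shift_bound p γ β i J r) r
  have iw : ∀ (r : ℝ) (s : Conf n), Integrable
      (fun J : Pair n → ℝ => ‖qaoaState J p γ β s‖ ^ 2 * Real.exp (-(r * tt (uvec i) s J)))
      (couplingLaw n) := fun r s =>
    integrable_weight (fun J => qaoaState J p γ β) (uvec i) (fun s => measurable_qaoaState p γ β s)
      (fun J => norm_qaoaState J p γ β) r s
  have e1 : ∫ J : Pair n → ℝ, (∑ s, ‖qaoaState J p γ β s‖ ^ 2 *
      (2 * (Real.exp (-(1 * tt (uvec i) s J)) + Real.exp (-(-1 * tt (uvec i) s J)))))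
      ∂(couplingLaw n)
      = 2 * (Emom (fun J : Pair n → ℝ => qaoaState J p γ β) (uvec i) 1
        + Emom (fun J : Pair n → ℝ => qaoaState J p γ β) (uvec i) (-1)) := by
    have hEm : ∀ r : ℝ, Emom (fun J : Pair n → ℝ => qaoaState J p γ β) (uvec i) r
        = ∫ J : Pair n → ℝ, (∑ s, ‖qaoaState J p γ β s‖ ^ 2 * Real.exp (-(r * tt (uvec i) s J)))
          ∂(couplingLaw n) := fun r => rfl
    rw [hEm, hEm, ← integral_add (integrable_finsetSum _ fun s _ => iw 1 s)
      (integrable_finsetSum _ fun s _ => iw (-1) s), ← integral_const_mul]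
    refine integral_congr_ae (Eventually.of_forall fun J => ?_)
    simp only
    rw [← sum_add_distrib, mul_sum]
    refine sum_congr rfl fun s _ => ?_
    ring
  rw [e1]
  have h1 := hE 1
  have h2 := hE (-1)
  rw [abs_one, mul_one] at h1
  rw [abs_neg, abs_one, mul_one] at h2
  have h3 : (1 : ℝ) ^ 2 / 2 = 1 / 2 := by norm_num
  have h4 : (-1 : ℝ) ^ 2 / 2 = 1 / 2 := by norm_num
  rw [h3] at h1
  rw [h4] at h2
  linarith

lemma exp_second_order (θ : ℝ) :
    ‖Complex.exp (-(Complex.I * (θ : ℂ))) - 1 + Complex.I * θ‖ ≤ 3 * θ ^ 2 := by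
  have hn : ‖-(Complex.I * (θ : ℂ))‖ = |θ| := by
    rw [norm_neg, norm_mul, Complex.norm_I, one_mul, Complex.norm_real, Real.norm_eq_abs]
  rcases le_total |θ| 1 with h | h
  · have h1 := Complex.norm_exp_sub_one_sub_id_le (x := -(Complex.I * (θ : ℂ))) (by rw [hn]; exact h)
    rw [hn, sq_abs] at h1
    rw [sub_neg_eq_add] at h1
    have : 0 ≤ θ ^ 2 := sq_nonneg θ
    linarith
  · have h1 : ‖Complex.exp (-(Complex.I * (θ : ℂ))) - 1 + Complex.I * θ‖ ≤ 1 + 1 + |θ| := by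
      refine (norm_add_le _ _).trans ?_
      have h2 : ‖Complex.exp (-(Complex.I * (θ : ℂ))) - 1‖ ≤ 1 + 1 := by
        refine (norm_sub_le _ _).trans ?_
        rw [norm_exp_neg_I, norm_one]
      have h3 : ‖Complex.I * (θ : ℂ)‖ = |θ| := by
        rw [norm_mul, Complex.norm_I, one_mul, Complex.norm_real, Real.norm_eq_abs]
      rw [h3]
      linarith
    have h2 : θ ^ 2 = |θ| * |θ| := by rw [← sq_abs, sq]
    rw [h2]
    nlinarith

/-- the mean is determined by the characteristic function, uniformly in `n` -/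
lemma char_mean (hn0 : 0 < n) (p : ℕ) (γ β : Fin p → ℝ) (ξ : ℝ) :
    ‖(∫ x, Complex.exp (-(Complex.I * ξ * x)) ∂(alf n p γ β)) - 1
      + Complex.I * ξ * (amean n p γ β : ℂ)‖
      ≤ 12 * Real.exp (1 / 2 + 2 * ∑ k, |γ k|) * ξ ^ 2 := by
  have hnr : (0 : ℝ) < n := by exact_mod_cast hn0
  have hcont : Continuous fun x : ℝ => Complex.exp (-(Complex.I * ξ * x)) := by fun_prop
  have hb : ∀ x : ℝ, ‖Complex.exp (-(Complex.I * ξ * x))‖ ≤ 1 := by
    intro x
    have : -(Complex.I * (ξ : ℂ) * (x : ℂ)) = -(Complex.I * ((ξ * x : ℝ) : ℂ)) := by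
      push_cast; ring
    rw [this, norm_exp_neg_I]
  have h := integral_alf (n := n) p γ β (fun x : ℝ => Complex.exp (-(Complex.I * ξ * x)))
    hcont.stronglyMeasurable 1 hb
  rw [h]
  have i1 : ∀ (i : Fin n) (s : Conf n), Integrable (fun J : Pair n → ℝ =>
      (‖qaoaState J p γ β s‖ ^ 2) • Complex.exp (-(Complex.I * ξ * ((tt (uvec i) s J : ℝ) : ℂ))))
      (couplingLaw n) := fun i s =>
    integrable_alf1_term p γ β i s (fun x : ℝ => Complex.exp (-(Complex.I * ξ * x)))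
      hcont.stronglyMeasurable 1 hb
  have i2 : ∀ (i : Fin n) (s : Conf n), Integrable (fun J : Pair n → ℝ =>
      ((‖qaoaState J p γ β s‖ ^ 2 * tt (uvec i) s J : ℝ) : ℂ)) (couplingLaw n) := fun i s =>
    (integrable_tt_w p γ β i s).ofReal
  have key : ∀ i : Fin n, ‖(∫ J, (∑ s, (‖qaoaState J p γ β s‖ ^ 2) •
      Complex.exp (-(Complex.I * ξ * ((tt (uvec i) s J : ℝ) : ℂ)))) ∂(couplingLaw n)) - 1
      + Complex.I * ξ * ((∫ J : Pair n → ℝ, (∑ s, ‖qaoaState J p γ β s‖ ^ 2 * tt (uvec i) s J)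
        ∂(couplingLaw n) : ℝ) : ℂ)‖ ≤ 12 * Real.exp (1 / 2 + 2 * ∑ k, |γ k|) * ξ ^ 2 := by
    intro i
    have e1 : (∫ J, (∑ s, (‖qaoaState J p γ β s‖ ^ 2) •
        Complex.exp (-(Complex.I * ξ * ((tt (uvec i) s J : ℝ) : ℂ)))) ∂(couplingLaw n)) - 1
        + Complex.I * ξ * ((∫ J : Pair n → ℝ, (∑ s, ‖qaoaState J p γ β s‖ ^ 2 * tt (uvec i) s J)
        ∂(couplingLaw n) : ℝ) : ℂ)
        = ∫ J, (∑ s, (‖qaoaState J p γ β s‖ ^ 2 : ℝ) •
          (Complex.exp (-(Complex.I * ((ξ * tt (uvec i) s J : ℝ) : ℂ))) - 1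
            + Complex.I * ((ξ * tt (uvec i) s J : ℝ) : ℂ))) ∂(couplingLaw n) := by
      rw [← integral_complex_ofReal]
      have e2 : (1 : ℂ) = ∫ _ : Pair n → ℝ, (1 : ℂ) ∂(couplingLaw n) := by simp
      conv_lhs => rw [e2]
      rw [← integral_sub (integrable_finsetSum _ fun s _ => i1 i s) (integrable_const _),
        ← integral_const_mul, ← integral_add]
      · refine integral_congr_ae (Eventually.of_forall fun J => ?_)
        simp only
        have e3 : (1 : ℂ) = ∑ s, ((‖qaoaState J p γ β s‖ ^ 2 : ℝ) : ℂ) := by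
          rw [← Complex.ofReal_sum, sum_state_sq, Complex.ofReal_one]
        conv_lhs => rw [e3]
        push_cast
        rw [← sum_sub_distrib, mul_sum, ← sum_add_distrib]
        refine sum_congr rfl fun s _ => ?_
        rw [Complex.real_smul, Complex.real_smul]
        push_cast
        have e4 : -(Complex.I * (ξ : ℂ) * ((tt (uvec i) s J : ℝ) : ℂ))
            = -(Complex.I * ((ξ : ℂ) * ((tt (uvec i) s J : ℝ) : ℂ))) := by ring
        rw [e4]
        ring
      · exact (integrable_finsetSum _ fun s _ => i1 i s).sub (integrable_const _)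
      · refine Integrable.const_mul ?_ _
        have := integrable_finsetSum (univ : Finset (Conf n)) fun s _ => i2 i s
        refine this.congr (Eventually.of_forall fun J => ?_)
        simp only
        push_cast
        rfl
    rw [e1]
    refine (norm_integral_le_integral_norm _).trans ?_
    have h2 := second_moment hn0 p γ β i
    have iw : ∀ (r : ℝ) (s : Conf n), Integrable
        (fun J : Pair n → ℝ => ‖qaoaState J p γ β s‖ ^ 2 * Real.exp (-(r * tt (uvec i) s J)))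
        (couplingLaw n) := fun r s =>
      integrable_weight (fun J => qaoaState J p γ β) (uvec i)
        (fun s => measurable_qaoaState p γ β s) (fun J => norm_qaoaState J p γ β) r s
    have iq : Integrable (fun J : Pair n → ℝ => 3 * ξ ^ 2 * (∑ s, ‖qaoaState J p γ β s‖ ^ 2 *
      (2 * (Real.exp (-(1 * tt (uvec i) s J)) + Real.exp (-(-1 * tt (uvec i) s J))))))
      (couplingLaw n) := by
      refine Integrable.const_mul (integrable_finsetSum _ fun s _ => ?_) _
      have := ((iw 1 s).add (iw (-1) s)).const_mul 2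
      refine this.congr (Eventually.of_forall fun J => ?_)
      simp only [Pi.add_apply]
      ring
    calc ∫ J, ‖∑ s, (‖qaoaState J p γ β s‖ ^ 2 : ℝ) •
          (Complex.exp (-(Complex.I * ((ξ * tt (uvec i) s J : ℝ) : ℂ))) - 1
            + Complex.I * ((ξ * tt (uvec i) s J : ℝ) : ℂ))‖ ∂(couplingLaw n)
        ≤ ∫ J, 3 * ξ ^ 2 * (∑ s, ‖qaoaState J p γ β s‖ ^ 2 *
          (2 * (Real.exp (-(1 * tt (uvec i) s J)) + Real.exp (-(-1 * tt (uvec i) s J)))))
          ∂(couplingLaw n) := by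
          refine integral_mono_of_nonneg (Eventually.of_forall fun J => norm_nonneg _) iq
            (Eventually.of_forall fun J => ?_)
          simp only
          refine (norm_sum_le _ _).trans ?_
          rw [mul_sum]
          refine sum_le_sum fun s _ => ?_
          rw [norm_smul, Real.norm_eq_abs, abs_of_nonneg (by positivity)]
          have h3 := exp_second_order (ξ * tt (uvec i) s J)
          have h4 := sq_le_exp (tt (uvec i) s J)
          calc ‖qaoaState J p γ β s‖ ^ 2 *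
                ‖Complex.exp (-(Complex.I * ((ξ * tt (uvec i) s J : ℝ) : ℂ))) - 1
                  + Complex.I * ((ξ * tt (uvec i) s J : ℝ) : ℂ)‖
              ≤ ‖qaoaState J p γ β s‖ ^ 2 * (3 * (ξ * tt (uvec i) s J) ^ 2) :=
                mul_le_mul_of_nonneg_left h3 (by positivity)
            _ = 3 * ξ ^ 2 * (‖qaoaState J p γ β s‖ ^ 2 * (tt (uvec i) s J) ^ 2) := by ring
            _ ≤ _ := by
                refine mul_le_mul_of_nonneg_left ?_ (by positivity)
                exact mul_le_mul_of_nonneg_left h4 (by positivity)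
      _ = 3 * ξ ^ 2 * ∫ J, (∑ s, ‖qaoaState J p γ β s‖ ^ 2 *
          (2 * (Real.exp (-(1 * tt (uvec i) s J)) + Real.exp (-(-1 * tt (uvec i) s J)))))
          ∂(couplingLaw n) := integral_const_mul _ _
      _ ≤ 3 * ξ ^ 2 * (4 * Real.exp (1 / 2 + 2 * ∑ k, |γ k|)) :=
          mul_le_mul_of_nonneg_left h2 (by positivity)
      _ = _ := by ring
  have e5 : ((n : ℝ)⁻¹ • ∑ i : Fin n, ∫ J, (∑ s, (‖qaoaState J p γ β s‖ ^ 2) •
      Complex.exp (-(Complex.I * ξ * ((tt (uvec i) s J : ℝ) : ℂ)))) ∂(couplingLaw n)) - 1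
      + Complex.I * ξ * (amean n p γ β : ℂ)
      = (n : ℝ)⁻¹ • ∑ i : Fin n, ((∫ J, (∑ s, (‖qaoaState J p γ β s‖ ^ 2) •
      Complex.exp (-(Complex.I * ξ * ((tt (uvec i) s J : ℝ) : ℂ)))) ∂(couplingLaw n)) - 1
      + Complex.I * ξ * ((∫ J : Pair n → ℝ, (∑ s, ‖qaoaState J p γ β s‖ ^ 2 * tt (uvec i) s J)
        ∂(couplingLaw n) : ℝ) : ℂ)) := by
    rw [sum_add_distrib, sum_sub_distrib, ← mul_sum]
    unfold amean
    simp only [Complex.real_smul, sum_const, card_univ, Fintype.card_fin, nsmul_eq_mul, mul_one]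
    push_cast
    have : (n : ℂ) ≠ 0 := by exact_mod_cast hn0.ne'
    field_simp
  rw [e5, norm_smul, norm_inv, Real.norm_natCast]
  calc (n : ℝ)⁻¹ * ‖∑ i : Fin n, ((∫ J, (∑ s, (‖qaoaState J p γ β s‖ ^ 2) •
      Complex.exp (-(Complex.I * ξ * ((tt (uvec i) s J : ℝ) : ℂ)))) ∂(couplingLaw n)) - 1
      + Complex.I * ξ * ((∫ J : Pair n → ℝ, (∑ s, ‖qaoaState J p γ β s‖ ^ 2 * tt (uvec i) s J)
        ∂(couplingLaw n) : ℝ) : ℂ))‖
      ≤ (n : ℝ)⁻¹ * ∑ _i : Fin n, 12 * Real.exp (1 / 2 + 2 * ∑ k, |γ k|) * ξ ^ 2 := by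
        refine mul_le_mul_of_nonneg_left ?_ (by positivity)
        exact (norm_sum_le _ _).trans (sum_le_sum fun i _ => key i)
    _ = _ := by
        rw [sum_const, card_univ, Fintype.card_fin, nsmul_eq_mul, ← mul_assoc,
          inv_mul_cancel₀ hnr.ne', one_mul]

end Vale.Agent.P367.Lim
end

section

namespace Vale.Agent.P367.Lim

open Finset ComplexConjugate MeasureTheory ProbabilityTheory Filter Topology ENNReal
  Vale.Agent.P367.Gap

/-- The infinite-size value exists. -/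
theorem qaoaValue_tendsto (p : ℕ) (γ β : Fin p → ℝ) :
    ∃ v : ℝ, Tendsto (fun n : ℕ => qaoaValue n p γ β) atTop (𝓝 v) := by
  set K : ℝ := 12 * Real.exp (1 / 2 + 2 * ∑ k, |γ k|) with hK
  have hK0 : 0 < K := by positivity
  have hch : ∀ (m : ℕ) (ξ : ℝ), ‖(∫ x, Complex.exp (-(Complex.I * ξ * x)) ∂(alf (m + 1) p γ β)) - 1
      + Complex.I * ξ * (amean (m + 1) p γ β : ℂ)‖ ≤ K * ξ ^ 2 := fun m ξ =>
    char_mean (Nat.succ_pos m) p γ β ξ
  have hC : CauchySeq (fun m : ℕ => amean (m + 1) p γ β) := by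
    rw [Metric.cauchySeq_iff]
    intro ε hε
    set ξ : ℝ := ε / (8 * K) with hξ
    have hξ0 : 0 < ξ := by positivity
    have hcs := (tendsto_char_alf p γ β ξ).cauchySeq
    rw [Metric.cauchySeq_iff] at hcs
    obtain ⟨N, hN⟩ := hcs (ξ * ε / 2) (by positivity)
    refine ⟨N, fun m hm m' hm' => ?_⟩
    have h1 := hN m hm m' hm'
    rw [dist_eq_norm] at h1
    have h2 := hch m ξ
    have h3 := hch m' ξ
    set A := ∫ x, Complex.exp (-(Complex.I * ξ * x)) ∂(alf (m + 1) p γ β) with hA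
    set A' := ∫ x, Complex.exp (-(Complex.I * ξ * x)) ∂(alf (m' + 1) p γ β) with hA'
    have h4 : Complex.I * ξ * ((amean (m + 1) p γ β - amean (m' + 1) p γ β : ℝ) : ℂ)
        = (A - 1 + Complex.I * ξ * (amean (m + 1) p γ β : ℂ))
          - (A' - 1 + Complex.I * ξ * (amean (m' + 1) p γ β : ℂ)) - (A - A') := by
      push_cast
      ring
    have h5 : ‖Complex.I * ξ * ((amean (m + 1) p γ β - amean (m' + 1) p γ β : ℝ) : ℂ)‖
        = ξ * |amean (m + 1) p γ β - amean (m' + 1) p γ β| := by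
      rw [norm_mul, norm_mul, Complex.norm_I, one_mul, Complex.norm_real, Complex.norm_real,
        Real.norm_eq_abs, Real.norm_eq_abs, abs_of_pos hξ0]
    have h6 : ξ * |amean (m + 1) p γ β - amean (m' + 1) p γ β| < ξ * ε := by
      rw [← h5, h4]
      calc ‖(A - 1 + Complex.I * ξ * (amean (m + 1) p γ β : ℂ))
          - (A' - 1 + Complex.I * ξ * (amean (m' + 1) p γ β : ℂ)) - (A - A')‖
          ≤ K * ξ ^ 2 + K * ξ ^ 2 + ‖A - A'‖ := by
            refine (norm_sub_le _ _).trans ?_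
            gcongr
            exact (norm_sub_le _ _).trans (add_le_add h2 h3)
        _ < K * ξ ^ 2 + K * ξ ^ 2 + ξ * ε / 2 := by linarith
        _ ≤ ξ * ε := by
            have h7 : K * ξ = ε / 8 := by
              rw [hξ]; field_simp
            have h8 : K * ξ ^ 2 = ξ * ε / 8 := by
              calc K * ξ ^ 2 = (K * ξ) * ξ := by ring
                _ = ξ * ε / 8 := by rw [h7]; ring
            rw [h8]
            have : 0 < ξ * ε := by positivity
            linarith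
    rw [Real.dist_eq]
    exact lt_of_mul_lt_mul_left h6 hξ0.le
  obtain ⟨a, ha⟩ := cauchySeq_tendsto_of_complete hC
  refine ⟨1 / 2 * a, ?_⟩
  rw [← tendsto_add_atTop_iff_nat 1]
  have h := ha.const_mul (1 / 2)
  refine h.congr fun m => ?_
  exact (qaoaValue_eq_amean (m + 1) p γ β).symm

end Vale.Agent.P367.Lim
end

section

open MeasureTheory ProbabilityTheory Vale.Agent.P367.Gap

namespace Vale.Agent.P367.GT

lemma two_sum_pair {n : ℕ} (g : Fin n → Fin n → ℝ) (hg : ∀ a b, g a b = g b a) :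
    2 * ∑ e : Pair n, g e.1.1 e.1.2 = (∑ a, ∑ b, g a b) - ∑ a, g a a := by
  have h2 : ∑ a : Fin n, ∑ b : Fin n, (if a < b then g a b else 0)
      = ∑ a : Fin n, ∑ b : Fin n, (if b < a then g a b else 0) := by
    rw [Finset.sum_comm]
    apply Finset.sum_congr rfl
    intro a _
    apply Finset.sum_congr rfl
    intro b _
    rw [hg]
  have h3 : 2 * ∑ e : Pair n, g e.1.1 e.1.2 = ∑ a : Fin n, ∑ b : Fin n,
      ((if a < b then g a b else 0) + (if b < a then g a b else 0)) := by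
    rw [two_mul, sum_pair]
    conv_lhs => rw [h2]
    simp only [Finset.sum_add_distrib]
    rw [← h2]
  have h4 : ∑ a : Fin n, g a a = ∑ a : Fin n, ∑ b : Fin n, (if a = b then g a b else 0) := by
    apply Finset.sum_congr rfl
    intro a _
    simp
  rw [h3, h4, ← Finset.sum_sub_distrib]
  apply Finset.sum_congr rfl
  intro a _
  rw [← Finset.sum_sub_distrib]
  apply Finset.sum_congr rfl
  intro b _
  rcases lt_trichotomy a b with h | h | h
  · simp [h, h.ne, h.not_gt]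
  · subst h; simp
  · simp [h, h.ne', h.not_gt]

lemma inc_eq {n : ℕ} (hn : 0 < n) (s t : Conf n) :
    ∑ e : Pair n, ((Real.sqrt n)⁻¹ * chi s e - (Real.sqrt n)⁻¹ * chi t e) ^ 2
      = n - (∑ i, spin (s i) * spin (t i)) ^ 2 / n := by
  have hnr : (0 : ℝ) < n := by exact_mod_cast hn
  set x : Fin n → ℝ := fun i => spin (s i) * spin (t i) with hx
  have hx2 : ∀ i, x i * x i = 1 := by
    intro i
    simp only [hx]
    calc spin (s i) * spin (t i) * (spin (s i) * spin (t i))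
        = (spin (s i) * spin (s i)) * (spin (t i) * spin (t i)) := by ring
      _ = 1 := by rw [spin_sq, spin_sq, one_mul]
  have h1 : ∀ e : Pair n, ((Real.sqrt n)⁻¹ * chi s e - (Real.sqrt n)⁻¹ * chi t e) ^ 2
      = (n : ℝ)⁻¹ * (2 * (1 - x e.1.1 * x e.1.2)) := by
    intro e
    have e1 := chi_sq s e
    have e2 := chi_sq t e
    have e3 : x e.1.1 * x e.1.2 = chi s e * chi t e := by
      simp only [hx, chi]; ring
    calc ((Real.sqrt n)⁻¹ * chi s e - (Real.sqrt n)⁻¹ * chi t e) ^ 2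
        = ((Real.sqrt n)⁻¹ * (Real.sqrt n)⁻¹) *
          (chi s e * chi s e + chi t e * chi t e - 2 * (chi s e * chi t e)) := by ring
      _ = _ := by rw [inv_sqrt_mul, e1, e2, e3]; ring
  simp only [h1]
  rw [← Finset.mul_sum, ← Finset.mul_sum]
  rw [two_sum_pair (fun a b => 1 - x a * x b) (fun a b => by ring)]
  have h2 : ∑ a : Fin n, (1 - x a * x a) = 0 := by
    apply Finset.sum_eq_zero
    intro a _
    rw [hx2]; ring
  have h3 : ∑ a : Fin n, ∑ b : Fin n, (1 - x a * x b) = (n : ℝ) * n - (∑ i, x i) ^ 2 := by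
    simp only [Finset.sum_sub_distrib]
    congr 1
    · simp
    · rw [sq, Finset.sum_mul_sum]
  rw [h2, h3]
  field_simp
  ring

lemma map_comp_inj {κ ι : Type*} [Fintype κ] [Fintype ι] (f : κ → ι)
    (hf : Function.Injective f) :
    (gM ι).map (fun J => J ∘ f) = gM κ := by
  classical
  have hm : Measurable (fun J : ι → ℝ => J ∘ f) :=
    measurable_pi_iff.mpr fun k => measurable_pi_apply (f k)
  symm
  apply Measure.pi_eq
  intro s hs
  rw [Measure.map_apply hm (MeasurableSet.univ_pi hs)]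
  set t : ι → Set ℝ := fun i => if h : ∃ k, f k = i then s h.choose else Set.univ with ht
  have htf : ∀ k, t (f k) = s k := by
    intro k
    have h : ∃ k', f k' = f k := ⟨k, rfl⟩
    simp only [ht, dif_pos h]
    rw [hf h.choose_spec]
  have h1 : (fun J : ι → ℝ => J ∘ f) ⁻¹' (Set.univ.pi s) = Set.univ.pi t := by
    ext J
    simp only [Set.mem_preimage, Set.mem_pi, Set.mem_univ, forall_true_left, Function.comp]
    constructor
    · intro h i
      by_cases hi : ∃ k, f k = i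
      · obtain ⟨k, rfl⟩ := hi
        rw [htf]; exact h k
      · simp only [ht, dif_neg hi, Set.mem_univ]
    · intro h k
      have := h (f k)
      rwa [htf] at this
  rw [h1, Measure.pi_pi]
  have h2 : ∏ i, (gaussianReal 0 1) (t i) = ∏ i ∈ Finset.univ.image f, (gaussianReal 0 1) (t i) := by
    symm
    apply Finset.prod_subset (Finset.subset_univ _)
    intro i _ hi
    have h3 : ¬ ∃ k, f k = i := by
      rintro ⟨k, rfl⟩
      exact hi (Finset.mem_image_of_mem f (Finset.mem_univ k))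
    simp only [ht, dif_neg h3, measure_univ]
  rw [h2, Finset.prod_image (fun a _ b _ h => hf h)]
  simp only [htf]

lemma integral_comp_inj {κ ι : Type*} [Fintype κ] [Fintype ι] (f : κ → ι)
    (hf : Function.Injective f) (F : (κ → ℝ) → ℝ) (hF : Measurable F) :
    ∫ J : ι → ℝ, F (J ∘ f) ∂(gM ι) = ∫ J, F J ∂(gM κ) := by
  have hm : Measurable (fun J : ι → ℝ => J ∘ f) :=
    measurable_pi_iff.mpr fun k => measurable_pi_apply (f k)
  rw [← map_comp_inj f hf, integral_map hm.aemeasurable hF.aestronglyMeasurable]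

/-- `E max_σ h(σ)`. -/
noncomputable def Msup (n : ℕ) : ℝ := ∫ J, (⨆ s : Conf n, skEnergy J s) ∂(couplingLaw n)

lemma skEnergy_eq {n : ℕ} (J : Pair n → ℝ) (s : Conf n) :
    skEnergy J s = ∑ e, ((Real.sqrt n)⁻¹ * chi s e) * J e := by
  unfold skEnergy chi
  rw [Finset.mul_sum]
  apply Finset.sum_congr rfl
  intro e _
  ring

lemma sq_div_add_le (x y n m : ℝ) (hn : 0 < n) (hm : 0 < m) :
    (x + y) ^ 2 / (n + m) ≤ x ^ 2 / n + y ^ 2 / m := by
  rw [div_add_div _ _ hn.ne' hm.ne', div_le_div_iff₀ (by positivity) (by positivity)]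
  nlinarith [mul_pos hn hm, sq_nonneg (m * x - n * y), sq_nonneg (x - y)]

lemma continuous_sup {n : ℕ} : Measurable fun J : Pair n → ℝ => ⨆ s : Conf n, skEnergy J s :=
  Measurable.iSup fun s => (continuous_skEnergy s).measurable

/-- **Superadditivity** (Guerra-Toninelli). -/
theorem Msup_superadd (n m : ℕ) (hn : 0 < n) (hm : 0 < m) :
    Msup n + Msup m ≤ Msup (n + m) := by
  set a : Conf (n + m) → (Pair n ⊕ Pair m) ⊕ Pair (n + m) → ℝ := fun s =>
    Sum.elim (Sum.elim (fun e => (Real.sqrt n)⁻¹ * chi (fun i => s (Fin.castAdd m i)) e)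
      (fun e => (Real.sqrt m)⁻¹ * chi (fun i => s (Fin.natAdd n i)) e)) (fun _ => 0) with ha
  set b : Conf (n + m) → (Pair n ⊕ Pair m) ⊕ Pair (n + m) → ℝ := fun s =>
    Sum.elim (fun _ => 0) (fun e => (Real.sqrt ((n + m : ℕ) : ℝ))⁻¹ * chi s e) with hb
  have hnr : (0 : ℝ) < n := by exact_mod_cast hn
  have hmr : (0 : ℝ) < m := by exact_mod_cast hm
  have key := sup_le_same a b
    (by
      intro s t
      rw [Fintype.sum_sum_type]
      simp [ha, hb])
    (by
      intro s t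
      rw [Fintype.sum_sum_type, Fintype.sum_sum_type, Fintype.sum_sum_type]
      simp only [ha, hb, Sum.elim_inl, Sum.elim_inr, sub_self, ne_eq, OfNat.ofNat_ne_zero,
        not_false_eq_true, zero_pow, Finset.sum_const_zero, add_zero, zero_add]
      rw [inc_eq hn, inc_eq hm, inc_eq (by omega : 0 < n + m), Fin.sum_univ_add]
      have := sq_div_add_le (∑ i, spin (s (Fin.castAdd m i)) * spin (t (Fin.castAdd m i)))
        (∑ i, spin (s (Fin.natAdd n i)) * spin (t (Fin.natAdd n i))) n m hnr hmr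
      push_cast
      linarith)
  have hza : ∀ (J : (Pair n ⊕ Pair m) ⊕ Pair (n + m) → ℝ) (s : Conf (n + m)), zf a J s
      = skEnergy (J ∘ (fun e => Sum.inl (Sum.inl e))) (fun i => s (Fin.castAdd m i))
        + skEnergy (J ∘ (fun e => Sum.inl (Sum.inr e))) (fun i => s (Fin.natAdd n i)) := by
    intro J s
    unfold zf
    rw [Fintype.sum_sum_type, Fintype.sum_sum_type, skEnergy_eq, skEnergy_eq]
    simp [ha]
  have hzb : ∀ (J : (Pair n ⊕ Pair m) ⊕ Pair (n + m) → ℝ) (s : Conf (n + m)), zf b J s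
      = skEnergy (J ∘ Sum.inr) s := by
    intro J s
    unfold zf
    rw [Fintype.sum_sum_type, skEnergy_eq]
    simp [hb]
  have hR : ∫ J, ⨆ s, zf b J s ∂(gM _) = Msup (n + m) := by
    simp only [hzb]
    exact integral_comp_inj (Sum.inr : Pair (n + m) → (Pair n ⊕ Pair m) ⊕ Pair (n + m))
      Sum.inr_injective (fun J => ⨆ s : Conf (n + m), skEnergy J s) continuous_sup
  have hi1 : Function.Injective (fun e : Pair n =>
      (Sum.inl (Sum.inl e) : (Pair n ⊕ Pair m) ⊕ Pair (n + m))) :=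
    Sum.inl_injective.comp Sum.inl_injective
  have hi2 : Function.Injective (fun e : Pair m =>
      (Sum.inl (Sum.inr e) : (Pair n ⊕ Pair m) ⊕ Pair (n + m))) :=
    Sum.inl_injective.comp Sum.inr_injective
  have hL : Msup n + Msup m ≤ ∫ J, ⨆ s, zf a J s ∂(gM _) := by
    have e1 : Msup n = ∫ J : (Pair n ⊕ Pair m) ⊕ Pair (n + m) → ℝ,
        (⨆ s : Conf n, skEnergy (J ∘ (fun e => Sum.inl (Sum.inl e))) s) ∂(gM _) :=
      (integral_comp_inj _ hi1 (fun J => ⨆ s : Conf n, skEnergy J s) continuous_sup).symm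
    have e2 : Msup m = ∫ J : (Pair n ⊕ Pair m) ⊕ Pair (n + m) → ℝ,
        (⨆ s : Conf m, skEnergy (J ∘ (fun e => Sum.inl (Sum.inr e))) s) ∂(gM _) :=
      (integral_comp_inj _ hi2 (fun J => ⨆ s : Conf m, skEnergy J s) continuous_sup).symm
    have hint : ∀ {k : ℕ}, Integrable (fun J : Pair k → ℝ => ⨆ s : Conf k, skEnergy J s)
        (gM (Pair k)) := by
      intro k
      exact integrable_iSup (fun (s : Conf k) (J : Pair k → ℝ) => skEnergy J s)
        (fun s => integrable_energy s) (fun s => (continuous_skEnergy s).measurable)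
    have hint' : ∀ {k : ℕ} (f : Pair k → (Pair n ⊕ Pair m) ⊕ Pair (n + m)),
        Function.Injective f → Integrable (fun J : (Pair n ⊕ Pair m) ⊕ Pair (n + m) → ℝ =>
          ⨆ s : Conf k, skEnergy (J ∘ f) s) (gM _) := by
      intro k f hf
      have hm' : Measurable (fun J : (Pair n ⊕ Pair m) ⊕ Pair (n + m) → ℝ => J ∘ f) :=
        measurable_pi_iff.mpr fun k => measurable_pi_apply (f k)
      have h1 : Integrable (fun J : Pair k → ℝ => ⨆ s : Conf k, skEnergy J s)
          ((gM _).map (fun J : (Pair n ⊕ Pair m) ⊕ Pair (n + m) → ℝ => J ∘ f)) := by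
        rw [map_comp_inj f hf]; exact hint
      exact (integrable_map_measure h1.aestronglyMeasurable hm'.aemeasurable).mp h1
    rw [e1, e2, ← integral_add (hint' _ hi1) (hint' _ hi2)]
    apply integral_mono ((hint' _ hi1).add (hint' _ hi2)) (integrable_sup_zf a)
    intro J
    simp only [Pi.add_apply]
    obtain ⟨s1, hs1⟩ := exists_eq_ciSup_of_finite
      (f := fun s : Conf n => skEnergy (J ∘ (fun e => Sum.inl (Sum.inl e))) s)
    obtain ⟨s2, hs2⟩ := exists_eq_ciSup_of_finite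
      (f := fun s : Conf m => skEnergy (J ∘ (fun e => Sum.inl (Sum.inr e))) s)
    rw [← hs1, ← hs2]
    have h1 : skEnergy (J ∘ (fun e => Sum.inl (Sum.inl e))) s1
        + skEnergy (J ∘ (fun e => Sum.inl (Sum.inr e))) s2 = zf a J (Fin.append s1 s2) := by
      rw [hza]
      simp
    rw [h1]
    exact le_ciSup (f := fun s => zf a J s) (Set.finite_range _).bddAbove _
  rw [hR] at key
  exact hL.trans key

theorem groundValue_tendsto : ∃ P : ℝ, Filter.Tendsto groundValue Filter.atTop (nhds P) := by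
  have hsub : Subadditive fun n => -Msup n := by
    intro n m
    have h0 : Msup 0 = 0 := by
      unfold Msup
      have h1 : ∀ (J : Pair 0 → ℝ) (s : Conf 0), skEnergy J s = 0 := by
        intro J s
        unfold skEnergy
        simp
      simp [h1]
    rcases Nat.eq_zero_or_pos n with hn | hn
    · subst hn
      simp [h0]
    rcases Nat.eq_zero_or_pos m with hm | hm
    · subst hm
      simp [h0]
    have := Msup_superadd n m hn hm
    simp only
    linarith
  have hbdd : BddBelow (Set.range fun n : ℕ => (fun n => -Msup n) n / (n : ℝ)) := by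
    refine ⟨-1, ?_⟩
    rintro _ ⟨n, rfl⟩
    simp only
    rcases Nat.eq_zero_or_pos n with hn | hn
    · subst hn; simp
    · have hnr : (0 : ℝ) < n := by exact_mod_cast hn
      rw [le_div_iff₀ hnr]
      have h1 : Msup n ≤ n := integral_sup_le_one n
      linarith
  have h := hsub.tendsto_lim hbdd
  refine ⟨-hsub.lim, ?_⟩
  refine (h.neg).congr fun n => ?_
  show -(-Msup n / (n : ℝ)) = groundValue n
  unfold groundValue Msup
  rw [neg_div, neg_neg, div_eq_inv_mul]

end Vale.Agent.P367.GT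
end

section

namespace Vale.Agent.P367.Lim

open Filter Topology Vale.Agent.P367.Gap

theorem tendsto_Pstar : Tendsto groundValue atTop (𝓝 Pstar) :=
  tendsto_nhds_limUnder Vale.Agent.P367.GT.groundValue_tendsto

theorem tendsto_vLim (p : ℕ) (γ β : Fin p → ℝ) :
    Tendsto (fun n : ℕ => qaoaValue n p γ β) atTop (𝓝 (vLim p γ β)) :=
  tendsto_nhds_limUnder (qaoaValue_tendsto p γ β)

theorem vLim_le (p : ℕ) (γ β : Fin p → ℝ) :
    vLim p γ β ≤ Pstar - Real.exp (-(10 ^ 6 * 16 ^ p)) := by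
  apply le_of_tendsto_of_tendsto (tendsto_vLim p γ β) (tendsto_Pstar.sub_const _)
  exact gap_explicit p γ β

theorem vLim_le_phase (T : ℝ) (p : ℕ) (γ β : Fin p → ℝ) (hγ : ∑ k, |γ k| ≤ T) :
    vLim p γ β ≤ Pstar - Real.exp (-(10 ^ 8 * (1 + T) ^ 2)) :=
  gap_limit T p γ β hγ _ _ (tendsto_vLim p γ β) tendsto_Pstar

theorem bdd_vLim (p : ℕ) :
    BddAbove (Set.range fun a : (Fin p → ℝ) × (Fin p → ℝ) => vLim p a.1 a.2) := by
  refine ⟨Pstar - Real.exp (-(10 ^ 6 * 16 ^ p)), ?_⟩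
  rintro _ ⟨a, rfl⟩
  exact vLim_le p a.1 a.2

theorem Qsup_le (p : ℕ) : Qsup p ≤ Pstar - Real.exp (-(10 ^ 6 * 16 ^ p)) := by
  unfold Qsup
  exact ciSup_le fun a => vLim_le p a.1 a.2

end Vale.Agent.P367.Lim
end

section

/-! P367: assembly. If plain words approximate all labelled words in energy, and labelled words
reach the ground-state energy, then `Q_p` tends to `P_*`. -/

namespace Vale.Agent.P367.NI

open Filter Topology Vale.Agent.P367.Gap Vale.Agent.P367.Lim

variable {F K : Type} [NormedAddCommGroup F] [InnerProductSpace ℂ F]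
  [NormedAddCommGroup K] [InnerProductSpace ℂ K]
variable (S : Weyl F K)

/-- no label gates -/
def NoG (w : List Gate) : Prop := ∀ g ∈ w, ∀ k, g ≠ Gate.G k

lemma plain_congr {γ β γ' β' : ℕ → ℝ} (p : ℕ) (h : ∀ k < p, γ k = γ' k ∧ β k = β' k) :
    plain γ β p = plain γ' β' p := by
  induction p with
  | zero => rfl
  | succ p ih =>
    rw [plain, plain, ih fun k hk => h k (by omega), (h p (by omega)).1, (h p (by omega)).2]

lemma step_C_zero (V : St F) : S.step (Gate.C 0) V = V := by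
  change V.trans (S.zr (((0 : ℝ) : ℂ) • _)) = V
  rw [Complex.ofReal_zero, zero_smul, zr_zero]
  rfl

lemma step_B_zero (V : St F) : S.step (Gate.B 0) V = V := by
  change V.trans (NI.xr 0) = V
  rw [xr_zero]
  rfl

/-- every word without label gates is equivalent to an alternating one -/
lemma exists_plain (r : List Gate) (h : NoG r) : ∃ (p : ℕ) (γ β : ℕ → ℝ),
    S.ev (plain γ β p) = S.ev r ∧ ∀ y, S.eaux y (plain γ β p) = S.eaux y r := by
  induction r with
  | nil => exact ⟨0, fun _ => 0, fun _ => 0, rfl, fun _ => rfl⟩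
  | cons g r ih =>
    obtain ⟨p, γ, β, h1, h2⟩ := ih fun a ha => h a (List.mem_cons_of_mem _ ha)
    have key : ∀ b c : ℝ, ∃ γ' β' : ℕ → ℝ,
        plain γ' β' (p + 1) = Gate.B b :: Gate.C c :: plain γ β p := by
      intro b c
      refine ⟨Function.update γ p c, Function.update β p b, ?_⟩
      rw [plain, Function.update_self, Function.update_self]
      congr 2
      refine plain_congr p fun k hk => ?_
      rw [Function.update_of_ne hk.ne, Function.update_of_ne hk.ne]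
      exact ⟨rfl, rfl⟩
    cases g with
    | G k => exact absurd rfl (h _ List.mem_cons_self k)
    | B b =>
      obtain ⟨γ', β', e⟩ := key b 0
      refine ⟨p + 1, γ', β', ?_, ?_⟩
      · rw [e]
        change S.step (Gate.B b) (S.step (Gate.C 0) (S.ev (plain γ β p))) = S.step (Gate.B b) _
        rw [step_C_zero, h1]
      · intro y
        rw [e]
        change -(0 * _) + S.eaux y (plain γ β p) = S.eaux y r
        rw [zero_mul, neg_zero, zero_add, h2]
    | C c =>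
      obtain ⟨γ', β', e⟩ := key 0 c
      refine ⟨p + 1, γ', β', ?_, ?_⟩
      · rw [e]
        change S.step (Gate.B 0) (S.step (Gate.C c) (S.ev (plain γ β p))) = S.step (Gate.C c) _
        rw [step_B_zero, h1]
      · intro y
        rw [e]
        change -(c * ((inner ℂ (S.xv (S.ev (plain γ β p))) y) ^ 2 : ℂ).im) +
          S.eaux y (plain γ β p) = -(c * ((inner ℂ (S.xv (S.ev r)) y) ^ 2 : ℂ).im) + S.eaux y r
        rw [h1, h2]

/-- a word without label gates is a QAOA circuit -/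
lemma exists_vLim (r : List Gate) (h : NoG r) : ∃ (p : ℕ) (γ β : Fin p → ℝ),
    vLim p γ β = S.energy r := by
  obtain ⟨p, γ, β, h1, h2⟩ := exists_plain S r h
  refine ⟨p, _, _, ((S.energy_plain_eq_vLim γ β p).symm).trans ?_⟩
  unfold Weyl.energy
  rw [h1, h2]

lemma vLim_snoc (p : ℕ) (γ β : Fin p → ℝ) : ∃ γ' β' : Fin (p + 1) → ℝ,
    vLim (p + 1) γ' β' = vLim p γ β := by
  obtain ⟨S⟩ := exists_weyl
  refine ⟨fun k => (Function.update (extA γ) p 0) k, fun k => (Function.update (extA β) p 0) k, ?_⟩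
  rw [← S.energy_plain_eq_vLim (Function.update (extA γ) p 0) (Function.update (extA β) p 0) (p + 1),
    S.vLim_extA p γ β, plain, Function.update_self, Function.update_self]
  have e : plain (Function.update (extA γ) p 0) (Function.update (extA β) p 0) p =
      plain (extA γ) (extA β) p := by
    refine plain_congr p fun k hk => ?_
    rw [Function.update_of_ne hk.ne, Function.update_of_ne hk.ne]
    exact ⟨rfl, rfl⟩
  rw [e]
  have h1 : S.ev (Gate.B 0 :: Gate.C 0 :: plain (extA γ) (extA β) p) =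
      S.ev (plain (extA γ) (extA β) p) := by
    change S.step (Gate.B 0) (S.step (Gate.C 0) (S.ev (plain (extA γ) (extA β) p))) = _
    rw [step_C_zero, step_B_zero]
  unfold Weyl.energy
  rw [h1]
  change -(0 * _) + S.eaux _ (plain (extA γ) (extA β) p) = _
  rw [zero_mul, neg_zero, zero_add]

lemma Qsup_mono : Monotone Qsup := by
  refine monotone_nat_of_le_succ fun p => ?_
  unfold Qsup
  refine ciSup_le fun a => ?_
  obtain ⟨γ', β', h⟩ := vLim_snoc p a.1 a.2
  rw [← h]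
  exact le_ciSup (Vale.Agent.P367.Lim.bdd_vLim (p + 1)) (γ', β')

lemma vLim_le_Qsup (p : ℕ) (γ β : Fin p → ℝ) : vLim p γ β ≤ Qsup p :=
  le_ciSup (Vale.Agent.P367.Lim.bdd_vLim p) (γ, β)

/-- **assembly** -/
theorem tendsto_Qsup (S : Weyl F K)
    (hA : ∀ (W : List Gate) (d : ℝ), 0 < d → ∃ r, NoG r ∧ |S.energy r - S.energy W| < d)
    (hB : ∀ d : ℝ, 0 < d → ∃ W : List Gate, Pstar - d ≤ S.energy W) :
    Tendsto Qsup atTop (𝓝 Pstar) := by
  rw [Metric.tendsto_atTop]
  intro ε hε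
  obtain ⟨W, hW⟩ := hB (ε / 2) (half_pos hε)
  obtain ⟨r, hr, hr'⟩ := hA W (ε / 2) (half_pos hε)
  obtain ⟨p, γ, β, hp⟩ := exists_vLim S r hr
  refine ⟨p, fun q hq => ?_⟩
  have h1 := vLim_le_Qsup p γ β
  have h2 := Qsup_mono hq
  have h3 := Vale.Agent.P367.Lim.Qsup_le q
  have h4 := Real.exp_pos (-(10 ^ 6 * 16 ^ q))
  rw [abs_lt] at hr'
  rw [Real.dist_eq, abs_lt]
  constructor <;> linarith

end Vale.Agent.P367.NI
end

section

/-! P367, block B: value statement in a label system and the final assembly of block B. -/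

namespace Vale.Agent.P367.A

open Complex Filter Topology MeasureTheory ProbabilityTheory

namespace LSys

variable {H K : Type*} [NormedAddCommGroup H] [InnerProductSpace ℂ H]
  [NormedAddCommGroup K] [InnerProductSpace ℂ K] (L : LSys H K)

/-- VALUE: tower data whose final state has energy at least `P - ε`. -/
def ValueStmt (J : K → H) (P : ℝ) : Prop :=
  ∀ ε : ℝ, 0 < ε → ∃ (G : Set ℝ) (n : ℕ) (m : ℕ → ℕ) (sg : (k : ℕ) → Fin (m k) → (H →L[ℂ] H))
    (c : (k : ℕ) → Fin (m k) → ℝ) (y : ℕ → K) (Th : H →L[ℂ] H) (U : H ≃ₗᵢ[ℂ] H),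
    MeasurableSet G ∧ L.mu Gᶜ ≠ 0 ∧ L.mu.real Gᶜ ≤ ε ∧
    (∀ k < n, y k = L.iota ((∑ i, (c k i : ℂ) • sg k i) L.Om)) ∧
    (∀ k < n, ∀ i, L.Sgn G (L.alg y k) (sg k i)) ∧
    Th ∈ L.alg y n ∧ Sa Th ∧ Th * L.E G = Th ∧ L.IsRot Th 1 U ∧
    P - ε ≤ L.En J (L.E G (L.xv U))

lemma fin_E_idem {b : Set ℝ} (hb : MeasurableSet b) (x : H) : L.E b (L.E b x) = L.E b x := by
  have hB : Bm (b.indicator fun _ => (1 : ℂ)) := by
    refine ⟨measurable_const.indicator hb, 1, fun t => ?_⟩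
    by_cases h : t ∈ b
    · simp [Set.indicator_of_mem h]
    · simp [Set.indicator_of_notMem h]
  have h1 := L.lab_mul _ _ hB hB
  have h2 : (fun t => b.indicator (fun _ => (1 : ℂ)) t * b.indicator (fun _ => (1 : ℂ)) t)
      = b.indicator (fun _ => (1 : ℂ)) := by
    funext t
    by_cases h : t ∈ b
    · simp [Set.indicator_of_mem h]
    · simp [Set.indicator_of_notMem h]
  rw [h2] at h1
  have h3 := congrArg (fun T : H →L[ℂ] H => T x) h1
  simpa [E] using h3.symm

lemma fin_E_norm_le {b : Set ℝ} (hb : MeasurableSet b) (x : H) : ‖L.E b x‖ ≤ ‖x‖ := by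
  have hB : Bm (b.indicator fun _ => (1 : ℂ)) := by
    refine ⟨measurable_const.indicator hb, 1, fun t => ?_⟩
    by_cases h : t ∈ b
    · simp [Set.indicator_of_mem h]
    · simp [Set.indicator_of_notMem h]
  have h1 := L.lab_adj _ hB x (L.E b x)
  have h2 : (fun t => (starRingEnd ℂ) (b.indicator (fun _ => (1 : ℂ)) t))
      = b.indicator (fun _ => (1 : ℂ)) := by
    funext t
    by_cases h : t ∈ b
    · simp [Set.indicator_of_mem h]
    · simp [Set.indicator_of_notMem h]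
  rw [h2] at h1
  change inner ℂ (L.E b x) (L.E b x) = inner ℂ x (L.E b (L.E b x)) at h1
  rw [L.fin_E_idem hb] at h1
  have h3 : ‖L.E b x‖ ^ 2 ≤ ‖x‖ * ‖L.E b x‖ := by
    have h4 : ‖(inner ℂ (L.E b x) (L.E b x) : ℂ)‖ = ‖L.E b x‖ ^ 2 := by
      rw [inner_self_eq_norm_sq_to_K, norm_pow]
      simp
    rw [← h4, h1]
    exact norm_inner_le_norm _ _
  rcases eq_or_lt_of_le (norm_nonneg (L.E b x)) with h | h
  · rw [← h]; exact norm_nonneg _
  · nlinarith

/-- **final assembly of block B** -/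
theorem hB_of {F K0 : Type} [NormedAddCommGroup F] [InnerProductSpace ℂ F]
    [NormedAddCommGroup K0] [InnerProductSpace ℂ K0] (S : NI.Weyl F K0) (J : K → H)
    (hL : L.IsBase S J) (hT : L.TowerStmt) {P : ℝ} (hV : L.ValueStmt J P) {d : ℝ} (hd : 0 < d) :
    ∃ W : List NI.Gate, P - d ≤ S.energy W := by
  obtain ⟨s, hs0, hs1, hs⟩ : ∃ s : ℝ, 0 < s ∧ s ≤ 1 ∧ s + 2 * (s + Real.sqrt s + s) ≤ d := by
    have h1 : Tendsto (fun s : ℝ => s + 2 * (s + Real.sqrt s + s)) (𝓝[>] 0) (𝓝 0) := by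
      have h2 : Continuous fun s : ℝ => s + 2 * (s + Real.sqrt s + s) := by fun_prop
      have h3 := h2.tendsto 0
      simp only [Real.sqrt_zero, add_zero, mul_zero] at h3
      exact h3.mono_left nhdsWithin_le_nhds
    have h4 := (h1.eventually (ge_mem_nhds hd)).and
      ((eventually_le_nhds (show (0 : ℝ) < 1 by norm_num)).filter_mono nhdsWithin_le_nhds)
    obtain ⟨s, ⟨h5, h6⟩, h7⟩ := (h4.and self_mem_nhdsWithin).exists
    exact ⟨s, h7, h6, h5⟩
  obtain ⟨G, n, m, sg, c, y, Th, U, hG, hG0, hGs, hy, hsg, hTh, hSa, hThG, hU, hval⟩ := hV s hs0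
  obtain ⟨Rch, hcl, hst, hex⟩ := hL.reach G hG
  obtain ⟨R, V, hRV, hx⟩ := hT G Rch hG hG0 hcl hst n m sg c y hy hsg Th hTh hSa hThG U hU s hs0
  have hn : ‖L.E G (L.xv U)‖ ≤ 1 := by
    refine (L.fin_E_norm_le hG _).trans ?_
    unfold Sys.xv
    rw [LinearIsometryEquiv.norm_map, LinearIsometryEquiv.norm_map, LinearIsometryEquiv.norm_map,
      L.nOm]
  obtain ⟨w, hw⟩ := hex G R V hRV (L.E G (L.xv U)) hn (L.fin_E_idem hG _) s hs0
  refine ⟨w, ?_⟩
  have h8 : Real.sqrt (L.mu.real Gᶜ) ≤ Real.sqrt s := Real.sqrt_le_sqrt hGs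
  linarith

end LSys

end Vale.Agent.P367.A
end

section

/-! P367, Theorem A, block G: vacuum expectations of words are continuous functions of the Gram
matrix of the one-particle vectors; hence the Gram matrix of the field vectors of a simulated
labelled word converges to that of the labelled word. -/

namespace Vale.Agent.P367.A

open Complex Filter Topology

open Vale.Agent.P367.NI (Gate)

/-- pairs (family, limit) of one-particle vectors whose mutual inner products converge -/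
def Cpt {K : Type*} [NormedAddCommGroup K] [InnerProductSpace ℂ K] {α : Type*} (l : Filter α)
    (C : Submodule ℂ ((α → K) × K)) : Prop :=
  ∀ p ∈ C, ∀ q ∈ C, Tendsto (fun n => (inner ℂ (p.1 n) (q.1 n) : ℂ)) l (𝓝 (inner ℂ p.2 q.2))

lemma cpt_span {K : Type*} [NormedAddCommGroup K] [InnerProductSpace ℂ K] {α : Type*}
    {l : Filter α} {G : Set ((α → K) × K)}
    (h : ∀ p ∈ G, ∀ q ∈ G,
      Tendsto (fun n => (inner ℂ (p.1 n) (q.1 n) : ℂ)) l (𝓝 (inner ℂ p.2 q.2))) :
    Cpt l (Submodule.span ℂ G) := by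
  intro p hp q hq
  induction hp using Submodule.span_induction with
  | mem p hp =>
    induction hq using Submodule.span_induction with
    | mem q hq => exact h p hp q hq
    | zero => simp [tendsto_const_nhds]
    | add x y _ _ hx hy =>
      simp only [Prod.fst_add, Pi.add_apply, Prod.snd_add, inner_add_right]
      exact hx.add hy
    | smul a x _ hx =>
      simp only [Prod.smul_fst, Pi.smul_apply, Prod.smul_snd, inner_smul_right]
      exact hx.const_mul a
  | zero => simp [tendsto_const_nhds]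
  | add x y _ _ hx hy =>
    simp only [Prod.fst_add, Pi.add_apply, Prod.snd_add, inner_add_left]
    exact hx.add hy
  | smul a x _ hx =>
    simp only [Prod.smul_fst, Pi.smul_apply, Prod.smul_snd, inner_smul_left]
    exact hx.const_mul _

lemma Cpt.tendsto_normsq {K : Type*} [NormedAddCommGroup K] [InnerProductSpace ℂ K] {α : Type*}
    {l : Filter α} {C : Submodule ℂ ((α → K) × K)} (hC : Cpt l C) {p : (α → K) × K} (hp : p ∈ C) :
    Tendsto (fun n => ‖p.1 n‖ ^ 2) l (𝓝 (‖p.2‖ ^ 2)) := by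
  have h := hC p hp p hp
  have h2 : Tendsto (fun n => (inner ℂ (p.1 n) (p.1 n) : ℂ).re) l (𝓝 (inner ℂ p.2 p.2 : ℂ).re) :=
    (Complex.continuous_re.tendsto _).comp h
  have e : ∀ v : K, (inner ℂ v v : ℂ).re = ‖v‖ ^ 2 := fun v => by
    rw [inner_self_eq_norm_sq_to_K]; simp [← ofReal_pow]
  simpa only [e] using h2

namespace Sys

variable {H K : Type*} [NormedAddCommGroup H] [InnerProductSpace ℂ H]
  [NormedAddCommGroup K] [InnerProductSpace ℂ K] (S : Sys H K)
  {α : Type*} {l : Filter α} {C : Submodule ℂ ((α → K) × K)}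

/-- families of vectors built from Weyl operators at admissible pairs -/
inductive AV (l : Filter α) (C : Submodule ℂ ((α → K) × K)) : (α → H) → H → Prop
  | zero : AV l C (fun _ => 0) 0
  | add {x y : α → H} {x' y' : H} : AV l C x x' → AV l C y y' →
      AV l C (fun n => x n + y n) (x' + y')
  | term (c : α → ℂ) (c' : ℂ) (hc : Tendsto c l (𝓝 c')) (p : (α → K) × K) (hp : p ∈ C) :
      AV l C (fun n => c n • S.W (p.1 n) S.Om) (c' • S.W p.2 S.Om)
  | termZ (c : α → ℂ) (c' : ℂ) (hc : Tendsto c l (𝓝 c')) (p : (α → K) × K) (hp : p ∈ C) :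
      AV l C (fun n => c n • S.Z (S.W (p.1 n) S.Om)) (c' • S.Z (S.W p.2 S.Om))

variable {S}

lemma AV.congr {x y : α → H} {x' y' : H} (h : S.AV l C x x') (h1 : ∀ n, x n = y n)
    (h2 : x' = y') : S.AV l C y y' := by
  have : x = y := funext h1
  subst this; subst h2; exact h

lemma AV.smul {x : α → H} {x' : H} (h : S.AV l C x x') (c : α → ℂ) (c' : ℂ)
    (hc : Tendsto c l (𝓝 c')) : S.AV l C (fun n => c n • x n) (c' • x') := by
  induction h with
  | zero => exact AV.zero.congr (fun n => (smul_zero _).symm) (smul_zero _).symm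
  | add _ _ h1 h2 => exact (h1.add h2).congr (fun n => (smul_add _ _ _).symm) (smul_add _ _ _).symm
  | term d d' hd p hp =>
    exact (AV.term (fun n => c n * d n) (c' * d') (hc.mul hd) p hp).congr
      (fun n => mul_smul _ _ _) (mul_smul _ _ _)
  | termZ d d' hd p hp =>
    exact (AV.termZ (fun n => c n * d n) (c' * d') (hc.mul hd) p hp).congr
      (fun n => mul_smul _ _ _) (mul_smul _ _ _)

lemma AV.csmul {x : α → H} {x' : H} (h : S.AV l C x x') (c : ℂ) :
    S.AV l C (fun n => c • x n) (c • x') := h.smul (fun _ => c) c tendsto_const_nhds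

lemma AV.sub {x y : α → H} {x' y' : H} (h : S.AV l C x x') (h2 : S.AV l C y y') :
    S.AV l C (fun n => x n - y n) (x' - y') :=
  (h.add (h2.csmul (-1))).congr (fun n => by simp [sub_eq_add_neg]) (by simp [sub_eq_add_neg])

lemma AV.mono {C' : Submodule ℂ ((α → K) × K)} (hC : C ≤ C') {x : α → H} {x' : H}
    (h : S.AV l C x x') : S.AV l C' x x' := by
  induction h with
  | zero => exact AV.zero
  | add _ _ h1 h2 => exact h1.add h2
  | term d d' hd p hp => exact AV.term d d' hd p (hC hp)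
  | termZ d d' hd p hp => exact AV.termZ d d' hd p (hC hp)

lemma AV.om : S.AV l C (fun _ => S.Om) S.Om :=
  (AV.term (S := S) (fun _ => 1) 1 tendsto_const_nhds (0 : (α → K) × K) C.zero_mem).congr
    (fun n => by simp [S.W_zero_apply]) (by simp [S.W_zero_apply])

lemma AV.mapZ {x : α → H} {x' : H} (h : S.AV l C x x') :
    S.AV l C (fun n => S.Z (x n)) (S.Z x') := by
  induction h with
  | zero => exact AV.zero.congr (fun n => (map_zero _).symm) (map_zero _).symm
  | add _ _ h1 h2 => exact (h1.add h2).congr (fun n => (map_add _ _ _).symm) (map_add _ _ _).symm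
  | term d d' hd p hp =>
    exact (AV.termZ d d' hd p hp).congr (fun n => (map_smul _ _ _).symm) (map_smul _ _ _).symm
  | termZ d d' hd p hp =>
    exact (AV.term d d' hd p hp).congr (fun n => by rw [map_smul, S.ZZ]) (by rw [map_smul, S.ZZ])

lemma AV.mapX {x : α → H} {x' : H} (h : S.AV l C x x') :
    S.AV l C (fun n => S.X (x n)) (S.X x') := by
  induction h with
  | zero => exact AV.zero.congr (fun n => (map_zero _).symm) (map_zero _).symm
  | add _ _ h1 h2 => exact (h1.add h2).congr (fun n => (map_add _ _ _).symm) (map_add _ _ _).symm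
  | term d d' hd p hp =>
    exact (AV.term d d' hd p hp).congr (fun n => by rw [map_smul, ← S.WX, S.XOm])
      (by rw [map_smul, ← S.WX, S.XOm])
  | termZ d d' hd p hp =>
    exact ((AV.termZ d d' hd p hp).csmul (-1)).congr
      (fun n => by rw [map_smul, S.XZ, ← S.WX, S.XOm]; simp)
      (by rw [map_smul, S.XZ, ← S.WX, S.XOm]; simp)

lemma tendsto_phase {p q : (α → K) × K} (hC : Cpt l C) (hp : p ∈ C) (hq : q ∈ C) :
    Tendsto (fun n => Complex.exp (-(Complex.I * ((inner ℂ (p.1 n) (q.1 n) : ℂ).im : ℂ)))) l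
      (𝓝 (Complex.exp (-(Complex.I * ((inner ℂ p.2 q.2 : ℂ).im : ℂ))))) := by
  have h1 := hC p hp q hq
  have h2 : Continuous fun z : ℂ => Complex.exp (-(Complex.I * ((z.im : ℝ) : ℂ))) := by fun_prop
  exact (h2.tendsto _).comp h1

lemma AV.mapW (hC : Cpt l C) {x : α → H} {x' : H} (h : S.AV l C x x') {b : (α → K) × K}
    (hb : b ∈ C) : S.AV l C (fun n => S.W (b.1 n) (x n)) (S.W b.2 x') := by
  induction h with
  | zero => exact AV.zero.congr (fun n => (map_zero _).symm) (map_zero _).symm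
  | add _ _ h1 h2 => exact (h1.add h2).congr (fun n => (map_add _ _ _).symm) (map_add _ _ _).symm
  | term d d' hd p hp =>
    exact ((AV.term d d' hd (b + p) (C.add_mem hb hp)).smul _ _ (tendsto_phase hC hb hp)).congr
      (fun n => by rw [map_smul, S.WW, smul_comm]; rfl) (by rw [map_smul, S.WW, smul_comm]; rfl)
  | termZ d d' hd p hp =>
    exact ((AV.termZ d d' hd (b + p) (C.add_mem hb hp)).smul _ _ (tendsto_phase hC hb hp)).congr
      (fun n => by rw [map_smul, S.WZ, S.WW, map_smul, smul_comm]; rfl)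
      (by rw [map_smul, S.WZ, S.WW, map_smul, smul_comm]; rfl)

lemma AV.mapxr (b : ℝ) {x : α → H} {x' : H} (h : S.AV l C x x') :
    S.AV l C (fun n => S.xr b (x n)) (S.xr b x') :=
  ((h.csmul _).sub (h.mapX.csmul _)).congr (fun n => (S.xr_apply b (x n)).symm)
    (S.xr_apply b x').symm

lemma AV.mapzr (hC : Cpt l C) {x : α → H} {x' : H} (h : S.AV l C x x') {b : (α → K) × K}
    (hb : b ∈ C) : S.AV l C (fun n => S.zr (b.1 n) (x n)) (S.zr b.2 x') :=
  ((((h.mapW hC (C.neg_mem hb)).add (h.mapW hC hb)).csmul _).add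
    (((h.mapZ.mapW hC (C.neg_mem hb)).sub (h.mapZ.mapW hC hb)).csmul _)).congr
    (fun n => (S.zr_apply (b.1 n) (x n)).symm) (S.zr_apply b.2 x').symm

lemma inner_OmW (a b : K) : inner ℂ (S.W a S.Om) (S.W b S.Om)
    = Complex.exp (-(Complex.I * ((inner ℂ (-a) b : ℂ).im : ℂ)))
      * Complex.exp (-((‖-a + b‖ ^ 2 / 2 : ℝ) : ℂ)) := by
  rw [S.inner_W, S.WW, inner_smul_right, S.vac]

lemma inner_OmZW (a b : K) : inner ℂ (S.W a S.Om) (S.Z (S.W b S.Om)) = 0 := by
  have h : inner ℂ (S.W a S.Om) (S.Z (S.W b S.Om)) = -inner ℂ (S.W a S.Om) (S.Z (S.W b S.Om)) := by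
    calc inner ℂ (S.W a S.Om) (S.Z (S.W b S.Om))
        = inner ℂ (S.X (S.W a S.Om)) (S.X (S.Z (S.W b S.Om))) := (S.X.inner_map_map _ _).symm
      _ = _ := by rw [S.XZ, ← S.WX, ← S.WX, S.XOm, inner_neg_right]
  linear_combination (1 / 2 : ℂ) * h

lemma inner_OmZZW (a b : K) : inner ℂ (S.Z (S.W a S.Om)) (S.Z (S.W b S.Om))
    = inner ℂ (S.W a S.Om) (S.W b S.Om) := S.Z.inner_map_map _ _

lemma inner_OmZW' (a b : K) : inner ℂ (S.Z (S.W a S.Om)) (S.W b S.Om) = 0 := by
  rw [S.inner_Z, inner_OmZW]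

lemma tendsto_inner_OmW (hC : Cpt l C) {p q : (α → K) × K} (hp : p ∈ C) (hq : q ∈ C) :
    Tendsto (fun n => inner ℂ (S.W (p.1 n) S.Om) (S.W (q.1 n) S.Om)) l
      (𝓝 (inner ℂ (S.W p.2 S.Om) (S.W q.2 S.Om))) := by
  have h0 : Tendsto (fun n => Complex.exp (-(Complex.I * ((inner ℂ (-(p.1 n)) (q.1 n) : ℂ).im : ℂ))))
      l (𝓝 (Complex.exp (-(Complex.I * ((inner ℂ (-p.2) q.2 : ℂ).im : ℂ))))) :=
    tendsto_phase hC (p := -p) (q := q) (C.neg_mem hp) hq
  have h1 : Tendsto (fun n => ‖-p.1 n + q.1 n‖ ^ 2) l (𝓝 (‖-p.2 + q.2‖ ^ 2)) :=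
    hC.tendsto_normsq (C.add_mem (C.neg_mem hp) hq)
  have h2 : Continuous fun z : ℝ => Complex.exp (-((z / 2 : ℝ) : ℂ)) := by fun_prop
  have h3 : Tendsto (fun n => Complex.exp (-((‖-p.1 n + q.1 n‖ ^ 2 / 2 : ℝ) : ℂ))) l
      (𝓝 (Complex.exp (-((‖-p.2 + q.2‖ ^ 2 / 2 : ℝ) : ℂ)))) := (h2.tendsto _).comp h1
  have h4 := h0.mul h3
  simp only [inner_OmW]
  exact h4

/-- (G1) inner products of admissible families converge -/
lemma AV.tendsto_inner (hC : Cpt l C) {x y : α → H} {x' y' : H} (hx : S.AV l C x x')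
    (hy : S.AV l C y y') : Tendsto (fun n => (inner ℂ (x n) (y n) : ℂ)) l (𝓝 (inner ℂ x' y')) := by
  induction hx with
  | zero => simp [tendsto_const_nhds]
  | add _ _ h1 h2 =>
    simp only [inner_add_left]
    exact h1.add h2
  | term c c' hc p hp =>
    simp only [inner_smul_left]
    refine Tendsto.mul ((Complex.continuous_conj.tendsto _).comp hc) ?_
    induction hy with
    | zero => simp [tendsto_const_nhds]
    | add _ _ h1 h2 =>
      simp only [inner_add_right]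
      exact h1.add h2
    | term d d' hd q hq =>
      simp only [inner_smul_right]
      exact hd.mul (tendsto_inner_OmW hC hp hq)
    | termZ d d' hd q hq => simp [inner_smul_right, inner_OmZW, tendsto_const_nhds]
  | termZ c c' hc p hp =>
    simp only [inner_smul_left]
    refine Tendsto.mul ((Complex.continuous_conj.tendsto _).comp hc) ?_
    induction hy with
    | zero => simp [tendsto_const_nhds]
    | add _ _ h1 h2 =>
      simp only [inner_add_right]
      exact h1.add h2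
    | term d d' hd q hq => simp [inner_smul_right, inner_OmZW', tendsto_const_nhds]
    | termZ d d' hd q hq =>
      simp only [inner_smul_right, inner_OmZZW]
      exact hd.mul (tendsto_inner_OmW hC hp hq)

/-- operators preserving admissible families -/
def AO (S : Sys H K) (l : Filter α) (C : Submodule ℂ ((α → K) × K)) (V : α → H ≃ₗᵢ[ℂ] H)
    (V' : H ≃ₗᵢ[ℂ] H) : Prop :=
  (∀ x x', S.AV l C x x' → S.AV l C (fun n => V n (x n)) (V' x')) ∧
  (∀ x x', S.AV l C x x' → S.AV l C (fun n => (V n)⁻¹ (x n)) (V'⁻¹ x'))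

lemma AO.one : S.AO l C (fun _ => 1) 1 :=
  ⟨fun _ _ h => h.congr (fun _ => rfl) rfl, fun _ _ h => h.congr (fun _ => rfl) rfl⟩

lemma AO.mul {V U : α → H ≃ₗᵢ[ℂ] H} {V' U' : H ≃ₗᵢ[ℂ] H} (h1 : S.AO l C V V')
    (h2 : S.AO l C U U') : S.AO l C (fun n => V n * U n) (V' * U') :=
  ⟨fun _ _ h => (h1.1 _ _ (h2.1 _ _ h)).congr (fun _ => rfl) rfl,
    fun _ _ h => (h2.2 _ _ (h1.2 _ _ h)).congr (fun _ => by rw [mul_inv_rev]; rfl)
      (by rw [mul_inv_rev]; rfl)⟩

lemma xr_inv_apply (b : ℝ) (x : H) : (S.xr b)⁻¹ x = S.xr (-b) x := rfl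

lemma zr_inv_apply (v : K) (x : H) : (S.zr v)⁻¹ x = S.zr (-v) x := rfl

lemma AO.xr (b : ℝ) : S.AO l C (fun _ => S.xr b) (S.xr b) :=
  ⟨fun _ _ h => h.mapxr b, fun _ _ h => h.mapxr (-b)⟩

lemma AO.zr (hC : Cpt l C) {b : (α → K) × K} (hb : b ∈ C) :
    S.AO l C (fun n => S.zr (b.1 n)) (S.zr b.2) :=
  ⟨fun _ _ h => h.mapzr hC hb, fun x x' h =>
    (AV.mapzr (b := -b) hC h (C.neg_mem hb)).congr (fun n => (zr_inv_apply (b.1 n) (x n)).symm)
      (zr_inv_apply b.2 x').symm⟩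

lemma AO.xv {V : α → H ≃ₗᵢ[ℂ] H} {V' : H ≃ₗᵢ[ℂ] H} (h : S.AO l C V V') :
    S.AV l C (fun n => S.xv (V n)) (S.xv V') :=
  h.2 _ _ (h.1 _ _ AV.om).mapZ

lemma xv_eq (V : H ≃ₗᵢ[ℂ] H) : S.xv V = V⁻¹ (S.Z (V S.Om)) := rfl

end Sys

/-! ### Perturbations -/

lemma tendsto_inner_pert {E : Type*} [NormedAddCommGroup E] [InnerProductSpace ℂ E] {α : Type*}
    {l : Filter α} {a b a' b' : α → E} {A B : ℝ} {L : ℂ}
    (ha : Tendsto (fun n => ‖a n‖) l (𝓝 A)) (hb : Tendsto (fun n => ‖b n‖) l (𝓝 B))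
    (h : Tendsto (fun n => (inner ℂ (a n) (b n) : ℂ)) l (𝓝 L))
    (ha' : Tendsto (fun n => ‖a' n - a n‖) l (𝓝 0))
    (hb' : Tendsto (fun n => ‖b' n - b n‖) l (𝓝 0)) :
    Tendsto (fun n => (inner ℂ (a' n) (b' n) : ℂ)) l (𝓝 L) := by
  have e : ∀ n, (inner ℂ (a' n) (b' n) : ℂ) = inner ℂ (a n) (b n)
      + (inner ℂ (a n) (b' n - b n) + inner ℂ (a' n - a n) (b n)
        + inner ℂ (a' n - a n) (b' n - b n)) := by
    intro n
    simp only [inner_sub_left, inner_sub_right]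
    ring
  have h1 : Tendsto (fun n => (inner ℂ (a n) (b' n - b n) : ℂ)) l (𝓝 0) := by
    refine squeeze_zero_norm (fun n => norm_inner_le_norm _ _) ?_
    simpa using ha.mul hb'
  have h2 : Tendsto (fun n => (inner ℂ (a' n - a n) (b n) : ℂ)) l (𝓝 0) := by
    refine squeeze_zero_norm (fun n => norm_inner_le_norm _ _) ?_
    simpa using ha'.mul hb
  have h3 : Tendsto (fun n => (inner ℂ (a' n - a n) (b' n - b n) : ℂ)) l (𝓝 0) := by
    refine squeeze_zero_norm (fun n => norm_inner_le_norm _ _) ?_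
    simpa using ha'.mul hb'
  simp only [e]
  simpa using h.add ((h1.add h2).add h3)

lemma tendsto_norm_of_inner {E : Type*} [NormedAddCommGroup E] [InnerProductSpace ℂ E] {α : Type*}
    {l : Filter α} {a : α → E} {A : E}
    (h : Tendsto (fun n => (inner ℂ (a n) (a n) : ℂ)) l (𝓝 (inner ℂ A A))) :
    Tendsto (fun n => ‖a n‖) l (𝓝 ‖A‖) := by
  have h2 : Tendsto (fun n => (inner ℂ (a n) (a n) : ℂ).re) l (𝓝 (inner ℂ A A : ℂ).re) :=
    (Complex.continuous_re.tendsto _).comp h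
  have e : ∀ v : E, (inner ℂ v v : ℂ).re = ‖v‖ ^ 2 := fun v => by
    rw [inner_self_eq_norm_sq_to_K]; simp [← ofReal_pow]
  simp only [e] at h2
  have h3 := (Real.continuous_sqrt.tendsto _).comp h2
  have e2 : ∀ v : E, √(‖v‖ ^ 2) = ‖v‖ := fun v => Real.sqrt_sq (norm_nonneg _)
  simpa only [Function.comp_def, e2] using h3

/-- null families -/
def NullP {K : Type*} [NormedAddCommGroup K] [InnerProductSpace ℂ K] {α : Type*} (l : Filter α) :
    Submodule ℂ ((α → K) × K) where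
  carrier := {p | Tendsto (fun n => ‖p.1 n‖) l (𝓝 0) ∧ p.2 = 0}
  add_mem' {p q} hp hq := by
    refine ⟨?_, by simp [hp.2, hq.2]⟩
    refine squeeze_zero (fun n => norm_nonneg _) (fun n => norm_add_le (p.1 n) (q.1 n)) ?_
    simpa using hp.1.add hq.1
  zero_mem' := ⟨by simp [tendsto_const_nhds], rfl⟩
  smul_mem' c p hp := by
    refine ⟨?_, by simp [hp.2]⟩
    simp only [Prod.smul_fst, Pi.smul_apply, norm_smul]
    simpa using hp.1.const_mul ‖c‖

lemma Cpt.sup_null {K : Type*} [NormedAddCommGroup K] [InnerProductSpace ℂ K] {α : Type*}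
    {l : Filter α} {C : Submodule ℂ ((α → K) × K)} (hC : Cpt l C) : Cpt l (C ⊔ NullP l) := by
  intro p hp q hq
  obtain ⟨a, ha, n, hn, rfl⟩ := Submodule.mem_sup.1 hp
  obtain ⟨b, hb, m, hm, rfl⟩ := Submodule.mem_sup.1 hq
  have e1 : (a + n).2 = a.2 := by rw [Prod.snd_add, hn.2, add_zero]
  have e2 : (b + m).2 = b.2 := by rw [Prod.snd_add, hm.2, add_zero]
  rw [e1, e2]
  refine tendsto_inner_pert (tendsto_norm_of_inner (hC a ha a ha))
    (tendsto_norm_of_inner (hC b hb b hb)) (hC a ha b hb) ?_ ?_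
  · simpa using hn.1
  · simpa using hm.1

/-! ### The main induction -/

namespace Sys

variable {H K : Type*} [NormedAddCommGroup H] [InnerProductSpace ℂ H]
  [NormedAddCommGroup K] [InnerProductSpace ℂ K] (S : Sys H K)
  {α : Type*} {l : Filter α}

/-- pairs generated by the field vectors before time `k` and by the label vector -/
noncomputable def Cw (l : Filter α) (e : α → K) (x : α → ℕ → H) (x₀ : ℕ → H) (k : ℕ) :
    Submodule ℂ ((α → K) × K) :=
  Submodule.span ℂ ({p | ∃ i < k, p = ((fun n => S.iota (x n i)), S.iota (x₀ i))} ∪ {(e, S.e0)})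
    ⊔ NullP l

lemma Cw_mono {l : Filter α} {e : α → K} {x : α → ℕ → H} {x₀ : ℕ → H} {k m : ℕ} (h : k ≤ m) :
    S.Cw l e x x₀ k ≤ S.Cw l e x x₀ m := by
  refine sup_le_sup_right (Submodule.span_mono ?_) _
  refine Set.union_subset_union_left _ ?_
  rintro p ⟨i, hi, rfl⟩
  exact ⟨i, lt_of_lt_of_le hi h, rfl⟩

lemma Cw_e {e : α → K} {x : α → ℕ → H} {x₀ : ℕ → H} {k : ℕ} : (e, S.e0) ∈ S.Cw l e x x₀ k :=
  Submodule.mem_sup_left (Submodule.subset_span (Or.inr rfl))

lemma Cw_x {e : α → K} {x : α → ℕ → H} {x₀ : ℕ → H} {k i : ℕ} (hi : i < k) :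
    ((fun n => S.iota (x n i)), S.iota (x₀ i)) ∈ S.Cw l e x x₀ k :=
  Submodule.mem_sup_left (Submodule.subset_span (Or.inl ⟨i, hi, rfl⟩))

lemma Cw_null {e : α → K} {x : α → ℕ → H} {x₀ : ℕ → H} {k : ℕ} {f : α → K}
    (hf : Tendsto (fun n => ‖f n‖) l (𝓝 0)) : (f, 0) ∈ S.Cw l e x x₀ k :=
  Submodule.mem_sup_right ⟨hf, rfl⟩

variable {S}

/-- the state of the induction -/
structure Ind (S : Sys H K) (l : Filter α) (e : α → K) (x : α → ℕ → H) (v : α → ℕ → K)
    (x₀ : ℕ → H) (v₀ : ℕ → K) (w : List Gate) : Prop where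
  cpt : Cpt l (S.Cw l e x x₀ w.length)
  ops : ∀ C, S.Cw l e x x₀ w.length ≤ C → Cpt l C →
    S.AO l C (fun n => S.lw (v n) w) (S.lw v₀ w)
  app : ∀ i < w.length, ∃ y, S.AV l (S.Cw l e x x₀ w.length) y (x₀ i) ∧
    Tendsto (fun n => ‖x n i - y n‖) l (𝓝 0)
  perp : ∀ i < w.length, Tendsto (fun n => (inner ℂ (e n) (S.iota (x n i)) : ℂ)) l (𝓝 0)

lemma Ind.inner_xx {e : α → K} {x : α → ℕ → H} {v : α → ℕ → K} {x₀ : ℕ → H} {v₀ : ℕ → K}
    {w : List Gate} (h : S.Ind l e x v x₀ v₀ w) {f g : α → H} {f₀ g₀ : H}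
    (hf : ∃ y, S.AV l (S.Cw l e x x₀ w.length) y f₀ ∧ Tendsto (fun n => ‖f n - y n‖) l (𝓝 0))
    (hg : ∃ y, S.AV l (S.Cw l e x x₀ w.length) y g₀ ∧ Tendsto (fun n => ‖g n - y n‖) l (𝓝 0)) :
    Tendsto (fun n => (inner ℂ (f n) (g n) : ℂ)) l (𝓝 (inner ℂ f₀ g₀)) := by
  obtain ⟨y, hy, hy'⟩ := hf
  obtain ⟨z, hz, hz'⟩ := hg
  exact tendsto_inner_pert (tendsto_norm_of_inner (hy.tendsto_inner h.cpt hy))
    (tendsto_norm_of_inner (hz.tendsto_inner h.cpt hz)) (hy.tendsto_inner h.cpt hz) hy' hz'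

/-- compatibility at the next time -/
lemma Ind.cpt_succ {e : α → K} {x : α → ℕ → H} {v : α → ℕ → K} {x₀ : ℕ → H} {v₀ : ℕ → K}
    {w : List Gate} (h : S.Ind l e x v x₀ v₀ w) (he : ∀ n, ‖e n‖ = 1)
    (happ : ∃ y, S.AV l (S.Cw l e x x₀ w.length) y (x₀ w.length) ∧
      Tendsto (fun n => ‖x n w.length - y n‖) l (𝓝 0))
    (hperp : Tendsto (fun n => (inner ℂ (e n) (S.iota (x n w.length)) : ℂ)) l (𝓝 0)) :
    Cpt l (S.Cw l e x x₀ (w.length + 1)) := by
  refine Cpt.sup_null (cpt_span ?_)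
  have happ' : ∀ i < w.length + 1, ∃ y, S.AV l (S.Cw l e x x₀ w.length) y (x₀ i) ∧
      Tendsto (fun n => ‖x n i - y n‖) l (𝓝 0) := by
    intro i hi
    rcases Nat.lt_succ_iff_lt_or_eq.1 hi with hi | rfl
    · exact h.app i hi
    · exact happ
  have hperp' : ∀ i < w.length + 1,
      Tendsto (fun n => (inner ℂ (e n) (S.iota (x n i)) : ℂ)) l (𝓝 0) := by
    intro i hi
    rcases Nat.lt_succ_iff_lt_or_eq.1 hi with hi | rfl
    · exact h.perp i hi
    · exact hperp
  rintro p (⟨i, hi, rfl⟩ | rfl) q (⟨j, hj, rfl⟩ | rfl)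
  · simp only [LinearIsometry.inner_map_map]
    exact h.inner_xx (happ' i hi) (happ' j hj)
  · have h1 := (Complex.continuous_conj.tendsto _).comp (hperp' i hi)
    simp only [Function.comp_def, inner_conj_symm, map_zero] at h1
    have h2 : (inner ℂ (S.iota (x₀ i)) S.e0 : ℂ) = 0 := by
      rw [← inner_conj_symm, S.e0perp, map_zero]
    simpa only [h2] using h1
  · have h1 := hperp' j hj
    simpa only [S.e0perp] using h1
  · have e1 : ∀ n, (inner ℂ (e n) (e n) : ℂ) = 1 := fun n => by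
      rw [inner_self_eq_norm_sq_to_K, he n]; simp
    have e2 : (inner ℂ S.e0 S.e0 : ℂ) = 1 := by
      rw [inner_self_eq_norm_sq_to_K, S.ne0]; simp
    simp only [e1, e2]
    exact tendsto_const_nhds

lemma Ind.nil {e : α → K} {x : α → ℕ → H} {v : α → ℕ → K} {x₀ : ℕ → H} {v₀ : ℕ → K}
    (he : ∀ n, ‖e n‖ = 1) : S.Ind l e x v x₀ v₀ [] where
  cpt := by
    refine Cpt.sup_null (cpt_span ?_)
    rintro p (⟨i, hi, rfl⟩ | rfl) q (⟨j, hj, rfl⟩ | rfl)
    · exact absurd hi (Nat.not_lt_zero i)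
    · exact absurd hi (Nat.not_lt_zero i)
    · exact absurd hj (Nat.not_lt_zero j)
    · have e1 : ∀ n, (inner ℂ (e n) (e n) : ℂ) = 1 := fun n => by
        rw [inner_self_eq_norm_sq_to_K, he n]; simp
      have e2 : (inner ℂ S.e0 S.e0 : ℂ) = 1 := by
        rw [inner_self_eq_norm_sq_to_K, S.ne0]; simp
      simp only [e1, e2]
      exact tendsto_const_nhds
  ops := fun C _ _ => AO.one
  app := fun i hi => absurd hi (Nat.not_lt_zero i)
  perp := fun i hi => absurd hi (Nat.not_lt_zero i)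

lemma Ind.app_self {e : α → K} {x : α → ℕ → H} {v : α → ℕ → K} {x₀ : ℕ → H} {v₀ : ℕ → K}
    {w : List Gate} (h : S.Ind l e x v x₀ v₀ w) {d : α → ℝ} (hd : Tendsto d l (𝓝 0))
    (hx : ∀ n, ‖x n w.length - S.xv (S.lw (v n) w)‖ ≤ d n)
    (hx0 : ‖x₀ w.length - S.xv (S.lw v₀ w)‖ ≤ 0) :
    ∃ y, S.AV l (S.Cw l e x x₀ w.length) y (x₀ w.length) ∧
      Tendsto (fun n => ‖x n w.length - y n‖) l (𝓝 0) := by
  refine ⟨fun n => S.xv (S.lw (v n) w), ?_, squeeze_zero (fun n => norm_nonneg _) hx hd⟩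
  have e : x₀ w.length = S.xv (S.lw v₀ w) := by
    have := le_antisymm hx0 (norm_nonneg _)
    exact sub_eq_zero.1 (norm_eq_zero.1 this)
  rw [e]
  exact AO.xv (h.ops _ le_rfl h.cpt)

/-- one more gate -/
lemma Ind.succ {e : α → K} {x : α → ℕ → H} {v : α → ℕ → K} {x₀ : ℕ → H} {v₀ : ℕ → K}
    {w : List Gate} {g : Gate} (h : S.Ind l e x v x₀ v₀ w) (he : ∀ n, ‖e n‖ = 1) {d : α → ℝ}
    (hd : Tendsto d l (𝓝 0))
    (hx : ∀ n, ‖x n w.length - S.xv (S.lw (v n) w)‖ ≤ d n)
    (hx0 : ‖x₀ w.length - S.xv (S.lw v₀ w)‖ ≤ 0)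
    (hp : ∀ n, ‖(inner ℂ (e n) (S.iota (x n w.length)) : ℂ)‖ ≤ d n)
    (hg : ∀ C, S.Cw l e x x₀ (w.length + 1) ≤ C → Cpt l C →
      S.AO l C (fun n => S.lw (v n) w) (S.lw v₀ w) →
      S.AO l C (fun n => S.lw (v n) (g :: w)) (S.lw v₀ (g :: w))) :
    S.Ind l e x v x₀ v₀ (g :: w) := by
  have hperp : Tendsto (fun n => (inner ℂ (e n) (S.iota (x n w.length)) : ℂ)) l (𝓝 0) :=
    squeeze_zero_norm hp hd
  have happ := h.app_self hd hx hx0
  have hlen : (g :: w).length = w.length + 1 := rfl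
  have hle : S.Cw l e x x₀ w.length ≤ S.Cw l e x x₀ (w.length + 1) := Cw_mono S (Nat.le_succ _)
  refine ⟨?_, ?_, ?_, ?_⟩
  · rw [hlen]
    exact h.cpt_succ he happ hperp
  · intro C hC hcpt
    rw [hlen] at hC
    exact hg C hC hcpt (h.ops C (hle.trans hC) hcpt)
  · intro i hi
    rw [hlen] at hi ⊢
    rcases Nat.lt_succ_iff_lt_or_eq.1 hi with hi | rfl
    · obtain ⟨y, hy, hy'⟩ := h.app i hi
      exact ⟨y, hy.mono hle, hy'⟩
    · obtain ⟨y, hy, hy'⟩ := happ
      exact ⟨y, hy.mono hle, hy'⟩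
  · intro i hi
    rw [hlen] at hi
    rcases Nat.lt_succ_iff_lt_or_eq.1 hi with hi | rfl
    · exact h.perp i hi
    · exact hperp

lemma Ind.of_good {e : α → K} {x : α → ℕ → H} {v : α → ℕ → K} {x₀ : ℕ → H} {v₀ : ℕ → K}
    (he : ∀ n, ‖e n‖ = 1) {d : α → ℝ} (hd : Tendsto d l (𝓝 0)) : ∀ w : List Gate,
    (∀ n, S.Good (d n) (e n) (x n) (v n) w) → S.Good 0 S.e0 x₀ v₀ w →
    S.Ind l e x v x₀ v₀ w
  | [], _, _ => Ind.nil he
  | Gate.B b :: w, h, h0 => by
    refine (Ind.of_good he hd w (fun n => (h n).1) h0.1).succ he hd (fun n => (h n).2.1) h0.2.1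
      (fun n => (h n).2.2) ?_
    intro C hC hcpt hw
    exact (AO.xr b).mul hw
  | Gate.C γ :: w, h, h0 => by
    refine (Ind.of_good he hd w (fun n => (h n).1) h0.1).succ he hd (fun n => (h n).2.1) h0.2.1
      (fun n => (h n).2.2.1) ?_
    intro C hC hcpt hw
    have hm : ((fun n => v n w.length), v₀ w.length) ∈ C := by
      have e1 : ((fun n => v n w.length), v₀ w.length)
          = (γ : ℂ) • ((fun n => S.iota (x n w.length)), S.iota (x₀ w.length)) := by
        refine Prod.ext (funext fun n => (h n).2.2.2) h0.2.2.2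
      rw [e1]
      exact C.smul_mem _ (hC (Cw_x S (Nat.lt_succ_self _)))
    exact (AO.zr hcpt hm).mul hw
  | Gate.G κ :: w, h, h0 => by
    refine (Ind.of_good he hd w (fun n => (h n).1) h0.1).succ he hd (fun n => (h n).2.1) h0.2.1
      (fun n => (h n).2.2.1) ?_
    intro C hC hcpt hw
    have hm : ((fun n => v n w.length), v₀ w.length) ∈ C := by
      have e0 : v₀ w.length = (κ : ℂ) • S.e0 := by
        have := le_antisymm h0.2.2.2 (norm_nonneg _)
        exact sub_eq_zero.1 (norm_eq_zero.1 this)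
      have e1 : ((fun n => v n w.length), v₀ w.length)
          = (κ : ℂ) • (e, S.e0) + ((fun n => v n w.length - (κ : ℂ) • e n), 0) := by
        refine Prod.ext (funext fun n => ?_) ?_
        · simp
        · simp [e0]
      rw [e1]
      refine C.add_mem (C.smul_mem _ (hC (Cw_e S))) (hC (Cw_null S ?_))
      exact squeeze_zero (fun n => norm_nonneg _) (fun n => (h n).2.2.2) hd
    exact (AO.zr hcpt hm).mul hw

/-- limit of the Gram matrix -/
lemma tendsto_gram {e : α → K} {x : α → ℕ → H} {v : α → ℕ → K} {x₀ : ℕ → H} {v₀ : ℕ → K}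
    (he : ∀ n, ‖e n‖ = 1) {d : α → ℝ} (hd : Tendsto d l (𝓝 0)) {w : List Gate}
    (h : ∀ n, S.Good (d n) (e n) (x n) (v n) w) (h0 : S.Good 0 S.e0 x₀ v₀ w) :
    (∀ i < w.length, ∀ j < w.length,
      Tendsto (fun n => (inner ℂ (x n i) (x n j) : ℂ)) l (𝓝 (inner ℂ (x₀ i) (x₀ j)))) ∧
    (∀ i < w.length, Tendsto (fun n => (inner ℂ (x n i) (S.xv (S.lw (v n) w)) : ℂ)) l
      (𝓝 (inner ℂ (x₀ i) (S.xv (S.lw v₀ w))))) := by
  have hI := Ind.of_good he hd w h h0
  refine ⟨fun i hi j hj => hI.inner_xx (hI.app i hi) (hI.app j hj), fun i hi => ?_⟩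
  refine hI.inner_xx (hI.app i hi) ⟨_, AO.xv (hI.ops _ le_rfl hI.cpt), ?_⟩
  simp [tendsto_const_nhds]

/-- **Block G** -/
theorem gStmt (S : Sys H K) : S.GStmt := by
  intro w x₀ v₀ h0 δ hδ
  by_contra hcon
  push Not at hcon
  have hpos : ∀ n : ℕ, (0 : ℝ) < 1 / ((n : ℝ) + 1) := fun n => by positivity
  choose e x v he hg hbad using fun n : ℕ => hcon (1 / ((n : ℝ) + 1)) (hpos n)
  have hd : Tendsto (fun n : ℕ => 1 / ((n : ℝ) + 1)) atTop (𝓝 0) :=
    tendsto_one_div_add_atTop_nhds_zero_nat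
  obtain ⟨h1, h2⟩ := tendsto_gram (S := S) (l := atTop) he hd hg h0
  have A : ∀ᶠ n in atTop, ∀ i ∈ Finset.range w.length, ∀ j ∈ Finset.range w.length,
      ‖(inner ℂ (x n i) (x n j) : ℂ) - inner ℂ (x₀ i) (x₀ j)‖ < δ := by
    rw [Filter.eventually_all_finset]
    intro i hi
    rw [Filter.eventually_all_finset]
    intro j hj
    have := (h1 i (Finset.mem_range.1 hi) j (Finset.mem_range.1 hj))
    rw [Metric.tendsto_nhds] at this
    simpa [dist_eq_norm] using this δ hδ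
  have B : ∀ᶠ n in atTop, ∀ i ∈ Finset.range w.length,
      ‖(inner ℂ (x n i) (S.xv (S.lw (v n) w)) : ℂ) - inner ℂ (x₀ i) (S.xv (S.lw v₀ w))‖ < δ := by
    rw [Filter.eventually_all_finset]
    intro i hi
    have := (h2 i (Finset.mem_range.1 hi))
    rw [Metric.tendsto_nhds] at this
    simpa [dist_eq_norm] using this δ hδ
  obtain ⟨n, hA, hB⟩ := (A.and B).exists
  obtain ⟨i, hi, hlt⟩ := hbad n (fun i hi j hj => hA i (Finset.mem_range.2 hi) j
    (Finset.mem_range.2 hj))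
  exact absurd (hB i (Finset.mem_range.2 hi)) (not_lt.2 hlt)

end Sys

end Vale.Agent.P367.A
end

section

/-! P367, Theorem A: the energy of every labelled word is approximated by infinite-size QAOA
values. -/

namespace Vale.Agent.P367.A

open Filter Topology

open Vale.Agent.P367.NI (Gate Weyl plain)

open Vale.Agent.P367.Gap (vLim)

variable {F K : Type} [NormedAddCommGroup F] [InnerProductSpace ℂ F]
  [NormedAddCommGroup K] [InnerProductSpace ℂ K]

/-- **Theorem A**, in terms of the infinite-size QAOA values, from the simulation statement for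
admissible words -/
theorem final_vLim (S : Weyl F K) (hA : (toSys S).AStmt) (W : List Gate) {d : ℝ} (hd : 0 < d) :
    ∃ (p : ℕ) (γ β : Fin p → ℝ), |vLim p γ β - S.energy W| < d := by
  obtain ⟨p, γ, β, h⟩ := final_of S hA W hd
  refine ⟨p, fun k => γ k, fun k => β k, ?_⟩
  rwa [← S.energy_plain_eq_vLim γ β p]

end Vale.Agent.P367.A
end

section

/-! P367, THEOREM A: assembly of all blocks. -/

namespace Vale.Agent.P367.A

namespace Sys

variable {H K : Type*} [NormedAddCommGroup H] [InnerProductSpace ℂ H]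
  [NormedAddCommGroup K] [InnerProductSpace ℂ K] (S : Sys H K)

/-- THEOREM A for every spin-Weyl system -/
theorem aStmt : S.AStmt := by
  have hN := S.nStmt
  have hO := S.ostmt
  have hP := S.pStmt
  have hWW := ww_stmt hN hO hP S.c1Stmt S.c2Stmt
  have hG := S.gStmt
  have hK := S.kStmt hN hO
  have hSC := S.sc hN
  have hSB := S.sb hN hWW
  have hSG := S.sg hN hWW
  exact S.aStmt_of hN hG (S.simStmt hN hG hK hSC hSB hSG)

end Sys

open Vale.Agent.P367.NI (Gate)

/-- every labelled word is simulated by plain words of the same Weyl system -/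
theorem plain_of_labelled {F K : Type} [NormedAddCommGroup F] [InnerProductSpace ℂ F]
    [NormedAddCommGroup K] [InnerProductSpace ℂ K] (S : NI.Weyl F K) (W : List Gate) {d : ℝ}
    (hd : 0 < d) : ∃ p γ β, |S.energy (NI.plain γ β p) - S.energy W| < d :=
  final_of S (toSys S).aStmt W hd

end Vale.Agent.P367.A
end

section

/-! P367: final assembly modulo the three block statements BASE, TOWER, VALUE. -/

namespace Vale.Agent.P367.A

open Filter Topology

lemma noG_plain (γ β : ℕ → ℝ) (p : ℕ) : NI.NoG (NI.plain γ β p) := by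
  induction p with
  | zero => intro g hg; simp [NI.plain] at hg
  | succ p ih =>
    intro g hg k
    simp only [NI.plain, List.mem_cons] at hg
    rcases hg with rfl | rfl | hg
    · simp
    · simp
    · exact ih g hg k

/-- The depth limit of QAOA on the Sherrington-Kirkpatrick model is optimal, given BASE, TOWER and
VALUE. -/
theorem main_of (hbase : LSys.BaseStmt)
    (htower : ∀ {K' : Type} [NormedAddCommGroup K'] [InnerProductSpace ℂ K']
      (L : LSys (NI.HH NI.FN) K'), L.TowerStmt)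
    (hval : ∀ {K' : Type} [NormedAddCommGroup K'] [InnerProductSpace ℂ K']
      (L : LSys (NI.HH NI.FN) K') (J : K' → NI.HH NI.FN) (S : NI.Weyl NI.FN NI.L2N),
      L.IsBase S J → L.ValueStmt J Gap.Pstar) :
    Tendsto Gap.Qsup atTop (𝓝 Gap.Pstar) := by
  obtain ⟨S, K', _, _, L, J, hL⟩ := hbase
  refine NI.tendsto_Qsup S (fun W d hd => ?_) fun d hd => L.hB_of S J hL (htower L)
    (hval L J S hL) hd
  obtain ⟨p, γ, β, h⟩ := plain_of_labelled S W hd
  exact ⟨_, noG_plain γ β p, h⟩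

end Vale.Agent.P367.A
end

section

/-! P367: final assembly modulo BASE, CORE (T2), NEST, VALUE. -/

namespace Vale.Agent.P367.A

open Filter Topology

theorem main2_of (hbase : LSys.BaseStmt)
    (hcore : ∀ {K' : Type} [NormedAddCommGroup K'] [InnerProductSpace ℂ K']
      (L : LSys (NI.HH NI.FN) K'), L.CoreStmt (fun x => L.tendsto_W0 x))
    (hnest : ∀ {K' : Type} [NormedAddCommGroup K'] [InnerProductSpace ℂ K']
      (L : LSys (NI.HH NI.FN) K'), L.NestStmt)
    (hval : ∀ {K' : Type} [NormedAddCommGroup K'] [InnerProductSpace ℂ K']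
      (L : LSys (NI.HH NI.FN) K') (J : K' → NI.HH NI.FN) (S : NI.Weyl NI.FN NI.L2N),
      L.IsBase S J → L.ValueStmt J Gap.Pstar) :
    Tendsto Gap.Qsup atTop (𝓝 Gap.Pstar) :=
  main_of hbase (fun L => L.tower (L.t2_of_fin (L.fa _ (hcore L) (L.sweep_all _))) L.nestCtl
    (hnest L)) hval

end Vale.Agent.P367.A
end

section

/-! P367, block B, level step: the gates for the new predicate. -/

namespace Vale.Agent.P367.A

open Complex Filter Topology MeasureTheory

namespace LSys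

variable {H K : Type*} [NormedAddCommGroup H] [InnerProductSpace ℂ H]
  [NormedAddCommGroup K] [InnerProductSpace ℂ K] (L : LSys H K) [CompleteSpace H]

section gates

variable {G : Set ℝ} {𝔄 𝔅 : Set (H →L[ℂ] H)} {psi : H →L[ℂ] H}
  {Rch : Set ℝ → Set ℝ → (H ≃ₗᵢ[ℂ] H) → Prop}

lemma nst_isRot_ep {a : H →L[ℂ] H} {P : Fin 3} {U : H ≃ₗᵢ[ℂ] H} (h : L.IsRot a P U) (x : H) :
    U x = nst_ep 1 (a * nst_cl (L.pau P)) x := by
  rw [h x]
  unfold nst_ep
  simp

/-- a rotation by a control commutes with the controls -/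
lemma nst_rot_CmA (hB : L.Ctl 𝔅) {a : H →L[ℂ] H} (ha : a ∈ 𝔅) {P : Fin 3} {U : H ≃ₗᵢ[ℂ] H}
    (h : L.IsRot a P U) : NstCm 𝔅 U := by
  intro b hb x
  rw [L.nst_isRot_ep h, L.nst_isRot_ep h]
  have h1 : Commute (a * nst_cl (L.pau P)) b := by
    ext y
    change a (L.pau P (b y)) = b (a (L.pau P y))
    rw [← hB.nst_pauC hb, hB.nst_comm_apply ha hb]
  exact (DFunLike.congr_fun (nst_ep_comm h1 1) x).symm

/-- a rotation by a control commutes with dressings -/
lemma nst_rot_dress {a : H →L[ℂ] H} (ha : a ∈ 𝔅) {P : Fin 3} {U : H ≃ₗᵢ[ℂ] H}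
    (h : L.IsRot a P U) {κ : K → ℝ} {D : H ≃ₗᵢ[ℂ] H} (hD : L.NstDress 𝔅 psi κ D) :
    U * D = D * U := by
  ext x
  rw [Sys.mulA, Sys.mulA, L.nst_isRot_ep h, L.nst_isRot_ep h]
  refine nst_ep_V (fun y => ?_) 1 x
  change a (L.pau P (D y)) = D (a (L.pau P y))
  rw [← hD.pau, hD.cm a ha]

lemma nst_rp_rotl (hB : L.Ctl 𝔅) (hR : L.Closed G 𝔄 Rch) {M R : Set ℝ} {V : H ≃ₗᵢ[ℂ] H}
    (h : L.NstRp G 𝔅 psi Rch M R V) {f : ℝ → ℂ} {P : Fin 3} {U : H ≃ₗᵢ[ℂ] H} (hf : Bm f)
    (hr : ∀ t, (f t).im = 0) (hs : ∀ t, t ∉ M → f t = 0) (hU : L.IsRot (L.lab f) P U) :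
    L.NstRp G 𝔅 psi Rch M R (U * V) := by
  refine h.mulL L hB (L.nst_rot_CmA hB (hB.lab f hf) hU) ?_
  rintro R0 R' - h2 h3 - V1 ⟨hV1, κ, D, hD, hc⟩
  refine ⟨(L.nst_rot_CmA hB (hB.lab f hf) hU).mul hV1, κ, D, hD, ?_⟩
  have h4 := hR.mono _ _ _ _ (hR.rotl _ _ _ f P U hc hf hr hs hU) h2 h3
  rwa [← mul_assoc, L.nst_rot_dress (hB.lab f hf) hU hD, mul_assoc] at h4

lemma nst_rp_rotA (hB : L.Ctl 𝔅) (hAB : 𝔄 ⊆ 𝔅) (hR : L.Closed G 𝔄 Rch) {M R : Set ℝ}
    {V : H ≃ₗᵢ[ℂ] H} (h : L.NstRp G 𝔅 psi Rch M R V) {a : H →L[ℂ] H} {P : Fin 3} {U : H ≃ₗᵢ[ℂ] H}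
    (ha : a ∈ 𝔄) (hs : Sa a) (hG : a * L.E G = a) (hU : L.IsRot a P U) :
    L.NstRp G 𝔅 psi Rch M R (U * V) := by
  refine h.mulL L hB (L.nst_rot_CmA hB (hAB ha) hU) ?_
  rintro R0 R' - h2 h3 - V1 ⟨hV1, κ, D, hD, hc⟩
  refine ⟨(L.nst_rot_CmA hB (hAB ha) hU).mul hV1, κ, D, hD, ?_⟩
  have h4 := hR.mono _ _ _ _ (hR.rot _ _ _ a P U hc ha hs hG hU) h2 h3
  rwa [← mul_assoc, L.nst_rot_dress (hAB ha) hU hD, mul_assoc] at h4

lemma nst_rp_ph (hB : L.Ctl 𝔅) (hp : psi ∈ 𝔅) (hR : L.Closed G 𝔄 Rch) {M R : Set ℝ}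
    {V : H ≃ₗᵢ[ℂ] H} (h : L.NstRp G 𝔅 psi Rch M R V) {a : H →L[ℂ] H} {U : H ≃ₗᵢ[ℂ] H}
    (ha : a ∈ 𝔅) (hs : Sa a) (hU : IsPh a U) : L.NstRp G 𝔅 psi Rch M R (U * V) := by
  have hU1 : U = nst_epU 1 hs := by
    ext x
    rw [nst_isPh_iff.1 hU x, nst_epU_apply]
  have hc1 : NstCm 𝔅 U := by rw [hU1]; exact (NstDress.phase hB ha hs 1 psi).cm
  refine h.mulL L hB hc1 ?_
  rintro R0 R' - h2 h3 - V1 ⟨hV1, κ, D, hD, hc⟩
  refine ⟨hc1.mul hV1, _, D * nst_epU (-1) hs, hD.mul_k (NstDress.phase hB ha hs (-1) psi) hp, ?_⟩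
  have h4 : D * nst_epU (-1) hs * (U * V1) = D * V1 := by
    rw [hU1]
    ext x
    simp only [Sys.mulA, nst_epU_apply]
    have h5 : nst_ep (-1) a (nst_ep 1 a (V1 x)) = V1 x := DFunLike.congr_fun (nst_ep_neg_mul 1 a) (V1 x)
    rw [h5]
  rw [h4]
  exact hR.mono _ _ _ _ hc h2 h3

omit [CompleteSpace H] in
/-- fields of a state commuting with `𝔅` -/
lemma nst_fv_W (hB : L.Ctl 𝔅) {V : H ≃ₗᵢ[ℂ] H} (hV : NstCm 𝔅 V) (P : Fin 3) {b : Set ℝ}
    (hb : MeasurableSet b) (c : ℝ) (a : H →L[ℂ] H) (ha : a ∈ 𝔅) (x : H) :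
    a (L.W ((c : ℂ) • L.fv (L.pau P) b V) x) = L.W ((c : ℂ) • L.fv (L.pau P) b V) (a x) :=
  hB.nst_W_smul ha (L.nst_obs_sa hb (hV _ (hB.nst_E_mem hb))) (L.nst_obs_comm hB hb hV) c x

omit [CompleteSpace H] in
lemma nst_fv_W' (hB : L.Ctl 𝔅) {V : H ≃ₗᵢ[ℂ] H} (hV : NstCm 𝔅 V) (P : Fin 3) {b : Set ℝ}
    (hb : MeasurableSet b) (c : ℝ) (a : H →L[ℂ] H) (ha : a ∈ 𝔅) (x : H) :
    a (L.W (-((c : ℂ) • L.fv (L.pau P) b V)) x)
      = L.W (-((c : ℂ) • L.fv (L.pau P) b V)) (a x) := by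
  have := L.nst_fv_W hB hV P hb (-c) a ha x
  rwa [ofReal_neg, neg_smul] at this

omit [CompleteSpace H] in
lemma nst_coupU_CmA (hB : L.Ctl 𝔅) {V : H ≃ₗᵢ[ℂ] H} (hV : NstCm 𝔅 V) {A B : Set ℝ}
    (hA : MeasurableSet A) (hBm : MeasurableSet B) (hAB : Disjoint A B) (P Q : Fin 3) (c : ℝ) :
    NstCm 𝔅 (L.nst_coupU hA hBm P Q c V) := by
  intro a ha x
  have k : ∀ (P Q : Fin 3) {b : Set ℝ} (hb : MeasurableSet b) (y : H),
      a (L.pw (L.pau P) ((c : ℂ) • L.fv (L.pau Q) b V) y)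
        = L.pw (L.pau P) ((c : ℂ) • L.fv (L.pau Q) b V) (a y) := fun P Q b hb y =>
    L.nst_comm_pw (map_add _) (map_sub _) (fun c x => map_smul _ c x) (hB.nst_pauC ha P)
      (L.nst_fv_W hB hV Q hb c a ha) (L.nst_fv_W' hB hV Q hb c a ha) y
  rw [L.nst_coupU_isCoup hA hBm hAB P Q c V x, L.nst_coupU_isCoup hA hBm hAB P Q c V (a x), map_add,
    map_add, map_sub, map_sub, k P Q hBm, k Q P hA, hB.nst_comm_apply ha (hB.nst_E_mem hA),
    hB.nst_comm_apply ha (hB.nst_E_mem hBm)]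

lemma nst_isRot_epU {A : Set ℝ} (P : Fin 3) (t : ℝ) (hs : Sa (psi * L.E A * nst_cl (L.pau P))) :
    L.IsRot ((t : ℂ) • (psi * L.E A)) P (nst_epU t hs) := by
  intro x
  rw [nst_epU_apply]
  unfold nst_ep
  rw [smul_mul_assoc, smul_smul, neg_mul]

lemma nst_rp_coup (hA : L.Ctl 𝔄) (hB : L.Ctl 𝔅) (hAB : 𝔄 ⊆ 𝔅) (hR : L.Closed G 𝔄 Rch)
    (hG : MeasurableSet G) (hp : psi ∈ 𝔄) (hps : Sa psi) (hpG : psi * L.E G = psi)
    {M R : Set ℝ} {V : H ≃ₗᵢ[ℂ] H} (h : L.NstRp G 𝔅 psi Rch M R V) {A B : Set ℝ} {P Q : Fin 3}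
    {c : ℝ} {U : H ≃ₗᵢ[ℂ] H} (hAm : MeasurableSet A) (hBm : MeasurableSet B) (hAM : A ⊆ M)
    (hBM : B ⊆ M) (hd : Disjoint A B) (hU : L.IsCoup A B P Q c V U) :
    L.NstRp G 𝔅 psi Rch M R (U * V) := by
  have hU1 : U = L.nst_coupU hAm hBm P Q c V :=
    L.nst_isCoup_unique hU (L.nst_coupU_isCoup hAm hBm hd P Q c V)
  rw [hU1]
  have hM : MeasurableSet M := h.1.1
  refine h.op L (Φ := fun V => L.nst_coupU hAm hBm P Q c V * V)
    ((L.nst_coupU_CmA hB h.2.1 hAm hBm hd P Q c).mul h.2.1) ?_ ?_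
  · rintro R0 R' - h2 h3 - V1 ⟨hV1, κ, D, hD, hc⟩
    refine ⟨(L.nst_coupU_CmA hB hV1 hAm hBm hd P Q c).mul hV1, κ, D, hD, ?_⟩
    refine hR.mono _ _ _ _ ?_ h2 h3
    -- coupling at the base level
    have hic : L.IsCoup A B P Q c (D * V1) (L.nst_coupU hAm hBm P Q c V1) := by
      unfold IsCoup
      rw [L.nst_fv_mul (fun x => hD.pau Q x), L.nst_fv_mul (fun x => hD.pau P x)]
      exact L.nst_coupU_isCoup hAm hBm hd P Q c V1
    have c1 := hR.coup _ _ _ A B P Q c _ hc hAm hBm hAM hBM hd hic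
    -- compensating rotations
    have hsa : ∀ (S : Set ℝ) (_ : MeasurableSet S) (P : Fin 3),
        Sa (psi * L.E S * nst_cl (L.pau P)) := by
      intro S hS P
      have s1 : Sa (psi * L.E S) := hps.nst_mul (L.nst_E_sa hS) (hA.comm _ _ hp (hA.nst_E_mem hS))
      refine s1.nst_mul (L.nst_inner_pau P) ?_
      ext y
      change psi (L.E S (L.pau P y)) = L.pau P (psi (L.E S y))
      rw [L.nst_E_pau, hA.nst_pauC hp]
    have hmem : ∀ (S : Set ℝ) (_ : MeasurableSet S) (t : ℝ),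
        (t : ℂ) • (psi * L.E S) ∈ 𝔄 ∧ Sa ((t : ℂ) • (psi * L.E S)) ∧
          (t : ℂ) • (psi * L.E S) * L.E G = (t : ℂ) • (psi * L.E S) := by
      intro S hS t
      refine ⟨hA.nst_smul_mem _ (hA.mul _ _ hp (hA.nst_E_mem hS)),
        (hps.nst_mul (L.nst_E_sa hS) (hA.comm _ _ hp (hA.nst_E_mem hS))).nst_smul t, ?_⟩
      rw [smul_mul_assoc, mul_assoc, hA.comm _ _ (hA.nst_E_mem hS) (hA.nst_E_mem hG), ← mul_assoc, hpG]
    set v := (c : ℂ) • L.fv (L.pau Q) B V1 with hv
    set w := (c : ℂ) • L.fv (L.pau P) A V1 with hw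
    have c2 := hR.rot _ _ _ _ Q _ c1 (hmem B hBm (κ w)).1 (hmem B hBm (κ w)).2.1
      (hmem B hBm (κ w)).2.2 (L.nst_isRot_epU Q (κ w) (hsa B hBm Q))
    have c3 := hR.rot _ _ _ _ P _ c2 (hmem A hAm (κ v)).1 (hmem A hAm (κ v)).2.1
      (hmem A hAm (κ v)).2.2 (L.nst_isRot_epU P (κ v) (hsa A hAm P))
    convert c3 using 1
    ext x
    simp only [Sys.mulA, nst_epU_apply]
    exact (L.nst_coup_dress hB (hAB hp) hD hAm hBm hd P Q (L.nst_fv_W hB hV1 Q hBm c)
      (L.nst_fv_W' hB hV1 Q hBm c) (L.nst_fv_W hB hV1 P hAm c) (L.nst_fv_W' hB hV1 P hAm c)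
      (L.nst_coupU_isCoup hAm hBm hd P Q c V1) (V1 x)).symm
  · intro V' hV' hx x
    have hEV' : ∀ i y, L.E M (V' i y) = V' i (L.E M y) := fun i y => hV' i _ (hB.nst_E_mem hM) y
    have key : ∀ W : H ≃ₗᵢ[ℂ] H, L.E M ((L.nst_coupU hAm hBm P Q c W * W) x)
        = L.pw (L.pau P) ((c : ℂ) • L.fv (L.pau Q) B W) (L.E A (W x))
          + L.pw (L.pau Q) ((c : ℂ) • L.fv (L.pau P) A W) (L.E B (W x))
          + (L.E M (W x) - L.E A (W x) - L.E B (W x)) := by
      intro W
      rw [Sys.mulA, L.nst_coupU_isCoup hAm hBm hd P Q c W]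
      simp only [map_add, map_sub, L.nst_E_pw, L.nst_E_sub' hAm hM hAM, L.nst_E_sub' hBm hM hBM]
    have hfv : ∀ (P : Fin 3) {b : Set ℝ} (_ : MeasurableSet b) (_ : b ⊆ M),
        Tendsto (fun i => (c : ℂ) • L.fv (L.pau P) b (V' i)) atTop
          (𝓝 ((c : ℂ) • L.fv (L.pau P) b V)) := by
      intro P b hb hbM
      refine Tendsto.const_smul ?_ _
      have h1 := L.nst_conv_obs hEV' hx (L.pau P) (L.nst_E_pau M P) L.Om
      have h2 := (L.iota.continuous.tendsto _).comp (((L.E b).continuous.tendsto _).comp h1)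
      rw [L.nst_E_sub hb hM hbM] at h2
      refine h2.congr fun i => ?_
      change L.iota (L.E b (L.E M _)) = _
      rw [L.nst_E_sub hb hM hbM]
      rfl
    have e0 := key V
    change Tendsto (fun i => L.E M ((L.nst_coupU hAm hBm P Q c (V' i) * V' i) x)) atTop
      (𝓝 (L.E M ((L.nst_coupU hAm hBm P Q c V * V) x)))
    rw [e0]
    simp only [key]
    have hxA := L.nst_conv_sub hM hx hAm hAM x
    have hxB := L.nst_conv_sub hM hx hBm hBM x
    exact ((L.nst_tendsto_pw P (hfv Q hBm hBM) hxA).add (L.nst_tendsto_pw Q (hfv P hAm hAM) hxB)).add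
      (((hx x).sub hxA).sub hxB)

lemma nst_rp_zrG (hA : L.Ctl 𝔄) (hB : L.Ctl 𝔅) (hAB : 𝔄 ⊆ 𝔅) (hR : L.Closed G 𝔄 Rch)
    (hT : L.HasT2 G 𝔄 Rch) (hG : MeasurableSet G) {n : ℕ} {sg : Fin n → (H →L[ℂ] H)}
    {c : Fin n → ℝ} (hsg : ∀ i, L.Sgn G 𝔄 (sg i)) (hpsi : psi = ∑ i, (c i : ℂ) • sg i)
    (hmem : ∀ t : ℝ, nst_cl (L.W ((t : ℂ) • L.iota (psi L.Om))) ∈ 𝔅)
    {M R : Set ℝ} {V : H ≃ₗᵢ[ℂ] H} (h : L.NstRp G 𝔅 psi Rch M R V) (s : ℝ) :
    L.NstRp G 𝔅 psi Rch M R (L.nst_NG hG ((s : ℂ) • L.iota (psi L.Om)) * V) := by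
  have hpA : psi ∈ 𝔄 := by
    rw [hpsi]; exact hA.nst_sum_mem _ _ fun j _ => hA.nst_smul_mem _ (hsg j).1
  have hps : Sa psi := by rw [hpsi]; exact nst_sum_sa c (fun j => (hsg j).2.1) _
  set y := L.iota (psi L.Om) with hy
  have hW : ∀ a ∈ 𝔅, ∀ (t : ℝ) x, a (L.W ((t : ℂ) • y) x) = L.W ((t : ℂ) • y) (a x) :=
    fun a ha t x => hB.nst_comm_apply ha (hmem t) x
  have hneg : ∀ t : ℝ, -((t : ℂ) • y) = (((-t : ℝ) : ℂ)) • y := by
    intro t; push_cast; rw [neg_smul]
  have hN : NstCm 𝔅 (L.nst_NG hG ((s : ℂ) • y)) := by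
    intro a ha x
    rw [nst_NG_apply, nst_NG_apply, map_add, map_sub, hB.nst_comm_apply ha (hB.nst_E_mem hG)]
    congr 1
    rw [← hB.nst_comm_apply ha (hB.nst_E_mem hG) x]
    exact L.nst_comm_pw (P := 2) (map_add _) (map_sub _) (fun c x => map_smul _ c x) (hB.Z a ha)
      (hW a ha s) (by rw [hneg]; exact hW a ha (-s)) _
  have hND : ∀ {κ : K → ℝ} {D : H ≃ₗᵢ[ℂ] H} {p : H →L[ℂ] H}, L.NstDress 𝔅 p κ D →
      L.nst_NG hG ((s : ℂ) • y) * D = D * L.nst_NG hG ((s : ℂ) • y) := by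
    intro κ D p hD
    have hDW : ∀ (t : ℝ) x, D (L.W ((t : ℂ) • y) x) = L.W ((t : ℂ) • y) (D x) :=
      fun t x => (hD.cm _ (hmem t) x).symm
    refine (L.nst_NG_comm hG (fun x => (hD.cm _ (hB.nst_E_mem hG) x).symm) hD.Z (hDW s) ?_).symm
    rw [hneg]; exact hDW (-s)
  refine h.mulL L hB hN ?_
  rintro R0 R' h1 h2 h3 h4 V1 ⟨hV1, κ, D, hD, hc⟩
  obtain ⟨D2, hD2, hrec⟩ := L.nst_t2_all hG hA hB hAB hR hT (c := c) hsg s hV1 hD.Z hc Finset.univ
  rw [← hpsi] at hD2 hrec
  refine ⟨hN.mul hV1, _, D2 * D, hD2.mul_k hD (hAB hpA), ?_⟩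
  have h5 := hrec R' h2 h3 h4
  have e : L.nst_NG hG ((s : ℂ) • y) * (D2 * (D * V1)) = D2 * D * (L.nst_NG hG ((s : ℂ) • y) * V1) := by
    calc L.nst_NG hG ((s : ℂ) • y) * (D2 * (D * V1))
        = (L.nst_NG hG ((s : ℂ) • y) * D2) * D * V1 := by simp only [mul_assoc]
      _ = D2 * (L.nst_NG hG ((s : ℂ) • y) * D) * V1 := by rw [hND hD2]; simp only [mul_assoc]
      _ = _ := by rw [hND hD]; simp only [mul_assoc]
  rwa [← e]

lemma nst_rp_start (hR : L.Closed G 𝔄 Rch) {M R : Set ℝ} {V : H ≃ₗᵢ[ℂ] H} (h : Rch M R V)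
    (hV : NstCm 𝔅 V) : L.NstRp G 𝔅 psi Rch M R V := by
  refine ⟨hR.meas _ _ _ h, hV, fun R' h1 h2 _ F ε hε => ⟨V, ⟨hV, _, 1, NstDress.one 𝔅 psi, ?_⟩,
    fun x _ => ?_⟩⟩
  · rw [one_mul]
    exact hR.mono _ _ _ _ h h1 h2
  · rw [sub_self, norm_zero]; exact hε

lemma nst_rp_exit (hB : L.Ctl 𝔅) {M R R' : Set ℝ} {V : H ≃ₗᵢ[ℂ] H}
    (h : L.NstRp G 𝔅 psi Rch M R V) (h1 : MeasurableSet R') (h2 : R' ⊆ R)
    (h3 : L.mu (R \ R') ≠ 0) {ε : ℝ} (hε : 0 < ε) :
    ∃ U, Rch M R' U ∧ ‖L.E M (L.xv U) - L.E M (L.xv V)‖ < ε := by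
  classical
  have hM := h.1.1
  obtain ⟨V', hV', hx⟩ := L.nst_near_net (h.2.2 R' h1 h2 h3)
  have hEV' : ∀ i y, L.E M (V' i y) = V' i (L.E M y) :=
    fun i y => (hV' i).1 _ (hB.nst_E_mem hM) y
  have h4 := L.nst_conv_obs hEV' hx L.Z (L.nst_E_Z M) L.Om
  have h5 := (tendsto_iff_norm_sub_tendsto_zero.1 h4).eventually (gt_mem_nhds hε)
  obtain ⟨i, hi⟩ := h5.exists
  obtain ⟨_, κ, D, hD, hr⟩ := hV' i
  refine ⟨D * V' i, hr, ?_⟩
  have e : L.xv (D * V' i) = (V' i)⁻¹ (L.Z (V' i L.Om)) := by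
    rw [Sys.xv, Sys.mulA, ← hD.Z, mul_inv_rev, Sys.mulA, Sys.invA]
  rw [e]
  exact hi

end gates

end LSys

end Vale.Agent.P367.A
end

section

/-! P367, block B: the level step. -/

namespace Vale.Agent.P367.A

open Complex Filter Topology MeasureTheory

namespace LSys

variable {H K : Type} [NormedAddCommGroup H] [InnerProductSpace ℂ H]
  [NormedAddCommGroup K] [InnerProductSpace ℂ K] (L : LSys H K)

theorem nest [CompleteSpace H] : L.NestStmt := by
  intro G 𝔄 Rch hG hA hR hT n sg c hsg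
  set psi : H →L[ℂ] H := ∑ i, (c i : ℂ) • sg i with hpsi
  have hpA : psi ∈ 𝔄 := hA.nst_sum_mem _ _ fun j _ => hA.nst_smul_mem _ (hsg j).1
  have hps : Sa psi := nst_sum_sa c (fun j => (hsg j).2.1) _
  have hpG : psi * L.E G = psi := by
    rw [hpsi, Finset.sum_mul]
    refine Finset.sum_congr rfl fun j _ => ?_
    ext x
    change (c j : ℂ) • sg j (L.E G x) = (c j : ℂ) • sg j x
    rw [L.nst_sg_E hG (hsg j).2.1 (hsg j).2.2]
  set 𝔅 := L.nxt 𝔄 (L.iota (psi L.Om)) with hBdef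
  have hB : L.Ctl 𝔅 := nestCtl L 𝔄 psi hA hpA hps
  have hAB : 𝔄 ⊆ 𝔅 := fun a ha => Gen.base a ha
  have hpB : psi ∈ 𝔅 := hAB hpA
  have hmem : ∀ t : ℝ, nst_cl (L.W ((t : ℂ) • L.iota (psi L.Om))) ∈ 𝔅 := fun t => Gen.W t
  refine ⟨L.NstRp G 𝔅 psi Rch, ?_, fun M R V h hV => L.nst_rp_start hR h hV,
    fun M R R' V h h1 h2 h3 ε hε => L.nst_rp_exit hB h h1 h2 h3 hε⟩
  have hlim : ∀ M R (V : ℕ → (H ≃ₗᵢ[ℂ] H)) (V0 : H ≃ₗᵢ[ℂ] H),
      (∀ n, L.NstRp G 𝔅 psi Rch M R (V n)) → (∀ a ∈ 𝔅, ∀ x, a (V0 x) = V0 (a x)) →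
      (∀ x, Tendsto (fun n => L.E M (V n x)) atTop (𝓝 (L.E M (V0 x)))) →
      L.NstRp G 𝔅 psi Rch M R V0 := fun M R V V0 h h0 hx => L.nst_rp_lim h h0 hx
  refine ⟨fun M R V h => h.1, fun M R V h => h.2.1, hlim,
    fun M R R' V h h1 h2 => L.nst_rp_mono h h1 h2,
    fun M M' R V h h1 h2 h3 => L.nst_rp_shrink hR h h1 h2 h3,
    fun M R R0 V V' h h1 h2 h3 h4 h5 => L.nst_rp_act hB hAB hR hG hpB hpG h h1 h2 h3 h4 h5,
    fun M R V f P U h hf hr hs hU => L.nst_rp_rotl hB hR h hf hr hs hU, ?_,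
    fun M R V a U h ha hs hU => L.nst_rp_ph hB hpB hR h ha hs hU,
    fun M R V A B P Q c U h h1 h2 h3 h4 h5 h6 =>
      L.nst_rp_coup hA hB hAB hR hG hpA hps hpG h h1 h2 h3 h4 h5 h6⟩
  -- rotations by the new controls
  intro M R V a P U h ha hs haG hU
  set UU : Set (H ≃ₗᵢ[ℂ] H) := {U | NstCm 𝔅 U ∧ ∀ M R V, L.NstRp G 𝔅 psi Rch M R V →
    L.NstRp G 𝔅 psi Rch M R (U * V)} with hUU
  have hcl : L.UCl G 𝔄 (L.iota (psi L.Om)) UU := by
    refine ⟨fun U V hU hV => ⟨hU.1.mul hV.1, fun M R W hW => ?_⟩, fun U U0 hU h0 hx => ?_,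
      fun a P U ha hs hG' hU => ⟨L.nst_rot_CmA hB (hAB ha) hU, fun M R W hW =>
        L.nst_rp_rotA hB hAB hR hW ha hs hG' hU⟩, fun k U hU => ?_⟩
    · rw [mul_assoc]
      exact hU.2 _ _ _ (hV.2 _ _ _ hW)
    · refine ⟨h0, fun M R W hW => hlim M R (fun n => U n * W) (U0 * W)
        (fun n => (hU n).2 _ _ _ hW) ((show NstCm 𝔅 U0 from h0).mul hW.2.1) fun x => ?_⟩
      exact ((L.E M).continuous.tendsto _).comp (hx (W x))
    · have e : U = L.nst_NG hG ((k : ℂ) • L.iota (psi L.Om)) := by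
        ext x
        rw [hU x, nst_NG_apply]
      refine ⟨?_, fun M R W hW => ?_⟩
      · intro b hb x
        rw [hU, hU, map_add, map_sub, hB.nst_comm_apply hb (hB.nst_E_mem hG)]
        congr 1
        rw [← hB.nst_comm_apply hb (hB.nst_E_mem hG) x]
        refine L.nst_comm_pw (P := 2) (map_add _) (map_sub _) (fun c x => map_smul _ c x)
          (hB.Z b hb) (fun x => hB.nst_comm_apply hb (hmem k) x) (fun x => ?_) _
        have h2 := hB.nst_comm_apply hb (hmem (-k)) x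
        simp only [ofReal_neg, neg_smul] at h2
        exact h2
      · rw [e]
        exact L.nst_rp_zrG hA hB hAB hR hT hG hsg hpsi hmem hW k
  exact (nest_rot L hG hA hB hpA hps hcl a ha hs haG P U hU).2 M R V h

end LSys

end Vale.Agent.P367.A
end

section

/-! P367: final assembly modulo BASE, CORE (T2), VALUE. -/

namespace Vale.Agent.P367.A

open Filter Topology

theorem main3_of (hbase : LSys.BaseStmt)
    (hcore : ∀ {K' : Type} [NormedAddCommGroup K'] [InnerProductSpace ℂ K']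
      (L : LSys (NI.HH NI.FN) K'), L.CoreStmt (fun x => L.tendsto_W0 x))
    (hval : ∀ {K' : Type} [NormedAddCommGroup K'] [InnerProductSpace ℂ K']
      (L : LSys (NI.HH NI.FN) K') (J : K' → NI.HH NI.FN) (S : NI.Weyl NI.FN NI.L2N),
      L.IsBase S J → L.ValueStmt J Gap.Pstar) :
    Tendsto Gap.Qsup atTop (𝓝 Gap.Pstar) :=
  main2_of hbase hcore (fun L => L.nest) hval

end Vale.Agent.P367.A
end

section

/-! P367: equivariant `SU(2)`-valued functions of commuting fields are strong limits of words. -/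

namespace Vale.Agent.P367.NI

open Complex Filter Topology MeasureTheory
open Vale.Agent.P367.B (M2 LG lwp sX sZ Er)

variable {F K : Type} [NormedAddCommGroup F] [InnerProductSpace ℂ F]
  [NormedAddCommGroup K] [InnerProductSpace ℂ K] {I : Type} [Fintype I]

/-- operator of a label word -/
noncomputable def wop (S : Weyl F K) (w : I → K) : List (LG (I → ℝ)) → St F
  | [] => LinearIsometryEquiv.refl ℂ (HH F)
  | LG.B b :: l => (wop S w l).trans (NI.xr b)
  | LG.G k :: l => (wop S w l).trans (S.zr (lc w k))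

lemma Er_sX_eq (b : ℝ) : Er sX b = Weyl.mX b := by
  ext i j; fin_cases i <;> fin_cases j <;> simp [Er, sX, Weyl.mX]

lemma Er_sZ_eq (k z : I → ℝ) : Er sZ (∑ i, k i * z i) = Weyl.mZ k z := by
  have e00 : ek (-k) z = Complex.cos ((∑ i, k i * z i : ℝ) : ℂ)
      - Complex.I * Complex.sin ((∑ i, k i * z i : ℝ) : ℂ) := by
    unfold ek
    have h1 : (∑ i, (-k) i * z i : ℝ) = -(∑ i, k i * z i) := by
      rw [← Finset.sum_neg_distrib]
      exact Finset.sum_congr rfl fun i _ => by simp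
    rw [h1, mul_comm, Complex.exp_mul_I, Complex.ofReal_neg, Complex.cos_neg, Complex.sin_neg]
    ring
  have e11 : ek k z = Complex.cos ((∑ i, k i * z i : ℝ) : ℂ)
      + Complex.I * Complex.sin ((∑ i, k i * z i : ℝ) : ℂ) := by
    unfold ek
    rw [mul_comm, Complex.exp_mul_I]
    ring
  ext i j; fin_cases i <;> fin_cases j
  · change _ = ek (-k) z
    rw [e00]
    simp [Er, sZ]
  · simp [Er, sZ, Weyl.mZ]
  · simp [Er, sZ, Weyl.mZ]
  · change _ = ek k z
    rw [e11]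
    simp [Er, sZ]

omit [Fintype I] in
lemma um_sX (b : ℝ) : UM fun _ : I → ℝ => Er sX b where
  meas _ _ := measurable_const
  uni _ := B.Er_star B.star_sX B.sX_sq b

lemma um_sZ (k : I → ℝ) : UM fun z : I → ℝ => Er sZ (∑ i, k i * z i) where
  meas i j := by
    simp only [Er_sZ_eq]
    fin_cases i <;> fin_cases j
    · exact measurable_ek (-k)
    · exact measurable_const
    · exact measurable_const
    · exact measurable_ek k
  uni z := B.Er_star B.star_sZ B.sZ_sq _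

lemma um_lwp (l : List (LG (I → ℝ))) : UM (lwp l) := by
  induction l with
  | nil => exact UM.one
  | cons g l ih =>
    cases g with
    | B b => exact (um_sX b).mul ih
    | G k => exact (um_sZ k).mul ih

variable (S : Weyl F K) [CompleteSpace F] {w : I → K} (hS : S.Cyc) (hw : Orthonormal ℂ w)

lemma fcH_word (l : List (LG (I → ℝ))) (x : HH F) :
    S.fcH hS hw (lwp l) x = wop S w l x := by
  induction l generalizing x with
  | nil => exact S.fcH_one hS hw x
  | cons g l ih =>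
    cases g with
    | B b =>
      have e : lwp (LG.B b :: l) = fun z => Er sX b * lwp l z := rfl
      rw [e, S.fcH_mul hS hw (um_sX b).mb (um_lwp l).mb, ih]
      have e2 : (fun _ : I → ℝ => Er sX b) = fun _ => Weyl.mX b := by
        funext z; exact Er_sX_eq b
      rw [e2, S.fcH_mX hS hw]
      rfl
    | G k =>
      have e : lwp (LG.G k :: l) = fun z => Er sZ (∑ i, k i * z i) * lwp l z := rfl
      rw [e, S.fcH_mul hS hw (um_sZ k).mb (um_lwp l).mb, ih]
      have e2 : (fun z : I → ℝ => Er sZ (∑ i, k i * z i)) = Weyl.mZ k := by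
        funext z; exact Er_sZ_eq k z
      rw [e2, S.fcH_mZ hS hw]
      rfl

/-- words are matrix functions -/
lemma fcM_word (l : List (LG (I → ℝ))) : S.fcM hS hw (um_lwp l) = wop S w l := by
  ext x
  exact fcH_word S hS hw l x

/-- every equivariant `SU(2)`-valued function of commuting fields is a strong limit of words -/
theorem exists_seq_fcM {u : (I → ℝ) → M2} (hU : UM u)
    (hu : ∀ z, u z ∈ Matrix.specialUnitaryGroup (Fin 2) ℂ)
    (he : ∀ z, u (-z) = sX * u z * sX) :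
    ∃ l : ℕ → List (LG (I → ℝ)), Tendsto (fun n => wop S w (l n)) atTop (𝓝 (S.fcM hS hw hU)) := by
  obtain ⟨l, hl⟩ := B.dens_pi (gam I) hU.meas hu he
  refine ⟨l, ?_⟩
  rw [tendsto_sot]
  intro x
  have h1 := S.tendsto_fcM hS hw (fun n => um_lwp (l n)) hU (by
    filter_upwards [hl] with z hz i j
    have hc : Continuous fun A : M2 => A i j := (continuous_apply j).comp (continuous_apply i)
    exact (hc.tendsto _).comp hz) x
  refine h1.congr fun n => ?_
  rw [fcM_word]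

/-- closed sets of states stable under the label gates are stable under all equivariant
`SU(2)`-valued functions of the commuting fields -/
theorem trans_fcM_mem {C : Set (St F)} (hC : IsClosed C) (hB : ∀ V ∈ C, ∀ b, V.trans (NI.xr b) ∈ C)
    (hG : ∀ V ∈ C, ∀ k : I → ℝ, V.trans (S.zr (lc w k)) ∈ C)
    {u : (I → ℝ) → M2} (hU : UM u)
    (hu : ∀ z, u z ∈ Matrix.specialUnitaryGroup (Fin 2) ℂ)
    (he : ∀ z, u (-z) = sX * u z * sX) {V : St F} (hV : V ∈ C) :
    V.trans (S.fcM hS hw hU) ∈ C := by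
  obtain ⟨l, hl⟩ := exists_seq_fcM S hS hw hU hu he
  refine hC.mem_of_tendsto (tendsto_trans tendsto_const_nhds hl) (Eventually.of_forall fun n => ?_)
  have key : ∀ (l : List (LG (I → ℝ))), V.trans (wop S w l) ∈ C := by
    intro l
    induction l with
    | nil => exact hV
    | cons g l ih =>
      cases g with
      | B b => exact hB _ ih b
      | G k => exact hG _ ih k
  exact key (l n)

omit [CompleteSpace F] in
lemma orthonormal_e0 : Orthonormal ℂ (fun _ : Fin 1 => S.e0) := by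
  rw [orthonormal_iff_ite]
  intro i j
  rw [if_pos (Subsingleton.elim i j), inner_self_eq_norm_sq_to_K, S.norm_e0]
  simp

/-- one label: `Cl` is stable under all equivariant functions of `phi(e0)` -/
theorem cl_trans_fcM {u : (Fin 1 → ℝ) → M2} (hU : UM u)
    (hu : ∀ z, u z ∈ Matrix.specialUnitaryGroup (Fin 2) ℂ)
    (he : ∀ z, u (-z) = sX * u z * sX) {V : St F} (hV : V ∈ S.Cl) :
    V.trans (S.fcM hS (orthonormal_e0 S) hU) ∈ S.Cl := by
  refine trans_fcM_mem S hS (orthonormal_e0 S) S.isClosed_Cl (fun V hV b => ?_)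
    (fun V hV k => ?_) hU hu he hV
  · exact S.run_mem_Cl hS [Gate.B b] hV
  · have h1 := S.run_mem_Cl hS [Gate.G (k 0)] hV
    have e : lc (fun _ : Fin 1 => S.e0) k = ((k 0 : ℝ) : ℂ) • S.e0 := by simp [lc]
    rw [e]
    exact h1

end Vale.Agent.P367.NI
end

section

/-! P367: real label exponentials are cyclic. -/

namespace Vale.Agent.P367.NI

open Complex Filter Topology

variable {F K : Type} [NormedAddCommGroup F] [InnerProductSpace ℂ F]
  [NormedAddCommGroup K] [InnerProductSpace ℂ K]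

namespace Weyl

variable (S : Weyl F K)

/-- overlap of coherent vectors in exponential form -/
lemma inner_W_exp (b v : K) : inner ℂ (S.W b S.Om) (S.W v S.Om)
    = Complex.exp (inner ℂ b v - ((‖b‖ ^ 2 / 2 : ℝ) : ℂ) - ((‖v‖ ^ 2 / 2 : ℝ) : ℂ)) := by
  rw [S.inner_W_W]
  congr 1
  have h1 : ‖v - b‖ ^ 2 = ‖v‖ ^ 2 - 2 * (inner ℂ b v).re + ‖b‖ ^ 2 := by
    have h := @norm_sub_sq ℂ K _ _ _ v b
    have h2 : RCLike.re (inner ℂ v b : ℂ) = (inner ℂ b v : ℂ).re := by
      rw [← inner_conj_symm v b, RCLike.re_to_complex, Complex.conj_re]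
    rw [h, h2]
  rw [h1]
  apply Complex.ext
  · simp only [Complex.sub_re, Complex.mul_re, Complex.I_re, Complex.I_im, Complex.ofReal_re,
      Complex.ofReal_im]
    ring
  · simp only [Complex.sub_im, Complex.mul_im, Complex.I_re, Complex.I_im, Complex.ofReal_re,
      Complex.ofReal_im]
    ring

lemma norm_add_e0 {a : K} (ha : inner ℂ S.e0 a = 0) (c : ℂ) :
    ‖a + c • S.e0‖ ^ 2 = ‖a‖ ^ 2 + ‖c‖ ^ 2 := by
  have h := @norm_add_sq ℂ K _ _ _ a (c • S.e0)
  have h2 : (inner ℂ a (c • S.e0) : ℂ) = 0 := by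
    rw [inner_smul_right, ← inner_conj_symm, ha]
    simp
  rw [h, h2, norm_smul, S.norm_e0]
  simp

/-- the analytic function behind the cyclicity argument -/
noncomputable def anF (a : K) (y : F) (c : ℂ) : ℂ :=
  ((Real.exp (‖c‖ ^ 2 / 2) : ℝ) : ℂ) * inner ℂ y (S.W (a + c • S.e0) S.Om)

lemma anF_W {a : K} (ha : inner ℂ S.e0 a = 0) (b : K) (c : ℂ) :
    S.anF a (S.W b S.Om) c = Complex.exp (inner ℂ b a + c * inner ℂ b S.e0
      - ((‖b‖ ^ 2 / 2 : ℝ) : ℂ) - ((‖a‖ ^ 2 / 2 : ℝ) : ℂ)) := by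
  unfold anF
  rw [S.inner_W_exp, S.norm_add_e0 ha, Complex.ofReal_exp, ← Complex.exp_add]
  congr 1
  rw [inner_add_right, inner_smul_right]
  push_cast
  ring

lemma anF_add (a : K) (y z : F) (c : ℂ) : S.anF a (y + z) c = S.anF a y c + S.anF a z c := by
  unfold anF
  rw [inner_add_left]
  ring

lemma anF_smul (a : K) (t : ℂ) (y : F) (c : ℂ) :
    S.anF a (t • y) c = (starRingEnd ℂ) t * S.anF a y c := by
  unfold anF
  rw [inner_smul_left]
  ring

lemma norm_anF_sub (a : K) (y z : F) (c : ℂ) :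
    ‖S.anF a y c - S.anF a z c‖ ≤ Real.exp (‖c‖ ^ 2 / 2) * ‖y - z‖ := by
  unfold anF
  rw [← mul_sub, ← inner_sub_left, norm_mul, Complex.norm_real, Real.norm_eq_abs, Real.abs_exp]
  gcongr
  have h := norm_inner_le_norm (𝕜 := ℂ) (y - z) (S.W (a + c • S.e0) S.Om)
  rwa [LinearIsometryEquiv.norm_map, S.norm_Om, mul_one] at h

lemma differentiable_anF (hS : S.Cyc) {a : K} (ha : inner ℂ S.e0 a = 0) (y : F) :
    Differentiable ℂ (S.anF a y) := by
  have h1 : ∀ z ∈ Submodule.span ℂ (Set.range fun b => S.W b S.Om), Differentiable ℂ (S.anF a z) := by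
    intro z hz
    induction hz using Submodule.span_induction with
    | mem x hx =>
      obtain ⟨b, rfl⟩ := hx
      have e : S.anF a (S.W b S.Om) = fun c => Complex.exp (inner ℂ b a + c * inner ℂ b S.e0
          - ((‖b‖ ^ 2 / 2 : ℝ) : ℂ) - ((‖a‖ ^ 2 / 2 : ℝ) : ℂ)) := by
        funext c; exact S.anF_W ha b c
      simp only
      rw [e]
      fun_prop
    | zero =>
      have e : S.anF a 0 = fun _ => 0 := by funext c; simp [anF]
      rw [e]; fun_prop
    | add x y _ _ hx hy =>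
      have e : S.anF a (x + y) = fun c => S.anF a x c + S.anF a y c := by
        funext c; exact S.anF_add a x y c
      rw [e]; exact hx.add hy
    | smul t x _ hx =>
      have e : S.anF a (t • x) = fun c => (starRingEnd ℂ) t * S.anF a x c := by
        funext c; exact S.anF_smul a t x c
      rw [e]; exact hx.const_mul _
  have hy : y ∈ closure ((Submodule.span ℂ (Set.range fun b => S.W b S.Om) : Submodule ℂ F) :
      Set F) := by
    have h2 : y ∈ (Submodule.span ℂ (Set.range fun b => S.W b S.Om)).topologicalClosure := by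
      have h3 : (Submodule.span ℂ (Set.range fun b => S.W b S.Om)).topologicalClosure = ⊤ := hS
      rw [h3]; trivial
    exact h2
  obtain ⟨z, hz, hlim⟩ := mem_closure_iff_seq_limit.1 hy
  have h4 : TendstoLocallyUniformlyOn (fun n => S.anF a (z n)) (S.anF a y) atTop Set.univ := by
    rw [tendstoLocallyUniformlyOn_univ, Metric.tendstoLocallyUniformly_iff]
    intro ε hε c
    have h5 : ∀ᶠ n in atTop, ‖z n - y‖ < ε / Real.exp ((‖c‖ + 1) ^ 2 / 2) := by
      have := (tendsto_iff_norm_sub_tendsto_zero.1 hlim).eventually (gt_mem_nhds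
        (show (0 : ℝ) < ε / Real.exp ((‖c‖ + 1) ^ 2 / 2) by positivity))
      exact this
    refine ⟨Metric.ball c 1, Metric.ball_mem_nhds c one_pos, ?_⟩
    filter_upwards [h5] with n hn d hd
    rw [dist_comm, dist_eq_norm]
    refine (S.norm_anF_sub a (z n) y d).trans_lt ?_
    have h6 : ‖d‖ ≤ ‖c‖ + 1 := by
      have h7 : ‖d - c‖ < 1 := by rwa [← dist_eq_norm]
      calc ‖d‖ = ‖c + (d - c)‖ := by rw [add_sub_cancel]
        _ ≤ ‖c‖ + ‖d - c‖ := norm_add_le _ _
        _ ≤ ‖c‖ + 1 := by linarith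
    have h8 : Real.exp (‖d‖ ^ 2 / 2) ≤ Real.exp ((‖c‖ + 1) ^ 2 / 2) := by
      apply Real.exp_le_exp.2
      gcongr
    calc Real.exp (‖d‖ ^ 2 / 2) * ‖z n - y‖ ≤ Real.exp ((‖c‖ + 1) ^ 2 / 2) * ‖z n - y‖ := by
          gcongr
      _ < ε := by
          rw [lt_div_iff₀ (Real.exp_pos _)] at hn
          linarith
  have h9 := h4.differentiableOn (Eventually.of_forall fun n => (h1 (z n) (hz n)).differentiableOn)
    isOpen_univ
  exact differentiableOn_univ.1 h9

/-- coherent vectors with real label component are cyclic -/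
theorem real_cyc [CompleteSpace F] (hS : S.Cyc) :
    (Submodule.span ℂ {x : F | ∃ (a : K) (k : ℝ), inner ℂ S.e0 a = 0 ∧
      x = S.W (a + (k : ℂ) • S.e0) S.Om}).topologicalClosure = ⊤ := by
  rw [Submodule.topologicalClosure_eq_top_iff, Submodule.eq_bot_iff]
  intro y hy
  rw [Submodule.mem_orthogonal'] at hy
  have h1 : ∀ v : K, inner ℂ y (S.W v S.Om) = 0 := by
    intro v
    have hv : v = (v - (inner ℂ S.e0 v : ℂ) • S.e0) + (inner ℂ S.e0 v : ℂ) • S.e0 := by
      rw [sub_add_cancel]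
    set a := v - (inner ℂ S.e0 v : ℂ) • S.e0 with ha_def
    have ha : inner ℂ S.e0 a = 0 := by
      rw [ha_def, inner_sub_right, inner_smul_right, inner_self_eq_norm_sq_to_K, S.norm_e0]
      simp
    have hd := S.differentiable_anF hS ha y
    have hz : ∀ k : ℝ, S.anF a y (k : ℂ) = 0 := by
      intro k
      unfold anF
      rw [hy _ (Submodule.subset_span ⟨a, k, ha, rfl⟩), mul_zero]
    have han : AnalyticOnNhd ℂ (S.anF a y) Set.univ := fun z _ => hd.analyticAt z
    have hfr : ∃ᶠ c in 𝓝[≠] (0 : ℂ), S.anF a y c = 0 := by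
      have ht : Tendsto (fun n : ℕ => ((1 / ((n : ℝ) + 1) : ℝ) : ℂ)) atTop (𝓝[≠] (0 : ℂ)) := by
        refine tendsto_nhdsWithin_iff.2 ⟨?_, Eventually.of_forall fun n => ?_⟩
        · have h := (Complex.continuous_ofReal.tendsto (0 : ℝ)).comp
            (tendsto_one_div_add_atTop_nhds_zero_nat (𝕜 := ℝ))
          rw [Complex.ofReal_zero] at h
          exact h
        · have : (1 / ((n : ℝ) + 1) : ℝ) ≠ 0 := by positivity
          exact Complex.ofReal_ne_zero.2 this
      exact ht.frequently (Frequently.of_forall fun n => hz _)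
    have h3 := han.eqOn_zero_of_preconnected_of_frequently_eq_zero isPreconnected_univ
      (Set.mem_univ 0) hfr (Set.mem_univ (inner ℂ S.e0 v))
    have h4 : S.anF a y (inner ℂ S.e0 v) = 0 := h3
    unfold anF at h4
    rw [← hv] at h4
    rcases mul_eq_zero.1 h4 with h5 | h5
    · exfalso
      have : Real.exp (‖(inner ℂ S.e0 v : ℂ)‖ ^ 2 / 2) = 0 := by exact_mod_cast h5
      exact (Real.exp_pos _).ne' this
    · exact h5
  have h2 : ∀ z ∈ Submodule.span ℂ (Set.range fun b => S.W b S.Om), inner ℂ y z = 0 := by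
    intro z hz
    induction hz using Submodule.span_induction with
    | mem x hx => obtain ⟨b, rfl⟩ := hx; exact h1 b
    | zero => exact inner_zero_right _
    | add x z _ _ hx hz => rw [inner_add_right, hx, hz, add_zero]
    | smul c x _ hx => rw [inner_smul_right, hx, mul_zero]
  have h3 : y ∈ (Submodule.span ℂ (Set.range fun b => S.W b S.Om))ᗮ := by
    rw [Submodule.mem_orthogonal']
    exact h2
  have h4 : (Submodule.span ℂ (Set.range fun b => S.W b S.Om))ᗮ = ⊥ :=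
    (Submodule.topologicalClosure_eq_top_iff).1 hS
  rw [h4] at h3
  exact h3

end Weyl

lemma exists_iota2 (E : Type) [NormedAddCommGroup E] [InnerProductSpace ℂ E] [CompleteSpace E]
    [TopologicalSpace.SeparableSpace E] :
    ∃ T : E →ₗᵢ[ℂ] L2N, (∀ x, inner ℂ (unitv 0) (T x) = 0) ∧ ∀ x, inner ℂ (unitv 1) (T x) = 0 := by
  classical
  obtain ⟨w, b, -⟩ := exists_hilbertBasis ℂ E
  have : Countable w := countable_of_basis b
  obtain ⟨f, hf⟩ := exists_injective_nat w
  have ho : Orthonormal ℂ (fun i : w => unitv (f i + 2)) := by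
    rw [orthonormal_iff_ite]
    intro i j
    rw [inner_unitv]
    by_cases h : i = j
    · subst h; simp
    · rw [if_neg h, if_neg]
      intro h'
      exact h (hf (by omega))
  have key : ∀ (j : ℕ), j < 2 → ∀ x, inner ℂ (unitv j)
      ((ho.orthogonalFamily.linearIsometry.comp b.repr.toLinearIsometry) x) = 0 := by
    intro j hj x
    have h1 := ho.orthogonalFamily.hasSum_linearIsometry (b.repr x)
    have h2 := h1.mapL (innerSL ℂ (unitv j))
    have h3 : (fun i : w => (innerSL ℂ (unitv j)) ((LinearIsometry.toSpanSingleton ℂ L2N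
        (ho.1 i)) ((b.repr x : lp (fun _ : w => ℂ) 2) i))) = fun _ => 0 := by
      funext i
      rw [innerSL_apply_apply, LinearIsometry.toSpanSingleton_apply, inner_smul_right, inner_unitv,
        if_neg (by omega), mul_zero]
    change inner ℂ (unitv j) (ho.orthogonalFamily.linearIsometry (b.repr x)) = 0
    have h5 : HasSum (fun _ : w => (0 : ℂ)) 0 := hasSum_zero
    rw [← h3] at h5
    exact h2.unique h5
  exact ⟨ho.orthogonalFamily.linearIsometry.comp b.repr.toLinearIsometry, key 0 (by norm_num),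
    key 1 (by norm_num)⟩

lemma norm_unitv (j : ℕ) : ‖unitv j‖ = 1 := by
  have h := inner_unitv j j
  rw [if_pos rfl, inner_self_eq_norm_sq_to_K] at h
  have h2 : ‖unitv j‖ ^ 2 = 1 := by
    have h3 := congrArg Complex.re h
    simpa [← Complex.ofReal_pow] using h3
  nlinarith [norm_nonneg (unitv j)]

lemma cyc_WF : (Submodule.span ℂ (Set.range fun a => WF a (ef 0))).topologicalClosure
    = (⊤ : Submodule ℂ FN) := by
  rw [eq_top_iff]
  intro x _
  have h3 := UniformSpace.Completion.denseRange_coe (α := EV L2N) x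
  refine closure_mono ?_ h3
  rintro _ ⟨y, rfl⟩
  have h4 : Submodule.span ℂ (Set.range (ef : L2N → FN))
      ≤ Submodule.span ℂ (Set.range fun a => WF a (ef 0)) := by
    rw [Submodule.span_le]
    rintro _ ⟨a, rfl⟩
    have h5 : WF a (ef 0) = (EV.mu a 0 : ℂ) • ef a := by
      have h1 : ∀ (c : L2N) (y : EV L2N), WF c (y : Fk L2N) = ((EV.W0 c y : EV L2N) : Fk L2N) :=
        fun c y => extI_coe _ _
      unfold ef
      rw [h1, EV.W0_e, add_zero, mul_one, ← UniformSpace.Completion.coe_smul]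
      congr 1
      change (Finsupp.single a (EV.mu a 0) : L2N →₀ ℂ) = EV.mu a 0 • (Finsupp.single a 1 : L2N →₀ ℂ)
      rw [Finsupp.smul_single, smul_eq_mul, mul_one]
    have h6 : EV.mu a (0 : L2N) ≠ 0 := Complex.exp_ne_zero _
    have h7 : ef a = (EV.mu a (0 : L2N))⁻¹ • WF a (ef 0) := by
      rw [h5, smul_smul, inv_mul_cancel₀ h6, one_smul]
    rw [h7]
    exact Submodule.smul_mem _ _ (Submodule.subset_span ⟨a, rfl⟩)
  exact h4 (coe_mem_span y)

/-- the cyclic Weyl system with a spare direction -/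
theorem exists_weyl_cyc2 : ∃ (S : Weyl FN L2N) (e1 : L2N), S.Cyc ∧ ‖e1‖ = 1 ∧
    inner ℂ S.e0 e1 = 0 ∧ ∀ x, inner ℂ e1 (S.iota x) = 0 := by
  obtain ⟨T, hT0, hT1⟩ := exists_iota2 (HH FN)
  refine ⟨{
    W := WF
    Om := ef 0
    W_mul := WF_mul
    vac := WF_vac
    iota := T
    e0 := unitv 0
    norm_e0 := norm_unitv 0
    e0_perp := hT0 }, unitv 1, ?_, norm_unitv 1, ?_, hT1⟩
  · exact cyc_WF
  · change inner ℂ (unitv 0) (unitv 1) = 0
    rw [inner_unitv, if_neg (by norm_num)]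

end Vale.Agent.P367.NI
end

section

/-! P367 block B, gauge part 1: label functions, sign operator, gauged Weyl operators on `F`. -/

namespace Vale.Agent.P367.NI

open Complex Filter Topology MeasureTheory ProbabilityTheory

open Vale.Agent.P367.A (Bm)

variable {F K : Type} [NormedAddCommGroup F] [InnerProductSpace ℂ F]
  [NormedAddCommGroup K] [InnerProductSpace ℂ K] [CompleteSpace F] (S : Weyl F K) (hS : S.Cyc)

/-- functions of the label `phi(e0)` -/
noncomputable def lf (g : ℝ → ℂ) : F →L[ℂ] F := S.fc hS (orthonormal_e0 S) (fun z => g (z 0))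

lemma bm_of {g : ℝ → ℂ} (hg : Bm g) : BM (fun z : Fin 1 → ℝ => g (z 0)) :=
  ⟨hg.1.comp (measurable_pi_apply 0), hg.2.choose, fun _ => hg.2.choose_spec _⟩

lemma Bm.mul' {f g : ℝ → ℂ} (hf : Bm f) (hg : Bm g) : Bm fun t => f t * g t := by
  obtain ⟨C, hC⟩ := hf.2
  obtain ⟨D, hD⟩ := hg.2
  refine ⟨hf.1.mul hg.1, C * D, fun z => ?_⟩
  rw [norm_mul]
  exact mul_le_mul (hC z) (hD z) (norm_nonneg _) ((norm_nonneg _).trans (hC z))

lemma lf_add {f g : ℝ → ℂ} (hf : Bm f) (hg : Bm g) (x : F) :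
    lf S hS (fun t => f t + g t) x = lf S hS f x + lf S hS g x :=
  S.fc_add hS (orthonormal_e0 S) (bm_of hf) (bm_of hg) x

lemma lf_mul {f g : ℝ → ℂ} (hf : Bm f) (hg : Bm g) (x : F) :
    lf S hS (fun t => f t * g t) x = lf S hS f (lf S hS g x) :=
  S.fc_mul hS (orthonormal_e0 S) (bm_of hf) (bm_of hg) x

lemma lf_const (c : ℂ) (x : F) : lf S hS (fun _ => c) x = c • x :=
  S.fc_const hS (orthonormal_e0 S) c x

lemma lf_adj {f : ℝ → ℂ} (hf : Bm f) (x y : F) :
    inner ℂ (lf S hS f x) y = inner ℂ x (lf S hS (fun t => (starRingEnd ℂ) (f t)) y) :=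
  S.inner_fc_left hS (orthonormal_e0 S) (bm_of hf) x y

lemma lf_junk {f : ℝ → ℂ} (hf : ¬ BM (fun z : Fin 1 → ℝ => f (z 0))) (x : F) : lf S hS f x = 0 := by
  unfold lf Weyl.fc
  rw [dif_neg hf]
  rfl

lemma lf_comm_lf (f g : ℝ → ℂ) (x : F) : lf S hS f (lf S hS g x) = lf S hS g (lf S hS f x) := by
  by_cases hf : BM (fun z : Fin 1 → ℝ => f (z 0))
  · by_cases hg : BM (fun z : Fin 1 → ℝ => g (z 0))
    · exact S.fc_comm_fc hS (orthonormal_e0 S) hf hg x
    · rw [lf_junk S hS hg, lf_junk S hS hg, map_zero]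
  · rw [lf_junk S hS hf, lf_junk S hS hf, map_zero]

lemma lf_comm_W {v : K} (hv : inner ℂ S.e0 v = 0) (f : ℝ → ℂ) (x : F) :
    lf S hS f (S.W v x) = S.W v (lf S hS f x) := by
  by_cases hf : BM (fun z : Fin 1 → ℝ => f (z 0))
  · have h := S.fc_shift hS (orthonormal_e0 S) v hf x
    have e : (fun z : Fin 1 → ℝ => f ((fun i => z i + 2 * (inner ℂ v S.e0 : ℂ).im) 0))
        = fun z => f (z 0) := by
      funext z
      have : (inner ℂ v S.e0 : ℂ) = 0 := by rw [← inner_conj_symm, hv, map_zero]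
      simp [this]
    rw [e] at h
    have h2 : S.W v (S.W (-v) (S.fc hS (orthonormal_e0 S) (fun z => f (z 0)) (S.W v x)))
        = S.fc hS (orthonormal_e0 S) (fun z => f (z 0)) (S.W v x) := by
      have h3 := S.W_neg_W (-v) (S.fc hS (orthonormal_e0 S) (fun z => f (z 0)) (S.W v x))
      rwa [neg_neg] at h3
    rw [h] at h2
    exact h2.symm
  · rw [lf_junk S hS hf, lf_junk S hS hf, map_zero]

lemma lf_We0 (k : ℝ) (x : F) : lf S hS (fun t => Complex.exp (Complex.I * ((k * t : ℝ) : ℂ))) x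
    = S.W ((k : ℂ) • S.e0) x := by
  have h := S.fc_ek hS (orthonormal_e0 S) (fun _ => k) x
  have e : ek (fun _ : Fin 1 => k) = fun z => Complex.exp (Complex.I * ((k * z 0 : ℝ) : ℂ)) := by
    funext z
    simp [ek]
  have e2 : lc (fun _ : Fin 1 => S.e0) (fun _ => k) = (k : ℂ) • S.e0 := by simp [lc]
  rw [e, e2] at h
  exact h

lemma lf_vac {f : ℝ → ℂ} (hf : Bm f) {a : K} (ha : inner ℂ S.e0 a = 0) :
    inner ℂ S.Om (lf S hS f (S.W a S.Om))
      = (∫ t, f t ∂(gaussianReal 0 1)) * Complex.exp (-((‖a‖ ^ 2 / 2 : ℝ) : ℂ)) := by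
  unfold lf
  rw [S.inner_fc_right hS (orthonormal_e0 S) (bm_of hf)]
  have h1 : ∀ᵐ z ∂(gam (Fin 1)), S.ker hS (orthonormal_e0 S) S.Om (S.W a S.Om) z
      = Complex.exp (-((‖a‖ ^ 2 / 2 : ℝ) : ℂ)) := by
    have h2 := S.UU_W hS (orthonormal_e0 S) a
    have h3 := S.coe_vv (fun _ : Fin 1 => S.e0) a
    rw [← h2] at h3
    filter_upwards [S.UU_Om hS (orthonormal_e0 S), h3] with z e1 e2
    unfold Weyl.ker
    rw [e1, e2]
    have e3 : perp (fun _ : Fin 1 => S.e0) a = a := by simp [perp, ha]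
    have e4 : Weyl.psw (fun _ : Fin 1 => S.e0) a z = 1 := by simp [Weyl.psw, ha]
    rw [e3, e4, one_smul, S.vac]
  have h4 : ∫ z, f (z 0) * S.ker hS (orthonormal_e0 S) S.Om (S.W a S.Om) z ∂(gam (Fin 1))
      = ∫ z : Fin 1 → ℝ, f (z 0) * Complex.exp (-((‖a‖ ^ 2 / 2 : ℝ) : ℂ)) ∂(gam (Fin 1)) := by
    refine integral_congr_ae ?_
    filter_upwards [h1] with z hz
    rw [hz]
  rw [h4, integral_mul_const]
  congr 1
  have h5 := (measurePreserving_eval (fun _ : Fin 1 => gaussianReal 0 1) 0).map_eq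
  rw [← h5, integral_map (measurable_pi_apply 0).aemeasurable hf.1.aestronglyMeasurable]

/-- sign of the label -/
noncomputable def sg (t : ℝ) : ℂ := if 0 ≤ t then 1 else -1

lemma bm_sg : Bm sg := by
  refine ⟨Measurable.ite measurableSet_Ici measurable_const measurable_const, 1, fun t => ?_⟩
  unfold sg
  split_ifs <;> simp

lemma sg_sq (t : ℝ) : sg t * sg t = 1 := by
  unfold sg
  split_ifs <;> simp

lemma conj_sg (t : ℝ) : (starRingEnd ℂ) (sg t) = sg t := by
  unfold sg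
  split_ifs <;> simp

/-- sign operator -/
noncomputable def so : F →L[ℂ] F := lf S hS sg

lemma so_so (x : F) : so S hS (so S hS x) = x := by
  unfold so
  rw [← lf_mul S hS bm_sg bm_sg]
  have e : (fun t => sg t * sg t) = fun _ => (1 : ℂ) := by funext t; exact sg_sq t
  rw [e, lf_const, one_smul]

lemma so_adj (x y : F) : inner ℂ (so S hS x) y = inner ℂ x (so S hS y) := by
  unfold so
  rw [lf_adj S hS bm_sg]
  have e : (fun t => (starRingEnd ℂ) (sg t)) = sg := by funext t; exact conj_sg t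
  rw [e]

lemma so_W {v : K} (hv : inner ℂ S.e0 v = 0) (x : F) :
    so S hS (S.W v x) = S.W v (so S hS x) := lf_comm_W S hS hv _ x

lemma so_lf (g : ℝ → ℂ) (x : F) : so S hS (lf S hS g x) = lf S hS g (so S hS x) :=
  lf_comm_lf S hS _ _ x

/-- gauged Weyl operator -/
noncomputable def wg (v : K) : F →ₗ[ℂ] F where
  toFun x := (1 / 2 : ℂ) • (S.W v x + S.W (-v) x) + (1 / 2 : ℂ) • so S hS (S.W v x - S.W (-v) x)
  map_add' x y := by
    simp only [map_add, map_sub]
    module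
  map_smul' c x := by
    simp only [map_smul, map_sub, RingHom.id_apply]
    module

lemma wg_apply (v : K) (x : F) : wg S hS v x
    = (1 / 2 : ℂ) • (S.W v x + S.W (-v) x) + (1 / 2 : ℂ) • so S hS (S.W v x - S.W (-v) x) := rfl

omit [CompleteSpace F] in
lemma perp_neg {v : K} (hv : inner ℂ S.e0 v = 0) : inner ℂ S.e0 (-v) = 0 := by
  rw [inner_neg_right, hv, neg_zero]

lemma wg_wg {v w : K} (hv : inner ℂ S.e0 v = 0) (x : F) :
    wg S hS v (wg S hS w x)
      = Complex.exp (-(Complex.I * ((inner ℂ v w).im : ℂ))) • wg S hS (v + w) x := by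
  have h1 := fun y => S.W_mul v w y
  have h2 := fun y => S.W_mul v (-w) y
  have h3 := fun y => S.W_mul (-v) w y
  have h4 := fun y => S.W_mul (-v) (-w) y
  have e4 : -v + -w = -(v + w) := by abel
  have e3 : -v + w = -(v + -w) := by abel
  rw [inner_neg_neg, e4] at h4
  rw [inner_neg_left, e3] at h3
  rw [inner_neg_right] at h2
  simp only [wg_apply, map_add, map_sub, map_smul, ← so_W S hS hv, ← so_W S hS (perp_neg S hv),
    h1, h2, h3, h4, so_so, smul_add, smul_sub]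
  module

lemma wg_adj {v : K} (hv : inner ℂ S.e0 v = 0) (x y : F) :
    inner ℂ (wg S hS v x) y = inner ℂ x (wg S hS (-v) y) := by
  simp only [wg_apply, inner_add_left, inner_add_right, inner_sub_left, inner_sub_right,
    inner_smul_left, inner_smul_right, so_adj, S.inner_W_left', neg_neg, map_sub,
    ← so_W S hS hv, ← so_W S hS (perp_neg S hv)]
  have e : (starRingEnd ℂ) (1 / 2 : ℂ) = 1 / 2 := by
    rw [map_div₀, map_one, map_ofNat]
  rw [e]

lemma wg_zero (x : F) : wg S hS 0 x = x := by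
  rw [wg_apply, neg_zero, S.W_zero, sub_self, map_zero]
  module

lemma wg_neg_wg {v : K} (hv : inner ℂ S.e0 v = 0) (x : F) : wg S hS (-v) (wg S hS v x) = x := by
  rw [wg_wg S hS (perp_neg S hv), neg_add_cancel, wg_zero, inner_neg_left]
  have h : (-(inner ℂ v v : ℂ)).im = 0 := by
    rw [Complex.neg_im, neg_eq_zero]
    exact inner_self_im (𝕜 := ℂ) v
  rw [h]
  simp

/-- gauged Weyl operator as a unitary -/
noncomputable def wgU {v : K} (hv : inner ℂ S.e0 v = 0) : F ≃ₗᵢ[ℂ] F :=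
  A.mkU (wg S hS v) (wg S hS (-v)) (wg_neg_wg S hS hv)
    (fun x => by
      have h := wg_neg_wg S hS (perp_neg S hv) x
      rwa [neg_neg] at h)
    (wg_adj S hS hv)

lemma wg_lf {v : K} (hv : inner ℂ S.e0 v = 0) (g : ℝ → ℂ) (x : F) :
    lf S hS g (wg S hS v x) = wg S hS v (lf S hS g x) := by
  have e : ∀ y, lf S hS g (so S hS y) = so S hS (lf S hS g y) := fun y => (so_lf S hS g y).symm
  simp only [wg_apply, map_add, map_smul, map_sub, e, lf_comm_W S hS hv,
    lf_comm_W S hS (perp_neg S hv)]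

lemma wg_vac {g : ℝ → ℂ} (hg : Bm g) {a : K} (ha : inner ℂ S.e0 a = 0) :
    inner ℂ S.Om (lf S hS g (wg S hS a S.Om))
      = (∫ t, g t ∂(gaussianReal 0 1)) * Complex.exp (-((‖a‖ ^ 2 / 2 : ℝ) : ℂ)) := by
  have h1 := lf_vac S hS hg ha
  have h2 := lf_vac S hS hg (perp_neg S ha)
  rw [norm_neg] at h2
  have h3 : ∀ {b : K}, inner ℂ S.e0 b = 0 → lf S hS g (so S hS (S.W b S.Om))
      = lf S hS (fun t => g t * sg t) (S.W b S.Om) := by
    intro b _
    rw [lf_mul S hS hg bm_sg]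
    rfl
  have h4 := lf_vac S hS (Bm.mul' hg bm_sg) ha
  have h5 := lf_vac S hS (Bm.mul' hg bm_sg) (perp_neg S ha)
  rw [norm_neg] at h5
  rw [wg_apply, map_add, map_smul, map_smul, map_add, map_sub, map_sub, h3 ha,
    h3 (perp_neg S ha), inner_add_right, inner_smul_right, inner_smul_right, inner_add_right,
    inner_sub_right, h1, h2, h4, h5]
  ring

end Vale.Agent.P367.NI
end

section

/-! P367 block B, gauge part 2: the label system of a cyclic Weyl system. -/

namespace Vale.Agent.P367.NI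

open Complex Filter Topology MeasureTheory ProbabilityTheory

open Vale.Agent.P367.A (Bm LSys Sys hh_ext swp)

variable {F K : Type} [NormedAddCommGroup F] [InnerProductSpace ℂ F]
  [NormedAddCommGroup K] [InnerProductSpace ℂ K] [CompleteSpace F] (S : Weyl F K) (hS : S.Cyc)

/-- one-particle space of the gauged system -/
abbrev KP (S : Weyl F K) : Type := ↥((Submodule.span ℂ {S.e0})ᗮ : Submodule ℂ K)

omit [CompleteSpace F] in
lemma kp_perp (v : KP S) : inner ℂ S.e0 (v : K) = 0 :=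
  Submodule.mem_orthogonal_singleton_iff_inner_right.1 v.2

/-- the sign operator as a unitary -/
noncomputable def soU : F ≃ₗᵢ[ℂ] F :=
  A.mkU (so S hS).toLinearMap (so S hS).toLinearMap (so_so S hS) (so_so S hS) (so_adj S hS)

@[simp] lemma soU_apply (x : F) : soU S hS x = so S hS x := rfl

/-- gauged `Z` -/
noncomputable def zg : HH F ≃ₗᵢ[ℂ] HH F := dg (soU S hS) ((soU S hS).trans (LinearIsometryEquiv.neg ℂ))

@[simp] lemma zg_fst (x : HH F) : (zg S hS x).fst = so S hS x.fst := rfl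
@[simp] lemma zg_snd (x : HH F) : (zg S hS x).snd = -so S hS x.snd := rfl

/-- gauged Weyl operator on the one-site space -/
noncomputable def wgH (v : KP S) : HH F ≃ₗᵢ[ℂ] HH F :=
  dg (wgU S hS (kp_perp S v)) (wgU S hS (kp_perp S v))

@[simp] lemma wgH_fst (v : KP S) (x : HH F) : (wgH S hS v x).fst = wg S hS v x.fst := rfl
@[simp] lemma wgH_snd (v : KP S) (x : HH F) : (wgH S hS v x).snd = wg S hS v x.snd := rfl

/-- gauged embedding -/
noncomputable def iotag : HH F →ₗᵢ[ℂ] KP S where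
  toFun x := ⟨S.iota (dg (soU S hS) (soU S hS) x),
    Submodule.mem_orthogonal_singleton_iff_inner_right.2 (S.e0_perp _)⟩
  map_add' x y := by
    apply Subtype.ext
    change S.iota (dg (soU S hS) (soU S hS) (x + y)) = S.iota _ + S.iota _
    rw [map_add, map_add]
  map_smul' c x := by
    apply Subtype.ext
    change S.iota (dg (soU S hS) (soU S hS) (c • x)) = c • S.iota _
    rw [map_smul, map_smul]
  norm_map' x := by
    change ‖S.iota (dg (soU S hS) (soU S hS) x)‖ = ‖x‖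
    rw [S.iota.norm_map, LinearIsometryEquiv.norm_map]

lemma iotag_coe (x : HH F) : (iotag S hS x : K) = S.iota (dg (soU S hS) (soU S hS) x) := rfl

/-- block diagonal operator -/
noncomputable def dl (T : F →L[ℂ] F) : HH F →L[ℂ] HH F :=
  LinearMap.mkContinuous
    { toFun := fun x => WithLp.toLp 2 (T x.fst, T x.snd)
      map_add' := fun x y => hh_ext (map_add T x.fst y.fst) (map_add T x.snd y.snd)
      map_smul' := fun c x => hh_ext (map_smul T c x.fst) (map_smul T c x.snd) } ‖T‖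
    (fun x => by
      refine abs_le_of_sq_le_sq' ?_ (by positivity) |>.2
      rw [normsq_HH]
      change ‖T x.fst‖ ^ 2 + ‖T x.snd‖ ^ 2 ≤ _
      have h1 := T.le_opNorm x.fst
      have h2 := T.le_opNorm x.snd
      rw [mul_pow, normsq_HH x, mul_add, ← mul_pow, ← mul_pow]
      gcongr)

omit [CompleteSpace F] in
@[simp] lemma dl_fst (T : F →L[ℂ] F) (x : HH F) : (dl T x).fst = T x.fst := rfl
omit [CompleteSpace F] in
@[simp] lemma dl_snd (T : F →L[ℂ] F) (x : HH F) : (dl T x).snd = T x.snd := rfl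

/-- label functions of the gauged system -/
noncomputable def labg (f : ℝ → ℂ) : HH F →L[ℂ] HH F := dl (lf S hS fun t => f |t|)

@[simp] lemma labg_fst (f : ℝ → ℂ) (x : HH F) : (labg S hS f x).fst = lf S hS (fun t => f |t|) x.fst :=
  rfl
@[simp] lemma labg_snd (f : ℝ → ℂ) (x : HH F) : (labg S hS f x).snd = lf S hS (fun t => f |t|) x.snd :=
  rfl

lemma meas_abs : Measurable fun t : ℝ => |t| := measurable_norm

lemma bm_abs {f : ℝ → ℂ} (hf : Bm f) : Bm fun t => f |t| :=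
  ⟨hf.1.comp meas_abs, hf.2.choose, fun _ => hf.2.choose_spec _⟩

/-- law of the gauged label -/
noncomputable def mug : Measure ℝ := (gaussianReal 0 1).map (fun t => |t|)

instance : IsProbabilityMeasure mug := by
  unfold mug
  exact Measure.isProbabilityMeasure_map meas_abs.aemeasurable

lemma mug_noAtoms (t : ℝ) : mug {t} = 0 := by
  unfold mug
  rw [Measure.map_apply meas_abs (measurableSet_singleton t)]
  have h : (fun t : ℝ => |t|) ⁻¹' {t} ⊆ {t} ∪ {-t} := by
    intro x hx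
    have hx' : |x| = t := hx
    rcases le_total 0 x with h | h
    · left
      rw [abs_of_nonneg h] at hx'
      exact hx'
    · right
      rw [abs_of_nonpos h] at hx'
      change x = -t
      linarith
  have : NullSingletonClass (gaussianReal 0 1) := nullSingletonClass_gaussianReal (by norm_num)
  refine measure_mono_null h ?_
  rw [measure_union_null_iff]
  exact ⟨measure_singleton t, measure_singleton (-t)⟩

lemma integral_mug {f : ℝ → ℂ} (hf : Bm f) : ∫ t, f t ∂mug = ∫ t, f |t| ∂(gaussianReal 0 1) := by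
  unfold mug
  exact integral_map meas_abs.aemeasurable hf.1.aestronglyMeasurable

lemma wgH_vac (f : ℝ → ℂ) (hf : Bm f) (a : KP S) : inner ℂ S.OmH (labg S hS f (wgH S hS a S.OmH))
    = (∫ t, f t ∂mug) * Complex.exp (-((‖a‖ ^ 2 / 2 : ℝ) : ℂ)) := by
  have h1 := wg_vac S hS (bm_abs hf) (kp_perp S a)
  rw [inner_HH]
  change inner ℂ ((((Real.sqrt 2)⁻¹ : ℝ) : ℂ) • S.Om) (lf S hS (fun t => f |t|)
      (wg S hS a ((((Real.sqrt 2)⁻¹ : ℝ) : ℂ) • S.Om)))
    + inner ℂ ((((Real.sqrt 2)⁻¹ : ℝ) : ℂ) • S.Om) (lf S hS (fun t => f |t|)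
      (wg S hS a ((((Real.sqrt 2)⁻¹ : ℝ) : ℂ) • S.Om))) = _
  rw [map_smul, map_smul, inner_smul_left, inner_smul_right, Complex.conj_ofReal, h1, ← mul_assoc,
    A.sqrt_two_inv_sq, integral_mug hf]
  have e : ‖(a : K)‖ = ‖a‖ := rfl
  rw [e]
  ring

/-- projection on the first component -/
noncomputable def p0 (F : Type) [NormedAddCommGroup F] [InnerProductSpace ℂ F] : HH F →L[ℂ] HH F :=
  LinearMap.mkContinuous
    { toFun := fun x => WithLp.toLp 2 (x.fst, 0)
      map_add' := fun x y => hh_ext rfl (by change (0 : F) = 0 + 0; simp)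
      map_smul' := fun c x => hh_ext rfl (by change (0 : F) = c • 0; simp) } 1
    (fun x => by
      refine abs_le_of_sq_le_sq' ?_ (by positivity) |>.2
      rw [normsq_HH]
      change ‖x.fst‖ ^ 2 + ‖(0 : F)‖ ^ 2 ≤ _
      rw [one_mul, normsq_HH x, norm_zero]
      nlinarith [sq_nonneg ‖x.snd‖])

omit [CompleteSpace F] in
@[simp] lemma p0_fst (x : HH F) : (p0 F x).fst = x.fst := rfl
omit [CompleteSpace F] in
@[simp] lemma p0_snd (x : HH F) : (p0 F x).snd = 0 := rfl

/-- embedding of the first component -/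
noncomputable def inl (F : Type) [NormedAddCommGroup F] [InnerProductSpace ℂ F] : F →L[ℂ] HH F :=
  LinearMap.mkContinuous
    { toFun := fun x => WithLp.toLp 2 (x, 0)
      map_add' := fun x y => hh_ext rfl (by change (0 : F) = 0 + 0; simp)
      map_smul' := fun c x => hh_ext rfl (by change (0 : F) = c • 0; simp) } 1
    (fun x => by
      refine abs_le_of_sq_le_sq' ?_ (by positivity) |>.2
      rw [normsq_HH]
      change ‖x‖ ^ 2 + ‖(0 : F)‖ ^ 2 ≤ _
      rw [one_mul, norm_zero]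
      nlinarith)

omit [CompleteSpace F] in
@[simp] lemma inl_fst (x : F) : (inl F x).fst = x := rfl
omit [CompleteSpace F] in
@[simp] lemma inl_snd (x : F) : (inl F x).snd = 0 := rfl

lemma wg_split (a : K) (x : F) : (1 / 2 : ℂ) • (wg S hS a x + so S hS (wg S hS a x))
    + (1 / 2 : ℂ) • (wg S hS (-a) x - so S hS (wg S hS (-a) x)) = S.W a x := by
  simp only [wg_apply, neg_neg, map_add, map_sub, map_smul, so_so]
  module

/-- the density property of the gauged system -/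
lemma gauge_cyc : (Submodule.span ℂ {x : HH F | ∃ (T : HH F →L[ℂ] HH F) (a : KP S),
      (∀ b y, wgH S hS b (T y) = T (wgH S hS b y)) ∧
      (∀ f, Bm f → ∀ y, labg S hS f (T y) = T (labg S hS f y)) ∧
      x = T (wgH S hS a S.OmH)}).topologicalClosure = ⊤ := by
  set D := Submodule.span ℂ {x : HH F | ∃ (T : HH F →L[ℂ] HH F) (a : KP S),
      (∀ b y, wgH S hS b (T y) = T (wgH S hS b y)) ∧
      (∀ f, Bm f → ∀ y, labg S hS f (T y) = T (labg S hS f y)) ∧
      x = T (wgH S hS a S.OmH)} with hD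
  -- members of the spanning set
  have h1 : ∀ (a : KP S) (k : ℝ) (ε : ℂ), inl F ((((1 / 2 : ℂ)) • (lf S hS (fun t => Complex.exp
      (Complex.I * ((k * t : ℝ) : ℂ))) (wg S hS a S.Om + ε • so S hS (wg S hS a S.Om))))) ∈ D := by
    intro a k ε
    let A0 : F →L[ℂ] F := (((Real.sqrt 2 : ℝ) : ℂ) * (1 / 2 : ℂ)) • (lf S hS (fun t => Complex.exp
      (Complex.I * ((k * t : ℝ) : ℂ)))).comp (ContinuousLinearMap.id ℂ F + ε • so S hS)
    have hA : ∀ y, A0 y = (((Real.sqrt 2 : ℝ) : ℂ) * (1 / 2 : ℂ)) • lf S hS (fun t => Complex.exp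
      (Complex.I * ((k * t : ℝ) : ℂ))) (y + ε • so S hS y) := fun y => rfl
    refine Submodule.subset_span ⟨(dl A0).comp (p0 F), a, fun b y => ?_, fun f _ y => ?_, ?_⟩
    · refine hh_ext ?_ ?_
      · change wg S hS b (A0 y.fst) = A0 (wg S hS b y.fst)
        rw [hA, hA, map_smul, ← wg_lf S hS (kp_perp S b), map_add, map_smul]
        congr 3
        congr 1
        exact (wg_lf S hS (kp_perp S b) sg y.fst).symm
      · change wg S hS b (A0 0) = A0 0
        simp
    · refine hh_ext ?_ ?_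
      · change lf S hS (fun t => f |t|) (A0 y.fst) = A0 (lf S hS (fun t => f |t|) y.fst)
        rw [hA, hA, map_smul, lf_comm_lf, map_add, map_smul, so_lf]
      · change lf S hS (fun t => f |t|) (A0 0) = A0 0
        simp
    · refine hh_ext ?_ ?_
      · change _ = A0 (wg S hS a ((((Real.sqrt 2)⁻¹ : ℝ) : ℂ) • S.Om))
        have e3 : wg S hS a ((((Real.sqrt 2)⁻¹ : ℝ) : ℂ) • S.Om)
            = (((Real.sqrt 2)⁻¹ : ℝ) : ℂ) • wg S hS a S.Om := map_smul _ _ _
        have e4 : A0 ((((Real.sqrt 2)⁻¹ : ℝ) : ℂ) • wg S hS a S.Om)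
            = (((Real.sqrt 2)⁻¹ : ℝ) : ℂ) • A0 (wg S hS a S.Om) := map_smul _ _ _
        rw [e3, e4, hA, smul_smul, inl_fst]
        congr 1
        rw [← mul_assoc, ← Complex.ofReal_mul, inv_mul_cancel₀ (by positivity), Complex.ofReal_one,
          one_mul]
      · change (0 : F) = A0 0
        simp
  have h2 : ∀ (a : K) (k : ℝ), inner ℂ S.e0 a = 0 → inl F (S.W (a + (k : ℂ) • S.e0) S.Om) ∈ D := by
    intro a k ha
    let a' : KP S := ⟨a, Submodule.mem_orthogonal_singleton_iff_inner_right.2 ha⟩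
    have e1 := D.add_mem (h1 a' k 1) (h1 (-a') k (-1))
    have e2 : S.W (a + (k : ℂ) • S.e0) S.Om
        = lf S hS (fun t => Complex.exp (Complex.I * ((k * t : ℝ) : ℂ))) (S.W a S.Om) := by
      rw [lf_We0, S.W_mul, inner_smul_left, ha, mul_zero, add_comm a]
      simp
    have e3 : lf S hS (fun t => Complex.exp (Complex.I * ((k * t : ℝ) : ℂ)))
        ((1 / 2 : ℂ) • (wg S hS a S.Om + so S hS (wg S hS a S.Om))
          + (1 / 2 : ℂ) • (wg S hS (-a) S.Om - so S hS (wg S hS (-a) S.Om)))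
      = (1 / 2 : ℂ) • lf S hS (fun t => Complex.exp (Complex.I * ((k * t : ℝ) : ℂ)))
          (wg S hS a S.Om + (1 : ℂ) • so S hS (wg S hS a S.Om))
        + (1 / 2 : ℂ) • lf S hS (fun t => Complex.exp (Complex.I * ((k * t : ℝ) : ℂ)))
          (wg S hS (-a) S.Om + (-1 : ℂ) • so S hS (wg S hS (-a) S.Om)) := by
      rw [map_add, map_smul, map_smul, one_smul, neg_one_smul, ← sub_eq_add_neg]
    rw [e2, ← wg_split S hS a S.Om, e3, map_add]
    exact e1
  have h3 : ∀ y : F, inl F y ∈ D.topologicalClosure := by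
    intro y
    have hy : y ∈ (Submodule.span ℂ {x : F | ∃ (a : K) (k : ℝ), inner ℂ S.e0 a = 0 ∧
      x = S.W (a + (k : ℂ) • S.e0) S.Om}).topologicalClosure := by
      rw [S.real_cyc hS]
      trivial
    have h4 : Submodule.span ℂ {x : F | ∃ (a : K) (k : ℝ), inner ℂ S.e0 a = 0 ∧
        x = S.W (a + (k : ℂ) • S.e0) S.Om} ≤ D.comap (inl F).toLinearMap := by
      rw [Submodule.span_le]
      rintro _ ⟨a, k, ha, rfl⟩
      exact h2 a k ha
    have h5 : (inl F) '' (closure ((Submodule.span ℂ {x : F | ∃ (a : K) (k : ℝ), inner ℂ S.e0 a = 0 ∧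
        x = S.W (a + (k : ℂ) • S.e0) S.Om} : Submodule ℂ F) : Set F)) ⊆ closure (D : Set (HH F)) := by
      refine (image_closure_subset_closure_image (inl F).continuous).trans (closure_mono ?_)
      rintro _ ⟨z, hz, rfl⟩
      exact h4 hz
    exact h5 ⟨y, hy, rfl⟩
  have h6 : ∀ x ∈ D, swp F x ∈ D := by
    intro x hx
    rw [hD] at hx
    induction hx using Submodule.span_induction with
    | mem x hx =>
      obtain ⟨T, a, hT1, hT2, rfl⟩ := hx
      refine Submodule.subset_span ⟨((swp F).toContinuousLinearEquiv.toContinuousLinearMap).comp T,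
        a, fun b y => ?_, fun f hf y => ?_, rfl⟩
      · change wgH S hS b (swp F (T y)) = swp F (T (wgH S hS b y))
        rw [← hT1]
        rfl
      · change labg S hS f (swp F (T y)) = swp F (T (labg S hS f y))
        rw [← hT2 f hf]
        rfl
    | zero => rw [map_zero]; exact D.zero_mem
    | add x y _ _ hx hy => rw [map_add]; exact D.add_mem hx hy
    | smul c x _ hx => rw [map_smul]; exact D.smul_mem c hx
  have h7 : ∀ x ∈ D.topologicalClosure, swp F x ∈ D.topologicalClosure := by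
    intro x hx
    have h8 : (swp F) '' (closure (D : Set (HH F))) ⊆ closure (D : Set (HH F)) := by
      refine (image_closure_subset_closure_image (swp F).continuous).trans (closure_mono ?_)
      rintro _ ⟨z, hz, rfl⟩
      exact h6 z hz
    exact h8 ⟨x, hx, rfl⟩
  rw [eq_top_iff]
  intro x _
  have e : x = inl F x.fst + swp F (inl F x.snd) := hh_ext (by
    change x.fst = x.fst + 0
    rw [add_zero]) (by
    change x.snd = 0 + x.snd
    rw [zero_add])
  rw [e]
  exact D.topologicalClosure.add_mem (h3 _) (h7 _ (h3 _))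

/-- the gauged label system -/
noncomputable def gaugeL (e1 : K) (h1 : ‖e1‖ = 1) (h01 : inner ℂ S.e0 e1 = 0)
    (hi : ∀ x, inner ℂ e1 (S.iota x) = 0) : LSys (HH F) (KP S) where
  X := swp F
  Z := zg S hS
  W := wgH S hS
  Om := S.OmH
  iota := iotag S hS
  e0 := ⟨e1, Submodule.mem_orthogonal_singleton_iff_inner_right.2 h01⟩
  XX _ := rfl
  ZZ x := hh_ext (by simp [so_so]) (by simp [so_so])
  XZ x := hh_ext (by simp) (by simp)
  WW a b x := hh_ext (wg_wg S hS (kp_perp S a) x.fst) (wg_wg S hS (kp_perp S a) x.snd)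
  WX _ _ := rfl
  WZ a x := hh_ext (by
      simp only [wgH_fst, zg_fst]
      exact (wg_lf S hS (kp_perp S a) sg x.fst).symm) (by
      simp only [wgH_snd, zg_snd, map_neg]
      rw [neg_inj]
      exact (wg_lf S hS (kp_perp S a) sg x.snd).symm)
  XOm := rfl
  nOm := A.omH_norm S
  vac a := by
    have h := wgH_vac S hS (fun _ => 1) ⟨measurable_const, 1, fun _ => by simp⟩ a
    have e : labg S hS (fun _ => 1) (wgH S hS a S.OmH) = wgH S hS a S.OmH :=
      hh_ext (by simp only [labg_fst, lf_const, one_smul]) (by simp only [labg_snd, lf_const, one_smul])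
    rw [e] at h
    simpa using h
  ne0 := h1
  e0perp x := hi _
  mu := mug
  prob := inferInstance
  noAtoms := mug_noAtoms
  lab := labg S hS
  lab_const c := ContinuousLinearMap.ext fun x =>
    hh_ext (lf_const S hS c x.fst) (lf_const S hS c x.snd)
  lab_add f g hf hg := ContinuousLinearMap.ext fun x =>
    hh_ext (lf_add S hS (bm_abs hf) (bm_abs hg) x.fst) (lf_add S hS (bm_abs hf) (bm_abs hg) x.snd)
  lab_mul f g hf hg := ContinuousLinearMap.ext fun x =>
    hh_ext (lf_mul S hS (bm_abs hf) (bm_abs hg) x.fst) (lf_mul S hS (bm_abs hf) (bm_abs hg) x.snd)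
  lab_adj f hf x y := by
    rw [inner_HH, inner_HH]
    simp only [labg_fst, labg_snd]
    rw [lf_adj S hS (bm_abs hf), lf_adj S hS (bm_abs hf)]
  lab_X _ _ := rfl
  lab_Z f x := hh_ext (by simp [so_lf]) (by simp [so_lf])
  lab_W f a x := hh_ext (wg_lf S hS (kp_perp S a) _ x.fst) (wg_lf S hS (kp_perp S a) _ x.snd)
  lab_vac := wgH_vac S hS
  cyc := gauge_cyc S hS

end Vale.Agent.P367.NI
end

section

/-! P367 block B, gauge part 3: exact words of the gauged label system are strong limits of words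
of the Weyl system, energy transport. -/

namespace Vale.Agent.P367.A

section algexp

variable {𝔸 : Type*} [NormedRing 𝔸] [NormedAlgebra ℂ 𝔸] [CompleteSpace 𝔸]

/-- `exp(-i a P)` for an involution `P` commuting with `a` -/
lemma gau_exp_inv {a P : 𝔸} (hP : P * P = 1) (hc : a * P = P * a) :
    NormedSpace.exp ((-Complex.I) • (a * P))
      = NormedSpace.exp ((-Complex.I) • a) * ((1 / 2 : ℂ) • (1 + P))
        + NormedSpace.exp (Complex.I • a) * ((1 / 2 : ℂ) • (1 - P)) := by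
  have h1 : ∀ n : ℕ, ((-Complex.I) • (a * P)) ^ n
      = ((-Complex.I) • a) ^ n * ((1 / 2 : ℂ) • (1 + P))
        + (Complex.I • a) ^ n * ((1 / 2 : ℂ) • (1 - P)) := by
    intro n
    induction n with
    | zero =>
      simp only [pow_zero, one_mul]
      module
    | succ n ih =>
      have e1 : ((1 / 2 : ℂ) • (1 + P)) * ((-Complex.I) • (a * P))
          = ((-Complex.I) • a) * ((1 / 2 : ℂ) • (1 + P)) := by
        simp only [smul_mul_smul_comm, add_mul, mul_add, one_mul, mul_one]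
        have : P * (a * P) = a := by rw [hc, ← mul_assoc, hP, one_mul]
        rw [this, mul_comm, add_comm]
      have e2 : ((1 / 2 : ℂ) • (1 - P)) * ((-Complex.I) • (a * P))
          = (Complex.I • a) * ((1 / 2 : ℂ) • (1 - P)) := by
        simp only [smul_mul_smul_comm, sub_mul, mul_sub, one_mul, mul_one]
        have : P * (a * P) = a := by rw [hc, ← mul_assoc, hP, one_mul]
        rw [this]
        module
      rw [pow_succ, ih, add_mul, mul_assoc, mul_assoc, e1, e2, ← mul_assoc, ← mul_assoc,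
        ← pow_succ, ← pow_succ]
  have s1 := NormedSpace.exp_series_hasSum_exp' (𝕂 := ℂ) ((-Complex.I) • (a * P))
  have s2 := (NormedSpace.exp_series_hasSum_exp' (𝕂 := ℂ) ((-Complex.I) • a)).mul_right
    ((1 / 2 : ℂ) • (1 + P))
  have s3 := (NormedSpace.exp_series_hasSum_exp' (𝕂 := ℂ) (Complex.I • a)).mul_right
    ((1 / 2 : ℂ) • (1 - P))
  have e : (fun n : ℕ => ((n.factorial : ℂ)⁻¹) • ((-Complex.I) • (a * P)) ^ n)
      = fun n : ℕ => ((n.factorial : ℂ)⁻¹) • ((-Complex.I) • a) ^ n * ((1 / 2 : ℂ) • (1 + P))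
        + ((n.factorial : ℂ)⁻¹) • (Complex.I • a) ^ n * ((1 / 2 : ℂ) • (1 - P)) := by
    funext n
    rw [h1, smul_add, smul_mul_assoc, smul_mul_assoc]
  rw [e] at s1
  exact s1.unique (s2.add s3)

end algexp

namespace LSys

variable {H K : Type*} [NormedAddCommGroup H] [InnerProductSpace ℂ H]
  [NormedAddCommGroup K] [InnerProductSpace ℂ K] (L : LSys H K)

/-- explicit form of a label rotation -/
lemma gau_isRot [CompleteSpace H] {f : ℝ → ℂ} (hf : Bm f) (P : Fin 3) (x : H) :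
    NormedSpace.exp ((-Complex.I) • (L.lab f * (L.pau P).toContinuousLinearEquiv.toContinuousLinearMap)) x
      = L.lab (fun t => Complex.exp (-Complex.I * f t)) ((1 / 2 : ℂ) • (x + L.pau P x))
        + L.lab (fun t => Complex.exp (Complex.I * f t)) ((1 / 2 : ℂ) • (x - L.pau P x)) := by
  have hP : (L.pau P).toContinuousLinearEquiv.toContinuousLinearMap
      * (L.pau P).toContinuousLinearEquiv.toContinuousLinearMap = (1 : H →L[ℂ] H) := by
    ext y
    change L.pau P (L.pau P y) = y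
    fin_cases P
    · exact L.XX y
    · exact L.Zt_sq _ y
    · exact L.ZZ y
  have hc : L.lab f * (L.pau P).toContinuousLinearEquiv.toContinuousLinearMap
      = (L.pau P).toContinuousLinearEquiv.toContinuousLinearMap * L.lab f := by
    ext y
    exact L.o_lab_pau f P y
  rw [gau_exp_inv hP hc, ← L.lab_smul _ hf, ← L.lab_smul _ hf, L.exp_lab (bm_smul _ hf),
    L.exp_lab (bm_smul _ hf)]
  rfl

/-- explicit form of a label rotation, trigonometric form -/
lemma gau_isRot' [CompleteSpace H] {f : ℝ → ℂ} (hf : Bm f) (P : Fin 3) (x : H) :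
    NormedSpace.exp ((-Complex.I) • (L.lab f * (L.pau P).toContinuousLinearEquiv.toContinuousLinearMap)) x
      = L.lab (fun t => Complex.cos (f t)) x
        + L.lab (fun t => -(Complex.I * Complex.sin (f t))) (L.pau P x) := by
  rw [L.gau_isRot hf]
  have hb : ∀ c : ℂ, Bm fun t => Complex.exp (c * f t) := by
    intro c
    obtain ⟨C, hC⟩ := hf.2
    refine ⟨Complex.measurable_exp.comp (hf.1.const_mul c), Real.exp (‖c‖ * C), fun t => ?_⟩
    rw [Complex.norm_exp]
    refine Real.exp_le_exp.2 ((Complex.re_le_norm _).trans ?_)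
    rw [norm_mul]
    exact mul_le_mul_of_nonneg_left (hC t) (norm_nonneg _)
  have e1 : (fun t => Complex.cos (f t)) = fun t => (1 / 2 : ℂ) * Complex.exp (-Complex.I * f t)
      + (1 / 2 : ℂ) * Complex.exp (Complex.I * f t) := by
    funext t
    rw [Complex.cos]
    have a1 : f t * Complex.I = Complex.I * f t := mul_comm _ _
    have a2 : -f t * Complex.I = -Complex.I * f t := by ring
    rw [a1, a2]
    ring
  have e2 : (fun t => -(Complex.I * Complex.sin (f t)))
      = fun t => (1 / 2 : ℂ) * Complex.exp (-Complex.I * f t)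
      + (-(1 / 2) : ℂ) * Complex.exp (Complex.I * f t) := by
    funext t
    rw [Complex.sin]
    have a1 : f t * Complex.I = Complex.I * f t := mul_comm _ _
    have a2 : -f t * Complex.I = -Complex.I * f t := by ring
    rw [a1, a2]
    have hI := Complex.I_mul_I
    linear_combination (-(Complex.exp (-Complex.I * f t) - Complex.exp (Complex.I * f t)) / 2) * hI
  rw [e1, e2, L.lab_add _ _ (bm_smul _ (hb _)) (bm_smul _ (hb _)),
    L.lab_add _ _ (bm_smul _ (hb _)) (bm_smul _ (hb _)), L.lab_smul _ (hb _), L.lab_smul _ (hb _),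
    L.lab_smul _ (hb _)]
  generalize L.lab (fun t => Complex.exp (-Complex.I * f t)) = A
  generalize L.lab (fun t => Complex.exp (Complex.I * f t)) = B
  change A _ + B _ = ((1 / 2 : ℂ) • A x + (1 / 2 : ℂ) • B x)
    + ((1 / 2 : ℂ) • A (L.pau P x) + (-(1 / 2) : ℂ) • B (L.pau P x))
  rw [map_smul, map_smul, map_add, map_sub]
  module

end LSys

end Vale.Agent.P367.A

namespace Vale.Agent.P367.NI

open Complex Filter Topology MeasureTheory ProbabilityTheory

open Vale.Agent.P367.A (Bm LSys Sys hh_ext swp)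
open Vale.Agent.P367.B (M2 sX sY sZ Er)

section mats

/-- matrix of a gauged label gate -/
noncomputable def gmt (g : ℝ → ℝ) : Fin 3 → ℝ → M2
  | 0, t => Er sX (g |t|)
  | 1, t => Er sY (Real.sign t * g |t|)
  | 2, t => Er sZ (Real.sign t * g |t|)

lemma gau_meas_sign : Measurable Real.sign := by
  have : Real.sign = fun r : ℝ => if r < 0 then (-1 : ℝ) else if 0 < r then 1 else 0 := rfl
  rw [this]
  exact Measurable.ite measurableSet_Iio measurable_const
    (Measurable.ite measurableSet_Ioi measurable_const measurable_const)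

lemma gau_um_Er {P : M2} (hs : star P = P) (h2 : P * P = 1) {g : (Fin 1 → ℝ) → ℝ}
    (hg : Measurable g) : UM fun z => Er P (g z) where
  meas i j := by
    have e : (fun z : Fin 1 → ℝ => Er P (g z) i j) = fun z =>
        (Real.cos (g z) : ℂ) * (1 : M2) i j - (Complex.I * (Real.sin (g z) : ℂ)) * P i j := by
      funext z
      simp [Er, Matrix.sub_apply, Matrix.smul_apply]
    rw [e]
    have h1 : Measurable fun z => (Real.cos (g z) : ℂ) :=
      (Complex.continuous_ofReal.comp Real.continuous_cos).measurable.comp hg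
    have h3 : Measurable fun z => (Real.sin (g z) : ℂ) :=
      (Complex.continuous_ofReal.comp Real.continuous_sin).measurable.comp hg
    exact (h1.mul_const _).sub ((h3.const_mul _).mul_const _)
  uni z := B.Er_star hs h2 _

lemma gau_um {g : ℝ → ℝ} (hg : Measurable g) (P : Fin 3) :
    UM fun z : Fin 1 → ℝ => gmt g P (z 0) := by
  have h0 : Measurable fun z : Fin 1 → ℝ => z 0 := measurable_pi_apply 0
  have h1 : Measurable fun z : Fin 1 → ℝ => g |z 0| := hg.comp (meas_abs.comp h0)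
  have h2 : Measurable fun z : Fin 1 → ℝ => Real.sign (z 0) * g |z 0| :=
    (gau_meas_sign.comp h0).mul h1
  fin_cases P
  · exact gau_um_Er B.star_sX B.sX_sq h1
  · exact gau_um_Er B.star_sY B.sY_sq h2
  · exact gau_um_Er B.star_sZ B.sZ_sq h2

lemma gau_su (g : ℝ → ℝ) (P : Fin 3) (t : ℝ) :
    gmt g P t ∈ Matrix.specialUnitaryGroup (Fin 2) ℂ := by
  rw [Matrix.mem_specialUnitaryGroup_iff]
  have hI := Complex.I_mul_I
  fin_cases P
  · refine ⟨B.Er_star B.star_sX B.sX_sq _, ?_⟩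
    have h := B.cs1 (g |t|)
    change Matrix.det (Er sX (g |t|)) = 1
    rw [Matrix.det_fin_two]
    simp [Er, sX]
    linear_combination h - (Complex.sin (g |t|) * Complex.sin (g |t|)) * hI
  · refine ⟨B.Er_star B.star_sY B.sY_sq _, ?_⟩
    have h := B.cs1 (Real.sign t * g |t|)
    change Matrix.det (Er sY (Real.sign t * g |t|)) = 1
    rw [Matrix.det_fin_two]
    generalize Real.sign t * g |t| = s at *
    simp [Er, sY]
    linear_combination h + (Complex.sin s * Complex.sin s) * (Complex.I * Complex.I - 1) * hI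
  · refine ⟨B.Er_star B.star_sZ B.sZ_sq _, ?_⟩
    have h := B.cs1 (Real.sign t * g |t|)
    change Matrix.det (Er sZ (Real.sign t * g |t|)) = 1
    rw [Matrix.det_fin_two]
    generalize Real.sign t * g |t| = s at *
    simp [Er, sZ]
    linear_combination h - (Complex.sin s * Complex.sin s) * hI

lemma gau_conj {P Q : M2} (h : sX * P * sX = Q) (θ : ℝ) : sX * Er P θ * sX
    = (Real.cos θ : ℂ) • (1 : M2) - (Complex.I * (Real.sin θ : ℂ)) • Q := by
  unfold Er
  rw [mul_sub, sub_mul, mul_smul_comm, smul_mul_assoc, mul_one, B.sX_sq, mul_smul_comm,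
    smul_mul_assoc, h]

lemma gau_Er_neg (P : M2) (θ : ℝ) : (Real.cos θ : ℂ) • (1 : M2)
    - (Complex.I * (Real.sin θ : ℂ)) • (-P) = Er P (-θ) := by
  unfold Er
  rw [Real.cos_neg, Real.sin_neg, Complex.ofReal_neg, mul_neg, neg_smul, smul_neg]

lemma gau_eq (g : ℝ → ℝ) (P : Fin 3) (t : ℝ) : gmt g P (-t) = sX * gmt g P t * sX := by
  fin_cases P
  · change Er sX (g |(-t)|) = sX * Er sX (g |t|) * sX
    rw [abs_neg, gau_conj (Q := sX) (by rw [B.sX_sq, one_mul])]
    rfl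
  · change Er sY (Real.sign (-t) * g |(-t)|) = sX * Er sY (Real.sign t * g |t|) * sX
    rw [abs_neg, Real.sign_neg, neg_mul, gau_conj (Q := -sY) (by
      ext i j; fin_cases i <;> fin_cases j <;> simp [sX, sY, Matrix.mul_apply, Fin.sum_univ_two]),
      gau_Er_neg]
  · change Er sZ (Real.sign (-t) * g |(-t)|) = sX * Er sZ (Real.sign t * g |t|) * sX
    rw [abs_neg, Real.sign_neg, neg_mul, gau_conj (Q := -sZ) (by
      ext i j; fin_cases i <;> fin_cases j <;> simp [sX, sZ, Matrix.mul_apply, Fin.sum_univ_two]),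
      gau_Er_neg]

end mats

section gates

variable {F K : Type} [NormedAddCommGroup F] [InnerProductSpace ℂ F]
  [NormedAddCommGroup K] [InnerProductSpace ℂ K] [CompleteSpace F] (S : Weyl F K) (hS : S.Cyc)

lemma gau_lf_congr {f g : ℝ → ℂ} (hf : Bm f) (hg : Bm g) (h : ∀ t, t ≠ 0 → f t = g t) (x : F) :
    lf S hS f x = lf S hS g x := by
  refine S.fc_congr_ae hS (orthonormal_e0 S) (bm_of hf) (bm_of hg) ?_ x
  have h5 := (measurePreserving_eval (fun _ : Fin 1 => gaussianReal 0 1) 0).map_eq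
  have : NullSingletonClass (gaussianReal 0 1) := nullSingletonClass_gaussianReal (by norm_num)
  have h6 : ∀ᵐ t ∂(gaussianReal 0 1), t ≠ 0 := by
    rw [ae_iff]
    simp only [not_not, Set.ofPred_eq_eq_singleton]
    exact measure_singleton 0
  rw [← h5] at h6
  have h7 := ae_of_ae_map (measurable_pi_apply 0).aemeasurable h6
  filter_upwards [h7] with z hz
  exact h _ hz

omit [CompleteSpace F] [NormedAddCommGroup F] [InnerProductSpace ℂ F] in
lemma Bm.add' {f g : ℝ → ℂ} (hf : Bm f) (hg : Bm g) : Bm fun t => f t + g t := by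
  obtain ⟨C, hC⟩ := hf.2
  obtain ⟨D, hD⟩ := hg.2
  exact ⟨hf.1.add hg.1, C + D, fun z => (norm_add_le _ _).trans (add_le_add (hC z) (hD z))⟩

lemma gau_lf_cmul (c : ℂ) {f : ℝ → ℂ} (hf : Bm f) (x : F) :
    lf S hS (fun t => c * f t) x = c • lf S hS f x := S.fc_cmul hS (orthonormal_e0 S) c (bm_of hf) x

variable (e1 : K) (h1 : ‖e1‖ = 1) (h01 : inner ℂ S.e0 e1 = 0) (hi : ∀ x, inner ℂ e1 (S.iota x) = 0)

/-- sign operator on the one-site space -/
noncomputable def soH : HH F ≃ₗᵢ[ℂ] HH F := dg (soU S hS) (soU S hS)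

@[simp] lemma soH_fst (x : HH F) : (soH S hS x).fst = so S hS x.fst := rfl
@[simp] lemma soH_snd (x : HH F) : (soH S hS x).snd = so S hS x.snd := rfl

lemma soH_soH (x : HH F) : soH S hS (soH S hS x) = x := hh_ext (by simp [so_so]) (by simp [so_so])

lemma soH_adj (x y : HH F) : inner ℂ (soH S hS x) y = inner ℂ x (soH S hS y) := by
  have h := (soH S hS).inner_map_map x (soH S hS y)
  rwa [soH_soH] at h

lemma zg_eq (x : HH F) : zg S hS x = zop F (soH S hS x) := hh_ext rfl rfl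

lemma zop_soH (x : HH F) : zop F (soH S hS x) = soH S hS (zop F x) :=
  hh_ext rfl (by simp)

lemma swp_soH (x : HH F) : swp F (soH S hS x) = soH S hS (swp F x) := rfl

lemma soH_wgH (v : KP S) (x : HH F) : soH S hS (wgH S hS v x) = wgH S hS v (soH S hS x) :=
  hh_ext (wg_lf S hS (kp_perp S v) sg x.fst) (wg_lf S hS (kp_perp S v) sg x.snd)

lemma soH_zg (x : HH F) : soH S hS (zg S hS x) = zg S hS (soH S hS x) := by
  rw [zg_eq, zg_eq, ← zop_soH]

lemma soH_labg (f : ℝ → ℂ) (x : HH F) : soH S hS (labg S hS f x) = labg S hS f (soH S hS x) :=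
  hh_ext (so_lf S hS _ x.fst) (so_lf S hS _ x.snd)

lemma gau_pau0 (x : HH F) : (gaugeL S hS e1 h1 h01 hi).pau 0 x = swp F x := rfl
lemma gau_pau2 (x : HH F) : (gaugeL S hS e1 h1 h01 hi).pau 2 x = zg S hS x := rfl
lemma gau_pau1 (x : HH F) : (gaugeL S hS e1 h1 h01 hi).pau 1 x = Complex.I • swp F (zg S hS x) := by
  change (gaugeL S hS e1 h1 h01 hi).Zt (-(Real.pi / 4)) x = _
  rw [Sys.Zt_apply]
  have e : 2 * (-(Real.pi / 4)) = -(Real.pi / 2) := by ring
  rw [e, Sys.xr_neg_pi_div_two]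
  rfl

lemma soH_pau (P : Fin 3) (x : HH F) : soH S hS ((gaugeL S hS e1 h1 h01 hi).pau P x) = (gaugeL S hS e1 h1 h01 hi).pau P (soH S hS x) := by
  fin_cases P
  · rfl
  · change soH S hS ((gaugeL S hS e1 h1 h01 hi).pau 1 x) = (gaugeL S hS e1 h1 h01 hi).pau 1 (soH S hS x)
    rw [gau_pau1, gau_pau1, map_smul, ← swp_soH, soH_zg]
  · exact soH_zg S hS x

/-- `exp(-i Z' phi'(v)) = exp(-i Z phi(v))` -/
lemma gau_zr (v : KP S) (x : HH F) : (gaugeL S hS e1 h1 h01 hi).zr v x = S.zr (v : K) x := by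
  rw [Sys.zr_apply]
  have hv := kp_perp S v
  have hv' := perp_neg S hv
  refine hh_ext ?_ ?_
  · change (1 / 2 : ℂ) • (wg S hS (-(v : K)) x.fst + wg S hS (v : K) x.fst)
      + (1 / 2 : ℂ) • (wg S hS (-(v : K)) (so S hS x.fst) - wg S hS (v : K) (so S hS x.fst))
      = S.W (-(v : K)) x.fst
    simp only [wg_apply, neg_neg, map_sub, ← so_W S hS hv, ← so_W S hS hv', so_so]
    module
  · change (1 / 2 : ℂ) • (wg S hS (-(v : K)) x.snd + wg S hS (v : K) x.snd)
      + (1 / 2 : ℂ) • (wg S hS (-(v : K)) (-so S hS x.snd) - wg S hS (v : K) (-so S hS x.snd))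
      = S.W (v : K) x.snd
    simp only [wg_apply, neg_neg, map_sub, map_neg, ← so_W S hS hv, ← so_W S hS hv', so_so]
    module

lemma soH_zr (v : KP S) (x : HH F) : soH S hS ((gaugeL S hS e1 h1 h01 hi).zr v x) = (gaugeL S hS e1 h1 h01 hi).zr v (soH S hS x) := by
  rw [Sys.zr_apply, Sys.zr_apply, map_add, map_smul, map_smul, map_add, map_sub]
  change (1 / 2 : ℂ) • (soH S hS (wgH S hS (-v) x) + soH S hS (wgH S hS v x))
    + (1 / 2 : ℂ) • (soH S hS (wgH S hS (-v) (zg S hS x)) - soH S hS (wgH S hS v (zg S hS x))) = _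
  simp only [soH_wgH, soH_zg]
  rfl

/-- field vector of the gauged system -/
lemma gau_xv {V : HH F ≃ₗᵢ[ℂ] HH F} (hV : ∀ x, soH S hS (V x) = V (soH S hS x)) :
    (gaugeL S hS e1 h1 h01 hi).xv V = soH S hS (S.xv V) := by
  have h1 : ∀ x, soH S hS (V⁻¹ x) = V⁻¹ (soH S hS x) := by
    intro x
    apply V.injective
    rw [← hV, Sys.Ainv, Sys.Ainv]
  change V⁻¹ (zg S hS (V S.OmH)) = soH S hS (V⁻¹ (zop F (V S.OmH)))
  rw [h1, zg_eq, zop_soH]

lemma gau_iota (x : HH F) : (((gaugeL S hS e1 h1 h01 hi).iota (soH S hS x) : KP S) : K) = S.iota x := by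
  change (iotag S hS (soH S hS x) : K) = _
  rw [iotag_coe]
  change S.iota (soH S hS (soH S hS x)) = _
  rw [soH_soH]

omit [CompleteSpace F] [NormedAddCommGroup F] [InnerProductSpace ℂ F] in
lemma gau_bm_gmt {g : ℝ → ℝ} (hg : Measurable g) (P : Fin 3) (i j : Fin 2) :
    Bm fun t => gmt g P t i j := by
  obtain ⟨h1, C, h2⟩ := (gau_um hg P).mb i j
  exact ⟨h1.comp (g := fun z : Fin 1 → ℝ => gmt g P (z 0) i j) (f := fun t : ℝ => fun _ => t)
    (measurable_pi_lambda _ fun _ => measurable_id), C, fun t => h2 fun _ => t⟩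

lemma gau_sign_cos {t : ℝ} (ht : t ≠ 0) (a : ℝ) :
    Complex.cos ((Real.sign t * a : ℝ) : ℂ) = Complex.cos (a : ℂ) := by
  rcases lt_or_gt_of_ne ht with h | h
  · rw [Real.sign_of_neg h, neg_one_mul, Complex.ofReal_neg, Complex.cos_neg]
  · rw [Real.sign_of_pos h, one_mul]

lemma gau_sign_sin {t : ℝ} (ht : t ≠ 0) (a : ℝ) :
    Complex.sin ((Real.sign t * a : ℝ) : ℂ) = sg t * Complex.sin (a : ℂ) := by
  unfold sg
  rcases lt_or_gt_of_ne ht with h | h
  · rw [Real.sign_of_neg h, neg_one_mul, Complex.ofReal_neg, Complex.sin_neg, if_neg (not_le.2 h),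
      neg_one_mul]
  · rw [Real.sign_of_pos h, one_mul, if_pos h.le, one_mul]

/-- label rotations of the gauged system are equivariant matrix functions -/
theorem gau_gate {f : ℝ → ℂ} (hf : LSys.Br f) (P : Fin 3) {U : HH F ≃ₗᵢ[ℂ] HH F}
    (hU : (gaugeL S hS e1 h1 h01 hi).IsRot ((gaugeL S hS e1 h1 h01 hi).lab f) P U) :
    U = S.fcM hS (orthonormal_e0 S)
      (gau_um (g := fun t => (f t).re) (Complex.measurable_re.comp hf.1.1) P) := by
  have hfr : ∀ t, f t = (((f t).re : ℝ) : ℂ) := fun t =>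
    Complex.ext (by simp) (by simp [hf.2 t])
  have hg : Measurable fun t => (f t).re := Complex.measurable_re.comp hf.1.1
  set g : ℝ → ℝ := fun t => (f t).re with hgd
  have hI := Complex.I_mul_I
  -- trigonometric functions
  have bc : Bm fun t => Complex.cos (f |t|) := by
    refine ⟨Complex.measurable_cos.comp (hf.1.1.comp meas_abs), 1, fun t => ?_⟩
    change ‖Complex.cos (f |t|)‖ ≤ 1
    rw [hfr, ← Complex.ofReal_cos, Complex.norm_real]
    exact Real.abs_cos_le_one _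
  have bs : Bm fun t => -(Complex.I * Complex.sin (f |t|)) := by
    refine ⟨((Complex.measurable_sin.comp (hf.1.1.comp meas_abs)).const_mul _).neg, 1,
      fun t => ?_⟩
    rw [norm_neg, norm_mul, Complex.norm_I, one_mul, hfr, ← Complex.ofReal_sin, Complex.norm_real]
    exact Real.abs_sin_le_one _
  have bss : Bm fun t => sg t * -(Complex.I * Complex.sin (f |t|)) := Bm.mul' bm_sg bs
  have hss : ∀ y, lf S hS (fun t => sg t * -(Complex.I * Complex.sin (f |t|))) y
      = lf S hS (fun t => -(Complex.I * Complex.sin (f |t|))) (so S hS y) := by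
    intro y
    rw [lf_mul S hS bm_sg bs]
    exact so_lf S hS _ y
  have bz : Bm fun _ : ℝ => (0 : ℂ) := ⟨measurable_const, 0, fun _ => by simp⟩
  ext x
  rw [hU x, (gaugeL S hS e1 h1 h01 hi).gau_isRot' hf.1, Weyl.fcM_apply]
  have key : ∀ (i j : Fin 2) (h : ℝ → ℂ), Bm h → (∀ t, t ≠ 0 → gmt g P t i j = h t) → ∀ y,
      S.fc hS (orthonormal_e0 S) (fun z => gmt g P (z 0) i j) y = lf S hS h y := by
    intro i j h hb he y
    exact gau_lf_congr S hS (gau_bm_gmt hg P i j) hb he y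
  have fst_eq : (S.fcH hS (orthonormal_e0 S) (fun z => gmt g P (z 0)) x).fst
      = S.fc hS (orthonormal_e0 S) (fun z => gmt g P (z 0) 0 0) x.fst
        + S.fc hS (orthonormal_e0 S) (fun z => gmt g P (z 0) 0 1) x.snd := rfl
  have snd_eq : (S.fcH hS (orthonormal_e0 S) (fun z => gmt g P (z 0)) x).snd
      = S.fc hS (orthonormal_e0 S) (fun z => gmt g P (z 0) 1 0) x.fst
        + S.fc hS (orthonormal_e0 S) (fun z => gmt g P (z 0) 1 1) x.snd := rfl
  fin_cases P
  · refine hh_ext ?_ ?_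
    · change lf S hS (fun t => Complex.cos (f |t|)) x.fst
        + lf S hS (fun t => -(Complex.I * Complex.sin (f |t|))) x.snd = _
      rw [fst_eq, key 0 0 _ bc, key 0 1 _ bs]
      · intro t _
        change (Er sX (f |t|).re) 0 1 = _
        rw [hfr |t|]
        simp [Er, sX]
      · intro t _
        change (Er sX (f |t|).re) 0 0 = _
        rw [hfr |t|]
        simp [Er, sX]
    · change lf S hS (fun t => Complex.cos (f |t|)) x.snd
        + lf S hS (fun t => -(Complex.I * Complex.sin (f |t|))) x.fst = _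
      rw [snd_eq, key 1 1 _ bc, key 1 0 _ bs, add_comm]
      · intro t _
        change (Er sX (f |t|).re) 1 0 = _
        rw [hfr |t|]
        simp [Er, sX]
      · intro t _
        change (Er sX (f |t|).re) 1 1 = _
        rw [hfr |t|]
        simp [Er, sX]
  · have ep : (gaugeL S hS e1 h1 h01 hi).pau ((fun i => i) ⟨1, by decide⟩) x = Complex.I • swp F (zg S hS x) :=
      gau_pau1 S hS e1 h1 h01 hi x
    rw [ep]
    refine hh_ext ?_ ?_
    · change lf S hS (fun t => Complex.cos (f |t|)) x.fst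
        + lf S hS (fun t => -(Complex.I * Complex.sin (f |t|))) (Complex.I • -(so S hS x.snd)) = _
      rw [fst_eq, key 0 0 _ bc, key 0 1 (fun t => (-Complex.I) * (sg t * -(Complex.I * Complex.sin (f |t|))))
        (Bm.mul' ⟨measurable_const, 1, fun _ => by simp⟩ bss), gau_lf_cmul S hS _ bss, hss,
        map_smul, map_neg, smul_neg, neg_smul]
      · intro t ht
        change (Er sY (Real.sign t * (f |t|).re)) 0 1 = _
        rw [hfr |t|]
        simp only [Er, sY, Matrix.sub_apply, Matrix.smul_apply, smul_eq_mul, Matrix.of_apply,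
          Matrix.cons_val', Matrix.cons_val_zero, Matrix.cons_val_one, Matrix.cons_val_fin_one,
          Complex.ofReal_sin, gau_sign_sin ht, Complex.ofReal_re,
          Matrix.one_apply_ne (show (0 : Fin 2) ≠ 1 by decide), mul_zero]
        ring
      · intro t ht
        change (Er sY (Real.sign t * (f |t|).re)) 0 0 = _
        rw [hfr |t|]
        simp only [Er, sY, Matrix.sub_apply, Matrix.smul_apply, smul_eq_mul, Matrix.of_apply,
          Matrix.cons_val', Matrix.cons_val_zero, Matrix.cons_val_one, Matrix.cons_val_fin_one,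
          Complex.ofReal_cos, gau_sign_cos ht, Complex.ofReal_re,
          Matrix.one_apply_eq, mul_zero, mul_one, sub_zero]
    · change lf S hS (fun t => Complex.cos (f |t|)) x.snd
        + lf S hS (fun t => -(Complex.I * Complex.sin (f |t|))) (Complex.I • (so S hS x.fst)) = _
      rw [snd_eq, key 1 1 _ bc, key 1 0 (fun t => Complex.I * (sg t * -(Complex.I * Complex.sin (f |t|))))
        (Bm.mul' ⟨measurable_const, 1, fun _ => by simp⟩ bss), gau_lf_cmul S hS _ bss, hss,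
        map_smul, add_comm]
      · intro t ht
        change (Er sY (Real.sign t * (f |t|).re)) 1 0 = _
        rw [hfr |t|]
        simp only [Er, sY, Matrix.sub_apply, Matrix.smul_apply, smul_eq_mul, Matrix.of_apply,
          Matrix.cons_val', Matrix.cons_val_zero, Matrix.cons_val_one, Matrix.cons_val_fin_one,
          Complex.ofReal_sin, gau_sign_sin ht, Complex.ofReal_re,
          Matrix.one_apply_ne (show (1 : Fin 2) ≠ 0 by decide), mul_zero]
        ring
      · intro t ht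
        change (Er sY (Real.sign t * (f |t|).re)) 1 1 = _
        rw [hfr |t|]
        simp only [Er, sY, Matrix.sub_apply, Matrix.smul_apply, smul_eq_mul, Matrix.of_apply,
          Matrix.cons_val', Matrix.cons_val_zero, Matrix.cons_val_one, Matrix.cons_val_fin_one,
          Complex.ofReal_cos, gau_sign_cos ht, Complex.ofReal_re,
          Matrix.one_apply_eq, mul_zero, mul_one, sub_zero]
  · refine hh_ext ?_ ?_
    · change lf S hS (fun t => Complex.cos (f |t|)) x.fst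
        + lf S hS (fun t => -(Complex.I * Complex.sin (f |t|))) (so S hS x.fst) = _
      rw [fst_eq, key 0 1 _ bz, key 0 0 (fun t => Complex.cos (f |t|)
        + sg t * -(Complex.I * Complex.sin (f |t|))) (Bm.add' bc bss), lf_add S hS bc bss, hss,
        lf_const, zero_smul, add_zero]
      · intro t ht
        change (Er sZ (Real.sign t * (f |t|).re)) 0 0 = _
        rw [hfr |t|]
        simp only [Er, sZ, Matrix.sub_apply, Matrix.smul_apply, smul_eq_mul, Matrix.of_apply,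
          Matrix.cons_val', Matrix.cons_val_zero, Matrix.cons_val_one, Matrix.cons_val_fin_one,
          Complex.ofReal_cos, gau_sign_cos ht, Complex.ofReal_sin, gau_sign_sin ht,
          Complex.ofReal_re, Matrix.one_apply_eq, mul_one]
        ring
      · intro t ht
        change (Er sZ (Real.sign t * (f |t|).re)) 0 1 = _
        simp [Er, sZ]
    · change lf S hS (fun t => Complex.cos (f |t|)) x.snd
        + lf S hS (fun t => -(Complex.I * Complex.sin (f |t|))) (-(so S hS x.snd)) = _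
      rw [snd_eq, key 1 0 _ bz, key 1 1 (fun t => Complex.cos (f |t|)
        + (-1 : ℂ) * (sg t * -(Complex.I * Complex.sin (f |t|))))
        (Bm.add' bc (Bm.mul' ⟨measurable_const, 1, fun _ => by simp⟩ bss)),
        lf_add S hS bc (Bm.mul' ⟨measurable_const, 1, fun _ => by simp⟩ bss),
        gau_lf_cmul S hS _ bss, hss, lf_const, zero_smul, zero_add, map_neg, neg_one_smul]
      · intro t ht
        change (Er sZ (Real.sign t * (f |t|).re)) 1 1 = _
        rw [hfr |t|]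
        simp only [Er, sZ, Matrix.sub_apply, Matrix.smul_apply, smul_eq_mul, Matrix.of_apply,
          Matrix.cons_val', Matrix.cons_val_zero, Matrix.cons_val_one, Matrix.cons_val_fin_one,
          Complex.ofReal_cos, gau_sign_cos ht, Complex.ofReal_sin, gau_sign_sin ht,
          Complex.ofReal_re, Matrix.one_apply_eq, mul_one]
        ring
      · intro t ht
        change (Er sZ (Real.sign t * (f |t|).re)) 1 0 = _
        simp [Er, sZ]

end gates

end Vale.Agent.P367.NI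
end

section

/-! P367 block B, gauge part 4: words of the gauged label system, energy transport, exit, creation
map. -/

namespace Vale.Agent.P367.NI

open Complex Filter Topology MeasureTheory ProbabilityTheory

open Vale.Agent.P367.A (Bm LSys Sys hh_ext swp)
open Vale.Agent.P367.B (M2 sX sY sZ Er)

section words

variable {H K : Type*} [NormedAddCommGroup H] [InnerProductSpace ℂ H]
  [NormedAddCommGroup K] [InnerProductSpace ℂ K] (L : LSys H K)

/-- exact words commute with the label functions -/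
lemma gau_wd_lab [CompleteSpace H] {U : H ≃ₗᵢ[ℂ] H} (hU : L.Wd U) {f : ℝ → ℂ} (hf : Bm f) (x : H) :
    L.lab f (U x) = U (L.lab f x) := by
  induction hU generalizing x with
  | one => rfl
  | C g V _ ih =>
    change L.lab f (L.zr _ (V x)) = L.zr _ (V (L.lab f x))
    rw [L.o_lab_zr, ih]
  | L g P U V _ hg hU ih =>
    change L.lab f (U (V x)) = U (V (L.lab f x))
    rw [← ih, hU, hU, L.gau_isRot' hg.1, L.gau_isRot' hg.1, map_add]
    have bc : Bm fun t => Complex.cos (g t) := by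
      refine ⟨Complex.measurable_cos.comp hg.1.1, 1, fun t => ?_⟩
      change ‖Complex.cos (g t)‖ ≤ 1
      have e : g t = (((g t).re : ℝ) : ℂ) := Complex.ext (by simp) (by simp [hg.2 t])
      rw [e, ← Complex.ofReal_cos, Complex.norm_real]
      exact Real.abs_cos_le_one _
    have bs : Bm fun t => -(Complex.I * Complex.sin (g t)) := by
      refine ⟨((Complex.measurable_sin.comp hg.1.1).const_mul _).neg, 1, fun t => ?_⟩
      have e : g t = (((g t).re : ℝ) : ℂ) := Complex.ext (by simp) (by simp [hg.2 t])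
      rw [norm_neg, norm_mul, Complex.norm_I, one_mul, e, ← Complex.ofReal_sin, Complex.norm_real]
      exact Real.abs_sin_le_one _
    have h1 := fun y => congrArg (fun T : H →L[ℂ] H => T y) (L.o_lab_comm hf bc)
    have h2 := fun y => congrArg (fun T : H →L[ℂ] H => T y) (L.o_lab_comm hf bs)
    simp only [mul_apply_eq_comp] at h1 h2
    rw [h1, h2, L.o_lab_pau]

end words

section gates

variable {F K : Type} [NormedAddCommGroup F] [InnerProductSpace ℂ F]
  [NormedAddCommGroup K] [InnerProductSpace ℂ K] [CompleteSpace F] (S : Weyl F K) (hS : S.Cyc)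
  (e1 : K) (h1 : ‖e1‖ = 1) (h01 : inner ℂ S.e0 e1 = 0) (hi : ∀ x, inner ℂ e1 (S.iota x) = 0)

/-- exact words of the gauged system are strong limits of words of the Weyl system -/
theorem gau_wd {U : HH F ≃ₗᵢ[ℂ] HH F} (hU : (gaugeL S hS e1 h1 h01 hi).Wd U) :
    U ∈ S.Cl ∧ ∀ x, soH S hS (U x) = U (soH S hS x) := by
  induction hU with
  | one => exact ⟨S.ev_mem_Cl [], fun _ => rfl⟩
  | C g V _ ih =>
    obtain ⟨ih1, ih2⟩ := ih
    refine ⟨?_, fun x => ?_⟩
    · have h := S.run_mem_Cl hS [Gate.C g] ih1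
      have e : S.run [Gate.C g] V
          = (gaugeL S hS e1 h1 h01 hi).zr ((g : ℂ) • (gaugeL S hS e1 h1 h01 hi).iota ((gaugeL S hS e1 h1 h01 hi).xv V)) * V := by
        ext x
        change S.zr ((g : ℂ) • S.iota (S.xv V)) (V x)
          = (gaugeL S hS e1 h1 h01 hi).zr ((g : ℂ) • (gaugeL S hS e1 h1 h01 hi).iota ((gaugeL S hS e1 h1 h01 hi).xv V)) (V x)
        rw [gau_zr, gau_xv S hS e1 h1 h01 hi ih2, Submodule.coe_smul, gau_iota]
      rwa [e] at h
    · generalize ((g : ℂ) • (gaugeL S hS e1 h1 h01 hi).iota ((gaugeL S hS e1 h1 h01 hi).xv V)) = v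
      change soH S hS ((gaugeL S hS e1 h1 h01 hi).zr v (V x)) = (gaugeL S hS e1 h1 h01 hi).zr v (V (soH S hS x))
      rw [soH_zr, ih2]
  | L f P U V _ hf hU ih =>
    obtain ⟨ih1, ih2⟩ := ih
    refine ⟨?_, fun x => ?_⟩
    · have h := cl_trans_fcM S hS (gau_um (g := fun t => (f t).re)
        (Complex.measurable_re.comp hf.1.1) P) (fun z => gau_su _ _ _)
        (fun z => gau_eq _ _ _) ih1
      rw [← gau_gate S hS e1 h1 h01 hi hf P hU] at h
      exact h
    · change soH S hS (U (V x)) = U (V (soH S hS x))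
      rw [← ih2, hU, hU, (gaugeL S hS e1 h1 h01 hi).gau_isRot' hf.1, (gaugeL S hS e1 h1 h01 hi).gau_isRot' hf.1, map_add]
      change soH S hS (labg S hS _ _) + soH S hS (labg S hS _ _) = _
      rw [soH_labg, soH_labg, soH_pau]
      rfl

/-- creation map of the gauged system -/
noncomputable def gau_J (u : KP S) : HH F := soH S hS (S.Phi (u : K))

/-- energy transport -/
lemma gau_En (x : HH F) : (gaugeL S hS e1 h1 h01 hi).En (gau_J S hS) x = S.Ef (soH S hS x) := by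
  unfold LSys.En gau_J Weyl.Ef
  have e : (((gaugeL S hS e1 h1 h01 hi).iota x : KP S) : K) = S.iota (soH S hS x) := rfl
  rw [e, ← soH_adj, ← inner_conj_symm, Complex.conj_re]

/-- the exit of the gauged system -/
theorem gau_exit {M : Set ℝ} (hM : MeasurableSet M) {V : HH F ≃ₗᵢ[ℂ] HH F}
    (h : ∀ ε > 0, ∃ U, (gaugeL S hS e1 h1 h01 hi).Wd U ∧ ‖(gaugeL S hS e1 h1 h01 hi).E M ((gaugeL S hS e1 h1 h01 hi).xv U) - (gaugeL S hS e1 h1 h01 hi).E M ((gaugeL S hS e1 h1 h01 hi).xv V)‖ < ε)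
    {x : HH F} (hx : ‖x‖ ≤ 1) {ε : ℝ} (hε : 0 < ε) : ∃ w : List Gate,
      (gaugeL S hS e1 h1 h01 hi).En (gau_J S hS) x - 2 * (‖(gaugeL S hS e1 h1 h01 hi).E M ((gaugeL S hS e1 h1 h01 hi).xv V) - x‖ + Real.sqrt ((gaugeL S hS e1 h1 h01 hi).mu.real Mᶜ) + ε)
        ≤ S.energy w := by
  obtain ⟨U, hU, hd⟩ := h (ε / 2) (by positivity)
  obtain ⟨hcl, hso⟩ := gau_wd S hS e1 h1 h01 hi hU
  obtain ⟨w, hw⟩ := S.exists_word_of_mem_Cl hcl hε
  refine ⟨w, ?_⟩
  set y := (gaugeL S hS e1 h1 h01 hi).xv U with hy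
  have hyS : S.xv U = soH S hS y := by
    rw [hy, gau_xv S hS e1 h1 h01 hi hso, soH_soH]
  have hny : ‖y‖ = 1 := by
    rw [hy]
    unfold Sys.xv
    rw [LinearIsometryEquiv.norm_map, LinearIsometryEquiv.norm_map, LinearIsometryEquiv.norm_map]
    exact (gaugeL S hS e1 h1 h01 hi).nOm
  have hMc : ‖(gaugeL S hS e1 h1 h01 hi).E Mᶜ y‖ = Real.sqrt ((gaugeL S hS e1 h1 h01 hi).mu.real Mᶜ) := by
    have hc : ∀ z, (gaugeL S hS e1 h1 h01 hi).E Mᶜ (U z) = U ((gaugeL S hS e1 h1 h01 hi).E Mᶜ z) := fun z =>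
      gau_wd_lab (gaugeL S hS e1 h1 h01 hi) hU (LSys.bm_ind hM.compl) z
    have hci : ∀ z, (gaugeL S hS e1 h1 h01 hi).E Mᶜ (U⁻¹ z) = U⁻¹ ((gaugeL S hS e1 h1 h01 hi).E Mᶜ z) := by
      intro z
      apply U.injective
      rw [← hc, Sys.Ainv, Sys.Ainv]
    have e : (gaugeL S hS e1 h1 h01 hi).E Mᶜ y = U⁻¹ ((gaugeL S hS e1 h1 h01 hi).Z (U ((gaugeL S hS e1 h1 h01 hi).E Mᶜ (gaugeL S hS e1 h1 h01 hi).Om))) := by
      rw [hy]
      unfold Sys.xv
      rw [hci, (gaugeL S hS e1 h1 h01 hi).o_E_Z, hc]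
    rw [e, LinearIsometryEquiv.norm_map, LinearIsometryEquiv.norm_map,
      LinearIsometryEquiv.norm_map, ← (gaugeL S hS e1 h1 h01 hi).norm_E_Om hM.compl, Real.sqrt_sq (norm_nonneg _)]
  have h2 : ‖y - x‖ ≤ ε / 2 + ‖(gaugeL S hS e1 h1 h01 hi).E M ((gaugeL S hS e1 h1 h01 hi).xv V) - x‖ + Real.sqrt ((gaugeL S hS e1 h1 h01 hi).mu.real Mᶜ) := by
    have e : y - x = ((gaugeL S hS e1 h1 h01 hi).E M y - (gaugeL S hS e1 h1 h01 hi).E M ((gaugeL S hS e1 h1 h01 hi).xv V)) + ((gaugeL S hS e1 h1 h01 hi).E M ((gaugeL S hS e1 h1 h01 hi).xv V) - x)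
        + (gaugeL S hS e1 h1 h01 hi).E Mᶜ y := by
      rw [(gaugeL S hS e1 h1 h01 hi).o_E_compl hM]
      abel
    rw [e, ← hMc]
    refine (norm_add_le _ _).trans ?_
    gcongr
    exact (norm_add_le _ _).trans (add_le_add_left hd.le _)
  have h3 := S.abs_Ef_sub_le (soH S hS y) (soH S hS x)
  rw [← map_sub, LinearIsometryEquiv.norm_map, LinearIsometryEquiv.norm_map,
    LinearIsometryEquiv.norm_map, hny] at h3
  rw [hyS] at hw
  rw [gau_En]
  have h4 := (abs_le.1 h3).1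
  have h5 := (abs_lt.1 hw).1
  nlinarith [norm_nonneg (y - x)]

/-- rate of convergence of the difference quotients of the Weyl vectors -/
lemma gau_quot (u : K) {t : ℝ} (ht : t ≠ 0) :
    ‖((t : ℂ)⁻¹) • (S.W ((t : ℂ) • u) S.Om - S.Om) - S.Jc u‖ ≤ |t| * ‖u‖ ^ 2 := by
  set E : ℝ := Real.exp (-(t ^ 2 * ‖u‖ ^ 2 / 2)) with hE
  have hn : ‖(t : ℂ) • u‖ ^ 2 = t ^ 2 * ‖u‖ ^ 2 := by
    rw [norm_smul, Complex.norm_real, Real.norm_eq_abs, mul_pow, sq_abs]
  have hEc : Complex.exp (-((‖(t : ℂ) • u‖ ^ 2 / 2 : ℝ) : ℂ)) = (E : ℂ) := by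
    rw [hn, hE, Complex.ofReal_exp, Complex.ofReal_neg]
  have a1 : ‖S.W ((t : ℂ) • u) S.Om - S.Om‖ ^ 2 = 2 - 2 * E := by
    have h := @norm_sub_sq ℂ F _ _ _ (S.W ((t : ℂ) • u) S.Om) S.Om
    have h2 : RCLike.re (inner ℂ (S.W ((t : ℂ) • u) S.Om) S.Om : ℂ) = E := by
      rw [← inner_conj_symm, S.vac, hEc, Complex.conj_ofReal]
      exact Complex.ofReal_re E
    rw [h2, LinearIsometryEquiv.norm_map, S.norm_Om] at h
    rw [h]
    ring
  have a2 : inner ℂ (S.Jc u) S.Om = (0 : ℂ) := by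
    have h := S.inner_Jc_W u 0
    rwa [S.W_zero, inner_zero_right, zero_mul] at h
  have a3 : RCLike.re (inner ℂ (((t : ℂ)⁻¹) • (S.W ((t : ℂ) • u) S.Om - S.Om)) (S.Jc u) : ℂ)
      = ‖u‖ ^ 2 * E := by
    rw [← inner_conj_symm, inner_smul_right, inner_sub_right, a2, sub_zero, S.inner_Jc_W,
      inner_smul_right, inner_self_eq_norm_sq_to_K, hEc]
    have ht' : (t : ℂ) ≠ 0 := Complex.ofReal_ne_zero.2 ht
    have e : (t : ℂ)⁻¹ * ((t : ℂ) * ((‖u‖ : ℝ) : ℂ) ^ 2 * (E : ℂ)) = ((‖u‖ ^ 2 * E : ℝ) : ℂ) := by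
      push_cast
      field_simp
    change RCLike.re ((starRingEnd ℂ) ((t : ℂ)⁻¹ * ((t : ℂ) * ((‖u‖ : ℝ) : ℂ) ^ 2 * (E : ℂ)))) = _
    rw [e, Complex.conj_ofReal]
    exact Complex.ofReal_re _
  have h := @norm_sub_sq ℂ F _ _ _ (((t : ℂ)⁻¹) • (S.W ((t : ℂ) • u) S.Om - S.Om)) (S.Jc u)
  rw [a3, S.norm_Jc, norm_smul, mul_pow, a1, norm_inv, Complex.norm_real, Real.norm_eq_abs, inv_pow,
    sq_abs] at h
  have hE1 : 1 - t ^ 2 * ‖u‖ ^ 2 / 2 ≤ E := by
    have := Real.add_one_le_exp (-(t ^ 2 * ‖u‖ ^ 2 / 2))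
    linarith
  have hu := sq_nonneg ‖u‖
  have ht2 : 0 < t ^ 2 := by positivity
  have h2 : (t ^ 2)⁻¹ * (2 - 2 * E) ≤ ‖u‖ ^ 2 := by
    rw [inv_mul_le_iff₀ ht2]
    linarith
  have h3 : ‖((t : ℂ)⁻¹) • (S.W ((t : ℂ) • u) S.Om - S.Om) - S.Jc u‖ ^ 2
      ≤ (|t| * ‖u‖ ^ 2) ^ 2 := by
    rw [h, mul_pow, sq_abs]
    nlinarith
  exact (sq_le_sq₀ (norm_nonneg _) (by positivity)).1 h3

lemma gau_tendsto_quot (u : K) : Tendsto (fun t : ℝ => ((t : ℂ)⁻¹) •
    (S.W ((t : ℂ) • u) S.Om - S.Om)) (𝓝[≠] 0) (𝓝 (S.Jc u)) := by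
  rw [tendsto_iff_norm_sub_tendsto_zero]
  have h1 : Tendsto (fun t : ℝ => |t| * ‖u‖ ^ 2) (𝓝[≠] 0) (𝓝 0) := by
    have h2 : Tendsto (fun t : ℝ => |t| * ‖u‖ ^ 2) (𝓝 0) (𝓝 (|(0 : ℝ)| * ‖u‖ ^ 2)) :=
      (continuous_abs.mul continuous_const).tendsto 0
    rw [abs_zero, zero_mul] at h2
    exact h2.mono_left nhdsWithin_le_nhds
  refine tendsto_of_tendsto_of_tendsto_of_le_of_le' tendsto_const_nhds h1
    (Eventually.of_forall fun t => norm_nonneg _) ?_
  filter_upwards [self_mem_nhdsWithin] with t ht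
  exact gau_quot S u ht

/-- the creation map of the gauged system -/
theorem gau_isJ : (gaugeL S hS e1 h1 h01 hi).IsJ (gau_J S hS) := by
  intro u
  set a : K := (-Complex.I) • (u : K) with ha
  have hp := gau_tendsto_quot S a
  have hm := gau_tendsto_quot S (-a)
  have hJm : S.Jc (-a) = -S.Jc a := by
    have := S.Jc_smul (-1) a
    simpa using this
  rw [hJm] at hm
  have h5 := ((hp.add hm).const_smul (1 / 2 : ℂ)).add
    (((so S hS).continuous.tendsto _).comp (hp.sub hm) |>.const_smul (1 / 2 : ℂ))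
  have h6 := h5.const_smul (((Real.sqrt 2)⁻¹ : ℝ) : ℂ)
  have key : ∀ t : ℝ, ((t : ℂ)⁻¹) • (wg S hS ((t : ℂ) • a) ((((Real.sqrt 2)⁻¹ : ℝ) : ℂ) • S.Om)
      - (((Real.sqrt 2)⁻¹ : ℝ) : ℂ) • S.Om)
      = (((Real.sqrt 2)⁻¹ : ℝ) : ℂ) • ((1 / 2 : ℂ) • (((t : ℂ)⁻¹) • (S.W ((t : ℂ) • a) S.Om - S.Om)
        + ((t : ℂ)⁻¹) • (S.W ((t : ℂ) • -a) S.Om - S.Om))
        + (1 / 2 : ℂ) • so S hS (((t : ℂ)⁻¹) • (S.W ((t : ℂ) • a) S.Om - S.Om)
        - ((t : ℂ)⁻¹) • (S.W ((t : ℂ) • -a) S.Om - S.Om))) := by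
    intro t
    rw [map_smul, wg_apply, smul_neg]
    simp only [map_sub, map_smul]
    module
  have hlim : (((Real.sqrt 2)⁻¹ : ℝ) : ℂ) • ((1 / 2 : ℂ) • (S.Jc a + -S.Jc a)
      + (1 / 2 : ℂ) • so S hS (S.Jc a - -S.Jc a))
      = so S hS ((-Complex.I) • ((((Real.sqrt 2)⁻¹ : ℝ) : ℂ) • S.Jc (u : K))) := by
    rw [ha, S.Jc_smul]
    simp only [map_sub, map_smul, map_neg]
    module
  have hfin : Tendsto (fun t : ℝ => ((t : ℂ)⁻¹) • (wg S hS ((t : ℂ) • a)
      ((((Real.sqrt 2)⁻¹ : ℝ) : ℂ) • S.Om) - (((Real.sqrt 2)⁻¹ : ℝ) : ℂ) • S.Om)) (𝓝[≠] 0)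
      (𝓝 (so S hS ((-Complex.I) • ((((Real.sqrt 2)⁻¹ : ℝ) : ℂ) • S.Jc (u : K))))) := by
    rw [← hlim]
    refine h6.congr fun t => ?_
    rw [key]
    rfl
  have hcoe : ∀ t : ℝ, ((-((Complex.I * (t : ℂ)) • u) : KP S) : K) = (t : ℂ) • a := by
    intro t
    rw [ha]
    change -((Complex.I * (t : ℂ)) • (u : K)) = _
    module
  refine tendsto_HH ?_ ?_
  · refine hfin.congr fun t => ?_
    rw [← hcoe]
    rfl
  · refine hfin.congr fun t => ?_
    rw [← hcoe]
    rfl

/-- assembly of the base statement for the gauged system -/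
theorem gau_isBase
    (hcal : ∀ (n : ℕ) (y : Fin n → KP S), Orthonormal ℂ y → ∃ fc, (gaugeL S hS e1 h1 h01 hi).FCal y fc)
    (hR : ∀ G : Set ℝ, MeasurableSet G → ∃ Rch : Set ℝ → Set ℝ → (HH F ≃ₗᵢ[ℂ] HH F) → Prop,
      (gaugeL S hS e1 h1 h01 hi).Closed G (gaugeL S hS e1 h1 h01 hi).alg0 Rch ∧ Rch G Gᶜ 1 ∧ ∀ M R V, Rch M R V → ∀ ε > 0, ∃ U, (gaugeL S hS e1 h1 h01 hi).Wd U ∧
        ‖(gaugeL S hS e1 h1 h01 hi).E M ((gaugeL S hS e1 h1 h01 hi).xv U) - (gaugeL S hS e1 h1 h01 hi).E M ((gaugeL S hS e1 h1 h01 hi).xv V)‖ < ε) :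
    (gaugeL S hS e1 h1 h01 hi).IsBase S (gau_J S hS) where
  isJ := gau_isJ S hS e1 h1 h01 hi
  fcal := hcal
  reach G hG := by
    obtain ⟨Rch, hC, h1', hex⟩ := hR G hG
    refine ⟨Rch, hC, h1', fun M R V hV x hx _ ε hε => ?_⟩
    exact gau_exit S hS e1 h1 h01 hi (hC.meas M R V hV).1 (hex M R V hV) hx hε

end gates

/-- assembly of the base statement -/
theorem gau_baseStmt
    (hcal : ∀ (S : Weyl FN L2N) (hS : S.Cyc) (e1 : L2N) (h1 : ‖e1‖ = 1) (h01 : inner ℂ S.e0 e1 = 0)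
      (hi : ∀ x, inner ℂ e1 (S.iota x) = 0) (n : ℕ) (y : Fin n → KP S), Orthonormal ℂ y →
      ∃ fc, (gaugeL S hS e1 h1 h01 hi).FCal y fc)
    (hR : ∀ (S : Weyl FN L2N) (hS : S.Cyc) (e1 : L2N) (h1 : ‖e1‖ = 1) (h01 : inner ℂ S.e0 e1 = 0)
      (hi : ∀ x, inner ℂ e1 (S.iota x) = 0) (G : Set ℝ), MeasurableSet G →
      ∃ Rch : Set ℝ → Set ℝ → (HH FN ≃ₗᵢ[ℂ] HH FN) → Prop,
      (gaugeL S hS e1 h1 h01 hi).Closed G (gaugeL S hS e1 h1 h01 hi).alg0 Rch ∧ Rch G Gᶜ 1 ∧
      ∀ M R V, Rch M R V → ∀ ε > 0, ∃ U, (gaugeL S hS e1 h1 h01 hi).Wd U ∧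
        ‖(gaugeL S hS e1 h1 h01 hi).E M ((gaugeL S hS e1 h1 h01 hi).xv U)
          - (gaugeL S hS e1 h1 h01 hi).E M ((gaugeL S hS e1 h1 h01 hi).xv V)‖ < ε) :
    LSys.BaseStmt := by
  obtain ⟨S, e1, hS, h1, h01, hi⟩ := exists_weyl_cyc2
  exact ⟨S, KP S, inferInstance, inferInstance, gaugeL S hS e1 h1 h01 hi, gau_J S hS,
    gau_isBase S hS e1 h1 h01 hi (hcal S hS e1 h1 h01 hi) (hR S hS e1 h1 h01 hi)⟩

end Vale.Agent.P367.NI
end

section

/-! P367: functional calculus, part 4: functions of the gauged fields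
`|phi(e0)|, sgn(phi(e0)) phi(y_i)`. -/

namespace Vale.Agent.P367.NI

open Complex MeasureTheory ProbabilityTheory Filter Topology ComplexConjugate

open Vale.Agent.P367.A (Bm)

open Vale.Agent.P367.A.LSys (Bmn)

/-- real sign -/
noncomputable def sgr (t : ℝ) : ℝ := if 0 ≤ t then 1 else -1

lemma sg_eq (t : ℝ) : sg t = ((sgr t : ℝ) : ℂ) := by
  unfold sg sgr
  split_ifs <;> simp

lemma measurable_sgr : Measurable sgr :=
  Measurable.ite measurableSet_Ici measurable_const measurable_const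

/-- gauge map of the variables -/
noncomputable def gth {n : ℕ} (z : Fin (n + 1) → ℝ) : ℝ × (Fin n → ℝ) :=
  (|z 0|, fun i => sgr (z 0) * z (Fin.succ i))

lemma measurable_gth {n : ℕ} : Measurable (gth (n := n)) := by
  unfold gth
  refine Measurable.prodMk ?_ ?_
  · exact continuous_abs.measurable.comp (measurable_pi_apply 0)
  · refine measurable_pi_lambda _ fun i => ?_
    exact (measurable_sgr.comp (measurable_pi_apply 0)).mul (measurable_pi_apply _)

/-- law of the absolute value of the label -/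
noncomputable def muA : Measure ℝ := (gaussianReal 0 1).map (fun t => |t|)

lemma mp_abs : MeasurePreserving (fun t : ℝ => |t|) (gaussianReal 0 1) muA :=
  ⟨continuous_abs.measurable, rfl⟩

instance : IsProbabilityMeasure muA :=
  Measure.isProbabilityMeasure_map continuous_abs.measurable.aemeasurable

lemma mp_sgr (a : ℝ) : MeasurePreserving (fun t : ℝ => sgr a * t) (gaussianReal 0 1)
    (gaussianReal 0 1) := by
  refine ⟨measurable_const.mul measurable_id, ?_⟩
  have h := gaussianReal_map_const_mul (μ := 0) (v := 1) (sgr a)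
  have h2 : NNReal.mk (sgr a ^ 2) (sq_nonneg _) * 1 = 1 := by
    have h3 : sgr a ^ 2 = 1 := by
      unfold sgr
      split_ifs <;> simp
    apply NNReal.coe_injective
    rw [mul_one]
    exact h3
  rw [h2, mul_zero] at h
  exact h

lemma mp_gth (n : ℕ) : MeasurePreserving (gth (n := n)) (gam (Fin (n + 1)))
    (muA.prod (Measure.pi fun _ => gaussianReal 0 1)) := by
  have h1 := measurePreserving_piFinSuccAbove (fun _ : Fin (n + 1) => gaussianReal 0 1) 0
  have h2 : MeasurePreserving (fun p : ℝ × (Fin n → ℝ) => (|p.1|, fun i => sgr p.1 * p.2 i))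
      ((gaussianReal 0 1).prod (Measure.pi fun _ : Fin n => gaussianReal 0 1))
      (muA.prod (Measure.pi fun _ => gaussianReal 0 1)) := by
    refine MeasurePreserving.skew_product (g := fun (a : ℝ) (z : Fin n → ℝ) => fun i => sgr a * z i) mp_abs ?_
      (Eventually.of_forall fun a => ?_)
    · refine measurable_pi_lambda _ fun i => ?_
      exact (measurable_sgr.comp measurable_fst).mul ((measurable_pi_apply i).comp measurable_snd)
    · exact (measurePreserving_pi (fun _ : Fin n => gaussianReal 0 1)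
        (fun _ : Fin n => gaussianReal 0 1) (fun i => mp_sgr a)).map_eq
  exact h2.comp h1

lemma Bmn.bm {n : ℕ} {f : ℝ × (Fin n → ℝ) → ℂ} (hf : Bmn f) :
    BM (fun z : Fin (n + 1) → ℝ => f (gth z)) :=
  ⟨hf.1.comp measurable_gth, hf.2.choose, fun _ => hf.2.choose_spec _⟩

section gf

variable {F K : Type} [NormedAddCommGroup F] [InnerProductSpace ℂ F]
  [NormedAddCommGroup K] [InnerProductSpace ℂ K] (S : Weyl F K)

/-- label direction followed by the directions `y` -/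
def wv {n : ℕ} (y : Fin n → K) : Fin (n + 1) → K := Fin.cons S.e0 y

lemma orthonormal_wv {n : ℕ} {y : Fin n → K} (hy : Orthonormal ℂ y)
    (h0 : ∀ i, inner ℂ S.e0 (y i) = 0) : Orthonormal ℂ (wv S y) := by
  rw [orthonormal_iff_ite] at hy ⊢
  intro i j
  refine Fin.cases ?_ (fun i => ?_) i
  · refine Fin.cases ?_ (fun j => ?_) j
    · rw [if_pos rfl]
      change inner ℂ S.e0 S.e0 = 1
      rw [inner_self_eq_norm_sq_to_K, S.norm_e0]
      simp
    · rw [if_neg (Fin.succ_ne_zero j).symm]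
      exact h0 j
  · refine Fin.cases ?_ (fun j => ?_) j
    · rw [if_neg (Fin.succ_ne_zero i)]
      change inner ℂ (y i) S.e0 = 0
      rw [← inner_conj_symm, h0, map_zero]
    · change inner ℂ (y i) (y j) = _
      rw [hy]
      simp [Fin.succ_inj]

lemma lc_wv {n : ℕ} (y : Fin n → K) (k : Fin (n + 1) → ℝ) :
    lc (wv S y) k = ((k 0 : ℝ) : ℂ) • S.e0 + lc y (fun i => k i.succ) := by
  unfold lc wv
  rw [Fin.sum_univ_succ]
  rfl

variable [CompleteSpace F] (hS : S.Cyc) {n : ℕ} {y : Fin n → K} (hw : Orthonormal ℂ (wv S y))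

/-- functions of the gauged fields -/
noncomputable def gf (f : ℝ × (Fin n → ℝ) → ℂ) : F →L[ℂ] F :=
  S.fc hS hw (fun z => f (gth z))

lemma so_eq (x : F) : so S hS x = S.fc hS hw (fun z => sg (z 0)) x := by
  unfold so lf
  have h := S.fc_sub' hS (orthonormal_e0 S) hw (fun _ : Fin 1 => (0 : Fin (n + 1)))
    (fun _ => rfl) (bm_of bm_sg) x
  exact h.symm

lemma gf_lab {f : ℝ → ℂ} (hf : Bm f) (x : F) :
    gf S hS hw (fun z => f z.1) x = lf S hS (fun t => f |t|) x := by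
  have hb : Bm (fun t => f |t|) :=
    ⟨hf.1.comp continuous_abs.measurable, hf.2.choose, fun _ => hf.2.choose_spec _⟩
  unfold gf lf
  exact S.fc_sub' hS (orthonormal_e0 S) hw (fun _ : Fin 1 => (0 : Fin (n + 1)))
    (fun _ => rfl) (bm_of hb) x

lemma gf_W (k : Fin n → ℝ) (x : F) :
    gf S hS hw (fun z => Complex.exp (Complex.I * ((∑ i, k i * z.2 i : ℝ) : ℂ))) x
      = wg S hS (lc y k) x := by
  set k' : Fin (n + 1) → ℝ := Fin.cons 0 k with hk'
  have hl : lc (wv S y) k' = lc y k := by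
    rw [lc_wv, hk']
    simp
  have hl2 : lc (wv S y) (-k') = -lc y k := by rw [lc_neg, hl]
  have e1 : (fun z : Fin (n + 1) → ℝ =>
      Complex.exp (Complex.I * ((∑ i, k i * (gth z).2 i : ℝ) : ℂ)))
      = fun z => (1 / 2 : ℂ) * (ek k' z + ek (-k') z)
        + (1 / 2 : ℂ) * (sg (z 0) * (ek k' z - ek (-k') z)) := by
    funext z
    have h1 : ek k' z = Complex.exp (Complex.I * ((∑ i, k i * z i.succ : ℝ) : ℂ)) := by
      unfold ek
      rw [Fin.sum_univ_succ, hk']
      simp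
    have h2 : ek (-k') z = Complex.exp (Complex.I * ((-(∑ i, k i * z i.succ) : ℝ) : ℂ)) := by
      unfold ek
      rw [Fin.sum_univ_succ, hk']
      simp
    rw [h1, h2]
    have h3 : (∑ i, k i * (gth z).2 i) = sgr (z 0) * ∑ i, k i * z i.succ := by
      rw [Finset.mul_sum]
      refine Finset.sum_congr rfl fun i _ => ?_
      simp only [gth]
      ring
    rw [h3]
    unfold sgr sg
    split_ifs
    · rw [one_mul]
      ring
    · rw [neg_one_mul]
      ring
  have b1 : BM (ek k') := BM.ek k'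
  have b2 : BM (ek (-k')) := BM.ek (-k')
  have bs : BM (fun z : Fin (n + 1) → ℝ => sg (z 0)) :=
    ⟨bm_sg.1.comp (measurable_pi_apply 0), bm_sg.2.choose, fun _ => bm_sg.2.choose_spec _⟩
  unfold gf
  rw [e1, S.fc_add hS hw ((b1.add b2).cmul _) ((bs.mul (b1.sub b2)).cmul _),
    S.fc_cmul hS hw _ (b1.add b2), S.fc_cmul hS hw _ (bs.mul (b1.sub b2)),
    S.fc_mul hS hw bs (b1.sub b2), S.fc_add hS hw b1 b2, S.fc_sub hS hw b1 b2, ← so_eq S hS hw]
  have f1 : S.fc hS hw (fun z => ek k' z) x = S.W (lc y k) x := by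
    rw [← hl]
    exact S.fc_ek hS hw k' x
  have f2 : S.fc hS hw (fun z => ek (-k') z) x = S.W (-lc y k) x := by
    rw [← hl2]
    exact S.fc_ek hS hw (-k') x
  rw [f1, f2, wg_apply]

lemma gf_add {f g : ℝ × (Fin n → ℝ) → ℂ} (hf : Bmn f) (hg : Bmn g) (x : F) :
    gf S hS hw (fun z => f z + g z) x = gf S hS hw f x + gf S hS hw g x :=
  S.fc_add hS hw (Bmn.bm hf) (Bmn.bm hg) x

lemma gf_mul {f g : ℝ × (Fin n → ℝ) → ℂ} (hf : Bmn f) (hg : Bmn g) (x : F) :
    gf S hS hw (fun z => f z * g z) x = gf S hS hw f (gf S hS hw g x) :=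
  S.fc_mul hS hw (Bmn.bm hf) (Bmn.bm hg) x

lemma gf_adj {f : ℝ × (Fin n → ℝ) → ℂ} (hf : Bmn f) (x x' : F) :
    inner ℂ (gf S hS hw f x) x' = inner ℂ x (gf S hS hw (fun z => conj (f z)) x') :=
  S.inner_fc_left hS hw (Bmn.bm hf) x x'

lemma gf_norm {f : ℝ × (Fin n → ℝ) → ℂ} (hf : Bmn f) {C : ℝ} (hC : ∀ z, ‖f z‖ ≤ C) (x : F) :
    ‖gf S hS hw f x‖ ≤ C * ‖x‖ :=
  S.norm_fc_le hS hw (Bmn.bm hf) (Eventually.of_forall fun _ => hC _) x

lemma gf_lim {f : ℕ → ℝ × (Fin n → ℝ) → ℂ} {f0 : ℝ × (Fin n → ℝ) → ℂ} {C : ℝ}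
    (hf : ∀ m, Bmn (f m)) (hf0 : Bmn f0) (hC : ∀ m z, ‖f m z‖ ≤ C)
    (h : ∀ᵐ z ∂(muA.prod (Measure.pi fun _ : Fin n => gaussianReal 0 1)),
      Tendsto (fun m => f m z) atTop (𝓝 (f0 z))) (x : F) :
    Tendsto (fun m => gf S hS hw (f m) x) atTop (𝓝 (gf S hS hw f0 x)) := by
  refine S.tendsto_fc hS hw (fun m => Bmn.bm (hf m)) (Bmn.bm hf0) (fun m z => hC m _) ?_ x
  exact (mp_gth n).quasiMeasurePreserving.ae h

lemma gf_vac {f : ℝ × (Fin n → ℝ) → ℂ} (hf : Bmn f) :
    inner ℂ S.Om (gf S hS hw f S.Om)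
      = ∫ z, f z ∂(muA.prod (Measure.pi fun _ : Fin n => gaussianReal 0 1)) := by
  unfold gf
  rw [S.vac_fc hS hw (Bmn.bm hf), ← (mp_gth n).map_eq,
    integral_map measurable_gth.aemeasurable hf.1.aestronglyMeasurable]

end gf

end Vale.Agent.P367.NI
end

section

/-! P367: functional calculus, part 5: lift of the gauged fields to the one-site space, and
operators commuting with them. -/

namespace Vale.Agent.P367.NI

open Complex MeasureTheory ProbabilityTheory Filter Topology ComplexConjugate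

open Vale.Agent.P367.A (Bm)

open Vale.Agent.P367.A.LSys (Bmn)

variable {F K : Type} [NormedAddCommGroup F] [InnerProductSpace ℂ F]
  [NormedAddCommGroup K] [InnerProductSpace ℂ K]

/-- diagonal lift of an operator to the one-site space -/
noncomputable def dlc (A : F →L[ℂ] F) : HH F →L[ℂ] HH F :=
  LinearMap.mkContinuous
    { toFun := fun x => WithLp.toLp 2 (A x.fst, A x.snd)
      map_add' := fun x y => by
        refine Weyl.HH_ext' ?_ ?_
        · exact map_add A _ _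
        · exact map_add A _ _
      map_smul' := fun c x => by
        refine Weyl.HH_ext' ?_ ?_
        · exact map_smul A _ _
        · exact map_smul A _ _ } ‖A‖ (fun x => by
    refine (sq_le_sq₀ (norm_nonneg _) (mul_nonneg (norm_nonneg _) (norm_nonneg _))).1 ?_
    rw [mul_pow, normsq_HH, normsq_HH x]
    have h1 := A.le_opNorm x.fst
    have h2 := A.le_opNorm x.snd
    have h3 := pow_le_pow_left₀ (norm_nonneg _) h1 2
    have h4 := pow_le_pow_left₀ (norm_nonneg _) h2 2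
    rw [mul_pow] at h3 h4
    rw [mul_add]
    exact add_le_add h3 h4)

lemma dlc_fst (A : F →L[ℂ] F) (x : HH F) : (dlc A x).fst = A x.fst := rfl

lemma dlc_snd (A : F →L[ℂ] F) (x : HH F) : (dlc A x).snd = A x.snd := rfl

lemma norm_dlc_le {A : F →L[ℂ] F} {C : ℝ} (hC : ∀ x, ‖A x‖ ≤ C * ‖x‖) (x : HH F) (h0 : 0 ≤ C) :
    ‖dlc A x‖ ≤ C * ‖x‖ := by
  refine (sq_le_sq₀ (norm_nonneg _) (mul_nonneg h0 (norm_nonneg _))).1 ?_
  rw [mul_pow, normsq_HH, normsq_HH x]
  have h3 := pow_le_pow_left₀ (norm_nonneg _) (hC x.fst) 2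
  have h4 := pow_le_pow_left₀ (norm_nonneg _) (hC x.snd) 2
  rw [mul_pow] at h3 h4
  rw [mul_add]
  exact add_le_add h3 h4

lemma tendsto_dlc {A : ℕ → F →L[ℂ] F} {B : F →L[ℂ] F}
    (h : ∀ x, Tendsto (fun m => A m x) atTop (𝓝 (B x))) (x : HH F) :
    Tendsto (fun m => dlc (A m) x) atTop (𝓝 (dlc B x)) :=
  tendsto_HH (h x.fst) (h x.snd)

section g

variable (S : Weyl F K) [CompleteSpace F] (hS : S.Cyc) {n : ℕ} {y : Fin n → K}
  (hw : Orthonormal ℂ (wv S y))

/-- the functional calculus of the gauged fields on the one-site space -/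
noncomputable def gfH (f : ℝ × (Fin n → ℝ) → ℂ) : HH F →L[ℂ] HH F := dlc (gf S hS hw f)

lemma gfH_add {f g : ℝ × (Fin n → ℝ) → ℂ} (hf : Bmn f) (hg : Bmn g) :
    gfH S hS hw (fun z => f z + g z) = gfH S hS hw f + gfH S hS hw g := by
  ext1 x
  refine Weyl.HH_ext' ?_ ?_
  · exact gf_add S hS hw hf hg _
  · exact gf_add S hS hw hf hg _

lemma gfH_mul {f g : ℝ × (Fin n → ℝ) → ℂ} (hf : Bmn f) (hg : Bmn g) :
    gfH S hS hw (fun z => f z * g z) = gfH S hS hw f * gfH S hS hw g := by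
  ext1 x
  refine Weyl.HH_ext' ?_ ?_
  · exact gf_mul S hS hw hf hg _
  · exact gf_mul S hS hw hf hg _

lemma gfH_adj {f : ℝ × (Fin n → ℝ) → ℂ} (hf : Bmn f) (x x' : HH F) :
    inner ℂ (gfH S hS hw f x) x' = inner ℂ x (gfH S hS hw (fun z => conj (f z)) x') := by
  rw [inner_HH, inner_HH]
  exact congrArg₂ (· + ·) (gf_adj S hS hw hf _ _) (gf_adj S hS hw hf _ _)

lemma gfH_norm {f : ℝ × (Fin n → ℝ) → ℂ} (hf : Bmn f) {C : ℝ} (hC : ∀ z, ‖f z‖ ≤ C) (x : HH F) :
    ‖gfH S hS hw f x‖ ≤ C * ‖x‖ :=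
  norm_dlc_le (fun x => gf_norm S hS hw hf hC x) x ((norm_nonneg _).trans (hC (0, 0)))

lemma gfH_lim {f : ℕ → ℝ × (Fin n → ℝ) → ℂ} {f0 : ℝ × (Fin n → ℝ) → ℂ} {C : ℝ}
    (hf : ∀ m, Bmn (f m)) (hf0 : Bmn f0) (hC : ∀ m z, ‖f m z‖ ≤ C)
    (h : ∀ᵐ z ∂(muA.prod (Measure.pi fun _ : Fin n => gaussianReal 0 1)),
      Tendsto (fun m => f m z) atTop (𝓝 (f0 z))) (x : HH F) :
    Tendsto (fun m => gfH S hS hw (f m) x) atTop (𝓝 (gfH S hS hw f0 x)) :=
  tendsto_dlc (fun x => gf_lim S hS hw hf hf0 hC h x) x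

lemma gfH_vac {f : ℝ × (Fin n → ℝ) → ℂ} (hf : Bmn f) :
    inner ℂ S.OmH (gfH S hS hw f S.OmH)
      = ∫ z, f z ∂(muA.prod (Measure.pi fun _ : Fin n => gaussianReal 0 1)) := by
  rw [NI.inner_HH]
  show inner ℂ ((((Real.sqrt 2)⁻¹ : ℝ) : ℂ) • S.Om)
      (gf S hS hw f ((((Real.sqrt 2)⁻¹ : ℝ) : ℂ) • S.Om)) +
    inner ℂ ((((Real.sqrt 2)⁻¹ : ℝ) : ℂ) • S.Om)
      (gf S hS hw f ((((Real.sqrt 2)⁻¹ : ℝ) : ℂ) • S.Om)) = _
  rw [map_smul, inner_smul_left, inner_smul_right, Complex.conj_ofReal, gf_vac S hS hw hf,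
    ← mul_assoc, A.sqrt_two_inv_sq]
  ring

/-- gauge map with values in the index set of the fields -/
noncomputable def gk (z : Fin (n + 1) → ℝ) : Fin (n + 1) → ℝ :=
  Fin.cons |z 0| (fun i => sgr (z 0) * z (Fin.succ i))

omit [NormedAddCommGroup F] in
lemma measurable_gk : Measurable (gk (n := n)) := by
  refine measurable_pi_lambda _ fun i => ?_
  refine Fin.cases ?_ (fun i => ?_) i
  · exact continuous_abs.measurable.comp (measurable_pi_apply 0)
  · exact (measurable_sgr.comp (measurable_pi_apply 0)).mul (measurable_pi_apply _)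

/-- pairing density on the one-site space -/
noncomputable def kerH (x x' : HH F) (z : Fin (n + 1) → ℝ) : ℂ :=
  S.ker hS hw x.fst x'.fst z + S.ker hS hw x.snd x'.snd z

lemma integrable_kerH (x x' : HH F) : Integrable (kerH S hS hw x x') (gam (Fin (n + 1))) :=
  (S.integrable_ker hS hw _ _).add (S.integrable_ker hS hw _ _)

lemma inner_gfH {f : ℝ × (Fin n → ℝ) → ℂ} (hf : Bmn f) (x x' : HH F) :
    inner ℂ x (gfH S hS hw f x')
      = ∫ z, f (gth z) * kerH S hS hw x x' z ∂(gam (Fin (n + 1))) := by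
  have hi : ∀ u v : F, Integrable (fun z => f (gth z) * S.ker hS hw u v z) (gam (Fin (n + 1))) :=
    fun u v => integrable_mul_bdd (S.integrable_ker hS hw u v)
      (Bmn.bm hf).1.aestronglyMeasurable (Eventually.of_forall fun z => hf.2.choose_spec _)
  rw [inner_HH]
  have h1 : inner ℂ x.fst (gfH S hS hw f x').fst
      = ∫ z, f (gth z) * S.ker hS hw x.fst x'.fst z ∂(gam (Fin (n + 1))) :=
    S.inner_fc_right hS hw (Bmn.bm hf) _ _
  have h2 : inner ℂ x.snd (gfH S hS hw f x').snd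
      = ∫ z, f (gth z) * S.ker hS hw x.snd x'.snd z ∂(gam (Fin (n + 1))) :=
    S.inner_fc_right hS hw (Bmn.bm hf) _ _
  rw [h1, h2, ← integral_add (hi _ _) (hi _ _)]
  refine integral_congr_ae (Eventually.of_forall fun z => ?_)
  simp only [kerH]
  ring

/-- exponential functions of the label and of the fields -/
noncomputable def ekp (k : Fin (n + 1) → ℝ) (z : ℝ × (Fin n → ℝ)) : ℂ :=
  Complex.exp (Complex.I * ((k 0 * z.1 : ℝ) : ℂ))
    * Complex.exp (Complex.I * ((∑ i : Fin n, k i.succ * z.2 i : ℝ) : ℂ))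

omit [NormedAddCommGroup F] in
lemma ek_gk (k z : Fin (n + 1) → ℝ) : ek k (gk z) = ekp k (gth z) := by
  unfold ek ekp
  rw [← Complex.exp_add, Fin.sum_univ_succ, ← mul_add, ← Complex.ofReal_add]
  rfl

omit [NormedAddCommGroup F] in
lemma norm_exp_Iof (r : ℝ) : ‖Complex.exp (Complex.I * ((r : ℝ) : ℂ))‖ = 1 := by
  rw [mul_comm, Complex.norm_exp_ofReal_mul_I]

omit [NormedAddCommGroup F] in
lemma bm_e (a : ℝ) : Bm fun t => Complex.exp (Complex.I * ((a * t : ℝ) : ℂ)) :=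
  ⟨by fun_prop, 1, fun t => (norm_exp_Iof _).le⟩

lemma bmn_e1 (a : ℝ) :
    Bmn fun z : ℝ × (Fin n → ℝ) => Complex.exp (Complex.I * ((a * z.1 : ℝ) : ℂ)) :=
  ⟨by fun_prop, 1, fun t => (norm_exp_Iof _).le⟩

lemma bmn_e2 (k : Fin n → ℝ) :
    Bmn fun z : ℝ × (Fin n → ℝ) => Complex.exp (Complex.I * ((∑ i, k i * z.2 i : ℝ) : ℂ)) :=
  ⟨by fun_prop, 1, fun t => (norm_exp_Iof _).le⟩

lemma bmn_ekp (k : Fin (n + 1) → ℝ) : Bmn (ekp k) := by
  refine ⟨(bmn_e1 (k 0)).1.mul (bmn_e2 (fun i => k i.succ)).1, 1, fun z => ?_⟩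
  unfold ekp
  rw [norm_mul, mul_comm Complex.I, mul_comm Complex.I, Complex.norm_exp_ofReal_mul_I,
    Complex.norm_exp_ofReal_mul_I, one_mul]

/-- an operator commuting with the label functions and the gauged Weyl operators of the fields
commutes with the functional calculus -/
theorem gfH_comm (B : HH F →L[ℂ] HH F)
    (hl : ∀ g, Bm g → ∀ x, gfH S hS hw (fun z => g z.1) (B x) = B (gfH S hS hw (fun z => g z.1) x))
    (hW : ∀ (k : Fin n → ℝ) x,
      gfH S hS hw (fun z => Complex.exp (Complex.I * ((∑ i, k i * z.2 i : ℝ) : ℂ))) (B x)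
        = B (gfH S hS hw (fun z => Complex.exp (Complex.I * ((∑ i, k i * z.2 i : ℝ) : ℂ))) x))
    {f : ℝ × (Fin n → ℝ) → ℂ} (hf : Bmn f) :
    gfH S hS hw f * B = B * gfH S hS hw f := by
  ext1 x
  apply ext_inner_left ℂ
  intro v
  change inner ℂ v (gfH S hS hw f (B x)) = inner ℂ v (B (gfH S hS hw f x))
  rw [← ContinuousLinearMap.adjoint_inner_left B, inner_gfH S hS hw hf, inner_gfH S hS hw hf]
  obtain ⟨C, hC⟩ := hf.2
  set f' : (Fin (n + 1) → ℝ) → ℂ := fun z => f (z 0, fun i => z i.succ) with hf'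
  have hm : Measurable f' := by
    refine hf.1.comp (Measurable.prodMk (measurable_pi_apply 0) ?_)
    exact measurable_pi_lambda _ fun i => measurable_pi_apply _
  have h := uniq2 (X := gk) (Y := gk) (integrable_kerH S hS hw v (B x))
    (integrable_kerH S hS hw (ContinuousLinearMap.adjoint B v) x) measurable_gk measurable_gk
    (fun k => ?_) hm (C := C) (fun z => hC _)
  · exact h
  · simp only [ek_gk]
    rw [← inner_gfH S hS hw (bmn_ekp k), ← inner_gfH S hS hw (bmn_ekp k),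
      ContinuousLinearMap.adjoint_inner_left]
    have e : ∀ x, gfH S hS hw (ekp k) x
        = gfH S hS hw (fun z => Complex.exp (Complex.I * ((k 0 * z.1 : ℝ) : ℂ)))
          (gfH S hS hw (fun z => Complex.exp (Complex.I * ((∑ i : Fin n, k i.succ * z.2 i : ℝ) : ℂ)))
            x) := by
      intro x
      have h := gfH_mul S hS hw (bmn_e1 (n := n) (k 0)) (bmn_e2 (fun i : Fin n => k i.succ))
      exact DFunLike.congr_fun h x
    rw [e, e, hW (fun i => k i.succ)]
    congr 1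
    exact hl _ (bm_e (k 0)) _

end g

end Vale.Agent.P367.NI
end

section

/-! P367 block B: the functional calculus of the gauged label system. -/

namespace Vale.Agent.P367.NI

open Complex Filter Topology MeasureTheory ProbabilityTheory

open Vale.Agent.P367.A (Bm LSys Sys hh_ext swp)

open Vale.Agent.P367.A.LSys (Bmn)

variable {F K : Type} [NormedAddCommGroup F] [InnerProductSpace ℂ F]
  [NormedAddCommGroup K] [InnerProductSpace ℂ K] [CompleteSpace F] (S : Weyl F K) (hS : S.Cyc)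

omit [CompleteSpace F] in
lemma gfc_on {n : ℕ} {y : Fin n → KP S} (hy : Orthonormal ℂ y) :
    Orthonormal ℂ (wv S fun i => ((y i : KP S) : K)) := by
  refine orthonormal_wv S ?_ (fun i => kp_perp S (y i))
  rw [orthonormal_iff_ite] at hy ⊢
  intro i j
  exact hy i j

omit [CompleteSpace F] in
lemma gfc_lc {n : ℕ} (y : Fin n → KP S) (k : Fin n → ℝ) :
    (((∑ i, (k i : ℂ) • y i : KP S)) : K) = lc (fun i => ((y i : KP S) : K)) k := by
  unfold lc
  rw [Submodule.coe_sum]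
  rfl

/-- **functional calculus of the gauged label system** -/
theorem fcal_gaugeL (e1 : K) (h1 : ‖e1‖ = 1) (h01 : inner ℂ S.e0 e1 = 0)
    (hi : ∀ x, inner ℂ e1 (S.iota x) = 0) (n : ℕ) (y : Fin n → KP S) (hy : Orthonormal ℂ y) :
    ∃ fc, (gaugeL S hS e1 h1 h01 hi).FCal y fc := by
  set L := gaugeL S hS e1 h1 h01 hi with hL
  have hw := gfc_on S hy
  have hlab : ∀ f, Bm f → gfH S hS hw (fun z => f z.1) = L.lab f := by
    intro f hf
    ext1 x
    exact hh_ext (gf_lab S hS hw hf x.fst) (gf_lab S hS hw hf x.snd)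
  have hW : ∀ (k : Fin n → ℝ) x,
      gfH S hS hw (fun z => Complex.exp (Complex.I * ((∑ i, k i * z.2 i : ℝ) : ℂ))) x
        = L.W (∑ i, (k i : ℂ) • y i) x := by
    intro k x
    refine hh_ext ?_ ?_
    · change gf S hS hw _ x.fst = wg S hS ((∑ i, (k i : ℂ) • y i : KP S) : K) x.fst
      rw [gfc_lc]
      exact gf_W S hS hw k x.fst
    · change gf S hS hw _ x.snd = wg S hS ((∑ i, (k i : ℂ) • y i : KP S) : K) x.snd
      rw [gfc_lc]
      exact gf_W S hS hw k x.snd
  refine ⟨gfH S hS hw, ?_⟩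
  exact
    { lab := hlab
      W := hW
      add := fun f g hf hg => gfH_add S hS hw hf hg
      mul := fun f g hf hg => gfH_mul S hS hw hf hg
      adj := fun f hf x x' => gfH_adj S hS hw hf x x'
      norm := fun f hf C hC x => gfH_norm S hS hw hf hC x
      comm := fun f hf B hB1 hB2 => by
        refine gfH_comm S hS hw B (fun g hg x => ?_) (fun k x => ?_) hf
        · rw [hlab g hg]
          exact DFunLike.congr_fun (hB1 g hg) x
        · rw [hW, hW]
          exact hB2 k x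
      vac := fun f hf => gfH_vac S hS hw hf
      lim := fun f f0 C hf hf0 hC h x => gfH_lim S hS hw hf hf0 hC h x }

end Vale.Agent.P367.NI
end

section

/-! P367, block B, BASE: the closure properties of the basic reachability predicate. -/

namespace Vale.Agent.P367.A

open Complex Filter Topology MeasureTheory

namespace LSys

variable {H K : Type*} [NormedAddCommGroup H] [InnerProductSpace ℂ H]
  [NormedAddCommGroup K] [InnerProductSpace ℂ K] (L : LSys H K)

/-! ### the control algebra of labels -/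

theorem ctl0 : L.Ctl L.alg0 where
  lab f hf := ⟨f, hf, rfl⟩
  add := by
    rintro _ _ ⟨f, hf, rfl⟩ ⟨g, hg, rfl⟩
    exact ⟨_, hf.ad hg, (L.lab_add f g hf hg).symm⟩
  mul := by
    rintro _ _ ⟨f, hf, rfl⟩ ⟨g, hg, rfl⟩
    exact ⟨_, hf.ml hg, (L.lab_mul f g hf hg).symm⟩
  adj := by
    rintro _ ⟨f, hf, rfl⟩
    exact ⟨_, ⟨_, hf.cj, rfl⟩, L.lab_adj f hf⟩
  comm := by
    rintro _ _ ⟨f, hf, rfl⟩ ⟨g, hg, rfl⟩
    ext x
    exact L.b_comm hf hg x
  X := by
    rintro _ ⟨f, _, rfl⟩ x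
    exact L.lab_X f x
  Z := by
    rintro _ ⟨f, _, rfl⟩ x
    exact L.lab_Z f x
  W := by
    rintro _ ⟨f, _, rfl⟩ T _ _ x
    exact L.lab_W f _ x

/-! ### label phases -/

lemma Br.expm {g : ℝ → ℂ} (hg : Br g) : Bm fun t => Complex.exp (-(Complex.I * g t)) := by
  have h : (fun t => Complex.exp (-(Complex.I * g t)))
      = fun t => Complex.exp ((-Complex.I) * g t) := by
    funext t; rw [neg_mul]
  rw [h]
  exact (hg.1.cm _).comp Complex.continuous_exp

lemma phl_norm {g : ℝ → ℂ} (hg : Br g) (x : H) : ‖L.phl g x‖ = ‖x‖ := by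
  have h := L.b_normsq hg.expm x
  have e : (fun t => (starRingEnd ℂ) (Complex.exp (-(Complex.I * g t)))
      * Complex.exp (-(Complex.I * g t))) = fun _ => 1 := by
    funext t
    have hc : (starRingEnd ℂ) (g t) = g t := Complex.conj_eq_iff_im.2 (hg.2 t)
    rw [← Complex.exp_conj, ← Complex.exp_add, map_neg, map_mul, Complex.conj_I, hc]
    rw [show -(-Complex.I * g t) + -(Complex.I * g t) = 0 by ring, Complex.exp_zero]
  rw [e, L.b_const, one_smul, inner_self_eq_norm_sq_to_K] at h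
  have h2 : ((‖L.phl g x‖ ^ 2 : ℝ) : ℂ) = ((‖x‖ ^ 2 : ℝ) : ℂ) := by
    refine Eq.trans h ?_
    push_cast
    rfl
  exact (sq_eq_sq₀ (norm_nonneg _) (norm_nonneg _)).1 (Complex.ofReal_injective h2)

lemma phl_add {g h : ℝ → ℂ} (hg : Br g) (hh : Br h) (x : H) :
    L.phl g (L.phl h x) = L.phl (fun t => g t + h t) x := by
  unfold phl
  rw [L.b_mul hg.expm hh.expm]
  congr 2
  funext t
  rw [← Complex.exp_add]
  congr 1
  ring

lemma phl_zero (x : H) : L.phl (fun _ => 0) x = x := by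
  unfold phl
  simp only [mul_zero, neg_zero, Complex.exp_zero]
  rw [L.b_const, one_smul]

lemma phl_P (g : ℝ → ℂ) (P : Fin 3) (x : H) : L.phl g (L.pau P x) = L.pau P (L.phl g x) :=
  L.b_labP _ P x

lemma phl_E {g : ℝ → ℂ} (hg : Br g) {b : Set ℝ} (hb : MeasurableSet b) (x : H) :
    L.phl g (L.E b x) = L.E b (L.phl g x) := L.b_comm hg.expm (Bm.ndc hb) x

/-- phases only matter where they are seen -/
lemma phl_congr {g h : ℝ → ℂ} (hg : Br g) (hh : Br h) {b : Set ℝ} (hb : MeasurableSet b)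
    (hgh : ∀ t ∈ b, g t = h t) (x : H) : L.phl g (L.E b x) = L.phl h (L.E b x) := by
  unfold phl E
  rw [L.b_mul hg.expm (Bm.ndc hb), L.b_mul hh.expm (Bm.ndc hb)]
  congr 2
  funext t
  by_cases ht : t ∈ b
  · rw [hgh t ht]
  · simp [ht]

/-! ### comparison of field vectors -/

lemma xv_close {M B : Set ℝ} (hM : MeasurableSet M) (hB : MeasurableSet B) (hBM : B ⊆ M)
    {U V : H ≃ₗᵢ[ℂ] H} (hU : ∀ f, Bm f → ∀ x, L.lab f (U x) = U (L.lab f x)) {g : ℝ → ℂ}
    (Q : Fin 3) :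
    ‖L.E B (U⁻¹ (L.pau Q (U L.Om))) - L.E B (V⁻¹ (L.pau Q (V L.Om)))‖
      ≤ ‖L.E M (U L.Om) - L.phl g (L.E M (V L.Om))‖
        + ‖L.E M (U (V⁻¹ (L.pau Q (V L.Om))))
          - L.phl g (L.E M (V (V⁻¹ (L.pau Q (V L.Om)))))‖ := by
  set z := V⁻¹ (L.pau Q (V L.Om)) with hz
  have hVz : V z = L.pau Q (V L.Om) := V.apply_symm_apply _
  have h1 : ∀ y, U (U⁻¹ y) = y := fun y => U.apply_symm_apply y
  have hUE : ∀ y, L.E B (U y) = U (L.E B y) := fun y => hU _ (Bm.ndc hB) y
  rw [← U.norm_map]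
  have e1 : U (L.E B (U⁻¹ (L.pau Q (U L.Om))) - L.E B z)
      = L.E B (L.E M (L.pau Q (U L.Om) - U z)) := by
    rw [map_sub, ← hUE, ← hUE, h1, L.b_Esub hB hM hBM, map_sub]
  rw [e1]
  refine (L.b_Enorm hB _).trans ?_
  have e2 : L.E M (L.pau Q (U L.Om) - U z)
      = L.pau Q (L.E M (U L.Om) - L.phl g (L.E M (V L.Om)))
        - (L.E M (U z) - L.phl g (L.E M (V z))) := by
    rw [hVz, map_sub, L.b_EP, L.b_EP, L.phl_P, map_sub]
    abel
  rw [e2]
  refine (norm_sub_le _ _).trans ?_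
  rw [(L.pau Q).norm_map]

/-! ### continuity of pulses -/

lemma pw_cont (P : Fin 3) (a0 : K) (s : Finset H) {ε : ℝ} (hε : 0 < ε) :
    ∃ δ > 0, ∀ a : K, ‖a - a0‖ < δ → ∀ x ∈ s,
      ‖L.pw (L.pau P) a x - L.pw (L.pau P) a0 x‖ < ε := by
  have h : ∀ᶠ a in 𝓝 a0, ∀ x ∈ s, ‖L.pw (L.pau P) a x - L.pw (L.pau P) a0 x‖ < ε := by
    rw [Filter.eventually_all_finset]
    intro x _
    have hid := tendsto_id (α := K) (x := 𝓝 a0)
    have h1 := L.b_Wcont hid x
    have h2 := L.b_Wcont hid.neg x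
    have h3 := L.b_Wcont hid (L.pau P x)
    have h4 := L.b_Wcont hid.neg (L.pau P x)
    have h5 : Tendsto (fun a => L.pw (L.pau P) a x) (𝓝 a0) (𝓝 (L.pw (L.pau P) a0 x)) :=
      ((h2.add h1).const_smul (1 / 2 : ℂ)).add ((h4.sub h3).const_smul (1 / 2 : ℂ))
    rw [Metric.tendsto_nhds] at h5
    filter_upwards [h5 ε hε] with a ha
    rwa [← dist_eq_norm]
  obtain ⟨δ, hδ, h2⟩ := Metric.eventually_nhds_iff.1 h
  exact ⟨δ, hδ, fun a ha => h2 (by rwa [dist_eq_norm])⟩

lemma lab_pwb (f : ℝ → ℂ) (P : Fin 3) (v : K) (x : H) :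
    L.lab f (L.pw (L.pau P) v x) = L.pw (L.pau P) v (L.lab f x) := by
  unfold pw
  simp only [map_add, map_sub, map_smul, L.lab_W, L.b_labP]

lemma pw_zerob (P : Fin 3) (v : K) : L.pw (L.pau P) v (0 : H) = 0 := by
  unfold pw
  simp

lemma coup_lab {A B : Set ℝ} (hA : MeasurableSet A) (hB : MeasurableSet B) {P Q : Fin 3} {c : ℝ}
    {V U : H ≃ₗᵢ[ℂ] H} (hU : L.IsCoup A B P Q c V U) {f : ℝ → ℂ} (hf : Bm f) (x : H) :
    L.lab f (U x) = U (L.lab f x) := by
  have hA' : L.lab f (L.E A x) = L.E A (L.lab f x) := L.b_comm hf (Bm.ndc hA) x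
  have hB' : L.lab f (L.E B x) = L.E B (L.lab f x) := L.b_comm hf (Bm.ndc hB) x
  rw [hU, hU, ← hA', ← hB', ← L.lab_pwb, ← L.lab_pwb]
  simp only [map_add, map_sub]

lemma coup_off {A B R : Set ℝ} (hA : MeasurableSet A) (hB : MeasurableSet B)
    (hR : MeasurableSet R) (hAR : Disjoint A R) (hBR : Disjoint B R) {P Q : Fin 3} {c : ℝ}
    {V U : H ≃ₗᵢ[ℂ] H} (hU : L.IsCoup A B P Q c V U) (x : H) : L.E R (U x) = L.E R x := by
  have h1 : L.E R (U x) = U (L.E R x) := L.coup_lab hA hB hU (Bm.ndc hR) x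
  rw [h1, hU, L.b_Edis hA hR hAR, L.b_Edis hB hR hBR, L.pw_zerob, L.pw_zerob]
  simp

lemma lr_off {f : ℝ → ℂ} (hf : Bm f) {R : Set ℝ} (hR : MeasurableSet R)
    (hfR : ∀ t ∈ R, f t = 0) (P : Fin 3) (x : H) : L.E R (L.lr f P x) = L.E R x := by
  have cf : Bm fun t => Complex.cos (f t) := hf.comp Complex.continuous_cos
  have sf : Bm fun t => Complex.sin (f t) := hf.comp Complex.continuous_sin
  rw [lr_apply, map_sub, map_smul]
  unfold E
  rw [L.b_mul (Bm.ndc hR) cf, L.b_mul (Bm.ndc hR) sf]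
  have e1 : (fun t => R.indicator (fun _ => (1 : ℂ)) t * Complex.cos (f t))
      = R.indicator fun _ => 1 := by
    funext t
    by_cases ht : t ∈ R
    · simp [ht, hfR t ht]
    · simp [ht]
  have e2 : (fun t => R.indicator (fun _ => (1 : ℂ)) t * Complex.sin (f t)) = fun _ => 0 := by
    funext t
    by_cases ht : t ∈ R
    · simp [ht, hfR t ht]
    · simp [ht]
  rw [e1, e2, L.b_const, zero_smul, smul_zero, sub_zero]

/-- self-adjoint label functions may be taken real -/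
lemma lab_real {f : ℝ → ℂ} (hf : Bm f) (hs : Sa (L.lab f)) :
    Br (fun t => ((f t).re : ℂ)) ∧ L.lab (fun t => ((f t).re : ℂ)) = L.lab f := by
  have e : (fun t => ((f t).re : ℂ)) = fun t => (1 / 2 : ℂ) * (f t + (starRingEnd ℂ) (f t)) := by
    funext t
    rw [Complex.re_eq_add_conj]
    ring
  have hB : Bm (fun t => ((f t).re : ℂ)) := by
    rw [e]; exact (hf.ad hf.cj).cm _
  refine ⟨⟨hB, fun t => Complex.ofReal_im _⟩, ?_⟩
  have h1 : L.lab (fun t => (starRingEnd ℂ) (f t)) = L.lab f := by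
    ext x
    refine ext_inner_left ℂ fun y => ?_
    rw [← L.lab_adj f hf, hs]
  rw [e, ← L.b_csmul (hf.ad hf.cj), L.lab_add f _ hf hf.cj, h1]
  module

/-! ### closure properties -/

variable {L} in
lemma Rch0.rotl {G M R : Set ℝ} {V : H ≃ₗᵢ[ℂ] H} (h : L.Rch0 G M R V) {f : ℝ → ℂ} (hf : Br f)
    (hfM : ∀ t, t ∉ M → f t = 0) {P : Fin 3} {U : H ≃ₗᵢ[ℂ] H} (hU : L.IsRot (L.lab f) P U) :
    L.Rch0 G M R (U * V) := by
  obtain ⟨⟨hM, hR, hMR, hG⟩, hc, ha⟩ := h
  have hU' := (L.b_isRot hf.1 P U).1 hU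
  have hUlab : ∀ g, Bm g → ∀ x, L.lab g (U x) = U (L.lab g x) := by
    intro g hg x
    rw [hU', hU', L.b_lr_lab hf.1 hg]
  refine ⟨⟨hM, hR, hMR, hG⟩, ?_, ?_⟩
  · intro g hg x
    change L.lab g (U (V x)) = U (V (L.lab g x))
    rw [hUlab g hg, hc g hg]
  · intro s ε hε
    obtain ⟨U1, g, hW, hg, hR1, hs⟩ := ha s ε hε
    refine ⟨U * U1, g, Wd.L f P U U1 hW hf hU, hg, ?_, ?_⟩
    · intro x
      change L.E R (U (U1 x)) = _
      rw [hU', L.lr_off hf.1 hR (fun t ht => hfM t ((Set.disjoint_right.1 hMR) ht)), hR1]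
    · intro x hx
      change ‖L.E M (U (U1 x)) - L.phl g (L.E M (U (V x)))‖ < ε
      have e1 : L.E M (U (U1 x)) = U (L.E M (U1 x)) := hUlab _ (Bm.ndc hM) _
      have e2 : L.E M (U (V x)) = U (L.E M (V x)) := hUlab _ (Bm.ndc hM) _
      have e3 : L.phl g (U (L.E M (V x))) = U (L.phl g (L.E M (V x))) := hUlab _ hg.expm _
      rw [e1, e2, e3, ← map_sub, U.norm_map]
      exact hs x hx

variable {L} in
lemma Rch0.coup {G M R : Set ℝ} {V : H ≃ₗᵢ[ℂ] H} (h : L.Rch0 G M R V) {A B : Set ℝ}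
    {P Q : Fin 3} {c : ℝ} {U : H ≃ₗᵢ[ℂ] H} (hA : MeasurableSet A) (hB : MeasurableSet B)
    (hAM : A ⊆ M) (hBM : B ⊆ M) (hAB : Disjoint A B) (hU : L.IsCoup A B P Q c V U) :
    L.Rch0 G M R (U * V) := by
  obtain ⟨⟨hM, hR, hMR, hG⟩, hc, ha⟩ := h
  refine ⟨⟨hM, hR, hMR, hG⟩, ?_, ?_⟩
  · intro g hg x
    change L.lab g (U (V x)) = U (V (L.lab g x))
    rw [L.coup_lab hA hB hU hg, hc g hg]
  · intro s ε hε
    classical
    obtain ⟨δ1, hδ1, h1⟩ := L.pw_cont P ((c : ℂ) • L.fv (L.pau Q) B V)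
      (s.image fun x => L.E A (V x)) (ε := ε / 3) (by positivity)
    obtain ⟨δ2, hδ2, h2⟩ := L.pw_cont Q ((c : ℂ) • L.fv (L.pau P) A V)
      (s.image fun x => L.E B (V x)) (ε := ε / 3) (by positivity)
    set η : ℝ := min (ε / 3) (min (δ1 / (2 * |c| + 2)) (δ2 / (2 * |c| + 2))) with hη
    have hc0 : 0 ≤ |c| := abs_nonneg c
    have hη0 : 0 < η := by
      refine lt_min (by positivity) (lt_min ?_ ?_) <;> positivity
    obtain ⟨U1, g, hW, hg, hR1, hs⟩ := ha (s ∪ {L.Om, V⁻¹ (L.pau Q (V L.Om)),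
      V⁻¹ (L.pau P (V L.Om))}) η hη0
    obtain ⟨U2, hC, hW2⟩ := L.b_coup hW hA hB hAB P Q c
    have hWl := Wd.lab L hW
    have hOm := hs L.Om (by simp)
    have hzQ := hs (V⁻¹ (L.pau Q (V L.Om))) (by simp)
    have hzP := hs (V⁻¹ (L.pau P (V L.Om))) (by simp)
    have c1 : ‖L.fv (L.pau Q) B U1 - L.fv (L.pau Q) B V‖ < 2 * η := by
      unfold fv
      rw [← map_sub, LinearIsometry.norm_map]
      have := L.xv_close (V := V) (g := g) hM hB hBM hWl Q
      linarith
    have c2 : ‖L.fv (L.pau P) A U1 - L.fv (L.pau P) A V‖ < 2 * η := by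
      unfold fv
      rw [← map_sub, LinearIsometry.norm_map]
      have := L.xv_close (V := V) (g := g) hM hA hAM hWl P
      linarith
    have d1 : ‖(c : ℂ) • L.fv (L.pau Q) B U1 - (c : ℂ) • L.fv (L.pau Q) B V‖ < δ1 := by
      rw [← smul_sub, norm_smul, Complex.norm_real, Real.norm_eq_abs]
      have h3 : η ≤ δ1 / (2 * |c| + 2) := (min_le_right _ _).trans (min_le_left _ _)
      rw [le_div_iff₀ (by positivity)] at h3
      nlinarith
    have d2 : ‖(c : ℂ) • L.fv (L.pau P) A U1 - (c : ℂ) • L.fv (L.pau P) A V‖ < δ2 := by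
      rw [← smul_sub, norm_smul, Complex.norm_real, Real.norm_eq_abs]
      have h3 : η ≤ δ2 / (2 * |c| + 2) := (min_le_right _ _).trans (min_le_right _ _)
      rw [le_div_iff₀ (by positivity)] at h3
      nlinarith
    refine ⟨U2 * U1, g, hW2, hg, ?_, ?_⟩
    · intro x
      change L.E R (U2 (U1 x)) = _
      rw [L.coup_off hA hB hR (hMR.mono_left hAM) (hMR.mono_left hBM) hC, hR1]
    · intro x hx
      change ‖L.E M (U2 (U1 x)) - L.phl g (L.E M (U (V x)))‖ < ε
      have e1 : L.E M (U2 (U1 x)) = U2 (L.E M (U1 x)) := L.coup_lab hA hB hC (Bm.ndc hM) _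
      have e2 : U2 (L.phl g (L.E M (V x))) = L.phl g (L.E M (U2 (V x))) := by
        have k1 : L.phl g (U2 (L.E M (V x))) = U2 (L.phl g (L.E M (V x))) :=
          L.coup_lab hA hB hC hg.expm _
        have k2 : L.E M (U2 (V x)) = U2 (L.E M (V x)) := L.coup_lab hA hB hC (Bm.ndc hM) _
        rw [← k1, k2]
      have e3 : L.E M (U2 (U1 x)) - L.phl g (L.E M (U (V x)))
          = U2 (L.E M (U1 x) - L.phl g (L.E M (V x)))
            + L.phl g (L.E M (U2 (V x) - U (V x))) := by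
        rw [e1, map_sub, e2, map_sub, map_sub]
        abel
      have e4 : U2 (V x) - U (V x)
          = (L.pw (L.pau P) ((c : ℂ) • L.fv (L.pau Q) B U1) (L.E A (V x))
              - L.pw (L.pau P) ((c : ℂ) • L.fv (L.pau Q) B V) (L.E A (V x)))
            + (L.pw (L.pau Q) ((c : ℂ) • L.fv (L.pau P) A U1) (L.E B (V x))
              - L.pw (L.pau Q) ((c : ℂ) • L.fv (L.pau P) A V) (L.E B (V x))) := by
        rw [hC, hU]
        abel
      have f1 : ‖L.E M (U1 x) - L.phl g (L.E M (V x))‖ < ε / 3 :=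
        (hs x (Finset.mem_union_left _ hx)).trans_le (min_le_left _ _)
      have f2 := h1 _ d1 (L.E A (V x)) (Finset.mem_image_of_mem _ hx)
      have f3 := h2 _ d2 (L.E B (V x)) (Finset.mem_image_of_mem _ hx)
      have f4 : ‖U2 (V x) - U (V x)‖ < ε / 3 + ε / 3 := by
        rw [e4]
        exact (norm_add_le _ _).trans_lt (add_lt_add f2 f3)
      rw [e3]
      refine (norm_add_le _ _).trans_lt ?_
      rw [U2.norm_map, L.phl_norm hg]
      have f5 := L.b_Enorm hM (U2 (V x) - U (V x))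
      linarith

/-- **level 0 reachability is closed** -/
theorem closed0 {G : Set ℝ} (hG : MeasurableSet G) : L.Closed G L.alg0 (L.Rch0 G) where
  meas M R V h := h.1
  comm := by
    rintro M R V h _ ⟨f, hf, rfl⟩ x
    exact h.2.1 f hf x
  lim := by
    intro M R V V0 h hc hl
    obtain ⟨⟨hM, hR, hMR, hGM⟩, -, -⟩ := h 0
    refine ⟨⟨hM, hR, hMR, hGM⟩, fun f hf x => hc _ ⟨f, hf, rfl⟩ x, ?_⟩
    intro s ε hε
    have h1 : ∀ᶠ n in atTop, ∀ x ∈ s, ‖L.E M (V n x) - L.E M (V0 x)‖ < ε / 2 := by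
      rw [Filter.eventually_all_finset]
      intro x _
      have h2 := hl x
      rw [Metric.tendsto_nhds] at h2
      filter_upwards [h2 (ε / 2) (by positivity)] with n hn
      rwa [← dist_eq_norm]
    obtain ⟨n, hn⟩ := h1.exists
    obtain ⟨U, g, hW, hg, hR1, hs⟩ := (h n).2.2 s (ε / 2) (by positivity)
    refine ⟨U, g, hW, hg, hR1, fun x hx => ?_⟩
    have e : L.E M (U x) - L.phl g (L.E M (V0 x))
        = (L.E M (U x) - L.phl g (L.E M (V n x)))
          + L.phl g (L.E M (V n x) - L.E M (V0 x)) := by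
      rw [map_sub]; abel
    rw [e]
    refine (norm_add_le _ _).trans_lt ?_
    rw [L.phl_norm hg]
    have := hs x hx
    have := hn x hx
    linarith
  mono := by
    rintro M R R' V ⟨⟨hM, hR, hMR, hGM⟩, hc, ha⟩ hR' hRR
    refine ⟨⟨hM, hR', hMR.mono_right hRR, hGM⟩, hc, fun s ε hε => ?_⟩
    obtain ⟨U, g, hW, hg, hR1, hs⟩ := ha s ε hε
    refine ⟨U, g, hW, hg, fun x => ?_, hs⟩
    rw [← L.b_Esub hR' hR hRR (U x), hR1, L.b_Esub hR' hR hRR]
  shrink := by
    rintro M M' R V ⟨⟨hM, hR, hMR, hGM⟩, hc, ha⟩ hM' hMM hGM'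
    refine ⟨⟨hM', hR, hMR.mono_left hMM, hGM'⟩, hc, fun s ε hε => ?_⟩
    obtain ⟨U, g, hW, hg, hR1, hs⟩ := ha s ε hε
    refine ⟨U, g, hW, hg, hR1, fun x hx => ?_⟩
    have e : L.E M' (U x) - L.phl g (L.E M' (V x))
        = L.E M' (L.E M (U x) - L.phl g (L.E M (V x))) := by
      rw [map_sub, ← L.phl_E hg hM', L.b_Esub hM' hM hMM, L.b_Esub hM' hM hMM]
    rw [e]
    exact (L.b_Enorm hM' _).trans_lt (hs x hx)
  act := by
    rintro M R R0 V V' ⟨⟨hM, hR, hMR, hGM⟩, hc, ha⟩ hR0 hRR hc' hMV hRV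
    have hM0 : Disjoint M R0 := hMR.mono_right hRR
    refine ⟨⟨hM.union hR0, hR.diff hR0, ?_, hGM.trans Set.subset_union_left⟩,
      fun f hf x => hc' _ ⟨f, hf, rfl⟩ x, ?_⟩
    · rw [Set.disjoint_union_left]
      exact ⟨hMR.mono_right Set.sdiff_subset, Set.disjoint_sdiff_right⟩
    · intro s ε hε
      obtain ⟨U, g, hW, hg, hR1, hs⟩ := ha s ε hε
      have hg' : Br (M.indicator g) := by
        refine ⟨⟨hg.1.1.indicator hM, ?_⟩, fun t => ?_⟩
        · obtain ⟨C, hC⟩ := hg.1.2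
          refine ⟨C, fun t => ?_⟩
          by_cases ht : t ∈ M
          · rw [Set.indicator_of_mem ht]; exact hC t
          · rw [Set.indicator_of_notMem ht, norm_zero]; exact (norm_nonneg _).trans (hC t)
        · by_cases ht : t ∈ M
          · rw [Set.indicator_of_mem ht]; exact hg.2 t
          · rw [Set.indicator_of_notMem ht, Complex.zero_im]
      refine ⟨U, M.indicator g, hW, hg', fun x => ?_, fun x hx => ?_⟩
      · have hd : R \ R0 ⊆ R := Set.sdiff_subset
        rw [← L.b_Esub (hR.diff hR0) hR hd (U x), hR1, L.b_Esub (hR.diff hR0) hR hd]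
      · have e0 : L.E R0 (U x) = L.E R0 x := by
          rw [← L.b_Esub hR0 hR hRR (U x), hR1, L.b_Esub hR0 hR hRR]
        have e1 : L.phl (M.indicator g) (L.E M (V' x)) = L.phl g (L.E M (V x)) := by
          rw [L.phl_congr hg' hg hM (fun t ht => Set.indicator_of_mem ht g), hMV]
        have e2 : L.phl (M.indicator g) (L.E R0 (V' x)) = L.E R0 x := by
          have hz : Br (fun _ => (0 : ℂ)) := by simpa using Br.cst 0
          rw [L.phl_congr hg' hz hR0 (fun t ht => Set.indicator_of_notMem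
            ((Set.disjoint_right.1 hM0) ht) g), L.phl_zero, hRV]
        rw [L.b_Eunion hM hR0 hM0, L.b_Eunion hM hR0 hM0, map_add, e1, e2, e0,
          add_sub_add_right_eq_sub]
        exact hs x hx
  rotl := by
    intro M R V f P U h hf hfi hfM hU
    exact h.rotl ⟨hf, hfi⟩ hfM hU
  rot := by
    rintro M R V _ P U h ⟨f, hf, rfl⟩ hsa hG' hU
    obtain ⟨hr, he⟩ := L.lab_real hf hsa
    have hb : Br (fun t => ((f t).re : ℂ) * G.indicator (fun _ => 1) t) := by
      refine ⟨hr.1.ml (Bm.ndc hG), fun t => ?_⟩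
      by_cases ht : t ∈ G <;> simp [ht]
    have he2 : L.lab (fun t => ((f t).re : ℂ) * G.indicator (fun _ => 1) t) = L.lab f := by
      rw [L.lab_mul _ _ hr.1 (Bm.ndc hG), he]
      exact hG'
    refine h.rotl hb (fun t ht => ?_) (he2 ▸ hU)
    have : t ∉ G := fun hh => ht (h.1.2.2.2 hh)
    simp [this]
  ph := by
    rintro M R V _ U h ⟨f, hf, rfl⟩ hsa hU
    obtain ⟨hr, he⟩ := L.lab_real hf hsa
    rw [← he] at hU
    have hU' := (L.b_isPh hr.1 U).1 hU
    obtain ⟨⟨hM, hR, hMR, hGM⟩, hc, ha⟩ := h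
    refine ⟨⟨hM, hR, hMR, hGM⟩, ?_, ?_⟩
    · intro g hg x
      change L.lab g (U (V x)) = U (V (L.lab g x))
      rw [hU', hU', ← hc g hg]
      exact L.b_comm hg hr.expm _
    · intro s ε hε
      obtain ⟨U1, g, hW, hg, hR1, hs⟩ := ha s ε hε
      refine ⟨U1, fun t => g t + -((f t).re : ℂ), hW, hg.ad hr.ng, hR1, fun x hx => ?_⟩
      change ‖L.E M (U1 x) - L.phl _ (L.E M (U (V x)))‖ < ε
      rw [hU', ← L.phl_E hr hM, L.phl_add (hg.ad hr.ng) hr]
      have e : (fun t => g t + -((f t).re : ℂ) + ((f t).re : ℂ)) = g := by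
        funext t; ring
      rw [e]
      exact hs x hx
  coup := by
    intro M R V A B P Q c U h hA hB hAM hBM hAB hU
    exact h.coup hA hB hAM hBM hAB hU

/-- the starting state -/
theorem start0 {G : Set ℝ} (hG : MeasurableSet G) : L.Rch0 G G Gᶜ 1 := by
  refine ⟨⟨hG, hG.compl, disjoint_compl_right, subset_rfl⟩, fun f _ x => rfl, fun s ε hε => ?_⟩
  refine ⟨1, fun _ => 0, Wd.one, by simpa using Br.cst 0, fun x => rfl, fun x _ => ?_⟩
  rw [L.phl_zero, sub_self, norm_zero]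
  exact hε

/-- **exit**: reachable field vectors are approximated by field vectors of exact words -/
theorem exit0 {G M R : Set ℝ} {V : H ≃ₗᵢ[ℂ] H} (h : L.Rch0 G M R V) {ε : ℝ} (hε : 0 < ε) :
    ∃ U, L.Wd U ∧ ‖L.E M (L.xv U) - L.E M (L.xv V)‖ < ε := by
  classical
  obtain ⟨⟨hM, hR, hMR, hGM⟩, hc, ha⟩ := h
  obtain ⟨U, g, hW, hg, hR1, hs⟩ := ha {L.Om, V⁻¹ (L.pau 2 (V L.Om))} (ε / 2) (by positivity)
  refine ⟨U, hW, ?_⟩
  have h1 := hs L.Om (by simp)
  have h2 := hs (V⁻¹ (L.pau 2 (V L.Om))) (by simp)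
  have h3 := L.xv_close (V := V) (g := g) hM hM subset_rfl (Wd.lab L hW) 2
  change ‖L.E M (U⁻¹ (L.pau 2 (U L.Om))) - L.E M (V⁻¹ (L.pau 2 (V L.Om)))‖ < ε
  linarith

end LSys

end Vale.Agent.P367.A
end

section

/-! P367 block B, BASE: the base statement. -/

namespace Vale.Agent.P367.NI

open Vale.Agent.P367.A (LSys)

/-- BASE -/
theorem baseStmt : LSys.BaseStmt :=
  gau_baseStmt
    (fun S hS e1 h1 h01 hi n y hy => fcal_gaugeL S hS e1 h1 h01 hi n y hy)
    (fun S hS e1 h1 h01 hi G hG => ⟨(gaugeL S hS e1 h1 h01 hi).Rch0 G,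
      (gaugeL S hS e1 h1 h01 hi).closed0 hG, (gaugeL S hS e1 h1 h01 hi).start0 hG,
      fun _ _ _ hV _ hε => (gaugeL S hS e1 h1 h01 hi).exit0 hV hε⟩)

end Vale.Agent.P367.NI
end

section

/-! P367: final assembly modulo CORE (T2), VALUE. -/

namespace Vale.Agent.P367.A

open Filter Topology

theorem main4_of
    (hcore : ∀ {K' : Type} [NormedAddCommGroup K'] [InnerProductSpace ℂ K']
      (L : LSys (NI.HH NI.FN) K'), L.CoreStmt (fun x => L.tendsto_W0 x))
    (hval : ∀ {K' : Type} [NormedAddCommGroup K'] [InnerProductSpace ℂ K']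
      (L : LSys (NI.HH NI.FN) K') (J : K' → NI.HH NI.FN) (S : NI.Weyl NI.FN NI.L2N),
      L.IsBase S J → L.ValueStmt J Gap.Pstar) :
    Tendsto Gap.Qsup atTop (𝓝 Gap.Pstar) :=
  main3_of NI.baseStmt hcore hval

end Vale.Agent.P367.A
end

section

/-! P367, block B, value: assembly modulo the energy formula. -/

namespace Vale.Agent.P367.A

open Complex Filter Topology MeasureTheory ProbabilityTheory

namespace LSys

variable {H K : Type*} [NormedAddCommGroup H] [InnerProductSpace ℂ H]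
  [NormedAddCommGroup K] [InnerProductSpace ℂ K] (L : LSys H K)

lemma val_G {δ : ℝ} (hδ : 0 < δ) :
    ∃ G : Set ℝ, MeasurableSet G ∧ L.mu Gᶜ ≠ 0 ∧ L.mu.real Gᶜ ≤ δ := by
  have := L.prob
  obtain ⟨n, b, h1, h2, h3, h4, h5, h6⟩ := L.exists_part MeasurableSet.univ hδ
  by_cases h : ∀ i ∈ Finset.range n, L.mu (b i) = 0
  · exfalso
    have h7 : L.mu (⋃ i ∈ Finset.range n, b i) = 0 :=
      (measure_biUnion_null_iff (Finset.countable_toSet _)).2 h
    rw [h3, measure_univ] at h7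
    exact one_ne_zero h7
  · push Not at h
    obtain ⟨i, _, hi⟩ := h
    exact ⟨(b i)ᶜ, (h1 i).compl, by rwa [compl_compl], by rw [compl_compl]; exact h6 i⟩

/-- the energy formula -/
def ValEn (J : K → H) : Prop :=
  ∀ (N : ℕ) (y : Fin N → K) (fc : (ℝ × (Fin N → ℝ) → ℂ) → (H →L[ℂ] H)), Orthonormal ℂ y →
    L.FCal y fc → ∀ (c : ℝ × (Fin N → ℝ) → ℂ) (m : ℝ × (Fin N → ℝ) → ℝ), Bmn c →
    Bmn (fun z => ((m z : ℝ) : ℂ)) →
    L.En J (fc c (L.Z L.Om) + fc (fun z => ((m z : ℝ) : ℂ)) L.Om) =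
      ∑ k, (∫ z, m z * z.2 k ∂(L.law N)) *
        (inner ℂ (y k) (L.iota (fc c (L.Z L.Om) + fc (fun z => ((m z : ℝ) : ℂ)) L.Om)) : ℂ).re

variable {L} {n : ℕ} {y : Fin n → K} {fc : (ℝ × (Fin n → ℝ) → ℂ) → (H →L[ℂ] H)}

lemma val_inner_Z (h : L.FCal y fc) {f c : ℝ × (Fin n → ℝ) → ℂ} (hf : Bmn f) (hc : Bmn c) :
    inner ℂ (fc f L.Om) (fc c (L.Z L.Om)) = 0 := by
  have h1 : inner ℂ (fc f L.Om) (fc c (L.Z L.Om)) = -inner ℂ (fc f L.Om) (fc c (L.Z L.Om)) := by
    conv_lhs => rw [← L.X.inner_map_map, ← L.ven3_X h hf, ← L.ven3_X h hc, L.XZ, L.XOm, map_neg,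
      inner_neg_right]
  have h2 := self_eq_neg.1 h1
  exact h2

/-- the value of the final state -/
lemma val_energy (J : K → H) (hE : L.ValEn J) {n : ℕ} {y : Fin (n + 1) → K}
    {fc : (ℝ × (Fin (n + 1) → ℝ) → ℂ) → (H →L[ℂ] H)} (hy : Orthonormal ℂ y) (h : L.FCal y fc)
    {G : Set ℝ} (hG : MeasurableSet G) (hG0 : 0 < L.mu.real G)
    (ψ : Fin n → (Fin (n + 1) → ℝ) → ℝ) (hψ : ∀ k, Measurable (ψ k))
    (hψf : ∀ k, (Set.range (ψ k)).Finite) (m : (Fin (n + 1) → ℝ) → ℝ) (hm : Measurable m)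
    (hm1 : ∀ z, |m z| ≤ 1)
    (hm0 : ∫ z, m z ∂(Measure.pi fun _ : Fin (n + 1) => gaussianReal 0 1) = 0)
    (hyk : ∀ k : Fin (n + 1), y k = L.iota (fc (fun z =>
        ((G.indicator (fun _ => (1 : ℝ)) z.1 *
          ((Fin.cons (fun _ => 1) ψ : Fin (n + 1) → (Fin (n + 1) → ℝ) → ℝ) k z.2 /
            Real.sqrt (L.mu.real G)) : ℝ) : ℂ)) L.Om))
    {c : ℝ × (Fin (n + 1) → ℝ) → ℂ} (hc : Bmn c) :
    L.En J (fc c (L.Z L.Om) + fc (fun z =>
      ((G.indicator (fun _ => (1 : ℝ)) z.1 * m z.2 : ℝ) : ℂ)) L.Om) =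
      L.mu.real G * Real.sqrt (L.mu.real G) * Cl.sval n ψ m := by
  set g := L.mu.real G with hg
  have hsg : 0 < Real.sqrt g := Real.sqrt_pos.2 hG0
  have hsq : Real.sqrt g * Real.sqrt g = g := Real.mul_self_sqrt hG0.le
  set φ : Fin (n + 1) → (Fin (n + 1) → ℝ) → ℝ := Fin.cons (fun _ => 1) ψ with hφ
  have hφm : ∀ k, Measurable (φ k) := by
    intro k
    refine Fin.cases ?_ (fun k => ?_) k
    · exact measurable_const
    · exact hψ k
  have hφb : ∀ k, ∃ C, ∀ z, |φ k z| ≤ C := by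
    intro k
    refine Fin.cases ?_ (fun k => ?_) k
    · exact ⟨1, fun z => by simp [hφ]⟩
    · exact val_bdd_of_fin (hψf k)
  have hmB := val_bmn_G (n := n + 1) hG hm hm1
  rw [hE (n + 1) y fc hy h c (fun z => G.indicator (fun _ => (1 : ℝ)) z.1 * m z.2) hc hmB]
  have h1 : ∀ k : Fin (n + 1),
      ∫ z, G.indicator (fun _ => (1 : ℝ)) z.1 * m z.2 * z.2 k ∂(L.law (n + 1)) =
        g * ∫ z, z k * m z ∂(Cl.γN (n + 1)) := by
    intro k
    have e := L.val_int_G hG (fun z : Fin (n + 1) → ℝ => z k * m z)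
    rw [← e]
    refine integral_congr_ae (Filter.Eventually.of_forall fun z => ?_)
    simp only
    ring
  have h2 : ∀ k : Fin (n + 1), (inner ℂ (y k) (L.iota (fc c (L.Z L.Om) + fc (fun z =>
      ((G.indicator (fun _ => (1 : ℝ)) z.1 * m z.2 : ℝ) : ℂ)) L.Om)) : ℂ).re =
      Real.sqrt g * ∫ z, φ k z * m z ∂(Cl.γN (n + 1)) := by
    intro k
    obtain ⟨C, hC⟩ := hφb k
    have hAm : Measurable fun z => φ k z / Real.sqrt g := (hφm k).div_const _
    have hAb : ∀ z, |φ k z / Real.sqrt g| ≤ C / Real.sqrt g := fun z => by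
      rw [abs_div, abs_of_pos hsg]
      exact div_le_div_of_nonneg_right (hC _) hsg.le
    rw [hyk k, LinearIsometry.inner_map_map, inner_add_right,
      val_inner_Z h (val_bmn_G hG hAm hAb) hc, zero_add,
      val_inner_G h hG hAm hm hAb hm1, Complex.ofReal_re]
    have e : ∀ z, φ k z / Real.sqrt g * m z = φ k z * m z / Real.sqrt g := fun z => by ring
    simp only [e]
    rw [integral_div]
    rw [← mul_div_assoc, mul_comm, mul_div_assoc, ← hg]
    have e2 : g / Real.sqrt g = Real.sqrt g := by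
      rw [div_eq_iff hsg.ne', hsq]
    rw [e2, mul_comm]
  simp only [h1, h2]
  rw [Fin.sum_univ_succ]
  have h3 : ∫ z, φ 0 z * m z ∂(Cl.γN (n + 1)) = 0 := by
    rw [← hm0]
    refine integral_congr_ae (Filter.Eventually.of_forall fun z => ?_)
    simp [hφ]
  rw [h3]
  unfold Cl.sval
  rw [Finset.mul_sum, mul_zero, mul_zero, zero_add]
  refine Finset.sum_congr rfl fun k _ => ?_
  have e : φ k.succ = ψ k := by simp [hφ]
  rw [e]
  ring

/-- classical schemes of value `P` -/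
def ValScheme (P : ℝ) : Prop :=
  ∀ d : ℝ, 0 < d → ∃ (n : ℕ) (ψ : Fin n → (Fin (n + 1) → ℝ) → ℝ) (m : (Fin (n + 1) → ℝ) → ℝ),
    (∀ k, Measurable (ψ k)) ∧ (∀ k, (Set.range (ψ k)).Finite) ∧
    (∀ (k : Fin n) z z', (∀ j : Fin (n + 1), (j : ℕ) ≤ (k : ℕ) → z j = z' j) → ψ k z = ψ k z') ∧
    (∀ j k, ∫ z, ψ j z * ψ k z ∂(Cl.γN (n + 1)) = if j = k then 1 else 0) ∧
    (∀ k, ∫ z, ψ k z ∂(Cl.γN (n + 1)) = 0) ∧
    Measurable m ∧ (∀ z, |m z| ≤ 1) ∧ (∫ z, m z ∂(Cl.γN (n + 1)) = 0) ∧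
    P - d ≤ Cl.sval n ψ m

lemma val_num {g s ε : ℝ} (hg0 : 0 < g) (hg1 : g ≤ 1) (hg : (1 - g) * (4 * (|s| + 1)) ≤ ε) :
    s - ε / 2 ≤ g * Real.sqrt g * s := by
  have hsg : 0 < Real.sqrt g := Real.sqrt_pos.2 hg0
  have hsq : Real.sqrt g * Real.sqrt g = g := Real.mul_self_sqrt hg0.le
  have hs1 : Real.sqrt g ≤ 1 := Real.sqrt_le_one.2 hg1
  have h1 : g ≤ Real.sqrt g := by nlinarith
  have h2 : g * g ≤ g * Real.sqrt g := mul_le_mul_of_nonneg_left h1 hg0.le
  have h3 : g * Real.sqrt g ≤ 1 := by nlinarith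
  have h4 : 1 - g * Real.sqrt g ≤ 2 * (1 - g) := by nlinarith [sq_nonneg (1 - g)]
  have h5 : (1 - g * Real.sqrt g) * s ≤ (1 - g * Real.sqrt g) * |s| :=
    mul_le_mul_of_nonneg_left (le_abs_self s) (by linarith)
  have h6 : (1 - g * Real.sqrt g) * |s| ≤ 2 * (1 - g) * |s| :=
    mul_le_mul_of_nonneg_right h4 (abs_nonneg s)
  nlinarith [abs_nonneg s]

/-- **VALUE**, modulo the energy formula and the classical scheme -/
theorem val_stmt_of [CompleteSpace H] (J : K → H) (hE : L.ValEn J)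
    (hfc : ∀ (n : ℕ) (y : Fin n → K), Orthonormal ℂ y → ∃ fc, L.FCal y fc) {P : ℝ}
    (hP : ValScheme P) : L.ValueStmt J P := by
  intro ε hε
  obtain ⟨n, ψ, m0, hψm, hψf, hψd, hψo, hψ0, hmm, hm1, hm0, hval⟩ := hP (ε / 2) (half_pos hε)
  have := L.prob
  set s := Cl.sval n ψ m0 with hs
  have hδ : 0 < min ε (min (1 / 2) (ε / (4 * (|s| + 1)))) := by
    have h1 : 0 < 4 * (|s| + 1) := by positivity
    exact lt_min hε (lt_min (by norm_num) (div_pos hε h1))
  obtain ⟨G, hG, hG0, hGs⟩ := L.val_G hδ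
  have hGε : L.mu.real Gᶜ ≤ ε := hGs.trans (min_le_left _ _)
  have hG2 : L.mu.real Gᶜ ≤ 1 / 2 := hGs.trans ((min_le_right _ _).trans (min_le_left _ _))
  have hG3 : L.mu.real Gᶜ ≤ ε / (4 * (|s| + 1)) :=
    hGs.trans ((min_le_right _ _).trans (min_le_right _ _))
  have hgc : L.mu.real Gᶜ = 1 - L.mu.real G := probReal_compl_eq_one_sub hG
  have hg0 : 0 < L.mu.real G := by linarith
  have hg1 : L.mu.real G ≤ 1 := by
    have := (measureReal_nonneg (μ := L.mu) (s := Gᶜ))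
    linarith
  set φ : Fin (n + 1) → (Fin (n + 1) → ℝ) → ℝ := Fin.cons (fun _ => 1) ψ with hφ
  obtain ⟨Y, fc, hY, h, hYk, hlev⟩ := L.val_tower hfc hG hg0 φ
    (by
      intro k
      refine Fin.cases ?_ (fun k => ?_) k
      · exact measurable_const
      · exact hψm k)
    (by
      intro k
      refine Fin.cases ?_ (fun k => ?_) k
      · refine (Set.finite_singleton (1 : ℝ)).subset ?_
        rintro _ ⟨z, rfl⟩
        simp [hφ]
      · exact hψf k)
    (by
      intro k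
      refine Fin.cases ?_ (fun k => ?_) k
      · intro z z' _
        simp [hφ]
      · intro z z' hz
        simp only [hφ, Fin.cons_succ]
        exact hψd k z z' (fun j hj => hz j (by rw [Fin.val_succ]; omega)))
    (by
      intro j k
      refine Fin.cases ?_ (fun j => ?_) j
      · refine Fin.cases ?_ (fun k => ?_) k
        · simp [hφ]
        · have h1 := hψ0 k
          simp only [hφ, Fin.cons_zero, Fin.cons_succ, one_mul]
          rw [if_neg (Fin.succ_ne_zero k).symm]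
          exact h1
      · refine Fin.cases ?_ (fun k => ?_) k
        · have h1 := hψ0 j
          simp only [hφ, Fin.cons_zero, Fin.cons_succ, mul_one]
          rw [if_neg (Fin.succ_ne_zero j)]
          exact h1
        · have h1 := hψo j k
          simp only [hφ, Fin.cons_succ, Fin.succ_inj]
          exact h1)
    (n + 1) le_rfl
  have hlev' : ∀ k, ∃ (m : ℕ) (sg : Fin m → (H →L[ℂ] H)) (c : Fin m → ℝ), k < n + 1 →
      (∀ i, L.Sgn G (L.alg Y k) (sg i)) ∧ Y k = L.iota ((∑ i, (c i : ℂ) • sg i) L.Om) := by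
    intro k
    by_cases hk : k < n + 1
    · obtain ⟨m, sg, c, h1, h2⟩ := hlev k hk
      exact ⟨m, sg, c, fun _ => ⟨h1, h2⟩⟩
    · exact ⟨0, fun i => i.elim0, fun i => i.elim0, fun hk' => absurd hk' hk⟩
  choose m sg c hmsc using hlev'
  obtain ⟨th, hth, hth1, hth2, -, -⟩ := ven3_choice hmm hm1
  have hi1 : ∀ a : ℝ, |G.indicator (fun _ => (1 : ℝ)) a| ≤ 1 := by
    intro a
    by_cases ha : a ∈ G
    · simp [Set.indicator_of_mem ha]
    · simp [Set.indicator_of_notMem ha]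
  set t : ℝ × (Fin (n + 1) → ℝ) → ℝ := fun z => G.indicator (fun _ => (1 : ℝ)) z.1 * th z.2 with ht
  have htm : Measurable t :=
    ((measurable_const.indicator hG).comp measurable_fst).mul (hth.comp measurable_snd)
  have htb : ∀ z, |t z| ≤ Real.pi / 4 := by
    intro z
    simp only [ht]
    rw [abs_mul]
    calc _ ≤ 1 * |th z.2| := mul_le_mul_of_nonneg_right (hi1 _) (abs_nonneg _)
      _ ≤ _ := by rw [one_mul]; exact hth1 _
  obtain ⟨U, hU1, hU2, -⟩ := val_rot h htm htb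
  have htB : Bmn (fun z => ((t z : ℝ) : ℂ)) := val_bmn_ofReal htm htb
  have hSa : Sa (fc fun z => ((t z : ℝ) : ℂ)) := by
    intro x x'
    rw [h.adj _ htB]
    simp only [Complex.conj_ofReal]
  have hGB : Bm (G.indicator fun _ => (1 : ℂ)) := by
    refine ⟨measurable_const.indicator hG, 1, fun a => ?_⟩
    by_cases ha : a ∈ G
    · simp [Set.indicator_of_mem ha]
    · simp [Set.indicator_of_notMem ha]
  have hGB' : Bmn fun z : ℝ × (Fin (n + 1) → ℝ) => G.indicator (fun _ => (1 : ℂ)) z.1 :=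
    ⟨hGB.1.comp measurable_fst, hGB.2.choose, fun _ => hGB.2.choose_spec _⟩
  have hThG : (fc fun z => ((t z : ℝ) : ℂ)) * L.E G = fc fun z => ((t z : ℝ) : ℂ) := by
    have e1 : L.E G = fc fun z => G.indicator (fun _ => (1 : ℂ)) z.1 := (h.lab _ hGB).symm
    rw [e1, ← h.mul _ _ htB hGB']
    congr 1
    funext z
    by_cases hz : z.1 ∈ G
    · rw [Set.indicator_of_mem hz, mul_one]
    · simp only [ht]
      rw [Set.indicator_of_notMem hz, Set.indicator_of_notMem hz, mul_zero, zero_mul,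
        Complex.ofReal_zero]
  refine ⟨G, n + 1, m, sg, c, Y, fc fun z => ((t z : ℝ) : ℂ), U, hG, hG0, hGε,
    fun k hk => (hmsc k hk).2, fun k hk => (hmsc k hk).1, L.val_mem Y (n + 1) h _ htB, hSa, hThG,
    hU1, ?_⟩
  rw [L.ven3_main h hG htm hU2]
  have e1 : (fun z : ℝ × (Fin (n + 1) → ℝ) =>
      ((-(G.indicator (fun _ => (1 : ℝ)) z.1 * Real.sin (2 * t z)) : ℝ) : ℂ)) = fun z =>
      ((G.indicator (fun _ => (1 : ℝ)) z.1 * m0 z.2 : ℝ) : ℂ) := by
    funext z
    congr 1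
    simp only [ht]
    by_cases hz : z.1 ∈ G
    · rw [Set.indicator_of_mem hz, one_mul, one_mul, one_mul]
      exact hth2 _
    · rw [Set.indicator_of_notMem hz, zero_mul, zero_mul, neg_zero]
  rw [e1, val_energy J hE hY h hG hg0 ψ hψm hψf m0 hmm hm1 hm0]
  · have h1 := val_num (s := s) (ε := ε) hg0 hg1 (by
      rw [← hgc]
      have h2 : 0 < 4 * (|s| + 1) := by positivity
      exact (le_div_iff₀ h2).1 hG3)
    linarith
  · intro k
    have h1 := hYk k k.2
    rw [h1]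
    congr 3
    funext z
    rw [val_ex_self]
  · exact val_bmn_mul hGB' (ven3_bmc (htm.const_mul 2)) |> fun hb => by
      convert hb using 2 with z
      by_cases hz : z.1 ∈ G
      · simp [Set.indicator_of_mem hz]
      · simp [Set.indicator_of_notMem hz]

end LSys

end Vale.Agent.P367.A
end

section

/-! P367, block B, VALUE: the creation map `J` on the vacuum and the energy of a state in the
commutative algebra of the fields `phi(y_i)`. -/

namespace Vale.Agent.P367.A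

open Complex Filter Topology MeasureTheory ProbabilityTheory

namespace LSys

variable {H K : Type*} [NormedAddCommGroup H] [InnerProductSpace ℂ H]
  [NormedAddCommGroup K] [InnerProductSpace ℂ K] (L : LSys H K)

/-- inner product of coherent vectors -/
lemma ven_ip (a b : K) : inner ℂ (L.W a L.Om) (L.W b L.Om)
    = Complex.exp (I * ((inner ℂ a b).im : ℂ) - ((‖b - a‖ ^ 2 / 2 : ℝ) : ℂ)) := by
  rw [L.inner_W, L.WW, inner_smul_right, L.vac, ← Complex.exp_add,
    show -a + b = b - a from neg_add_eq_sub a b]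
  congr 1
  rw [inner_neg_left, Complex.neg_im]
  push_cast
  ring

lemma ven_self {E : Type*} [NormedAddCommGroup E] [InnerProductSpace ℂ E] (u : E) :
    (inner ℂ u u : ℂ) = ((‖u‖ ^ 2 : ℝ) : ℂ) := by
  rw [inner_self_eq_norm_sq_to_K]
  simp

lemma ven_norm_W (a : K) : ‖L.W a L.Om‖ = 1 := by rw [LinearIsometryEquiv.norm_map, L.nOm]

lemma ven_real {s : ℝ} (h0 : 0 ≤ s) (h1 : s ≤ 1) :
    4 - 4 * Real.exp (-(s / 2)) - 2 * (Real.exp (-s) * Real.sin s) ≤ 4 * s ^ 2 := by
  have a1 : 1 - s / 2 ≤ Real.exp (-(s / 2)) := by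
    have := Real.add_one_le_exp (-(s / 2)); linarith
  have a2 : 1 - s ≤ Real.exp (-s) := by
    have := Real.add_one_le_exp (-s); linarith
  rcases eq_or_lt_of_le h0 with rfl | h0
  · simp
  have a3 : s - s ^ 3 / 4 < Real.sin s := by
    have := Real.sin_gt_sub_cube h0
    have : 0 < s ^ 3 := by positivity
    linarith
  have a4 : (1 - s) * (s - s ^ 3 / 4) ≤ Real.exp (-s) * Real.sin s := by
    apply mul_le_mul a2 a3.le _ (Real.exp_pos _).le
    have : s ^ 3 ≤ s := by nlinarith [mul_nonneg h0.le (sub_nonneg.2 h1), sq_nonneg s]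
    linarith
  nlinarith [mul_nonneg h0.le (sub_nonneg.2 h1), sq_nonneg s,
    mul_nonneg (sq_nonneg s) (sub_nonneg.2 h1), mul_nonneg (sq_nonneg s) h0.le]

lemma ven_norm_D (u : K) (t : ℝ) :
    ‖(-I) • (L.W ((t : ℂ) • u) L.Om - L.Om) - (L.W (-((I * (t : ℂ)) • u)) L.Om - L.Om)‖ ^ 2
      = 4 - 4 * Real.exp (-(t ^ 2 * ‖u‖ ^ 2 / 2))
        - 2 * (Real.exp (-(t ^ 2 * ‖u‖ ^ 2)) * Real.sin (t ^ 2 * ‖u‖ ^ 2)) := by
  obtain ⟨p, hp⟩ : ∃ p, p = L.W ((t : ℂ) • u) L.Om := ⟨_, rfl⟩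
  obtain ⟨q, hq⟩ : ∃ q, q = L.W (-((I * (t : ℂ)) • u)) L.Om := ⟨_, rfl⟩
  obtain ⟨s, hs⟩ : ∃ s : ℝ, s = t ^ 2 * ‖u‖ ^ 2 := ⟨_, rfl⟩
  have np : ‖p‖ = 1 := by rw [hp]; exact L.ven_norm_W _
  have nq : ‖q‖ = 1 := by rw [hq]; exact L.ven_norm_W _
  have n1 : ‖(t : ℂ) • u‖ ^ 2 = s := by
    rw [norm_smul, mul_pow, Complex.norm_real, Real.norm_eq_abs, sq_abs, hs]
  have n2 : ‖-((I * (t : ℂ)) • u)‖ ^ 2 = s := by
    rw [norm_neg, norm_smul, mul_pow, norm_mul, Complex.norm_I, one_mul, Complex.norm_real,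
      Real.norm_eq_abs, sq_abs, hs]
  have hOp : (inner ℂ p L.Om : ℂ) = Complex.exp (-((s / 2 : ℝ) : ℂ)) := by
    rw [hp, L.inner_W, L.vac, norm_neg, n1]
  have hOq : (inner ℂ q L.Om : ℂ) = Complex.exp (-((s / 2 : ℝ) : ℂ)) := by
    rw [hq, L.inner_W, L.vac, norm_neg, n2]
  have hin : (inner ℂ ((t : ℂ) • u) (-((I * (t : ℂ)) • u)) : ℂ) = -(I * (s : ℂ)) := by
    rw [inner_neg_right, inner_smul_left, inner_smul_right, ven_self, hs,
      Complex.conj_ofReal]
    push_cast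
    ring
  have hpq : (inner ℂ p q : ℂ) = Complex.exp (-(s : ℂ)) * Complex.exp (-(I * (s : ℂ))) := by
    have e1 : ‖-((I * (t : ℂ)) • u) - (t : ℂ) • u‖ ^ 2 = 2 * s := by
      have e2 : -((I * (t : ℂ)) • u) - (t : ℂ) • u = (-((1 + I) * (t : ℂ))) • u := by module
      rw [e2, norm_smul, mul_pow, norm_neg, norm_mul, mul_pow, Complex.norm_real,
        Real.norm_eq_abs, sq_abs, hs]
      have e3 : ‖(1 : ℂ) + I‖ ^ 2 = 2 := by
        rw [← Complex.normSq_eq_norm_sq]
        simp [Complex.normSq_apply]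
        norm_num
      rw [e3]
      ring
    rw [hp, hq, L.ven_ip, hin, e1, ← Complex.exp_add]
    congr 1
    simp
    ring
  obtain ⟨e1, he1⟩ : ∃ e1 : ℝ, e1 = Real.exp (-(s / 2)) := ⟨_, rfl⟩
  obtain ⟨e2, he2⟩ : ∃ e2 : ℝ, e2 = Real.exp (-s) := ⟨_, rfl⟩
  have c1 : Complex.exp (-((s / 2 : ℝ) : ℂ)) = (e1 : ℂ) := by
    rw [he1, Complex.ofReal_exp, Complex.ofReal_neg]
  have c2 : Complex.exp (-(s : ℂ)) = (e2 : ℂ) := by
    rw [he2, Complex.ofReal_exp, Complex.ofReal_neg]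
  have c3 : Complex.exp (-(I * (s : ℂ))) = (Real.cos s : ℂ) - (Real.sin s : ℂ) * I := by
    rw [show -(I * (s : ℂ)) = ((-s : ℝ) : ℂ) * I by push_cast; ring, Complex.exp_mul_I,
      ← Complex.ofReal_cos, ← Complex.ofReal_sin, Real.cos_neg, Real.sin_neg, Complex.ofReal_neg]
    ring
  rw [c1] at hOp hOq
  rw [c2, c3] at hpq
  have hOp' : (inner ℂ L.Om p : ℂ) = (e1 : ℂ) := by
    rw [← inner_conj_symm, hOp, Complex.conj_ofReal]
  have hOq' : (inner ℂ L.Om q : ℂ) = (e1 : ℂ) := by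
    rw [← inner_conj_symm, hOq, Complex.conj_ofReal]
  have hqp : (inner ℂ q p : ℂ) = (e2 : ℂ) * ((Real.cos s : ℂ) + (Real.sin s : ℂ) * I) := by
    rw [← inner_conj_symm, hpq]
    simp only [map_mul, map_sub, Complex.conj_ofReal, Complex.conj_I]
    ring
  have hpp : (inner ℂ p p : ℂ) = 1 := by rw [ven_self, np]; simp
  have hqq : (inner ℂ q q : ℂ) = 1 := by rw [ven_self, nq]; simp
  have hoo : (inner ℂ L.Om L.Om : ℂ) = 1 := by rw [ven_self, L.nOm]; simp
  rw [← hp, ← hq, ← hs, ← he1, ← he2]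
  have hD : (-I) • (p - L.Om) - (q - L.Om) = (-I) • p + (-1 : ℂ) • q + (1 + I) • L.Om := by
    module
  rw [hD]
  have key : ((‖(-I) • p + (-1 : ℂ) • q + (1 + I) • L.Om‖ ^ 2 : ℝ) : ℂ)
      = ((4 - 4 * e1 - 2 * (e2 * Real.sin s) : ℝ) : ℂ) := by
    rw [← ven_self]
    simp only [inner_add_left, inner_add_right, inner_smul_left, inner_smul_right, map_add,
      map_neg, map_one, Complex.conj_I, hpp, hqq, hoo, hpq, hqp, hOp, hOq, hOp', hOq']
    push_cast
    have hI := I_mul_I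
    linear_combination (-2 + 2 * (e1 : ℂ) + 2 * (e2 : ℂ) * (Complex.sin s)) * hI
  exact_mod_cast key

lemma ven_tendsto_D (u : K) : Tendsto (fun t : ℝ => ((t : ℂ)⁻¹) •
    ((-I) • (L.W ((t : ℂ) • u) L.Om - L.Om) - (L.W (-((I * (t : ℂ)) • u)) L.Om - L.Om)))
    (𝓝[≠] 0) (𝓝 0) := by
  have hb : ∀ᶠ t : ℝ in 𝓝[≠] 0, ‖((t : ℂ)⁻¹) •
      ((-I) • (L.W ((t : ℂ) • u) L.Om - L.Om) - (L.W (-((I * (t : ℂ)) • u)) L.Om - L.Om))‖
      ≤ 2 * |t| * ‖u‖ ^ 2 := by
    have h1 : Tendsto (fun t : ℝ => t ^ 2 * ‖u‖ ^ 2) (𝓝[≠] 0) (𝓝 0) := by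
      have h : Continuous fun t : ℝ => t ^ 2 * ‖u‖ ^ 2 := by fun_prop
      have h2 := h.tendsto 0
      simp only [ne_eq, OfNat.ofNat_ne_zero, not_false_eq_true, zero_pow, zero_mul] at h2
      exact h2.mono_left nhdsWithin_le_nhds
    filter_upwards [h1.eventually (ge_mem_nhds zero_lt_one), self_mem_nhdsWithin] with t ht ht0
    have ht0 : t ≠ 0 := ht0
    have h2 := ven_real (s := t ^ 2 * ‖u‖ ^ 2) (by positivity) ht
    rw [← L.ven_norm_D u t] at h2
    rw [norm_smul, norm_inv, Complex.norm_real, Real.norm_eq_abs]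
    have ht1 : 0 < |t| := abs_pos.2 ht0
    rw [inv_mul_le_iff₀ ht1]
    refine le_of_sq_le_sq (h2.trans (le_of_eq ?_)) (by positivity)
    rw [← sq_abs t]
    ring
  have h3 : Tendsto (fun t : ℝ => 2 * |t| * ‖u‖ ^ 2) (𝓝[≠] 0) (𝓝 0) := by
    have h : Continuous fun t : ℝ => 2 * |t| * ‖u‖ ^ 2 := by fun_prop
    have h2 := h.tendsto 0
    simp only [abs_zero, mul_zero, zero_mul] at h2
    exact h2.mono_left nhdsWithin_le_nhds
  exact squeeze_zero_norm' hb h3

variable {L} {J : K → H}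

/-- `W(tu) Om` has derivative `i J u` -/
lemma ven_J2 (hJ : L.IsJ J) (u : K) :
    Tendsto (fun t : ℝ => ((t : ℂ)⁻¹) • (L.W ((t : ℂ) • u) L.Om - L.Om)) (𝓝[≠] 0)
      (𝓝 (I • J u)) := by
  have h := ((L.ven_tendsto_D u).add (hJ u)).const_smul I
  rw [zero_add] at h
  refine h.congr fun t => ?_
  have hI := I_mul_I
  rw [← smul_add, smul_comm, sub_add_cancel, smul_smul I, mul_neg, hI, neg_neg, one_smul]

lemma ven_J_I (hJ : L.IsJ J) (u : K) : J (I • u) = I • J u := by
  refine tendsto_nhds_unique ((hJ (I • u)).congr fun t => ?_) (ven_J2 hJ u)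
  have e : -((I * (t : ℂ)) • I • u) = (t : ℂ) • u := by
    rw [smul_smul, mul_right_comm, I_mul_I, ← neg_smul]
    congr 1
    ring
  rw [e]

lemma ven_J_real (hJ : L.IsJ J) (c : ℝ) (u : K) : J ((c : ℂ) • u) = (c : ℂ) • J u := by
  by_cases hc : c = 0
  · subst hc
    have h := hJ (((0 : ℝ) : ℂ) • u)
    rw [ofReal_zero, zero_smul]
    rw [ofReal_zero, zero_smul] at h
    rw [zero_smul]
    refine tendsto_nhds_unique (h.congr (f₂ := fun _ => (0 : H)) fun t => ?_) tendsto_const_nhds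
    rw [smul_zero, neg_zero, L.W_zero_apply, sub_self, smul_zero]
  · have h1 : Tendsto (fun t : ℝ => c * t) (𝓝[≠] 0) (𝓝[≠] 0) := by
      refine tendsto_nhdsWithin_iff.2 ⟨?_, ?_⟩
      · have h : Continuous fun t : ℝ => c * t := by fun_prop
        have h2 := h.tendsto 0
        simp only [mul_zero] at h2
        exact h2.mono_left nhdsWithin_le_nhds
      · filter_upwards [self_mem_nhdsWithin] with t ht
        exact mul_ne_zero hc ht
    have h2 := ((hJ u).comp h1).const_smul (c : ℂ)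
    refine tendsto_nhds_unique (hJ _) (h2.congr fun t => ?_)
    have hc' : (c : ℂ) ≠ 0 := by exact_mod_cast hc
    simp only [Function.comp]
    rw [smul_smul, ofReal_mul, mul_inv, mul_inv_cancel_left₀ hc', smul_smul]
    congr 5
    ring_nf

lemma ven_t0 {f : ℝ → K} (hf : Continuous f) (h0 : f 0 = 0) (x : H) :
    Tendsto (fun t => L.W (f t) x) (𝓝[≠] 0) (𝓝 x) := by
  have h := hf.tendsto 0
  rw [h0] at h
  exact (L.tendsto_W0 x).comp (h.mono_left nhdsWithin_le_nhds)

lemma ven_J_add (hJ : L.IsJ J) (u v : K) : J (u + v) = J u + J v := by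
  have hu := hJ u
  have hv := hJ v
  -- the middle term
  have h1 : Tendsto (fun t : ℝ => L.W (-((I * (t : ℂ)) • u))
      (((t : ℂ)⁻¹) • (L.W (-((I * (t : ℂ)) • v)) L.Om - L.Om))) (𝓝[≠] 0) (𝓝 (J v)) := by
    have h2 : Tendsto (fun t : ℝ => L.W (-((I * (t : ℂ)) • u)) (J v)) (𝓝[≠] 0) (𝓝 (J v)) :=
      ven_t0 (by fun_prop) (by simp) _
    have h3 : Tendsto (fun t : ℝ => L.W (-((I * (t : ℂ)) • u))
        (((t : ℂ)⁻¹) • (L.W (-((I * (t : ℂ)) • v)) L.Om - L.Om) - J v)) (𝓝[≠] 0) (𝓝 0) := by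
      rw [tendsto_zero_iff_norm_tendsto_zero]
      simp only [LinearIsometryEquiv.norm_map]
      rw [← tendsto_zero_iff_norm_tendsto_zero]
      have := hv.sub_const (J v)
      rwa [sub_self] at this
    have h4 := h3.add h2
    rw [zero_add] at h4
    refine h4.congr fun t => ?_
    rw [← map_add, sub_add_cancel]
  -- the phase
  obtain ⟨τ, hτ⟩ : ∃ τ : ℝ, τ = (inner ℂ u v : ℂ).im := ⟨_, rfl⟩
  have h5 : Tendsto (fun t : ℝ => (t : ℂ)⁻¹ * (Complex.exp (I * ((t ^ 2 * τ : ℝ) : ℂ)) - 1))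
      (𝓝[≠] 0) (𝓝 0) := by
    have hd : HasDerivAt (fun t : ℝ => Complex.exp (I * ((t ^ 2 * τ : ℝ) : ℂ))) 0 0 := by
      have h6 : HasDerivAt (fun t : ℝ => ((t ^ 2 * τ : ℝ) : ℂ)) ((0 : ℝ) : ℂ) 0 := by
        have h7 : HasDerivAt (fun t : ℝ => t ^ 2 * τ) 0 0 := by
          have := (hasDerivAt_pow 2 (0 : ℝ)).mul_const τ
          simpa using this
        exact h7.ofReal_comp
      have h8 := (h6.const_mul I).cexp
      simpa using h8
    have h9 := hd.tendsto_slope_zero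
    simp only [zero_add] at h9
    refine h9.congr fun t => ?_
    rw [Complex.real_smul, ofReal_inv]
    simp
  have h6 : Tendsto (fun t : ℝ => ((t : ℂ)⁻¹ * (Complex.exp (I * ((t ^ 2 * τ : ℝ) : ℂ)) - 1)) •
      L.W (-((I * (t : ℂ)) • u)) (L.W (-((I * (t : ℂ)) • v)) L.Om)) (𝓝[≠] 0) (𝓝 0) := by
    rw [tendsto_zero_iff_norm_tendsto_zero]
    simp only [norm_smul, LinearIsometryEquiv.norm_map, L.nOm, mul_one]
    exact tendsto_zero_iff_norm_tendsto_zero.1 h5
  have h7 := (h6.add h1).add hu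
  rw [zero_add, add_comm (J v)] at h7
  refine tendsto_nhds_unique (hJ (u + v)) (h7.congr fun t => ?_)
  have hin : (inner ℂ (-((I * (t : ℂ)) • u)) (-((I * (t : ℂ)) • v)) : ℂ).im = t ^ 2 * τ := by
    rw [inner_neg_neg, inner_smul_left, inner_smul_right, ← mul_assoc, map_mul, Complex.conj_I,
      Complex.conj_ofReal, hτ,
      show (-I * (t : ℂ)) * (I * (t : ℂ)) = ((t ^ 2 : ℝ) : ℂ) by
        push_cast; linear_combination (-(t : ℂ) ^ 2) * I_mul_I]
    exact Complex.im_ofReal_mul _ _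
  have hsum : -((I * (t : ℂ)) • (u + v)) = -((I * (t : ℂ)) • u) + -((I * (t : ℂ)) • v) := by
    rw [smul_add, neg_add]
  have hW : L.W (-((I * (t : ℂ)) • (u + v))) L.Om = Complex.exp (I * ((t ^ 2 * τ : ℝ) : ℂ)) •
      L.W (-((I * (t : ℂ)) • u)) (L.W (-((I * (t : ℂ)) • v)) L.Om) := by
    rw [hsum, L.WW, hin, smul_smul, ← Complex.exp_add, add_neg_cancel, Complex.exp_zero, one_smul]
  rw [hW, map_smul, map_sub]
  module

lemma ven_J_smul (hJ : L.IsJ J) (c : ℂ) (u : K) : J (c • u) = c • J u := by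
  have e : c • u = ((c.re : ℝ) : ℂ) • u + ((c.im : ℝ) : ℂ) • I • u := by
    rw [smul_smul, ← add_smul, Complex.re_add_im]
  rw [e, ven_J_add hJ, ven_J_real hJ, ven_J_real hJ, ven_J_I hJ, smul_smul, ← add_smul,
    Complex.re_add_im]

lemma ven_J_sum (hJ : L.IsJ J) {ι : Type*} (s : Finset ι) (f : ι → K) :
    J (∑ i ∈ s, f i) = ∑ i ∈ s, J (f i) := by
  classical
  induction s using Finset.induction_on with
  | empty =>
    have := ven_J_smul hJ 0 (0 : K)
    rw [zero_smul, zero_smul] at this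
    simpa using this
  | insert a s ha ih => rw [Finset.sum_insert ha, Finset.sum_insert ha, ven_J_add hJ, ih]

/-- `J u` has spin `X = 1` -/
lemma ven_X_J (hJ : L.IsJ J) (u : K) : L.X (J u) = J u := by
  have h := (L.X.continuous.tendsto (J u)).comp (hJ u)
  refine tendsto_nhds_unique (h.congr fun t => ?_) (hJ u)
  simp only [Function.comp]
  rw [map_smul, map_sub, ← L.WX, L.XOm]

section fc

variable {N : ℕ} {y : Fin N → K} {fc : (ℝ × (Fin N → ℝ) → ℂ) → (H →L[ℂ] H)}

/-- `fc` commutes with the spin operator `X` -/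
lemma ven_fc_X (h : L.FCal y fc) {f : ℝ × (Fin N → ℝ) → ℂ} (hf : Bmn f) (x : H) :
    fc f (L.X x) = L.X (fc f x) := by
  have h1 := h.comm f hf (L.X.toContinuousLinearEquiv.toContinuousLinearMap) (fun g _ => by
    ext x; exact L.lab_X g x) (fun k x => L.WX _ x)
  exact congrArg (fun T : H →L[ℂ] H => T x) h1

lemma ven_fc_Z (h : L.FCal y fc) {f : ℝ × (Fin N → ℝ) → ℂ} (hf : Bmn f) (x : H) :
    fc f (L.Z x) = L.Z (fc f x) := by
  have h1 := h.comm f hf (L.Z.toContinuousLinearEquiv.toContinuousLinearMap) (fun g _ => by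
    ext x; exact L.lab_Z g x) (fun k x => L.WZ _ x)
  exact congrArg (fun T : H →L[ℂ] H => T x) h1

lemma ven_Bmn_conj {f : ℝ × (Fin N → ℝ) → ℂ} (hf : Bmn f) :
    Bmn (fun z => (starRingEnd ℂ) (f z)) :=
  ⟨continuous_conj.measurable.comp hf.1, hf.2.imp fun C h x => by rw [RCLike.norm_conj]; exact h x⟩

/-- `fc` commutes with the displacements orthogonal to `y` -/
lemma ven_fc_W (h : L.FCal y fc) {f : ℝ × (Fin N → ℝ) → ℂ} (hf : Bmn f) {w : K}
    (hw : ∀ j, inner ℂ (y j) w = 0) (x : H) :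
    fc f (L.W w x) = L.W w (fc f x) := by
  have h1 := h.comm f hf ((L.W w).toContinuousLinearEquiv.toContinuousLinearMap) (fun g _ => by
    ext x; exact L.lab_W g w x) (fun k x => by
      have e1 : (inner ℂ (∑ i, (k i : ℂ) • y i) w : ℂ) = 0 := by
        rw [sum_inner]
        exact Finset.sum_eq_zero fun i _ => by rw [inner_smul_left, hw, mul_zero]
      have e2 : (inner ℂ w (∑ i, (k i : ℂ) • y i) : ℂ) = 0 := by
        rw [← inner_conj_symm, e1, map_zero]
      change L.W (∑ i, (k i : ℂ) • y i) (L.W w x) = L.W w (L.W (∑ i, (k i : ℂ) • y i) x)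
      rw [L.WW, L.WW, e1, e2, add_comm])
  exact congrArg (fun T : H →L[ℂ] H => T x) h1

/-- fields orthogonal to `y` do not see the algebra of `y` -/
lemma ven_perp (hJ : L.IsJ J) (h : L.FCal y fc) {f : ℝ × (Fin N → ℝ) → ℂ} (hf : Bmn f) {r : K}
    (hr : ∀ j, inner ℂ (y j) r = 0) : inner ℂ (fc f L.Om) (J r) = (0 : ℂ) := by
  obtain ⟨g, hg⟩ : ∃ g : H, g = fc (fun z => (starRingEnd ℂ) (f z)) L.Om := ⟨_, rfl⟩
  have key : ∀ r : K, (∀ j, inner ℂ (y j) r = 0) →
      (inner ℂ (fc f L.Om) (J r) : ℂ) = inner ℂ (J r) g := by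
    intro r hr
    have h1 : Tendsto (fun t : ℝ => (inner ℂ (fc f L.Om)
        (((t : ℂ)⁻¹) • (L.W ((t : ℂ) • r) L.Om - L.Om)) : ℂ)) (𝓝[≠] 0)
        (𝓝 (inner ℂ (fc f L.Om) (I • J r))) := tendsto_const_nhds.inner (ven_J2 hJ r)
    have h2 : Tendsto (fun t : ℝ => (inner ℂ
        (((t : ℂ)⁻¹) • (L.W ((t : ℂ) • (-r)) L.Om - L.Om)) g : ℂ)) (𝓝[≠] 0)
        (𝓝 (inner ℂ (I • J (-r)) g)) := (ven_J2 hJ (-r)).inner tendsto_const_nhds
    have h3 := tendsto_nhds_unique (h1.congr fun t => ?_) h2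
    · have h4 : J (-r) = -J r := by
        have := ven_J_smul hJ (-1) r
        simpa using this
      rw [h4, inner_smul_right, inner_smul_left, inner_neg_left, Complex.conj_I] at h3
      have h5 : I * ((inner ℂ (fc f L.Om) (J r) : ℂ) - inner ℂ (J r) g) = 0 := by
        linear_combination h3
      rcases mul_eq_zero.1 h5 with h6 | h6
      · exact absurd h6 I_ne_zero
      · exact sub_eq_zero.1 h6
    · have hw : ∀ j, inner ℂ (y j) ((t : ℂ) • (-r)) = (0 : ℂ) := fun j => by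
        rw [inner_smul_right, inner_neg_right, hr, neg_zero, mul_zero]
      have e1 : (inner ℂ (fc f L.Om) (L.W ((t : ℂ) • r) L.Om) : ℂ)
          = inner ℂ (L.W ((t : ℂ) • (-r)) L.Om) g := by
        have e2 := L.inner_W ((t : ℂ) • (-r)) (fc f L.Om) L.Om
        rw [show -((t : ℂ) • (-r)) = (t : ℂ) • r by module] at e2
        rw [← e2, ← ven_fc_W h hf hw, h.adj f hf, hg]
      have e3 : (inner ℂ (fc f L.Om) L.Om : ℂ) = inner ℂ L.Om g := by rw [h.adj f hf, hg]
      rw [inner_smul_right, inner_sub_right, e1, e3, inner_smul_left, inner_sub_left, map_inv₀,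
        Complex.conj_ofReal]
  have k1 := key r hr
  have k2 := key (I • r) fun j => by rw [inner_smul_right, hr, mul_zero]
  rw [ven_J_I hJ, inner_smul_right, inner_smul_left, Complex.conj_I, ← k1] at k2
  have h5 : I * (inner ℂ (fc f L.Om) (J r) : ℂ) = 0 := by linear_combination (1 / 2 : ℂ) * k2
  rcases mul_eq_zero.1 h5 with h6 | h6
  · exact absurd h6 I_ne_zero
  · exact h6

/-- vectors of spin `X = -1` are orthogonal to `J u` -/
lemma ven_odd (hJ : L.IsJ J) (h : L.FCal y fc) {f : ℝ × (Fin N → ℝ) → ℂ} (hf : Bmn f) (u : K) :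
    inner ℂ (fc f (L.Z L.Om)) (J u) = (0 : ℂ) := by
  have h1 : (inner ℂ (fc f (L.Z L.Om)) (L.X (J u)) : ℂ) = -inner ℂ (fc f (L.Z L.Om)) (J u) := by
    rw [← L.inner_X, ← ven_fc_X h hf, L.XZ, L.XOm, map_neg, inner_neg_left]
  rw [ven_X_J hJ] at h1
  have h2 : (2 : ℂ) * inner ℂ (fc f (L.Z L.Om)) (J u) = 0 := by linear_combination h1
  rcases mul_eq_zero.1 h2 with h3 | h3
  · norm_num at h3
  · exact h3

lemma ven_odd' (h : L.FCal y fc) {f g : ℝ × (Fin N → ℝ) → ℂ} (hf : Bmn f) (hg : Bmn g) :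
    inner ℂ (fc g L.Om) (fc f (L.Z L.Om)) = (0 : ℂ) := by
  have h1 : (inner ℂ (L.X (fc g L.Om)) (fc f (L.Z L.Om)) : ℂ)
      = -inner ℂ (fc g L.Om) (fc f (L.Z L.Om)) := by
    rw [L.inner_X, ← ven_fc_X h hf, L.XZ, L.XOm, map_neg, inner_neg_right]
  rw [← ven_fc_X h hg, L.XOm] at h1
  have h2 : (2 : ℂ) * inner ℂ (fc g L.Om) (fc f (L.Z L.Om)) = 0 := by linear_combination h1
  rcases mul_eq_zero.1 h2 with h3 | h3
  · norm_num at h3
  · exact h3

lemma ven_snd_int (L : LSys H K) (k : Fin N) :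
    Integrable (fun z : ℝ × (Fin N → ℝ) => z.2 k) (L.law N) := by
  have := L.prob
  have h1 : MeasurePreserving (fun z : ℝ × (Fin N → ℝ) => z.2 k) (L.law N) (gaussianReal 0 1) :=
    (measurePreserving_eval (fun _ : Fin N => gaussianReal 0 1) k).comp measurePreserving_snd
  have h2 : Integrable (id : ℝ → ℝ) (gaussianReal 0 1) :=
    (memLp_id_gaussianReal 1).integrable (by simp)
  have h3 : Integrable (id : ℝ → ℝ) ((L.law N).map fun z : ℝ × (Fin N → ℝ) => z.2 k) := by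
    rwa [h1.map_eq]
  exact (integrable_map_measure h3.aestronglyMeasurable h1.measurable.aemeasurable).1 h3

/-- moments of the fields -/
lemma ven_field (hJ : L.IsJ J) (h : L.FCal y fc) {f : ℝ × (Fin N → ℝ) → ℂ} (hf : Bmn f)
    (k : Fin N) : inner ℂ (fc f L.Om) (J (y k))
      = ∫ z, (starRingEnd ℂ) (f z) * (z.2 k : ℂ) ∂(L.law N) := by
  have hlp := L.val_law_prob N
  obtain ⟨C, hC⟩ := hf.2
  have hC0 : 0 ≤ C := (norm_nonneg _).trans (hC (0, 0))
  obtain ⟨e, he⟩ : ∃ e : ℝ → ℝ × (Fin N → ℝ) → ℂ, e = fun (t : ℝ) (z : ℝ × (Fin N → ℝ)) =>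
    (t : ℂ)⁻¹ * (Complex.exp (I * ((t * z.2 k : ℝ) : ℂ)) - 1) := ⟨_, rfl⟩
  have hE : ∀ t : ℝ, Bmn (fun z : ℝ × (Fin N → ℝ) => Complex.exp (I * ((t * z.2 k : ℝ) : ℂ))) ∧
      ∀ x, fc (fun z : ℝ × (Fin N → ℝ) => Complex.exp (I * ((t * z.2 k : ℝ) : ℂ))) x
        = L.W ((t : ℂ) • y k) x := by
    intro t
    have e1 : (fun z : ℝ × (Fin N → ℝ) => Complex.exp (I * ((t * z.2 k : ℝ) : ℂ)))
        = fun z => Complex.exp (I * ((∑ i, (Pi.single k t : Fin N → ℝ) i * z.2 i : ℝ) : ℂ)) := by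
      funext z
      rw [Finset.sum_eq_single k (fun i _ hi => by rw [Pi.single_eq_of_ne hi, zero_mul])
        (fun h => absurd (Finset.mem_univ k) h), Pi.single_eq_same]
    rw [e1]
    refine ⟨val_bmn_W _, fun x => ?_⟩
    rw [h.W]
    congr 2
    rw [Finset.sum_eq_single k (fun i _ hi => by rw [Pi.single_eq_of_ne hi, ofReal_zero, zero_smul])
        (fun h => absurd (Finset.mem_univ k) h), Pi.single_eq_same]
  have hEb : ∀ t, Bmn (fun z : ℝ × (Fin N → ℝ) =>
      Complex.exp (I * ((t * z.2 k : ℝ) : ℂ)) + (-1)) := fun t =>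
    val_bmn_add (hE t).1 (val_bmn_const (-1))
  have heb : ∀ t, Bmn (e t) := fun t => by
    have := val_bmn_smul ((t : ℂ)⁻¹) (hEb t)
    rw [he]
    simpa [sub_eq_add_neg] using this
  have hfe : ∀ t : ℝ, fc (e t) L.Om = ((t : ℂ)⁻¹) • (L.W ((t : ℂ) • y k) L.Om - L.Om) := by
    intro t
    have e2 : e t = fun z => (t : ℂ)⁻¹ * (Complex.exp (I * ((t * z.2 k : ℝ) : ℂ)) + (-1)) := by
      rw [he]
      funext z
      exact congrArg (fun w => (t : ℂ)⁻¹ * w) (sub_eq_add_neg _ _)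
    rw [e2, val_fc_smul h _ (hEb t), h.add _ _ (hE t).1 (val_bmn_const (-1)),
      val_fc_const h]
    change ((t : ℂ)⁻¹) • (fc (fun z => Complex.exp (I * ((t * z.2 k : ℝ) : ℂ))) L.Om
      + (-1 : ℂ) • L.Om) = _
    rw [(hE t).2]
    module
  have h1 : Tendsto (fun t : ℝ => (inner ℂ (fc f L.Om)
      (((t : ℂ)⁻¹) • (L.W ((t : ℂ) • y k) L.Om - L.Om)) : ℂ)) (𝓝[≠] 0)
      (𝓝 (inner ℂ (fc f L.Om) (I • J (y k)))) := tendsto_const_nhds.inner (ven_J2 hJ (y k))
  have h2 : Tendsto (fun t : ℝ => ∫ z, (starRingEnd ℂ) (f z) * e t z ∂(L.law N)) (𝓝[≠] 0)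
      (𝓝 (∫ z, (starRingEnd ℂ) (f z) * (I * (z.2 k : ℂ)) ∂(L.law N))) := by
    refine tendsto_integral_filter_of_dominated_convergence (fun z => C * |z.2 k|) ?_ ?_ ?_ ?_
    · exact Eventually.of_forall fun t =>
        (val_bmn_mul (val_bmn_conj hf) (heb t)).1.aestronglyMeasurable
    · filter_upwards [self_mem_nhdsWithin] with t ht
      have ht0 : t ≠ 0 := ht
      refine Eventually.of_forall fun z => ?_
      rw [norm_mul, RCLike.norm_conj]
      refine mul_le_mul (hC z) ?_ (norm_nonneg _) hC0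
      rw [he]
      simp only
      rw [norm_mul, norm_inv, Complex.norm_real, Real.norm_eq_abs,
        inv_mul_le_iff₀ (abs_pos.2 ht0), ← abs_mul, ← Real.norm_eq_abs (t * z.2 k)]
      exact Real.norm_exp_I_mul_ofReal_sub_one_le
    · exact (L.ven_snd_int k).abs.const_mul C
    · refine Eventually.of_forall fun z => ?_
      refine Tendsto.const_mul _ ?_
      have hd : HasDerivAt (fun t : ℝ => Complex.exp (I * ((t * z.2 k : ℝ) : ℂ)))
          (I * (z.2 k : ℂ)) 0 := by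
        have h7 : HasDerivAt (fun t : ℝ => t * z.2 k) (z.2 k) 0 := by
          simpa using (hasDerivAt_id (0 : ℝ)).mul_const (z.2 k)
        have h8 := (h7.ofReal_comp.const_mul I).cexp
        simpa using h8
      have h9 := hd.tendsto_slope_zero
      simp only [zero_add] at h9
      refine h9.congr fun t => ?_
      rw [Complex.real_smul, ofReal_inv, he]
      simp
  have h3 := tendsto_nhds_unique (h1.congr fun t => by
    rw [← hfe, val_inner_fc h hf (heb t)]) h2
  rw [inner_smul_right] at h3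
  have h4 : ∫ z, (starRingEnd ℂ) (f z) * (I * (z.2 k : ℂ)) ∂(L.law N)
      = I * ∫ z, (starRingEnd ℂ) (f z) * (z.2 k : ℂ) ∂(L.law N) := by
    rw [← integral_const_mul]
    exact integral_congr_ae (Eventually.of_forall fun z => by ring)
  rw [h4] at h3
  exact mul_left_cancel₀ I_ne_zero h3

/-- **energy in the algebra of the fields** -/
theorem ven_energy (hJ : L.IsJ J) (hy : Orthonormal ℂ y) (h : L.FCal y fc)
    {c m : ℝ × (Fin N → ℝ) → ℂ} (hc : Bmn c) (hm : Bmn m) {x : H}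
    (hx : x = fc c (L.Z L.Om) + fc m L.Om) :
    L.En J x = (∑ k, inner ℂ (y k) (L.iota x)
      * ∫ z, (starRingEnd ℂ) (m z) * (z.2 k : ℂ) ∂(L.law N)).re := by
  obtain ⟨r, hr⟩ : ∃ r : K, r = L.iota x - ∑ k, (inner ℂ (y k) (L.iota x) : ℂ) • y k := ⟨_, rfl⟩
  have hr0 : ∀ j, inner ℂ (y j) r = (0 : ℂ) := by
    intro j
    rw [hr, inner_sub_right, hy.inner_right_fintype, sub_self]
  have hdec : L.iota x = (∑ k, (inner ℂ (y k) (L.iota x) : ℂ) • y k) + r := by
    rw [hr, add_sub_cancel]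
  have hJx : J (L.iota x) = (∑ k, (inner ℂ (y k) (L.iota x) : ℂ) • J (y k)) + J r := by
    conv_lhs => rw [hdec]
    rw [ven_J_add hJ, ven_J_sum hJ]
    simp only [ven_J_smul hJ]
  have e1 : (inner ℂ x (J (L.iota x)) : ℂ) = inner ℂ (fc c (L.Z L.Om) + fc m L.Om)
      ((∑ k, (inner ℂ (y k) (L.iota x) : ℂ) • J (y k)) + J r) := by rw [← hx, ← hJx]
  unfold En
  rw [e1]
  congr 1
  rw [inner_add_left, inner_add_right, inner_add_right, inner_sum, inner_sum,
    ven_odd hJ h hc, ven_perp hJ h hm hr0]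
  simp only [inner_smul_right, ven_odd hJ h hc, ven_field hJ h hm, mul_zero,
    Finset.sum_const_zero, zero_add, add_zero]

lemma ven_ind_int (L : LSys H K) {G : Set ℝ} (hG : MeasurableSet G) (F : (Fin N → ℝ) → ℝ) :
    ∫ z, (G.indicator (fun _ => (1 : ℝ)) z.1 * F z.2) ∂(L.law N)
      = L.mu.real G * ∫ z, F z ∂(Measure.pi fun _ : Fin N => gaussianReal 0 1) := by
  have := L.prob
  unfold law
  rw [integral_prod_mul, integral_indicator_const _ hG, smul_eq_mul, mul_one]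

/-- the vector of a field `y` against a magnetisation -/
lemma ven_inner_m (h : L.FCal y fc) {G : Set ℝ} (hG : MeasurableSet G) {r : ℝ}
    {c : ℝ × (Fin N → ℝ) → ℂ} (hc : Bmn c) {φ m : (Fin N → ℝ) → ℝ} (hφ : Measurable φ)
    (hφb : ∃ C, ∀ z, |φ z| ≤ C) (hm : Measurable m) (hmb : ∃ C, ∀ z, |m z| ≤ C) {u : K}
    (hu : u = L.iota (fc (fun z => ((r * G.indicator (fun _ => (1 : ℝ)) z.1 * φ z.2 : ℝ) : ℂ)) L.Om))
    {x : H} (hx : x = fc c (L.Z L.Om)
      + fc (fun z => ((G.indicator (fun _ => (1 : ℝ)) z.1 * m z.2 : ℝ) : ℂ)) L.Om) :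
    inner ℂ u (L.iota x) = ((r * (L.mu.real G
      * ∫ z, φ z * m z ∂(Measure.pi fun _ : Fin N => gaussianReal 0 1)) : ℝ) : ℂ) := by
  have hind : Measurable fun z : ℝ × (Fin N → ℝ) => G.indicator (fun _ => (1 : ℝ)) z.1 :=
    (measurable_const.indicator hG).comp measurable_fst
  have hi1 : ∀ t, |G.indicator (fun _ => (1 : ℝ)) t| ≤ 1 := fun t => by
    by_cases ht : t ∈ G <;> simp [ht]
  have hi2 : ∀ t, G.indicator (fun _ => (1 : ℝ)) t * G.indicator (fun _ => (1 : ℝ)) t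
      = G.indicator (fun _ => (1 : ℝ)) t := fun t => by
    by_cases ht : t ∈ G <;> simp [ht]
  obtain ⟨C, hC⟩ := hφb
  obtain ⟨D, hD⟩ := hmb
  have b1 : Bmn fun z : ℝ × (Fin N → ℝ) =>
      ((r * G.indicator (fun _ => (1 : ℝ)) z.1 * φ z.2 : ℝ) : ℂ) :=
    val_bmn_ofReal ((hind.const_mul r).mul (hφ.comp measurable_snd)) (C := |r| * 1 * C)
      fun z => by
        rw [abs_mul, abs_mul]
        exact mul_le_mul (mul_le_mul_of_nonneg_left (hi1 _) (abs_nonneg _)) (hC _)
          (abs_nonneg _) (by positivity)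
  have b2 : Bmn fun z : ℝ × (Fin N → ℝ) =>
      ((G.indicator (fun _ => (1 : ℝ)) z.1 * m z.2 : ℝ) : ℂ) :=
    val_bmn_ofReal (hind.mul (hm.comp measurable_snd)) (C := 1 * D)
      fun z => by
        rw [abs_mul]
        exact mul_le_mul (hi1 _) (hD _) (abs_nonneg _) (by positivity)
  rw [hu, L.iota.inner_map_map, hx, inner_add_right, ven_odd' h hc b1, zero_add,
    val_inner_fc h b1 b2]
  have e1 : ∀ z : ℝ × (Fin N → ℝ), (starRingEnd ℂ)
      (((r * G.indicator (fun _ => (1 : ℝ)) z.1 * φ z.2 : ℝ) : ℂ))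
      * ((G.indicator (fun _ => (1 : ℝ)) z.1 * m z.2 : ℝ) : ℂ)
      = ((r * (G.indicator (fun _ => (1 : ℝ)) z.1 * (φ z.2 * m z.2)) : ℝ) : ℂ) := by
    intro z
    rw [Complex.conj_ofReal, ← ofReal_mul]
    congr 1
    linear_combination (r * φ z.2 * m z.2) * hi2 z.1
  simp only [e1]
  rw [integral_complex_ofReal, integral_const_mul,
    ven_ind_int L hG (fun z => φ z * m z)]

/-- **value of the final state** -/
theorem ven_value_gen (hJ : L.IsJ J) (hy : Orthonormal ℂ y) (h : L.FCal y fc) {G : Set ℝ}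
    (hG : MeasurableSet G) {r : ℝ} {c : ℝ × (Fin N → ℝ) → ℂ} (hc : Bmn c)
    {φ : Fin N → (Fin N → ℝ) → ℝ} {m : (Fin N → ℝ) → ℝ} (hφ : ∀ k, Measurable (φ k))
    (hφb : ∀ k, ∃ C, ∀ z, |φ k z| ≤ C) (hm : Measurable m) (hmb : ∃ C, ∀ z, |m z| ≤ C)
    (hyk : ∀ k, y k = L.iota
      (fc (fun z => ((r * G.indicator (fun _ => (1 : ℝ)) z.1 * φ k z.2 : ℝ) : ℂ)) L.Om))
    {x : H} (hx : x = fc c (L.Z L.Om)
      + fc (fun z => ((G.indicator (fun _ => (1 : ℝ)) z.1 * m z.2 : ℝ) : ℂ)) L.Om) :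
    L.En J x = r * L.mu.real G ^ 2 * ∑ k,
      (∫ z, φ k z * m z ∂(Measure.pi fun _ : Fin N => gaussianReal 0 1))
        * ∫ z, z k * m z ∂(Measure.pi fun _ : Fin N => gaussianReal 0 1) := by
  have hind : Measurable fun z : ℝ × (Fin N → ℝ) => G.indicator (fun _ => (1 : ℝ)) z.1 :=
    (measurable_const.indicator hG).comp measurable_fst
  have hi1 : ∀ t, |G.indicator (fun _ => (1 : ℝ)) t| ≤ 1 := fun t => by
    by_cases ht : t ∈ G <;> simp [ht]
  have b2 : Bmn fun z : ℝ × (Fin N → ℝ) =>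
      ((G.indicator (fun _ => (1 : ℝ)) z.1 * m z.2 : ℝ) : ℂ) := by
    obtain ⟨D, hD⟩ := hmb
    exact val_bmn_ofReal (hind.mul (hm.comp measurable_snd)) (C := 1 * D)
      fun z => by
        rw [abs_mul]
        exact mul_le_mul (hi1 _) (hD _) (abs_nonneg _) (by positivity)
  have e1 : ∀ k : Fin N, ∫ z, (starRingEnd ℂ)
      ((G.indicator (fun _ => (1 : ℝ)) z.1 * m z.2 : ℝ) : ℂ) * (z.2 k : ℂ) ∂(L.law N)
      = ((L.mu.real G * ∫ z, z k * m z ∂(Measure.pi fun _ : Fin N => gaussianReal 0 1) : ℝ) : ℂ) := by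
    intro k
    rw [← ven_ind_int L hG (fun z => z k * m z), ← integral_complex_ofReal]
    refine integral_congr_ae (Eventually.of_forall fun z => ?_)
    simp only
    rw [Complex.conj_ofReal, ← ofReal_mul]
    congr 1
    ring
  rw [ven_energy hJ hy h hc b2 hx]
  simp only [e1, ven_inner_m h hG hc (hφ _) (hφb _) hm hmb (hyk _) hx]
  rw [Complex.re_sum, Finset.mul_sum]
  refine Finset.sum_congr rfl fun k _ => ?_
  rw [← ofReal_mul, ofReal_re]
  ring

end fc

/-- **VALUE, energy half**: energy `g ^ (3/2) sum_k (∫ psi_k m) (∫ z_{k+1} m)`. -/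
theorem ven_value {J : K → H} (hJ : L.IsJ J) {n : ℕ} {y : Fin (n + 1) → K}
    {fc : (ℝ × (Fin (n + 1) → ℝ) → ℂ) → (H →L[ℂ] H)} (hy : Orthonormal ℂ y) (h : L.FCal y fc)
    {G : Set ℝ} (hG : MeasurableSet G) {c : ℝ × (Fin (n + 1) → ℝ) → ℂ} (hc : Bmn c)
    {ψ : Fin n → (Fin (n + 1) → ℝ) → ℝ} {m : (Fin (n + 1) → ℝ) → ℝ} (hψ : ∀ k, Measurable (ψ k))
    (hψb : ∀ k, ∃ C, ∀ z, |ψ k z| ≤ C) (hm : Measurable m) (hmb : ∃ C, ∀ z, |m z| ≤ C)
    (hm0 : ∫ z, m z ∂(Measure.pi fun _ : Fin (n + 1) => gaussianReal 0 1) = 0)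
    (hy0 : y 0 = L.iota (fc (fun z => (((√(L.mu.real G))⁻¹
      * G.indicator (fun _ => (1 : ℝ)) z.1 : ℝ) : ℂ)) L.Om))
    (hyk : ∀ k : Fin n, y k.succ = L.iota (fc (fun z => (((√(L.mu.real G))⁻¹
      * G.indicator (fun _ => (1 : ℝ)) z.1 * ψ k z.2 : ℝ) : ℂ)) L.Om))
    {x : H} (hx : x = fc c (L.Z L.Om)
      + fc (fun z => ((G.indicator (fun _ => (1 : ℝ)) z.1 * m z.2 : ℝ) : ℂ)) L.Om) :
    L.En J x = L.mu.real G * √(L.mu.real G) * ∑ k : Fin n,
      (∫ z, ψ k z * m z ∂(Measure.pi fun _ : Fin (n + 1) => gaussianReal 0 1))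
        * ∫ z, z k.succ * m z ∂(Measure.pi fun _ : Fin (n + 1) => gaussianReal 0 1) := by
  have h1 := ven_value_gen hJ hy h hG (r := (√(L.mu.real G))⁻¹) hc
    (φ := Fin.cons (fun _ => 1) ψ) (m := m)
    (fun k => by
      refine Fin.cases ?_ (fun k => ?_) k
      · exact measurable_const
      · exact hψ k)
    (fun k => by
      refine Fin.cases ?_ (fun k => ?_) k
      · exact ⟨1, fun z => by simp⟩
      · exact hψb k) hm hmb
    (fun k => by
      refine Fin.cases ?_ (fun k => ?_) k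
      · rw [hy0]
        simp only [Fin.cons_zero, mul_one]
      · rw [hyk]
        simp only [Fin.cons_succ]) hx
  rw [h1, Fin.sum_univ_succ]
  simp only [Fin.cons_zero, Fin.cons_succ, one_mul, hm0, zero_mul, zero_add]
  rw [show (√(L.mu.real G))⁻¹ * L.mu.real G ^ 2 = L.mu.real G * √(L.mu.real G) by
    rcases eq_or_lt_of_le (measureReal_nonneg (μ := L.mu) (s := G)) with h0 | h0
    · rw [← h0]; simp
    · rw [inv_mul_eq_iff_eq_mul₀ (Real.sqrt_pos.2 h0).ne']
      have := Real.mul_self_sqrt h0.le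
      linear_combination (-(L.mu.real G)) * this]

end LSys

end Vale.Agent.P367.A
end

section

/-!
# P367, classical half: schemes with finitely many values
-/

open MeasureTheory ProbabilityTheory Filter Topology Set

namespace Vale.Agent.P367.Cl

/-- the data of a scheme with finitely many values and the fields `z 0, …, z n` -/
structure SScheme (n : ℕ) (ψ : Fin n → (Fin (n + 1) → ℝ) → ℝ) (m : (Fin (n + 1) → ℝ) → ℝ) :
    Prop where
  meas : ∀ k, Measurable (ψ k)
  fin : ∀ k, (range (ψ k)).Finite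
  dep : ∀ (k : Fin n) z z', (∀ j : Fin (n + 1), (j : ℕ) ≤ (k : ℕ) → z j = z' j) →
    ψ k z = ψ k z'
  odd : ∀ k z, ψ k (-z) = -ψ k z
  orth : ∀ j k, ∫ z, ψ j z * ψ k z ∂(γN (n + 1)) = if j = k then 1 else 0
  mmeas : Measurable m
  mfin : (range m).Finite
  mbd : ∀ z, |m z| ≤ 1
  modd : ∀ z, m (-z) = -m z

/-- rounding towards zero to multiples of `1 / K` -/
noncomputable def rd (K : ℕ) (x : ℝ) : ℝ :=
  if 0 ≤ x then (⌊K * x⌋ : ℝ) / K else -((⌊K * (-x)⌋ : ℝ) / K)

lemma rd_neg (K : ℕ) (x : ℝ) : rd K (-x) = -rd K x := by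
  unfold rd
  rcases lt_trichotomy x 0 with h | h | h
  · rw [if_pos (by linarith), if_neg (by linarith), neg_neg]
  · subst h
    simp
  · rw [if_neg (by linarith), if_pos h.le, neg_neg]

lemma rd_nonneg {K : ℕ} {x : ℝ} (hx : 0 ≤ x) : 0 ≤ rd K x ∧ rd K x ≤ x := by
  unfold rd
  rw [if_pos hx]
  rcases Nat.eq_zero_or_pos K with rfl | hK
  · simp [hx]
  · have hK' : (0 : ℝ) < K := by exact_mod_cast hK
    constructor
    · have : (0 : ℤ) ≤ ⌊K * x⌋ := Int.floor_nonneg.2 (by positivity)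
      have : (0 : ℝ) ≤ ⌊K * x⌋ := by exact_mod_cast this
      positivity
    · rw [div_le_iff₀ hK', mul_comm]
      exact Int.floor_le _

lemma abs_rd_le (K : ℕ) (x : ℝ) : |rd K x| ≤ |x| := by
  rcases le_total 0 x with h | h
  · obtain ⟨h1, h2⟩ := rd_nonneg (K := K) h
    rw [abs_of_nonneg h1, abs_of_nonneg h]
    exact h2
  · obtain ⟨h1, h2⟩ := rd_nonneg (K := K) (neg_nonneg.2 h)
    rw [rd_neg] at h1 h2
    rw [abs_of_nonpos (by linarith), abs_of_nonpos h]
    exact h2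

lemma rd_near {K : ℕ} (hK : 0 < K) (x : ℝ) : |rd K x - x| ≤ 1 / K := by
  have hK' : (0 : ℝ) < K := by exact_mod_cast hK
  have key : ∀ x : ℝ, 0 ≤ x → |rd K x - x| ≤ 1 / K := by
    intro x hx
    obtain ⟨h1, h2⟩ := rd_nonneg (K := K) hx
    rw [abs_sub_comm, abs_of_nonneg (by linarith)]
    unfold rd
    rw [if_pos hx]
    have h3 := Int.lt_floor_add_one (K * x)
    rw [sub_le_iff_le_add, ← add_div, le_div_iff₀ hK']
    linarith
  rcases le_total 0 x with h | h
  · exact key x h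
  · have := key (-x) (neg_nonneg.2 h)
    rwa [rd_neg, neg_sub_neg, abs_sub_comm] at this

lemma rd_meas (K : ℕ) : Measurable (rd K) := by
  unfold rd
  refine Measurable.ite measurableSet_Ici ?_ ?_
  · fun_prop
  · fun_prop

lemma tendsto_rd (x : ℝ) : Tendsto (fun K : ℕ => rd K x) atTop (𝓝 x) := by
  rw [tendsto_iff_norm_sub_tendsto_zero]
  refine squeeze_zero' (Filter.Eventually.of_forall fun _ => norm_nonneg _) ?_
    tendsto_one_div_atTop_nhds_zero_nat
  filter_upwards [eventually_gt_atTop 0] with K hK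
  exact rd_near hK x

lemma tendsto_rd' {u : ℕ → ℝ} {x : ℝ} (hu : Tendsto u atTop (𝓝 x)) :
    Tendsto (fun K : ℕ => rd K (u K)) atTop (𝓝 x) := by
  have h1 : Tendsto (fun K : ℕ => rd K (u K) - u K) atTop (𝓝 0) := by
    rw [tendsto_zero_iff_norm_tendsto_zero]
    refine squeeze_zero' (Filter.Eventually.of_forall fun _ => norm_nonneg _) ?_
      tendsto_one_div_atTop_nhds_zero_nat
    filter_upwards [eventually_gt_atTop 0] with K hK
    exact rd_near hK (u K)
  have h2 := h1.add hu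
  rw [zero_add] at h2
  exact h2.congr fun K => by ring

/-- finitely many values on bounded sets -/
lemma rd_fin (K : ℕ) (C : ℝ) : ∃ s : Finset ℝ, ∀ x, |x| ≤ C → rd K x ∈ s := by
  classical
  refine ⟨(Finset.Icc (-⌈K * C⌉) ⌈K * C⌉).image fun j : ℤ => (j : ℝ) / K, fun x hx => ?_⟩
  rw [Finset.mem_image]
  have hK' : (0 : ℝ) ≤ K := by positivity
  rw [abs_le] at hx
  rcases le_or_gt 0 x with h | h
  · refine ⟨⌊K * x⌋, ?_, ?_⟩
    · rw [Finset.mem_Icc]
      have h1 : (0 : ℤ) ≤ ⌊K * x⌋ := Int.floor_nonneg.2 (by positivity)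
      have h2 : ⌊K * x⌋ ≤ ⌈K * C⌉ :=
        (Int.floor_le_ceil _).trans (Int.ceil_le_ceil (by nlinarith))
      constructor <;> omega
    · unfold rd
      rw [if_pos h]
  · refine ⟨-⌊K * (-x)⌋, ?_, ?_⟩
    · rw [Finset.mem_Icc]
      have h1 : (0 : ℤ) ≤ ⌊K * (-x)⌋ := Int.floor_nonneg.2 (by nlinarith)
      have h2 : ⌊K * (-x)⌋ ≤ ⌈K * C⌉ :=
        (Int.floor_le_ceil _).trans (Int.ceil_le_ceil (by nlinarith))
      constructor <;> omega
    · unfold rd
      rw [if_neg (by linarith)]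
      push_cast
      ring

/-! ### General product increments -/

variable {n : ℕ} {f : ℕ → ℝ → ℝ} {c : ℕ → ℝ} {g G : ℕ → ℝ → ℝ} {T : ℝ → ℝ} {a : ℕ → ℝ} {t : ℝ}

/-- increments with general factors -/
noncomputable def psG (n : ℕ) (f : ℕ → ℝ → ℝ) (c : ℕ → ℝ) (G : ℕ → ℝ → ℝ) (T : ℝ → ℝ)
    (a : ℕ → ℝ) (t : ℝ) (k : Fin n) (z : Fin (n + 1) → ℝ) : ℝ :=
  G k (cX f c (ext z) k) * T (z k.castSucc) / (a k * t)

lemma ind_psG {j k : Fin n} (hjk : j < k) : Ind k.castSucc (psG n f c G T a t j) := by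
  intro z x
  unfold psG
  have e1 : cX f c (ext (Function.update z k.castSucc x)) j = cX f c (ext z) j :=
    eX_congr f c fun i hi => ext_update z k.castSucc x (by
      have h1 : (j : ℕ) < k := hjk
      have h2 : ((k.castSucc : Fin (n + 1)) : ℕ) = k := rfl
      omega)
  have e2 : Function.update z k.castSucc x j.castSucc = z j.castSucc :=
    Function.update_of_ne (fun e => hjk.ne (Fin.castSucc_injective _ e)) _ _
  rw [e1, e2]

lemma psG_lt (hT : ∫ x, T x ∂(gaussianReal 0 1) = 0) {j k : Fin n} (hjk : j < k) :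
    ∫ z, psG n f c G T a t j z * psG n f c G T a t k z ∂(γN (n + 1)) = 0 := by
  have h1 : Ind k.castSucc (fun z => psG n f c G T a t j z *
      (fun z => G k (cX f c (ext z) k) / (a k * t)) z) :=
    (ind_psG hjk).mul (ind_gX (f := f) (c := c) k.castSucc
      (show (k : ℕ) ≤ k.castSucc from le_rfl) (fun x => G k x / (a k * t)))
  have h := pi_split k.castSucc h1 T
  rw [hT, mul_zero] at h
  rw [← h]
  refine integral_congr_ae (Filter.Eventually.of_forall fun z => ?_)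
  change psG n f c G T a t j z * (G k (cX f c (ext z) k) * T (z k.castSucc) /
    (a k * t)) = psG n f c G T a t j z * (G k (cX f c (ext z) k) / (a k * t)) * T (z k.castSucc)
  ring

lemma psG_self (ht : t ≠ 0) (k : Fin n) (ha : a k ≠ 0)
    (hT2 : ∫ x, T x ^ 2 ∂(gaussianReal 0 1) = t ^ 2)
    (hG2 : ∫ z, G k (cX f c (ext z) k) ^ 2 ∂(γN (n + 1)) = a k ^ 2) :
    ∫ z, psG n f c G T a t k z * psG n f c G T a t k z ∂(γN (n + 1)) = 1 := by
  have h1 := pi_split k.castSucc (ind_gX (f := f) (c := c) k.castSucc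
      (show (k : ℕ) ≤ k.castSucc from le_rfl) (fun x => G k x ^ 2)) (fun x => T x ^ 2)
  rw [hT2, hG2] at h1
  have h2 : ∫ z, psG n f c G T a t k z * psG n f c G T a t k z ∂(γN (n + 1)) =
      ∫ z, (a k * t)⁻¹ ^ 2 * (G k (cX f c (ext z) k) ^ 2 *
        T (z k.castSucc) ^ 2) ∂(γN (n + 1)) := by
    refine integral_congr_ae (Filter.Eventually.of_forall fun z => ?_)
    change G k (cX f c (ext z) k) * T (z k.castSucc) / (a k * t) *
      (G k (cX f c (ext z) k) * T (z k.castSucc) / (a k * t)) = _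
    rw [div_eq_mul_inv]
    ring
  rw [h2, integral_const_mul, h1]
  field_simp

/-! ### The rounded increments -/

/-- rounded factors -/
noncomputable def gS (g : ℕ → ℝ → ℝ) (K k : ℕ) (x : ℝ) : ℝ := rd K (g k x) + 1 / K

/-- rounded truncation -/
noncomputable def tS (K : ℕ) (x : ℝ) : ℝ := rd K (trn K x)

noncomputable def aS (n : ℕ) (f : ℕ → ℝ → ℝ) (c : ℕ → ℝ) (g : ℕ → ℝ → ℝ) (K k : ℕ) : ℝ :=
  √(∫ z, gS g K k (cX f c (ext z) k) ^ 2 ∂(γN (n + 1)))

noncomputable def tn (K : ℕ) : ℝ := √(∫ x, tS K x ^ 2 ∂(gaussianReal 0 1))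

lemma tS_neg (K : ℕ) (x : ℝ) : tS K (-x) = -tS K x := by
  unfold tS
  rw [trn_neg (Nat.cast_nonneg K), rd_neg]

lemma tS_meas (K : ℕ) : Measurable (tS K) := (rd_meas K).comp (trn_cont K).measurable

lemma abs_tS_le (K : ℕ) (x : ℝ) : |tS K x| ≤ |x| :=
  (abs_rd_le _ _).trans (trn_le_abs (Nat.cast_nonneg K) x)

lemma int_tS (K : ℕ) : ∫ x, tS K x ∂(gaussianReal 0 1) = 0 := by
  have h : ∫ x, tS K x ∂(gaussianReal 0 1) = ∫ x, tS K (-x) ∂(gaussianReal 0 1) := by
    have hmp : MeasurePreserving (MeasurableEquiv.neg ℝ) (gaussianReal 0 1) (gaussianReal 0 1) := by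
      refine ⟨(MeasurableEquiv.neg ℝ).measurable, ?_⟩
      have := gaussianReal_map_neg (μ := 0) (v := 1)
      rw [neg_zero] at this
      exact this
    exact (hmp.integral_comp' (fun x => tS K x)).symm
  simp only [tS_neg, integral_neg] at h
  linarith

lemma tendsto_tS (x : ℝ) : Tendsto (fun K : ℕ => tS K x) atTop (𝓝 x) := tendsto_rd' (tendsto_trn x)

lemma tendsto_tn : Tendsto tn atTop (𝓝 1) := by
  have h : Tendsto (fun K : ℕ => ∫ x, tS K x ^ 2 ∂(gaussianReal 0 1)) atTop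
      (𝓝 (∫ x : ℝ, x ^ 2 ∂(gaussianReal 0 1))) := by
    refine tendsto_integral_of_dominated_convergence (fun x => x ^ 2) ?_ ?_ ?_ ?_
    · intro K
      exact ((tS_meas K).pow_const 2).aestronglyMeasurable
    · have := memLp_id_gaussianReal (μ := 0) (v := 1) 2
      exact this.integrable_sq
    · intro K
      refine Filter.Eventually.of_forall fun x => ?_
      rw [Real.norm_eq_abs, abs_of_nonneg (sq_nonneg _)]
      exact sq_le_sq.2 (abs_tS_le K x)
    · exact Filter.Eventually.of_forall fun x => (tendsto_tS x).pow 2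
  rw [int_sq] at h
  have h2 := (Real.continuous_sqrt.tendsto 1).comp h
  rw [Real.sqrt_one] at h2
  exact h2

lemma tn_sq (K : ℕ) : ∫ x, tS K x ^ 2 ∂(gaussianReal 0 1) = tn K ^ 2 := by
  unfold tn
  exact (Real.sq_sqrt (integral_nonneg fun G => sq_nonneg _)).symm

lemma aS_sq (K k : ℕ) : ∫ z, gS g K k (cX f c (ext z) k) ^ 2 ∂(γN (n + 1)) =
    aS n f c g K k ^ 2 := by
  unfold aS
  exact (Real.sq_sqrt (integral_nonneg fun G => sq_nonneg _)).symm

lemma gS_meas (h : Ctl (n + 1) f c g) (K k : ℕ) : Measurable (gS g K k) :=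
  ((rd_meas K).comp (h.gs k).smooth.continuous.measurable).add_const _

lemma gS_abs_le {K : ℕ} (hK : 1 ≤ K) (k : ℕ) {C x : ℝ} (hC : |g k x| ≤ C) :
    |gS g K k x| ≤ C + 1 := by
  have hK' : (1 : ℝ) ≤ K := by exact_mod_cast hK
  unfold gS
  refine (abs_add_le _ _).trans (add_le_add ((abs_rd_le _ _).trans hC) ?_)
  rw [abs_of_nonneg (by positivity), div_le_one (by linarith)]
  exact hK'

lemma tendsto_gS (k : ℕ) (x : ℝ) : Tendsto (fun K : ℕ => gS g K k x) atTop (𝓝 (g k x)) := by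
  have h0 : Tendsto (fun K : ℕ => (1 : ℝ) / K) atTop (𝓝 0) := tendsto_one_div_atTop_nhds_zero_nat
  have h := (tendsto_rd (g k x)).add h0
  rw [add_zero] at h
  exact h

lemma tendsto_aS (h : Ctl (n + 1) f c g) (k : ℕ) :
    Tendsto (fun K : ℕ => aS n f c g K k) atTop (𝓝 (cs (n + 1) f c g k)) := by
  obtain ⟨C, hC⟩ := h.gb k
  have h1 : Tendsto (fun K : ℕ => ∫ z, gS g K k (cX f c (ext z) k) ^ 2 ∂(γN (n + 1))) atTop
      (𝓝 (∫ z, g k (cX f c (ext z) k) ^ 2 ∂(γN (n + 1)))) := by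
    refine tendsto_integral_filter_of_dominated_convergence (fun _ => (C + 1) ^ 2) ?_ ?_ ?_ ?_
    · refine Filter.Eventually.of_forall fun K => ?_
      exact (((gS_meas h K k).comp
        (cX_meas (fun j => (h.fs j).smooth.continuous) k)).pow_const 2).aestronglyMeasurable
    · filter_upwards [eventually_ge_atTop 1] with K hK
      refine Filter.Eventually.of_forall fun z => ?_
      rw [Real.norm_eq_abs, abs_of_nonneg (sq_nonneg _)]
      have h2 := gS_abs_le hK k (hC (cX f c (ext z) k))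
      exact sq_le_sq' (by linarith [(abs_le.1 h2).1]) ((abs_le.1 h2).2)
    · exact integrable_const _
    · exact Filter.Eventually.of_forall fun z => (tendsto_gS k _).pow 2
  unfold aS cs
  exact (Real.continuous_sqrt.tendsto _).comp h1

/-- the rounded scheme -/
noncomputable def psS (n : ℕ) (f : ℕ → ℝ → ℝ) (c : ℕ → ℝ) (g : ℕ → ℝ → ℝ) (K : ℕ) :
    Fin n → (Fin (n + 1) → ℝ) → ℝ :=
  psG n f c (gS g K) (tS K) (aS n f c g K) (tn K)

lemma fin_mul_div {X : Type*} {u v : X → ℝ} (hu : (range u).Finite) (hv : (range v).Finite)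
    (b : ℝ) : (range fun x => u x * v x / b).Finite := by
  refine (Set.Finite.image2 (fun p q : ℝ => p * q / b) hu hv).subset ?_
  rintro _ ⟨x, rfl⟩
  exact ⟨u x, ⟨x, rfl⟩, v x, ⟨x, rfl⟩, rfl⟩

lemma psS_scheme (h : Ctl (n + 1) f c g) {K : ℕ} (ht : tn K ≠ 0)
    (ha : ∀ k : Fin n, aS n f c g K k ≠ 0) :
    SScheme n (psS n f c g K) (fun z => rd K (mcl n f c g z)) := by
  have hcX : ∀ k, Measurable (fun z : Fin (n + 1) → ℝ => cX f c (ext z) k) :=
    cX_meas (fun j => (h.fs j).smooth.continuous)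
  refine ⟨?_, ?_, ?_, ?_, ?_, ?_, ?_, ?_, ?_⟩
  · intro k
    refine Measurable.div_const (Measurable.mul ?_ ?_) _
    · exact (gS_meas h K k).comp (hcX k)
    · exact (tS_meas K).comp (measurable_pi_apply _)
  · intro k
    refine fin_mul_div ?_ ?_ _
    · obtain ⟨C, hC⟩ := h.gb k
      obtain ⟨s, hs⟩ := rd_fin K C
      refine (Set.Finite.image (fun y : ℝ => y + 1 / (K : ℝ)) s.finite_toSet).subset ?_
      rintro _ ⟨z, rfl⟩
      exact ⟨rd K (g k (cX f c (ext z) k)), hs _ (hC _), rfl⟩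
    · obtain ⟨s, hs⟩ := rd_fin K K
      refine s.finite_toSet.subset ?_
      rintro _ ⟨z, rfl⟩
      exact hs _ (trn_le (Nat.cast_nonneg K) _)
  · intro k z z' hz
    unfold psS psG
    have e1 : cX f c (ext z) k = cX f c (ext z') k := by
      refine eX_congr f c fun j hj => ?_
      have hj' : j < n + 1 := by have := k.2; omega
      have := hz ⟨j, hj'⟩ hj.le
      unfold ext
      rw [dif_pos hj', dif_pos hj', this]
    rw [e1, hz k.castSucc le_rfl]
  · intro k z
    unfold psS psG gS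
    rw [cX_neg h, h.ge]
    change _ * tS K (-z k.castSucc) / _ = _
    rw [tS_neg]
    ring
  · intro j k
    split_ifs with hjk
    · rw [hjk]
      exact psG_self ht k (ha k) (tn_sq K) (aS_sq K k)
    · rcases lt_or_gt_of_ne hjk with h1 | h1
      · exact psG_lt (int_tS K) h1
      · rw [← psG_lt (f := f) (c := c) (G := gS g K) (a := aS n f c g K) (t := tn K)
          (int_tS K) h1]
        exact integral_congr_ae (Filter.Eventually.of_forall fun z => mul_comm _ _)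
  · exact (rd_meas K).comp (clip_cont.comp (cM_cont h _)).measurable
  · obtain ⟨s, hs⟩ := rd_fin K 1
    refine s.finite_toSet.subset ?_
    rintro _ ⟨z, rfl⟩
    exact hs _ (clip_le _)
  · exact fun z => (abs_rd_le _ _).trans (clip_le _)
  · intro z
    unfold mcl
    rw [cM_neg h, clip_neg, rd_neg]

lemma tendsto_psS (h : Ctl (n + 1) f c g) (k : Fin n) :
    Tendsto (fun K : ℕ => ∫ z, psS n f c g K k z * rd K (mcl n f c g z) ∂(γN (n + 1))) atTop
      (𝓝 (∫ z, psi (n + 1) f c g (ext z) k * clip (cM f c g (ext z) (n + 1)) ∂(γN (n + 1)))) := by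
  obtain ⟨C, hC⟩ := h.gb k
  have hs := cs_pos h k
  have hC0 : 0 ≤ C := (abs_nonneg _).trans (hC 0)
  have hev : ∀ᶠ K : ℕ in atTop, (1 / 2 : ℝ) ≤ tn K :=
    tendsto_tn.eventually (eventually_ge_nhds (by norm_num))
  have hev2 : ∀ᶠ K : ℕ in atTop, cs (n + 1) f c g k / 2 ≤ aS n f c g K k :=
    (tendsto_aS h k).eventually (eventually_ge_nhds (by linarith))
  have hcX : ∀ k, Measurable (fun z : Fin (n + 1) → ℝ => cX f c (ext z) k) :=
    cX_meas (fun j => (h.fs j).smooth.continuous)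
  refine tendsto_integral_filter_of_dominated_convergence
    (fun z => (C + 1) * |z k.castSucc| / (cs (n + 1) f c g k / 2 * (1 / 2))) ?_ ?_ ?_ ?_
  · refine Filter.Eventually.of_forall fun K => ?_
    have h1 : Measurable (psS n f c g K k) := by
      refine Measurable.div_const (Measurable.mul ?_ ?_) _
      · exact (gS_meas h K k).comp (hcX k)
      · exact (tS_meas K).comp (measurable_pi_apply _)
    exact (h1.mul ((rd_meas K).comp
      (clip_cont.comp (cM_cont h _)).measurable)).aestronglyMeasurable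
  · filter_upwards [hev, hev2, eventually_ge_atTop 1] with K hK hK2 hK1
    refine Filter.Eventually.of_forall fun z => ?_
    rw [norm_mul, Real.norm_eq_abs, Real.norm_eq_abs]
    have h1 : |rd K (mcl n f c g z)| ≤ 1 := (abs_rd_le _ _).trans (clip_le _)
    have h2 : |psS n f c g K k z| ≤
        (C + 1) * |z k.castSucc| / (cs (n + 1) f c g k / 2 * (1 / 2)) := by
      unfold psS psG
      have ht : 0 < tn K := by linarith
      have ha : 0 < aS n f c g K k := by linarith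
      rw [abs_div, abs_mul, abs_of_pos (mul_pos ha ht)]
      have h3 := gS_abs_le hK1 k (hC (cX f c (ext z) k))
      have h4 := abs_tS_le K (z k.castSucc)
      gcongr
    calc _ ≤ |psS n f c g K k z| * 1 := mul_le_mul_of_nonneg_left h1 (abs_nonneg _)
      _ ≤ _ := by rw [mul_one]; exact h2
  · have h1 : Integrable (fun z : Fin (n + 1) → ℝ => ext z k) (γN (n + 1)) :=
      (ext_memLp (N := n + 1) (k : ℕ)).integrable (by norm_num)
    have h2 := (h1.abs.const_mul (C + 1)).div_const (cs (n + 1) f c g k / 2 * (1 / 2))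
    refine h2.congr (Filter.Eventually.of_forall fun z => ?_)
    change (C + 1) * |ext z k| / _ = _
    rw [ext_castSucc]
  · refine Filter.Eventually.of_forall fun z => ?_
    refine Tendsto.mul ?_ (tendsto_rd _)
    unfold psS psG psi cv
    rw [ext_castSucc]
    have h1 := (tendsto_gS (g := g) k (cX f c (ext z) k)).mul (tendsto_tS (z k.castSucc))
    have h2 := (tendsto_aS h k).mul tendsto_tn
    rw [mul_one] at h2
    exact h1.div h2 hs.ne'

lemma tendsto_zm (h : Ctl (n + 1) f c g) (k : Fin n) :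
    Tendsto (fun K : ℕ => ∫ z, z k.succ * rd K (mcl n f c g z) ∂(γN (n + 1))) atTop
      (𝓝 (∫ z, z k.succ * mcl n f c g z ∂(γN (n + 1)))) := by
  refine tendsto_integral_filter_of_dominated_convergence (fun z => |z k.succ|) ?_ ?_ ?_ ?_
  · refine Filter.Eventually.of_forall fun K => ?_
    exact ((measurable_pi_apply _).mul ((rd_meas K).comp
      (clip_cont.comp (cM_cont h _)).measurable)).aestronglyMeasurable
  · refine Filter.Eventually.of_forall fun K => Filter.Eventually.of_forall fun z => ?_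
    rw [norm_mul, Real.norm_eq_abs, Real.norm_eq_abs]
    have h1 : |rd K (mcl n f c g z)| ≤ 1 := (abs_rd_le _ _).trans (clip_le _)
    calc _ ≤ |z k.succ| * 1 := mul_le_mul_of_nonneg_left h1 (abs_nonneg _)
      _ = _ := mul_one _
  · have h1 : Integrable (fun z : Fin (n + 1) → ℝ => ext z (k + 1)) (γN (n + 1)) :=
      (ext_memLp (N := n + 1) (k + 1)).integrable (by norm_num)
    refine h1.abs.congr (Filter.Eventually.of_forall fun z => ?_)
    change |ext z (k + 1)| = _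
    rw [ext_succ]
  · exact Filter.Eventually.of_forall fun z => (tendsto_rd _).const_mul _

/-- **Theorem C for schemes with finitely many values.** -/
theorem sim_value (hC : ThmC) {P : ℝ} (hP : Tendsto Gap.groundValue atTop (𝓝 P)) {ε : ℝ}
    (hε : 0 < ε) : ∃ (n : ℕ) (ψ : Fin n → (Fin (n + 1) → ℝ) → ℝ) (m : (Fin (n + 1) → ℝ) → ℝ),
      1 ≤ n ∧ SScheme n ψ m ∧ P - ε ≤ sval n ψ m := by
  obtain ⟨n, f, c, g, hn, h, h1⟩ := clip_value hC hP (half_pos hε)
  have hev : ∀ᶠ K : ℕ in atTop, tn K ≠ 0 :=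
    tendsto_tn.eventually_ne (by norm_num)
  have hev2 : ∀ᶠ K : ℕ in atTop, ∀ k : Fin n, aS n f c g K k ≠ 0 := by
    rw [eventually_all]
    exact fun k => (tendsto_aS h k).eventually_ne (cs_pos h k).ne'
  have hlim : Tendsto (fun K : ℕ => sval n (psS n f c g K) (fun z => rd K (mcl n f c g z))) atTop
      (𝓝 (∑ k : Fin n,
        (∫ z, psi (n + 1) f c g (ext z) k * clip (cM f c g (ext z) (n + 1)) ∂(γN (n + 1))) *
        (∫ z, z k.succ * mcl n f c g z ∂(γN (n + 1))))) :=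
    tendsto_finsetSum _ fun k _ => (tendsto_psS h k).mul (tendsto_zm h k)
  have he : ∑ k : Fin n,
        (∫ z, psi (n + 1) f c g (ext z) k * clip (cM f c g (ext z) (n + 1)) ∂(γN (n + 1))) *
        (∫ z, z k.succ * mcl n f c g z ∂(γN (n + 1))) = ∑ k ∈ Finset.range n,
        (∫ G, psi (n + 1) f c g (ext G) k * clip (cM f c g (ext G) (n + 1)) ∂(γN (n + 1))) *
        (∫ G, ext G (k + 1) * clip (cM f c g (ext G) (n + 1)) ∂(γN (n + 1))) := by
    rw [← Fin.sum_univ_eq_sum_range fun k =>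
        (∫ G, psi (n + 1) f c g (ext G) k * clip (cM f c g (ext G) (n + 1)) ∂(γN (n + 1))) *
        (∫ G, ext G (k + 1) * clip (cM f c g (ext G) (n + 1)) ∂(γN (n + 1)))]
    refine Finset.sum_congr rfl fun k _ => ?_
    simp only [ext_succ]
    rfl
  rw [he] at hlim
  have hlt : P - ε < ∑ k ∈ Finset.range n,
        (∫ G, psi (n + 1) f c g (ext G) k * clip (cM f c g (ext G) (n + 1)) ∂(γN (n + 1))) *
        (∫ G, ext G (k + 1) * clip (cM f c g (ext G) (n + 1)) ∂(γN (n + 1))) := by linarith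
  obtain ⟨K, h2, h3, h4, h5⟩ := (hev.and (hev2.and ((eventually_ge_atTop 1).and
    (hlim.eventually (lt_mem_nhds hlt))))).exists
  exact ⟨n, _, _, hn, psS_scheme h h2 h3, h5.le⟩

/-! ### Gauge-fixed form -/

/-- replace the label by its absolute value -/
noncomputable def absz (z : Fin (n + 1) → ℝ) : Fin (n + 1) → ℝ := Function.update z 0 |z 0|

lemma gauss_pi_neg (n : ℕ) : (γN n).map (fun z => -z) = γN n := by
  have h := measurePreserving_pi (fun _ : Fin n => gaussianReal 0 1)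
    (fun _ : Fin n => gaussianReal 0 1) (f := fun _ x => -x) (fun _ => by
      refine ⟨measurable_neg, ?_⟩
      have := gaussianReal_map_neg (μ := 0) (v := 1)
      rw [neg_zero] at this
      exact this)
  exact h.map_eq

lemma int_gauge {F : (Fin (n + 1) → ℝ) → ℝ} (hF : ∀ z, F (-z) = F z) :
    ∫ z, F (absz z) ∂(γN (n + 1)) = ∫ z, F z ∂(γN (n + 1)) := by
  have hmp := measurePreserving_piFinSuccAbove (α := fun _ : Fin (n + 1) => ℝ)
    (fun _ => gaussianReal 0 1) 0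
  set e := MeasurableEquiv.piFinSuccAbove (fun _ : Fin (n + 1) => ℝ) 0 with he
  have hsk : MeasurePreserving (fun p : ℝ × (Fin n → ℝ) => (id p.1,
      (fun (a : ℝ) (y : Fin n → ℝ) => if 0 ≤ a then y else -y) p.1 p.2))
      ((gaussianReal 0 1).prod (γN n)) ((gaussianReal 0 1).prod (γN n)) := by
    refine MeasurePreserving.skew_product (μc := γN n) (μd := γN n)
      (g := fun (a : ℝ) (y : Fin n → ℝ) => if 0 ≤ a then y else -y)
      (MeasurePreserving.id (gaussianReal 0 1)) ?_ ?_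
    · refine Measurable.ite ?_ measurable_snd measurable_snd.neg
      exact measurableSet_le measurable_const measurable_fst
    · refine Filter.Eventually.of_forall fun a => ?_
      by_cases ha : 0 ≤ a
      · simp only [if_pos ha]
        exact Measure.map_id
      · simp only [if_neg ha]
        exact gauss_pi_neg n
  have h1 : ∫ z, F (absz z) ∂(γN (n + 1)) =
      ∫ p, F (e.symm (id p.1, (fun (a : ℝ) (y : Fin n → ℝ) => if 0 ≤ a then y else -y) p.1 p.2))
        ∂((gaussianReal 0 1).prod (γN n)) := by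
    rw [← hmp.integral_comp' (f := e)]
    refine integral_congr_ae (Filter.Eventually.of_forall fun z => ?_)
    have e1 : (e z).1 = z 0 := rfl
    have e2 : e.symm (z 0, (e z).2) = z := by rw [← e1]; exact e.symm_apply_apply z
    change F (absz z) = F (e.symm (z 0, if 0 ≤ z 0 then (e z).2 else -(e z).2))
    by_cases hz : 0 ≤ z 0
    · rw [if_pos hz, e2]
      congr 1
      unfold absz
      rw [abs_of_nonneg hz, Function.update_eq_self]
    · rw [if_neg hz, ← hF (absz z)]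
      congr 1
      funext j
      have e3 : ∀ (b : ℝ) (y : Fin n → ℝ), e.symm (b, y) = Fin.cons b y := by
        intro b y
        funext i
        refine Fin.cases rfl (fun i => rfl) i
      rw [e3]
      refine Fin.cases ?_ (fun i => ?_) j
      · change -(absz z 0) = z 0
        unfold absz
        rw [Function.update_self, abs_of_neg (not_le.1 hz), neg_neg]
      · change -(absz z i.succ) = -(z i.succ)
        unfold absz
        rw [Function.update_of_ne (Fin.succ_ne_zero i)]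
  have h2 : ∫ z, F z ∂(γN (n + 1)) = ∫ p, F (e.symm p) ∂((gaussianReal 0 1).prod (γN n)) := by
    rw [← hmp.integral_comp' (f := e)]
    refine integral_congr_ae (Filter.Eventually.of_forall fun z => ?_)
    change F z = F (e.symm (e z))
    rw [e.symm_apply_apply]
  rw [h1, h2]
  have hinv : Function.Involutive (fun p : ℝ × (Fin n → ℝ) => (id p.1,
      (fun (a : ℝ) (y : Fin n → ℝ) => if 0 ≤ a then y else -y) p.1 p.2)) := by
    rintro ⟨a, y⟩
    by_cases ha : 0 ≤ a
    · simp [ha]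
    · simp [ha]
  have hme : MeasurableEmbedding (fun p : ℝ × (Fin n → ℝ) => (id p.1,
      (fun (a : ℝ) (y : Fin n → ℝ) => if 0 ≤ a then y else -y) p.1 p.2)) := by
    exact (MeasurableEquiv.ofInvolutive _ hinv hsk.measurable).measurableEmbedding
  exact hsk.integral_comp hme (fun p => F (e.symm p))

/-- the gauge-fixed scheme: the functions depend on `z 0` only through `|z 0|` -/
structure GScheme (n : ℕ) (ψ : Fin n → (Fin (n + 1) → ℝ) → ℝ) (m : (Fin (n + 1) → ℝ) → ℝ) :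
    Prop where
  meas : ∀ k, Measurable (ψ k)
  fin : ∀ k, (range (ψ k)).Finite
  dep : ∀ (k : Fin n) z z', (∀ j : Fin (n + 1), (j : ℕ) ≤ (k : ℕ) → z j = z' j) →
    ψ k z = ψ k z'
  gau : ∀ k z, ψ k (absz z) = ψ k z
  orth : ∀ j k, ∫ z, ψ j z * ψ k z ∂(γN (n + 1)) = if j = k then 1 else 0
  mmeas : Measurable m
  mfin : (range m).Finite
  mbd : ∀ z, |m z| ≤ 1
  mgau : ∀ z, m (absz z) = m z

lemma absz_absz (z : Fin (n + 1) → ℝ) : absz (absz z) = absz z := by
  unfold absz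
  rw [Function.update_self, abs_abs, Function.update_idem]

lemma absz_meas : Measurable (absz (n := n)) := by
  unfold absz
  refine measurable_pi_lambda _ fun j => ?_
  by_cases hj : j = 0
  · subst hj
    simp only [Function.update_self]
    fun_prop
  · simp only [Function.update_of_ne hj]
    exact measurable_pi_apply j

lemma SScheme.gauge {ψ : Fin n → (Fin (n + 1) → ℝ) → ℝ} {m : (Fin (n + 1) → ℝ) → ℝ}
    (h : SScheme n ψ m) : GScheme n (fun k z => ψ k (absz z)) (fun z => m (absz z)) ∧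
      sval n (fun k z => ψ k (absz z)) (fun z => m (absz z)) = sval n ψ m := by
  refine ⟨⟨?_, ?_, ?_, ?_, ?_, ?_, ?_, ?_, ?_⟩, ?_⟩
  · exact fun k => (h.meas k).comp absz_meas
  · intro k
    refine (h.fin k).subset ?_
    rintro _ ⟨z, rfl⟩
    exact ⟨_, rfl⟩
  · intro k z z' hz
    refine h.dep k _ _ fun j hj => ?_
    unfold absz
    by_cases hj0 : j = 0
    · subst hj0
      rw [Function.update_self, Function.update_self, hz 0 hj]
    · rw [Function.update_of_ne hj0, Function.update_of_ne hj0, hz j hj]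
  · intro k z
    rw [absz_absz]
  · intro j k
    rw [← h.orth j k]
    exact int_gauge (F := fun z => ψ j z * ψ k z) fun z => by
      rw [h.odd, h.odd, neg_mul_neg]
  · exact h.mmeas.comp absz_meas
  · refine h.mfin.subset ?_
    rintro _ ⟨z, rfl⟩
    exact ⟨_, rfl⟩
  · exact fun z => h.mbd _
  · intro z
    rw [absz_absz]
  · unfold sval
    refine Finset.sum_congr rfl fun k _ => ?_
    congr 1
    · exact int_gauge (F := fun z => ψ k z * m z) fun z => by
        rw [h.odd, h.modd, neg_mul_neg]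
    · rw [← int_gauge (F := fun z => z k.succ * m z) fun z => by
        rw [h.modd, Pi.neg_apply, neg_mul_neg]]
      refine integral_congr_ae (Filter.Eventually.of_forall fun z => ?_)
      change z k.succ * m (absz z) = absz z k.succ * m (absz z)
      unfold absz
      rw [Function.update_of_ne (Fin.succ_ne_zero k)]

/-- **Theorem C, gauge-fixed form.** -/
theorem gau_value (hC : ThmC) {P : ℝ} (hP : Tendsto Gap.groundValue atTop (𝓝 P)) {ε : ℝ}
    (hε : 0 < ε) : ∃ (n : ℕ) (ψ : Fin n → (Fin (n + 1) → ℝ) → ℝ) (m : (Fin (n + 1) → ℝ) → ℝ),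
      1 ≤ n ∧ GScheme n ψ m ∧ P - ε ≤ sval n ψ m := by
  obtain ⟨n, ψ, m, hn, h, h1⟩ := sim_value hC hP hε
  obtain ⟨h2, h3⟩ := h.gauge
  exact ⟨n, _, _, hn, h2, h3 ▸ h1⟩

end Vale.Agent.P367.Cl
end

section

/-! P367, classical half: the form of Theorem C consumed by block B (final value). -/

open MeasureTheory ProbabilityTheory Filter Topology Set

namespace Vale.Agent.P367.Cl

variable {n : ℕ}

lemma evl_odd_int {F : (Fin (n + 1) → ℝ) → ℝ} (hF : ∀ z, F (-z) = -F z) :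
    ∫ z, F z ∂(γN (n + 1)) = 0 := by
  have hmp : MeasurePreserving (MeasurableEquiv.neg (Fin (n + 1) → ℝ)) (γN (n + 1))
      (γN (n + 1)) := ⟨(MeasurableEquiv.neg _).measurable, gauss_pi_neg (n + 1)⟩
  have h : ∫ z, F z ∂(γN (n + 1)) = ∫ z, F (-z) ∂(γN (n + 1)) :=
    (hmp.integral_comp' (fun z => F z)).symm
  simp only [hF, integral_neg] at h
  linarith

/-- **Theorem C, final form**: simple orthonormal controls with mean zero and a simple
magnetisation with mean zero whose value is close to the ground-state energy. -/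
theorem val_scheme {d : ℝ} (hd : 0 < d) :
    ∃ (n : ℕ) (ψ : Fin n → (Fin (n + 1) → ℝ) → ℝ) (m : (Fin (n + 1) → ℝ) → ℝ), 1 ≤ n ∧
      (∀ k, Measurable (ψ k)) ∧ (∀ k, (range (ψ k)).Finite) ∧
      (∀ (k : Fin n) z z', (∀ j : Fin (n + 1), (j : ℕ) ≤ (k : ℕ) → z j = z' j) →
        ψ k z = ψ k z') ∧
      (∀ j k, ∫ z, ψ j z * ψ k z ∂(γN (n + 1)) = if j = k then 1 else 0) ∧
      (∀ k, ∫ z, ψ k z ∂(γN (n + 1)) = 0) ∧
      Measurable m ∧ (range m).Finite ∧ (∀ z, |m z| ≤ 1) ∧ (∫ z, m z ∂(γN (n + 1)) = 0) ∧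
      (∀ k z, ψ k (-z) = -ψ k z) ∧ (∀ z, m (-z) = -m z) ∧
      Gap.Pstar - d ≤ sval n ψ m := by
  obtain ⟨n, ψ, m, hn, h, h1⟩ := sim_value thmC Lim.tendsto_Pstar hd
  exact ⟨n, ψ, m, hn, h.meas, h.fin, h.dep, h.orth, fun k => evl_odd_int (h.odd k), h.mmeas,
    h.mfin, h.mbd, evl_odd_int h.modd, h.odd, h.modd, h1⟩

end Vale.Agent.P367.Cl
end

section

/-! P367, block B: VALUE. -/

namespace Vale.Agent.P367.A

open Complex Filter Topology MeasureTheory ProbabilityTheory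

namespace LSys

variable {H K : Type*} [NormedAddCommGroup H] [InnerProductSpace ℂ H]
  [NormedAddCommGroup K] [InnerProductSpace ℂ K] (L : LSys H K)

lemma val_en {J : K → H} (hJ : L.IsJ J) : L.ValEn J := by
  intro N y fc hy h c m hc hm
  rw [ven_energy (L := L) hJ hy h hc hm rfl, Complex.re_sum]
  refine Finset.sum_congr rfl fun k _ => ?_
  have e : ∀ z : ℝ × (Fin N → ℝ), (starRingEnd ℂ) ((m z : ℝ) : ℂ) * (z.2 k : ℂ) =
      ((m z * z.2 k : ℝ) : ℂ) := fun z => by
    rw [Complex.conj_ofReal, Complex.ofReal_mul]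
  simp only [e]
  rw [integral_complex_ofReal, Complex.re_mul_ofReal, mul_comm]

lemma val_sch : ValScheme Gap.Pstar := by
  intro d hd
  obtain ⟨n, ψ, m, -, h1, h2, h3, h4, h5, h6, -, h7, h8, -, -, h9⟩ := Cl.val_scheme hd
  exact ⟨n, ψ, m, h1, h2, h3, h4, h5, h6, h7, h8, h9⟩

/-- **VALUE**: in every label system with functional calculus the towers of simple controls reach
the value of the Parisi formula. -/
theorem val_stmt [CompleteSpace H] {J : K → H} (hJ : L.IsJ J)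
    (hfc : ∀ (n : ℕ) (y : Fin n → K), Orthonormal ℂ y → ∃ fc, L.FCal y fc) :
    L.ValueStmt J Gap.Pstar :=
  L.val_stmt_of J (L.val_en hJ) hfc val_sch

/-- VALUE for the base system -/
theorem val_base {K' : Type} [NormedAddCommGroup K'] [InnerProductSpace ℂ K']
    (L : LSys (NI.HH NI.FN) K') (J : K' → NI.HH NI.FN) (S : NI.Weyl NI.FN NI.L2N)
    (h : L.IsBase S J) : L.ValueStmt J Gap.Pstar := by
  have : CompleteSpace (NI.HH NI.FN) := inferInstance
  exact L.val_stmt h.isJ h.fcal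

end LSys

end Vale.Agent.P367.A
end

section

/-! P367: `Q_p → P_*`. -/

namespace Vale.Agent.P367

open Filter Topology

/-- **Main theorem**: the optimal depth-`p` QAOA value tends to the ground-state energy. -/
theorem tendsto_Qsup_Pstar : Tendsto Gap.Qsup atTop (𝓝 Gap.Pstar) :=
  A.main4_of (fun L => L.coreStmt _) (fun L J S h => L.val_base J S h)

end Vale.Agent.P367
end
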